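import Vale.Agent.P099.Defs

open MeasureTheory Set Filter Topology

namespace Vale.Agent.P099C

/-- The cross product of two vectors of the plane, identified with the complex plane. -/
def cr (a b : ℂ) : ℝ := a.re * b.im - a.im * b.re

/-- A convex polygon with `N ≥ 3` sides, given by its vertices `P 0, …, P (N - 1)` in
counterclockwise order (indices modulo `N`): for every `i` all the vertices other than `P i` and
`P (i + 1)` lie strictly to the left of the oriented line from `P i` to `P (i + 1)`. -/
structure ConvexPolygon (N : ℕ) [NeZero N] where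
  three_le : 3 ≤ N
  P : Fin N → ℂ
  convex : ∀ i j : Fin N, j ≠ i → j ≠ i + 1 → 0 < cr (P (i + 1) - P i) (P j - P i)

namespace ConvexPolygon

variable {N : ℕ} [NeZero N] (T : ConvexPolygon N)

/-- The billiard table: the open polygon. -/
def table : Set ℂ := interior (convexHull ℝ (range T.P))

/-- The open side from the vertex `P i` to the vertex `P (i + 1)`. -/
def side (i : Fin N) : Set ℂ := openSegment ℝ (T.P i) (T.P (i + 1))

/-- Specular reflection of velocities at the side `i`. -/
noncomputable def refl (i : Fin N) (u : ℂ) : ℂ :=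
  (Submodule.span ℝ {T.P (i + 1) - T.P i}).reflection u

/-- The polygon is irrational: some interior angle is an irrational multiple of `π`. -/
def IsIrrational : Prop :=
  ∃ i, Irrational (EuclideanGeometry.angle (T.P i) (T.P (i + 1)) (T.P (i + 1 + 1)) / Real.pi)

/-- Uniform position in the table, uniform direction. -/
noncomputable def mu : Measure (ℂ × ℂ) :=
  (ProbabilityTheory.cond volume T.table).prod Vale.Agent.P099.nu

/-- `γ t = (position, direction)`: straight motion at unit speed in the table, specular
reflection at the open sides, for all times. -/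
def IsTrajectory (γ : ℝ → ℂ × ℂ) : Prop :=
  ∀ t, ((γ t).1 ∈ T.table ∧ ∀ᶠ s in 𝓝 t, γ s = ((γ t).1 + (s - t) • (γ t).2, (γ t).2)) ∨
    ∃ i u, (γ t).1 ∈ T.side i ∧
      (∀ᶠ s in 𝓝[<] t, γ s = ((γ t).1 + (s - t) • u, u)) ∧
      (∀ᶠ s in 𝓝[>] t, γ s = ((γ t).1 + (s - t) • T.refl i u, T.refl i u))

/-- `Φ` is the billiard flow: almost every phase point moves along a billiard trajectory. -/
def IsBilliardFlow (Φ : ℝ → ℂ × ℂ → ℂ × ℂ) : Prop :=
  ∀ᵐ p ∂T.mu, Φ 0 p = p ∧ T.IsTrajectory (fun t => Φ t p)

end ConvexPolygon

end Vale.Agent.P099C
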