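import Vale.Agent.P099.MathlibUsed
import Vale.Agent.P099.H504.CPDefs
attribute [-instance] ProperSMul.toContinuousSMul IsTopologicalTorsor.toContinuousSMul IdemSemiring.toCanonicallyOrderedAdd IdemSemiring.toMulLeftMono IdemSemiring.toMulRightMono AddQuantale.instAddLeftMono AddQuantale.instAddRightMono Quantale.instMulLeftMono Quantale.instMulRightMono FiniteDimensional.rclike_to_real IsScalarTower.complexToReal FiniteDimensional.complexToReal

set_option linter.all false

section

section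

open MeasureTheory Set Filter Topology

namespace Vale.Agent.P099C
open Vale.Agent.P099 (nu FlowErgodic FlowWeakMixing)

/-- real inner product of plane vectors -/
def dt (a b : ℂ) : ℝ := a.re * b.re + a.im * b.im

lemma cr_solve (a b v : ℂ) : (cr a b) • v = (cr v b) • a + (cr a v) • b := by
  apply Complex.ext
  · simp only [Complex.add_re, Complex.real_smul, Complex.re_ofReal_mul]
    unfold cr
    ring
  · simp only [Complex.add_im, Complex.real_smul, Complex.im_ofReal_mul]
    unfold cr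
    ring

namespace ConvexPolygon

variable {ns : ℕ} [NeZero ns] (T : ConvexPolygon ns)

include T in
lemma one_ne : (1 : Fin ns) ≠ 0 := by
  have h := T.three_le
  intro h1
  have h2 := congrArg Fin.val h1
  have h3 : ((0 : Fin ns) : ℕ) = 0 := by simp
  rw [Fin.val_one', h3, Nat.mod_eq_of_lt (by omega)] at h2
  exact one_ne_zero h2

include T in
lemma two_ne : (1 + 1 : Fin ns) ≠ 0 := by
  have h := T.three_le
  intro h1
  have h2 := congrArg Fin.val h1
  have h3 : ((0 : Fin ns) : ℕ) = 0 := by simp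
  rw [Fin.val_add, Fin.val_one', h3, Nat.mod_eq_of_lt (a := 1) (by omega),
    Nat.mod_eq_of_lt (by omega)] at h2
  omega

include T in
lemma add_one_ne (i : Fin ns) : i + 1 ≠ i := by
  intro h
  exact T.one_ne (by simpa using h)

include T in
lemma add_two_ne (i : Fin ns) : i + 1 + 1 ≠ i := by
  intro h
  rw [add_assoc] at h
  exact T.two_ne (by simpa using h)

/-- side vector -/
def d (i : Fin ns) : ℂ := T.P (i + 1) - T.P i

/-- twice the area -/
noncomputable def Del : ℝ := ∑ i, cr (T.d i) (T.P 0 - T.P i)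

/-- normalized coordinates -/
noncomputable def lam (i : Fin ns) (x : ℂ) : ℝ := cr (T.d i) (x - T.P i) / T.Del

/-- linear part of the normalized coordinates -/
noncomputable def ell (i : Fin ns) (u : ℂ) : ℝ := cr (T.d i) u / T.Del

/-- affine reflection in the line of side `i` -/
noncomputable def R (i : Fin ns) (x : ℂ) : ℂ := T.P i + T.refl i (x - T.P i)

/-- a bound for all distances in the closed polygon -/
noncomputable def dm : ℝ := T.Del / cr (T.d 0) (T.d 1) * (‖T.d 0‖ + ‖T.d 1‖)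

lemma cr_eq_im (a b : ℂ) : cr a b = ((starRingEnd ℂ) a * b).im := by
  unfold cr
  simp only [Complex.mul_im, Complex.conj_re, Complex.conj_im, neg_mul]
  ring

lemma dt_eq_re (a b : ℂ) : dt a b = ((starRingEnd ℂ) a * b).re := by
  unfold dt
  simp only [Complex.mul_re, Complex.conj_re, Complex.conj_im, neg_mul, sub_neg_eq_add]

lemma cr_self (a : ℂ) : cr a a = 0 := by unfold cr; ring

lemma cr_sub_right (a b c : ℂ) : cr a (b - c) = cr a b - cr a c := by
  unfold cr; simp only [Complex.sub_re, Complex.sub_im]; ring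

lemma cr_add_right (a b c : ℂ) : cr a (b + c) = cr a b + cr a c := by
  unfold cr; simp only [Complex.add_re, Complex.add_im]; ring

lemma cr_d_self (i : Fin ns) : cr (T.d i) (T.P i - T.P i) = 0 := by
  rw [sub_self]; unfold cr; simp

lemma cr_d_next (i : Fin ns) : cr (T.d i) (T.P (i + 1) - T.P i) = 0 := cr_self _

lemma cr_d_nonneg (i j : Fin ns) : 0 ≤ cr (T.d i) (T.P j - T.P i) := by
  by_cases h1 : j = i
  · rw [h1, cr_d_self]
  · by_cases h2 : j = i + 1
    · rw [h2, cr_d_next]
    · exact (T.convex i j h1 h2).le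

lemma Del_pos : 0 < T.Del := by
  unfold Del
  refine Finset.sum_pos' (fun i _ => T.cr_d_nonneg i 0) ⟨1, Finset.mem_univ _, ?_⟩
  exact T.convex 1 0 T.one_ne.symm T.two_ne.symm

lemma Del_ne : T.Del ≠ 0 := T.Del_pos.ne'

lemma sum_d : ∑ i, T.d i = 0 := by
  unfold d
  rw [Finset.sum_sub_distrib, sub_eq_zero]
  exact Equiv.sum_comp (Equiv.addRight (1 : Fin ns)) T.P

lemma sum_cr_d (v : ℂ) : ∑ i, cr (T.d i) v = 0 := by
  have h : ∑ i, cr (T.d i) v = cr (∑ i, T.d i) v := by
    unfold cr
    rw [Complex.re_sum, Complex.im_sum, Finset.sum_mul, Finset.sum_mul, Finset.sum_sub_distrib]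
  rw [h, T.sum_d]
  simp [cr]

/-- consecutive sides are not parallel -/
lemma cr_consec (i : Fin ns) : 0 < cr (T.d i) (T.d (i + 1)) := by
  have h := T.convex i (i + 1 + 1) (T.add_two_ne i) (T.add_one_ne _)
  have h1 : T.P (i + 1 + 1) - T.P i = T.d (i + 1) + T.d i := by unfold d; ring
  rw [h1, cr_add_right] at h
  have h2 := cr_self (T.d i)
  unfold d at h h2 ⊢
  rw [h2, add_zero] at h
  exact h

lemma d_ne (i : Fin ns) : T.d i ≠ 0 := by
  intro h
  have h1 := T.cr_consec i
  rw [h] at h1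
  simp [cr] at h1

/-- explicit formula for the reflection -/
lemma refl_eq (i : Fin ns) (u : ℂ) :
    T.refl i u = T.d i / (starRingEnd ℂ) (T.d i) * (starRingEnd ℂ) u := by
  have hd := T.d_ne i
  have hc : (starRingEnd ℂ) (T.d i) ≠ 0 := by simpa only [ne_eq, map_eq_zero] using hd
  have h1 : T.refl i u = (Submodule.span ℝ {T.d i}).reflection u := rfl
  rw [h1, Submodule.reflection_singleton_apply, div_mul_eq_mul_div, eq_div_iff hc]
  have hn : ((‖T.d i‖ : ℝ) : ℂ) ^ 2 = T.d i * (starRingEnd ℂ) (T.d i) := by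
    rw [Complex.mul_conj, Complex.normSq_eq_norm_sq]
    push_cast
    rfl
  have hn0 : ((‖T.d i‖ : ℝ) : ℂ) ^ 2 ≠ 0 := by
    rw [hn]
    exact mul_ne_zero hd hc
  have hin : ((inner ℝ (T.d i) u : ℝ) : ℂ) =
      ((starRingEnd ℂ) (T.d i) * u + T.d i * (starRingEnd ℂ) u) / 2 := by
    rw [Complex.inner]
    rw [Complex.re_eq_add_conj]
    simp only [map_mul, RingHomCompTriple.comp_apply, RingHom.id_apply, mul_comm]
  rw [two_smul, Complex.real_smul, Complex.ofReal_div, hin]
  simp only [RCLike.ofReal_real_eq_id, id_eq, Complex.ofReal_pow]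
  rw [hn]
  field_simp
  ring

lemma refl_refl (i : Fin ns) (u : ℂ) : T.refl i (T.refl i u) = u := by
  exact Submodule.reflection_reflection _ u

lemma norm_refl (i : Fin ns) (u : ℂ) : ‖T.refl i u‖ = ‖u‖ := by
  exact LinearIsometryEquiv.norm_map _ u

lemma refl_add (i : Fin ns) (u v : ℂ) : T.refl i (u + v) = T.refl i u + T.refl i v := by
  exact map_add _ u v

lemma refl_smul (i : Fin ns) (r : ℝ) (u : ℂ) : T.refl i (r • u) = r • T.refl i u := by
  exact map_smul _ r u

lemma refl_neg (i : Fin ns) (u : ℂ) : T.refl i (-u) = - T.refl i u := by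
  exact map_neg _ u

lemma refl_sub (i : Fin ns) (u v : ℂ) : T.refl i (u - v) = T.refl i u - T.refl i v := by
  exact map_sub _ u v

lemma refl_d (i : Fin ns) : T.refl i (T.d i) = T.d i := by
  have hd := T.d_ne i
  have hc : (starRingEnd ℂ) (T.d i) ≠ 0 := by simpa using hd
  rw [refl_eq]
  field_simp

lemma refl_star_mul (i : Fin ns) (a b : ℂ) :
    (starRingEnd ℂ) (T.refl i a) * T.refl i b = a * (starRingEnd ℂ) b := by
  have hd := T.d_ne i
  have hc : (starRingEnd ℂ) (T.d i) ≠ 0 := by simpa using hd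
  rw [refl_eq, refl_eq]
  simp only [map_mul, map_div₀, Complex.conj_conj]
  field_simp

lemma cr_refl (i : Fin ns) (a b : ℂ) : cr (T.refl i a) (T.refl i b) = - cr a b := by
  rw [cr_eq_im, cr_eq_im, refl_star_mul]
  simp only [Complex.mul_im, Complex.conj_im, mul_neg, Complex.conj_re, neg_mul, neg_add_rev, neg_neg]
  ring

lemma dt_refl (i : Fin ns) (a b : ℂ) : dt (T.refl i a) (T.refl i b) = dt a b := by
  rw [dt_eq_re, dt_eq_re, refl_star_mul]
  simp only [Complex.mul_re, Complex.conj_re, Complex.conj_im, mul_neg, sub_neg_eq_add, neg_mul]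

lemma continuous_refl (i : Fin ns) : Continuous (T.refl i) := by
  exact (LinearIsometryEquiv.continuous _)

lemma ell_refl (i : Fin ns) (u : ℂ) : T.ell i (T.refl i u) = - T.ell i u := by
  unfold ell
  have h := T.cr_refl i (T.d i) u
  rw [refl_d] at h
  rw [h, neg_div]

lemma ell_add (i : Fin ns) (u v : ℂ) : T.ell i (u + v) = T.ell i u + T.ell i v := by
  unfold ell cr
  rw [← add_div]
  congr 1
  simp only [Complex.add_re, Complex.add_im]
  ring

lemma ell_smul (i : Fin ns) (r : ℝ) (u : ℂ) : T.ell i (r • u) = r * T.ell i u := by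
  unfold ell cr
  rw [mul_div_assoc']
  congr 1
  rw [Complex.real_smul, Complex.re_ofReal_mul, Complex.im_ofReal_mul]
  ring

lemma ell_neg (i : Fin ns) (u : ℂ) : T.ell i (-u) = - T.ell i u := by
  unfold ell cr
  rw [← neg_div]
  congr 1
  simp only [Complex.neg_re, Complex.neg_im]
  ring

lemma lam_add (i : Fin ns) (x v : ℂ) : T.lam i (x + v) = T.lam i x + T.ell i v := by
  unfold lam ell cr
  rw [← add_div]
  congr 1
  simp only [Complex.add_re, Complex.add_im, Complex.sub_re, Complex.sub_im]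
  ring

lemma lam_add_smul (i : Fin ns) (x u : ℂ) (t : ℝ) :
    T.lam i (x + t • u) = T.lam i x + t * T.ell i u := by
  rw [lam_add, ell_smul]

lemma sum_lam (x : ℂ) : ∑ i, T.lam i x = 1 := by
  unfold lam
  rw [← Finset.sum_div, div_eq_one_iff_eq T.Del_ne]
  unfold Del
  have h : ∀ i, cr (T.d i) (x - T.P i) = cr (T.d i) (T.P 0 - T.P i) + cr (T.d i) (x - T.P 0) := by
    intro i
    rw [← cr_add_right]
    congr 1
    ring
  rw [Finset.sum_congr rfl fun i _ => h i, Finset.sum_add_distrib, T.sum_cr_d, add_zero]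

lemma sum_ell (u : ℂ) : ∑ i, T.ell i u = 0 := by
  unfold ell
  rw [← Finset.sum_div, T.sum_cr_d, zero_div]

/-- a vector is determined by two consecutive coordinates -/
lemma eq_zero_of_ell (k : Fin ns) {u : ℂ} (h1 : T.ell k u = 0) (h2 : T.ell (k + 1) u = 0) :
    u = 0 := by
  have hc := T.cr_consec k
  unfold ell at h1 h2
  rw [div_eq_zero_iff, or_iff_left T.Del_ne] at h1 h2
  have h3 := cr_solve (T.d k) (T.d (k + 1)) u
  have h4 : cr u (T.d (k + 1)) = 0 := by
    have : cr u (T.d (k + 1)) = - cr (T.d (k + 1)) u := by unfold cr; ring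
    rw [this, h2, neg_zero]
  rw [h1, h4, zero_smul, zero_smul, add_zero] at h3
  exact (smul_eq_zero.1 h3).resolve_left hc.ne'

/-- for a nonzero direction some coordinate strictly decreases -/
lemma exists_ell_neg {u : ℂ} (hu : u ≠ 0) : ∃ i, T.ell i u < 0 := by
  by_contra hcon
  push Not at hcon
  have hs := T.sum_ell u
  have h0 := (Finset.sum_eq_zero_iff_of_nonneg (fun i _ => hcon i)).1 hs
  exact hu (T.eq_zero_of_ell 0 (h0 0 (Finset.mem_univ _)) (h0 _ (Finset.mem_univ _)))

lemma lam_P_self (i : Fin ns) : T.lam i (T.P i) = 0 := by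
  unfold lam
  rw [T.cr_d_self, zero_div]

lemma lam_P_next (i : Fin ns) : T.lam i (T.P (i + 1)) = 0 := by
  unfold lam
  rw [T.cr_d_next, zero_div]

lemma lam_P_pos {i j : Fin ns} (h1 : j ≠ i) (h2 : j ≠ i + 1) : 0 < T.lam i (T.P j) :=
  div_pos (T.convex i j h1 h2) T.Del_pos

lemma lam_P_nonneg (i j : Fin ns) : 0 ≤ T.lam i (T.P j) :=
  div_nonneg (T.cr_d_nonneg i j) T.Del_pos.le

/-- the least positive coordinate of a vertex (with `1`) -/
lemma exists_c0 : ∃ c : ℝ, 0 < c ∧ c ≤ 1 ∧ ∀ i j : Fin ns, j ≠ i → j ≠ i + 1 → c ≤ T.lam i (T.P j) := by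
  classical
  have h : ∀ s : Finset (Fin ns × Fin ns), ∃ c : ℝ, 0 < c ∧ c ≤ 1 ∧
      ∀ p ∈ s, p.2 ≠ p.1 → p.2 ≠ p.1 + 1 → c ≤ T.lam p.1 (T.P p.2) := by
    intro s
    induction s using Finset.induction_on with
    | empty => exact ⟨1, one_pos, le_refl _, by simp⟩
    | insert a s ha ih =>
      obtain ⟨c, hc, hc1, hcs⟩ := ih
      by_cases h1 : a.2 ≠ a.1 ∧ a.2 ≠ a.1 + 1
      · have h2 := T.lam_P_pos h1.1 h1.2
        refine ⟨min c (T.lam a.1 (T.P a.2)), lt_min hc h2, (min_le_left _ _).trans hc1, ?_⟩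
        intro p hp h3 h4
        rcases Finset.mem_insert.1 hp with h5 | h5
        · rw [h5]; exact min_le_right _ _
        · exact (min_le_left _ _).trans (hcs p h5 h3 h4)
      · refine ⟨c, hc, hc1, ?_⟩
        intro p hp h3 h4
        rcases Finset.mem_insert.1 hp with h5 | h5
        · rw [h5] at h3 h4; exact absurd ⟨h3, h4⟩ h1
        · exact hcs p h5 h3 h4
  obtain ⟨c, hc, hc1, h2⟩ := h Finset.univ
  exact ⟨c, hc, hc1, fun i j h3 h4 => h2 (i, j) (Finset.mem_univ _) h3 h4⟩

/-- a lower bound for the positive coordinates of the vertices -/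
noncomputable def c0 : ℝ := T.exists_c0.choose

lemma c0_pos : 0 < T.c0 := T.exists_c0.choose_spec.1
lemma c0_le_one : T.c0 ≤ 1 := T.exists_c0.choose_spec.2.1
lemma c0_le {i j : Fin ns} (h1 : j ≠ i) (h2 : j ≠ i + 1) : T.c0 ≤ T.lam i (T.P j) :=
  T.exists_c0.choose_spec.2.2 i j h1 h2

/-- a Lipschitz constant for the coordinates, divided by `c0` -/
noncomputable def Lp : ℝ := (∑ i, ‖T.d i‖) / |T.Del| / T.c0

lemma lam_comb (j : Fin ns) {a b : ℝ} (hab : a + b = 1) {x y : ℂ} :
    T.lam j (a • x + b • y) = a * T.lam j x + b * T.lam j y := by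
  unfold lam cr
  rw [mul_div_assoc', mul_div_assoc', ← add_div]
  congr 1
  simp only [Complex.add_re, Complex.add_im, Complex.sub_re, Complex.sub_im, Complex.real_smul,
    Complex.re_ofReal_mul, Complex.im_ofReal_mul]
  have hb : b = 1 - a := by linarith
  subst hb
  ring

/-- a point strictly to the left of all the sides is in the convex hull of the vertices -/
lemma mem_hull_of_lam {x : ℂ} (hx : ∀ i, 0 < T.lam i x) : x ∈ convexHull ℝ (Set.range T.P) := by
  by_contra hcon
  obtain ⟨f, u, hf, hu⟩ := geometric_hahn_banach_closed_point (convex_convexHull ℝ (Set.range T.P))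
    ((Set.finite_range T.P).isCompact_convexHull (𝕜 := ℝ)).isClosed hcon
  obtain ⟨j, -, hj⟩ := Finset.exists_max_image (Finset.univ : Finset (Fin ns)) (fun j => f (T.P j))
    ⟨0, Finset.mem_univ _⟩
  obtain ⟨k, hk⟩ : ∃ k : Fin ns, k + 1 = j := ⟨j - 1, sub_add_cancel j 1⟩
  subst hk
  have hPj : f (T.P (k + 1)) < f x :=
    (hf _ (subset_convexHull ℝ _ (Set.mem_range_self _))).trans hu
  have h1 : 0 ≤ f (T.d k) := by
    unfold d
    rw [map_sub, sub_nonneg]
    exact hj k (Finset.mem_univ _)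
  have h2 : f (T.d (k + 1)) ≤ 0 := by
    unfold d
    rw [map_sub, sub_nonpos]
    exact hj _ (Finset.mem_univ _)
  have hc := T.cr_consec k
  have h3 := cr_solve (T.d k) (T.d (k + 1)) (x - T.P (k + 1))
  have h4 : 0 < cr (T.d k) (x - T.P (k + 1)) := by
    have h5 := hx k
    unfold lam at h5
    rw [div_pos_iff_of_pos_right T.Del_pos] at h5
    have h6 : x - T.P (k + 1) = (x - T.P k) - T.d k := by unfold d; ring
    rw [h6, cr_sub_right, cr_self, sub_zero]
    exact h5
  have h5 : 0 < cr (T.d (k + 1)) (x - T.P (k + 1)) := by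
    have h5 := hx (k + 1)
    unfold lam at h5
    rwa [div_pos_iff_of_pos_right T.Del_pos] at h5
  have h6 : cr (x - T.P (k + 1)) (T.d (k + 1)) = - cr (T.d (k + 1)) (x - T.P (k + 1)) := by
    unfold cr; ring
  have h7 : 0 < f (x - T.P (k + 1)) := by
    rw [map_sub, sub_pos]
    exact hPj
  have h8 := congrArg f h3
  rw [map_add, map_smul, map_smul, map_smul, smul_eq_mul, smul_eq_mul, smul_eq_mul, h6] at h8
  have h9 := mul_pos hc h7
  have h10 := mul_nonneg h5.le h1
  have h11 := mul_nonneg h4.le (neg_nonneg.2 h2)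
  linarith only [h8, h9, h10, h11]

lemma lam_nonneg_of_mem_hull {x : ℂ} (hx : x ∈ convexHull ℝ (Set.range T.P)) (i : Fin ns) :
    0 ≤ T.lam i x := by
  have hconv : Convex ℝ {y | 0 ≤ T.lam i y} := by
    intro y hy z hz a b ha hb hab
    rw [mem_setOf_eq] at hy hz ⊢
    rw [T.lam_comb i hab]
    exact add_nonneg (mul_nonneg ha hy) (mul_nonneg hb hz)
  have hsub : convexHull ℝ (Set.range T.P) ⊆ {y | 0 ≤ T.lam i y} := by
    apply convexHull_min _ hconv
    rintro _ ⟨j, rfl⟩
    exact T.lam_P_nonneg i j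
  exact hsub hx

lemma continuous_lam00 (i : Fin ns) : Continuous (T.lam i) := by
  unfold lam cr
  fun_prop

lemma mem_table_iff (x : ℂ) : x ∈ T.table ↔ ∀ i, 0 < T.lam i x := by
  constructor
  · intro hx i
    have h1 : Tendsto (fun t : ℝ => x + t • (T.P i - T.P (i + 1 + 1))) (𝓝 0) (𝓝 x) := by
      have hc : Continuous (fun t : ℝ => x + t • (T.P i - T.P (i + 1 + 1))) := by fun_prop
      have := hc.tendsto 0
      rwa [zero_smul, add_zero] at this
    have h2 : ∀ᶠ t : ℝ in 𝓝 0, x + t • (T.P i - T.P (i + 1 + 1)) ∈ convexHull ℝ (Set.range T.P) :=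
      h1.eventually (mem_interior_iff_mem_nhds.1 hx)
    have h3 : ∀ᶠ t : ℝ in 𝓝[>] 0,
        x + t • (T.P i - T.P (i + 1 + 1)) ∈ convexHull ℝ (Set.range T.P) :=
      h2.filter_mono nhdsWithin_le_nhds
    obtain ⟨t, ht, ht0⟩ := (h3.and self_mem_nhdsWithin).exists
    have ht0 : 0 < t := ht0
    have h4 := T.lam_nonneg_of_mem_hull ht i
    rw [T.lam_add_smul] at h4
    have h5 := T.lam_add i (T.P (i + 1 + 1)) (T.P i - T.P (i + 1 + 1))
    rw [add_sub_cancel, T.lam_P_self] at h5
    have h6 := T.lam_P_pos (T.add_two_ne i) (T.add_one_ne (i + 1))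
    have h7 : 0 < t * T.lam i (T.P (i + 1 + 1)) := mul_pos ht0 h6
    have h8 : T.ell i (T.P i - T.P (i + 1 + 1)) = - T.lam i (T.P (i + 1 + 1)) := by linarith
    rw [h8] at h4
    linarith
  · intro hx
    have hopen : IsOpen {y | ∀ i, 0 < T.lam i y} := by
      have h : {y | ∀ i, 0 < T.lam i y} = ⋂ i, {y | 0 < T.lam i y} := by
        ext y
        simp
      rw [h]
      exact isOpen_iInter_of_finite fun i => isOpen_lt continuous_const (T.continuous_lam00 i)
    exact interior_maximal (fun y hy => T.mem_hull_of_lam hy) hopen hx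

lemma eq_of_lam {x y : ℂ} (h : ∀ m, T.lam m x = T.lam m y) : x = y := by
  have h1 : ∀ m, T.ell m (x - y) = 0 := by
    intro m
    have h2 := T.lam_add m y (x - y)
    rw [add_sub_cancel, h m] at h2
    linarith
  exact sub_eq_zero.1 (T.eq_zero_of_ell 0 (h1 _) (h1 _))

lemma eq_of_lam2 (k : Fin ns) {x y : ℂ} (h1 : T.lam k x = T.lam k y)
    (h2 : T.lam (k + 1) x = T.lam (k + 1) y) : x = y := by
  have h3 := T.lam_add k y (x - y)
  have h4 := T.lam_add (k + 1) y (x - y)
  rw [add_sub_cancel] at h3 h4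
  exact sub_eq_zero.1 (T.eq_zero_of_ell k (by linarith) (by linarith))

include T in
lemma sub_one_ne (i : Fin ns) : i - 1 ≠ i := by
  intro h
  exact T.one_ne (by simpa using h)

/-- a point of the line of side `i` -/
lemma exists_on_line {i : Fin ns} {x : ℂ} (h : T.lam i x = 0) :
    ∃ s : ℝ, x = T.P i + s • T.d i := by
  unfold lam at h
  rw [div_eq_zero_iff, or_iff_left T.Del_ne] at h
  have h3 := cr_solve (T.d i) (T.d (i + 1)) (x - T.P i)
  rw [h, zero_smul, add_zero] at h3
  have hc := (T.cr_consec i).ne'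
  refine ⟨(cr (T.d i) (T.d (i + 1)))⁻¹ * cr (x - T.P i) (T.d (i + 1)), ?_⟩
  rw [mul_smul, ← h3, smul_smul, inv_mul_cancel₀ hc, one_smul]
  ring

lemma ell_d_self (i : Fin ns) : T.ell i (T.d i) = 0 := by
  unfold ell
  rw [cr_self, zero_div]

lemma ell_d (i j : Fin ns) : T.ell i (T.d j) = T.lam i (T.P (j + 1)) - T.lam i (T.P j) := by
  have h := T.lam_add i (T.P j) (T.d j)
  have h1 : T.P j + T.d j = T.P (j + 1) := by unfold d; ring
  rw [h1] at h
  linarith

lemma mem_side_iff' (i : Fin ns) (x : ℂ) :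
    x ∈ T.side i ↔ T.lam i x = 0 ∧ ∀ j, j ≠ i → 0 < T.lam j x := by
  constructor
  · rintro ⟨a, b, ha, hb, hab, rfl⟩
    refine ⟨by rw [T.lam_comb i hab, T.lam_P_self, T.lam_P_next]; ring, fun j hj => ?_⟩
    rw [T.lam_comb j hab]
    have h1 := T.lam_P_nonneg j i
    have h2 := T.lam_P_nonneg j (i + 1)
    -- at least one is positive
    by_cases h3 : i = j + 1
    · have h4 : 0 < T.lam j (T.P (i + 1)) := by
        refine T.lam_P_pos ?_ ?_
        · rw [h3]; exact T.add_two_ne j
        · rw [h3]; exact T.add_one_ne _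
      have := mul_pos hb h4
      have := mul_nonneg ha.le h1
      linarith
    · have h4 : 0 < T.lam j (T.P i) := T.lam_P_pos (Ne.symm hj) h3
      have := mul_pos ha h4
      have := mul_nonneg hb.le h2
      linarith
  · rintro ⟨h1, h2⟩
    obtain ⟨s, hs⟩ := T.exists_on_line h1
    have hxe : ∀ j, T.lam j x = T.lam j (T.P i) + s * T.ell j (T.d i) := by
      intro j
      rw [hs, T.lam_add_smul]
    -- the next side
    have h3 : s < 1 := by
      have h4 := h2 (i + 1) (T.add_one_ne i)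
      rw [hxe, T.ell_d, T.lam_P_self] at h4
      have h5 : 0 < T.lam (i + 1) (T.P i) :=
        T.lam_P_pos (T.add_one_ne i).symm (T.add_two_ne i).symm
      by_contra hn
      push Not at hn
      nlinarith
    have h3' : 0 < s := by
      have h4 := h2 (i - 1) (T.sub_one_ne i)
      have e1 : T.lam (i - 1) (T.P i) = 0 := by
        have := T.lam_P_next (i - 1)
        rwa [sub_add_cancel] at this
      rw [hxe, T.ell_d, e1] at h4
      have h5 : 0 ≤ T.lam (i - 1) (T.P (i + 1)) := T.lam_P_nonneg _ _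
      by_contra hn
      push Not at hn
      nlinarith
    refine ⟨1 - s, s, by linarith, h3', by ring, ?_⟩
    rw [hs]
    unfold d
    module

lemma mem_side_iff (i : Fin ns) (x : ℂ) :
    x ∈ T.side i ↔ T.lam i x = 0 ∧ ∀ j, j ≠ i → 0 < T.lam j x := T.mem_side_iff' i x

lemma continuous_lam0 (i : Fin ns) : Continuous (T.lam i) := by
  unfold lam cr
  fun_prop

lemma isOpen_table : IsOpen T.table := by
  have h : T.table = ⋂ i, {x | 0 < T.lam i x} := by
    ext x
    rw [mem_table_iff, mem_iInter]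
    rfl
  rw [h]
  exact isOpen_iInter_of_finite fun i => isOpen_lt continuous_const (T.continuous_lam0 i)

lemma convex_table : Convex ℝ T.table := by
  intro x hx y hy a b ha hb hab
  rw [mem_table_iff] at hx hy ⊢
  intro i
  rw [T.lam_comb i hab]
  rcases ha.eq_or_lt with h | h
  · rw [← h, zero_mul, zero_add]
    have : b = 1 := by linarith
    rw [this, one_mul]
    exact hy i
  · have := mul_pos h (hx i)
    have := mul_nonneg hb (hy i).le
    linarith

/-- the midpoint of a side -/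
lemma mid_mem_side (i : Fin ns) :
    (1 / 2 : ℝ) • T.P i + (1 / 2 : ℝ) • T.P (i + 1) ∈ T.side i :=
  ⟨1 / 2, 1 / 2, by norm_num, by norm_num, by norm_num, rfl⟩

lemma table_nonempty : T.table.Nonempty := by
  have h0 := (T.mem_side_iff' 0 _).1 (T.mid_mem_side 0)
  have h1 := (T.mem_side_iff' 1 _).1 (T.mid_mem_side 1)
  refine ⟨(1 / 2 : ℝ) • ((1 / 2 : ℝ) • T.P 0 + (1 / 2 : ℝ) • T.P (0 + 1)) +
    (1 / 2 : ℝ) • ((1 / 2 : ℝ) • T.P 1 + (1 / 2 : ℝ) • T.P (1 + 1)), ?_⟩
  rw [mem_table_iff]
  intro i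
  rw [T.lam_comb i (by norm_num)]
  by_cases hi : i = 0
  · rw [hi, h0.1]
    have := h1.2 0 T.one_ne.symm
    linarith
  · have h2 := h0.2 i hi
    by_cases hi1 : i = 1
    · rw [hi1, h1.1]
      rw [hi1] at h2
      linarith
    · have h3 := h1.2 i hi1
      linarith

lemma volume_table_pos : 0 < volume T.table := by
  exact T.isOpen_table.measure_pos _ T.table_nonempty

lemma dm_pos : 0 < T.dm := by
  have h0 : 0 < ‖T.d 0‖ := norm_pos_iff.2 (T.d_ne 0)
  have h1 := T.Del_pos
  have h2 := T.cr_consec 0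
  rw [zero_add] at h2
  unfold dm
  positivity

lemma lam_le_one {x : ℂ} (hx0 : ∀ i, 0 ≤ T.lam i x) (i : Fin ns) : T.lam i x ≤ 1 := by
  rw [← T.sum_lam x]
  exact Finset.single_le_sum (fun j _ => hx0 j) (Finset.mem_univ i)

/-- all distances in the closed polygon are at most `dm` -/
lemma norm_sub_le_dm {x y : ℂ} (hx0 : ∀ i, 0 ≤ T.lam i x) (hy0 : ∀ i, 0 ≤ T.lam i y) :
    ‖x - y‖ ≤ T.dm := by
  have hc := T.cr_consec 0
  rw [zero_add] at hc
  have hD := T.Del_pos
  have hb : ∀ i, |cr (T.d i) (x - y)| ≤ T.Del := by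
    intro i
    have h1 := T.lam_add i y (x - y)
    rw [add_sub_cancel] at h1
    have h2 : |T.ell i (x - y)| ≤ 1 := by
      rw [abs_le]
      have a1 := T.lam_le_one hx0 i
      have a2 := T.lam_le_one hy0 i
      have a3 := hx0 i
      have a4 := hy0 i
      constructor <;> linarith
    unfold ell at h2
    rwa [abs_div, abs_of_pos hD, div_le_one hD] at h2
  have h3 := cr_solve (T.d 0) (T.d 1) (x - y)
  have h4 : cr (x - y) (T.d 1) = - cr (T.d 1) (x - y) := by unfold cr; ring
  have h5 : cr (T.d 0) (T.d 1) * ‖x - y‖ ≤ T.Del * ‖T.d 0‖ + T.Del * ‖T.d 1‖ := by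
    have h6 := congrArg norm h3
    rw [norm_smul, Real.norm_eq_abs, abs_of_pos hc] at h6
    rw [h6]
    refine (norm_add_le _ _).trans ?_
    rw [norm_smul, norm_smul, Real.norm_eq_abs, Real.norm_eq_abs, h4, abs_neg]
    exact add_le_add (mul_le_mul_of_nonneg_right (hb 1) (norm_nonneg _))
      (mul_le_mul_of_nonneg_right (hb 0) (norm_nonneg _))
  unfold dm
  rw [div_mul_eq_mul_div, le_div_iff₀ hc]
  linarith

lemma volume_table_lt_top : volume T.table < ⊤ := by
  refine Bornology.IsBounded.measure_lt_top ?_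
  obtain ⟨y, hy⟩ := T.table_nonempty
  refine (Metric.isBounded_closedBall (x := y) (r := T.dm)).subset ?_
  intro x hx
  rw [Metric.mem_closedBall, dist_eq_norm]
  rw [mem_table_iff] at hx hy
  exact T.norm_sub_le_dm (fun i => (hx i).le) (fun i => (hy i).le)

lemma Lp_pos : 0 < T.Lp := by
  have h1 : 0 < ∑ i, ‖T.d i‖ :=
    Finset.sum_pos (fun i _ => norm_pos_iff.2 (T.d_ne i)) ⟨0, Finset.mem_univ _⟩
  exact div_pos (div_pos h1 (abs_pos.2 T.Del_ne)) T.c0_pos

lemma abs_ell_le' (i : Fin ns) (u : ℂ) : |T.ell i u| ≤ T.c0 * T.Lp * ‖u‖ := by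
  have h0 : T.c0 * T.Lp = (∑ i, ‖T.d i‖) / |T.Del| := by
    unfold Lp
    rw [mul_div_assoc', mul_div_cancel_left₀ _ T.c0_pos.ne']
  rw [h0]
  unfold ell
  rw [abs_div, div_mul_eq_mul_div]
  refine div_le_div_of_nonneg_right ?_ (abs_nonneg _)
  have h1 : |cr (T.d i) u| ≤ ‖T.d i‖ * ‖u‖ := by
    rw [cr_eq_im]
    refine (Complex.abs_im_le_norm _).trans ?_
    rw [norm_mul, RCLike.norm_conj]
  refine h1.trans (mul_le_mul_of_nonneg_right ?_ (norm_nonneg _))
  exact Finset.single_le_sum (f := fun i => ‖T.d i‖) (fun j _ => norm_nonneg _) (Finset.mem_univ i)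

lemma abs_ell_le (i : Fin ns) (u : ℂ) : |T.ell i u| ≤ T.Lp * ‖u‖ := by
  refine (T.abs_ell_le' i u).trans (mul_le_mul_of_nonneg_right ?_ (norm_nonneg _))
  have := T.c0_le_one
  have := T.Lp_pos
  nlinarith

lemma R_R (i : Fin ns) (x : ℂ) : T.R i (T.R i x) = x := by
  unfold R
  rw [add_sub_cancel_left, refl_refl, add_sub_cancel]

lemma R_add (i : Fin ns) (x v : ℂ) : T.R i (x + v) = T.R i x + T.refl i v := by
  unfold R
  rw [show x + v - T.P i = (x - T.P i) + v by ring, refl_add, add_assoc]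

lemma R_of_lam_eq_zero {i : Fin ns} {x : ℂ} (h : T.lam i x = 0) : T.R i x = x := by
  unfold lam at h
  rw [div_eq_zero_iff, or_iff_left T.Del_ne, cr_eq_im] at h
  have hd := T.d_ne i
  have hc : (starRingEnd ℂ) (T.d i) ≠ 0 := by simpa using hd
  unfold R
  rw [refl_eq]
  have h2 := Complex.conj_eq_iff_im.2 h
  rw [map_mul, Complex.conj_conj] at h2
  rw [div_mul_eq_mul_div, h2, mul_div_cancel_left₀ _ hc, add_sub_cancel]

lemma lam_R (i : Fin ns) (x : ℂ) : T.lam i (T.R i x) = - T.lam i x := by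
  unfold lam R
  rw [add_sub_cancel_left]
  have h := T.cr_refl i (T.d i) (x - T.P i)
  rw [refl_d] at h
  rw [h, neg_div]

lemma norm_R_sub_R (i : Fin ns) (x y : ℂ) : ‖T.R i x - T.R i y‖ = ‖x - y‖ := by
  unfold R
  rw [add_sub_add_left_eq_sub, ← refl_sub, norm_refl, sub_sub_sub_cancel_right]

lemma continuous_R (i : Fin ns) : Continuous (T.R i) := by
  unfold R
  exact continuous_const.add ((T.continuous_refl i).comp (continuous_id.sub continuous_const))

lemma measurePreserving_R (i : Fin ns) : MeasurePreserving (T.R i) volume volume := by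
  have h1 : MeasurePreserving (fun x : ℂ => x - T.P i) volume volume :=
    measurePreserving_sub_right volume _
  have h2 : MeasurePreserving (T.refl i) volume volume :=
    (LinearIsometryEquiv.measurePreserving
      ((Submodule.span ℝ {T.P (i + 1) - T.P i}).reflection))
  have h3 : MeasurePreserving (fun x : ℂ => T.P i + x) volume volume :=
    measurePreserving_add_left volume _
  exact h3.comp (h2.comp h1)

/-- a point with `lam i x = 0` on the line of side `i`: crossing point of a segment from a point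
`x` with `0 < lam i x` to `y` with `lam i y < 0` -/
lemma norm_R_sub_le (i : Fin ns) {x y : ℂ} (hx : 0 ≤ T.lam i x) (hy : T.lam i y ≤ 0) :
    ‖T.R i y - x‖ ≤ ‖y - x‖ := by
  have hd := T.d_ne i
  have hc : (starRingEnd ℂ) (T.d i) ≠ 0 := by simpa using hd
  have hN : 0 < (T.d i).re ^ 2 + (T.d i).im ^ 2 := by
    rcases eq_or_ne (T.d i).re 0 with h1 | h1
    · rcases eq_or_ne (T.d i).im 0 with h2 | h2
      · exact absurd (Complex.ext h1 h2) hd
      · (clear * - h2; positivity)
    · positivity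
  set a := y - T.P i with ha
  set b := x - T.P i with hb
  have h1 : T.R i y - x = T.refl i a - b := by
    unfold R
    rw [hb]
    ring
  have h2 : y - x = a - b := by rw [ha, hb]; ring
  rw [h1, h2]
  -- signs
  have hsign : cr (T.d i) a * cr (T.d i) b ≤ 0 := by
    have e1 : cr (T.d i) a = T.lam i y * T.Del := by
      unfold lam
      rw [div_mul_cancel₀ _ T.Del_ne]
    have e2 : cr (T.d i) b = T.lam i x * T.Del := by
      unfold lam
      rw [div_mul_cancel₀ _ T.Del_ne]
    rw [e1, e2]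
    have : T.lam i y * T.lam i x ≤ 0 := mul_nonpos_of_nonpos_of_nonneg hy hx
    linarith only [mul_nonneg (sub_nonneg.2 this) (mul_self_nonneg T.Del)]
  have key : dt a b ≤ dt (T.refl i a) b := by
    have h3 : dt (T.refl i a) b * ((T.d i).re ^ 2 + (T.d i).im ^ 2) =
        dt a b * ((T.d i).re ^ 2 + (T.d i).im ^ 2) - 2 * (cr (T.d i) a * cr (T.d i) b) := by
      have h4 : T.refl i a * (((T.d i).re ^ 2 + (T.d i).im ^ 2 : ℝ) : ℂ) =
          T.d i * T.d i * (starRingEnd ℂ) a := by
        rw [refl_eq]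
        have h5 : (((T.d i).re ^ 2 + (T.d i).im ^ 2 : ℝ) : ℂ) = T.d i * (starRingEnd ℂ) (T.d i) := by
          rw [Complex.mul_conj, Complex.normSq_apply]
          push_cast
          ring
        rw [h5]
        field_simp
      have h6 := congrArg Complex.re h4
      have h7 := congrArg Complex.im h4
      rw [mul_comm, Complex.re_ofReal_mul] at h6
      rw [mul_comm, Complex.im_ofReal_mul] at h7
      simp only [Complex.mul_re, Complex.mul_im, Complex.conj_re, Complex.conj_im] at h6 h7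
      unfold dt cr
      linear_combination b.re * h6 + b.im * h7
    (by_contra nlg; linarith only [nlg, mul_pos (sub_pos.2 (not_le.1 nlg)) (sub_pos.2 hN), h3, hsign])
  have hsq : ∀ v w : ℂ, ‖v - w‖ ^ 2 = ‖v‖ ^ 2 + ‖w‖ ^ 2 - 2 * dt v w := by
    intro v w
    rw [← Complex.normSq_eq_norm_sq, ← Complex.normSq_eq_norm_sq, ← Complex.normSq_eq_norm_sq,
      Complex.normSq_apply, Complex.normSq_apply, Complex.normSq_apply]
    unfold dt
    simp only [Complex.sub_re, Complex.sub_im]
    ring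
  have h8 := hsq (T.refl i a) b
  have h9 := hsq a b
  rw [norm_refl] at h8
  refine (sq_le_sq₀ (norm_nonneg _) (norm_nonneg _)).1 ?_
  rw [h8, h9]
  linarith only [key]

end ConvexPolygon

end Vale.Agent.P099C
end
end
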