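import Vale.Agent.P099.MathlibUsed
import Vale.Agent.P099.H504.CPA
attribute [-instance] ProperSMul.toContinuousSMul IsTopologicalTorsor.toContinuousSMul IdemSemiring.toCanonicallyOrderedAdd IdemSemiring.toMulLeftMono IdemSemiring.toMulRightMono AddQuantale.instAddLeftMono AddQuantale.instAddRightMono Quantale.instMulLeftMono Quantale.instMulRightMono FiniteDimensional.rclike_to_real IsScalarTower.complexToReal FiniteDimensional.complexToReal

set_option linter.all false

section

section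

open MeasureTheory Set Filter Topology

namespace Vale.Agent.P099C
open Vale.Agent.P099 (nu FlowErgodic FlowWeakMixing)

namespace ConvexPolygon

variable {ns : ℕ} [NeZero ns] (T : ConvexPolygon ns)

/-- time at which the ray from `s.1` in direction `s.2` meets the line of side `i` -/
noncomputable def hitT (i : Fin ns) (s : ℂ × ℂ) : ℝ := - T.lam i s.1 / T.ell i s.2

/-- the forward ray of the state `s` leaves the table through the open side `i` -/
def E (i : Fin ns) (s : ℂ × ℂ) : Prop :=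
  T.ell i s.2 < 0 ∧ ∀ j, j ≠ i → 0 < T.lam j (s.1 + T.hitT i s • s.2)

/-- the state just after the collision with side `i` -/
noncomputable def hit (i : Fin ns) (s : ℂ × ℂ) : ℂ × ℂ :=
  (s.1 + T.hitT i s • s.2, T.refl i s.2)

/-- state after the collisions listed in the word -/
noncomputable def orb : List (Fin ns) → ℂ × ℂ → ℂ × ℂ
  | [], s => s
  | i :: w, s => orb w (T.hit i s)

/-- the successive collisions of `s` are with the sides listed in the word -/
def dom : List (Fin ns) → ℂ × ℂ → Prop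
  | [], _ => True
  | i :: w, s => T.E i s ∧ dom w (T.hit i s)

/-- total time of the collisions of the word -/
noncomputable def tm : List (Fin ns) → ℂ × ℂ → ℝ
  | [], _ => 0
  | i :: w, s => T.hitT i s + tm w (T.hit i s)

/-- admissible states: in the closed table, and moving inwards when on a side -/
def Adm (s : ℂ × ℂ) : Prop :=
  ∀ i, 0 < T.lam i s.1 ∨ (T.lam i s.1 = 0 ∧ 0 < T.ell i s.2)

/-- regular states: the forward trajectory never runs into a vertex -/
def Reg (s : ℂ × ℂ) : Prop := ∀ w, T.dom w s → ∃ i, T.E i (T.orb w s)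

/-! ### basic facts on words -/

lemma adm_of_mem_table {s : ℂ × ℂ} (h : s.1 ∈ T.table) : T.Adm s :=
  fun i => Or.inl ((T.mem_table_iff s.1).1 h i)

/-- admissible states have nonnegative coordinates -/
lemma Adm.nonneg {s : ℂ × ℂ} (h : T.Adm s) (i : Fin ns) : 0 ≤ T.lam i s.1 := by
  rcases h i with h1 | h1
  · exact h1.le
  · exact h1.1.ge

/-- if the exit side is `i` then the coordinate is positive and the hitting time is positive -/
lemma E.lam_pos {s : ℂ × ℂ} (h : T.Adm s) {i : Fin ns} (hE : T.E i s) : 0 < T.lam i s.1 := by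
  rcases h i with h1 | h1
  · exact h1
  · exact absurd (h1.2.trans hE.1) (lt_irrefl _)

lemma E.hitT_pos {s : ℂ × ℂ} (h : T.Adm s) {i : Fin ns} (hE : T.E i s) : 0 < T.hitT i s :=
  div_pos_of_neg_of_neg (neg_neg_of_pos (E.lam_pos T h hE)) hE.1

lemma lam_hit (i : Fin ns) {s : ℂ × ℂ} (hE : T.E i s) : T.lam i (T.hit i s).1 = 0 := by
  rw [hit, T.lam_add_smul, hitT, div_mul_cancel₀ _ hE.1.ne]
  ring

lemma E.hit_mem_side {s : ℂ × ℂ} {i : Fin ns} (hE : T.E i s) : (T.hit i s).1 ∈ T.side i :=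
  (T.mem_side_iff' i _).2 ⟨T.lam_hit i hE, hE.2⟩

lemma E.adm_hit {s : ℂ × ℂ} {i : Fin ns} (hE : T.E i s) : T.Adm (T.hit i s) := by
  intro j
  by_cases hj : j = i
  · rw [hj]
    right
    refine ⟨T.lam_hit i hE, ?_⟩
    change 0 < T.ell i (T.refl i s.2)
    rw [T.ell_refl]
    linarith only [hE.1]
  · exact Or.inl (hE.2 j hj)

lemma lam_le_of_hitT_le {s : ℂ × ℂ} {i : Fin ns} (hE : T.ell i s.2 < 0) {t : ℝ}
    (ht : T.hitT i s ≤ t) : T.lam i (s.1 + t • s.2) ≤ 0 := by
  rw [T.lam_add_smul]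
  rw [hitT, div_le_iff_of_neg hE] at ht
  linarith

lemma lam_pos_of_lt_hitT {s : ℂ × ℂ} {i : Fin ns} (hE : T.ell i s.2 < 0) {t : ℝ}
    (ht : t < T.hitT i s) : 0 < T.lam i (s.1 + t • s.2) := by
  rw [T.lam_add_smul]
  rw [hitT, lt_div_iff_of_neg hE] at ht
  linarith

/-- the exit side is unique -/
lemma E.unique {s : ℂ × ℂ} (_h : T.Adm s) {i j : Fin ns} (hi : T.E i s) (hj : T.E j s) :
    i = j := by
  by_contra hij
  rcases le_total (T.hitT i s) (T.hitT j s) with h1 | h1
  · have h2 := T.lam_le_of_hitT_le hi.1 h1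
    have h3 := hj.2 i hij
    linarith only [h2, h3]
  · have h2 := T.lam_le_of_hitT_le hj.1 h1
    have h3 := hi.2 j (Ne.symm hij)
    linarith only [h2, h3]

/-- before the hitting time the ray is inside the table -/
lemma E.mem_table {s : ℂ × ℂ} (h : T.Adm s) {i : Fin ns} (hE : T.E i s) {t : ℝ} (ht : 0 < t)
    (ht' : t < T.hitT i s) : s.1 + t • s.2 ∈ T.table := by
  rw [T.mem_table_iff]
  intro j
  by_cases hj : j = i
  · rw [hj]; exact T.lam_pos_of_lt_hitT hE.1 ht'
  · have h1 := Adm.nonneg T h j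
    have h2 := hE.2 j hj
    have h0 : 0 < T.hitT i s := ht.trans ht'
    rw [T.lam_add_smul] at h2 ⊢
    have h3 : 0 < (T.hitT i s) * (T.lam j s.1 + t * T.ell j s.2) := by
      have e : (T.hitT i s) * (T.lam j s.1 + t * T.ell j s.2)
          = (T.hitT i s - t) * T.lam j s.1 + t * (T.lam j s.1 + T.hitT i s * T.ell j s.2) := by ring
      rw [e]
      have h4 : 0 ≤ (T.hitT i s - t) * T.lam j s.1 := mul_nonneg (by linarith) h1
      have h5 := mul_pos ht h2
      linarith
    exact (mul_pos_iff_of_pos_left h0).1 h3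

lemma adm_orb {s : ℂ × ℂ} (h : T.Adm s) (w : List (Fin ns)) (hw : T.dom w s) :
    T.Adm (T.orb w s) := by
  induction w generalizing s with
  | nil => exact h
  | cons i w ih => exact ih (E.adm_hit T hw.1) hw.2

lemma norm_orb {s : ℂ × ℂ} (h : ‖s.2‖ = 1) (w : List (Fin ns)) : ‖(T.orb w s).2‖ = 1 := by
  induction w generalizing s with
  | nil => exact h
  | cons i w ih => exact ih (by change ‖T.refl i s.2‖ = 1; rw [T.norm_refl, h])

lemma tm_nonneg {s : ℂ × ℂ} (h : T.Adm s) (w : List (Fin ns)) (hw : T.dom w s) :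
    0 ≤ T.tm w s := by
  induction w generalizing s with
  | nil => exact le_rfl
  | cons i w ih =>
    have h1 := ih (E.adm_hit T hw.1) hw.2
    have h2 := E.hitT_pos T h hw.1
    change 0 ≤ T.hitT i s + T.tm w (T.hit i s)
    linarith

lemma Reg.hit {s : ℂ × ℂ} (h : T.Reg s) {i : Fin ns} (hE : T.E i s) : T.Reg (T.hit i s) :=
  fun w hw => h (i :: w) ⟨hE, hw⟩

end ConvexPolygon

end Vale.Agent.P099C
end
end

section

section

open MeasureTheory Set Filter Topology

namespace Vale.Agent.P099C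
open Vale.Agent.P099 (nu FlowErgodic FlowWeakMixing)

/-! ### the direction measure `nu` -/

instance factTwoPi : Fact (0 < 2 * Real.pi) := ⟨by positivity⟩

/-- the angle circle -/
abbrev Cir := AddCircle (2 * Real.pi)

/-- the unit vector of an angle -/
noncomputable def evec (x : Cir) : ℂ := fourier 1 x

lemma measurable_evec : Measurable evec := (map_continuous (fourier 1)).measurable

lemma evec_coe (θ : ℝ) : evec (θ : Cir) = Complex.exp (θ * Complex.I) := by
  unfold evec
  rw [fourier_coe_apply]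
  congr 1
  have : (Real.pi : ℂ) ≠ 0 := by exact_mod_cast Real.pi_ne_zero
  push_cast
  field_simp

lemma norm_evec (x : Cir) : ‖evec x‖ = 1 := by
  unfold evec
  rw [fourier_apply, Circle.norm_coe]

lemma evec_add (x y : Cir) : evec (x + y) = evec x * evec y := by
  unfold evec
  simp only [fourier_apply, one_zsmul, AddCircle.toCircle_add, Circle.coe_mul]

lemma evec_neg (x : Cir) : evec (-x) = (starRingEnd ℂ) (evec x) := by
  unfold evec
  rw [← fourier_neg]
  simp [fourier_apply]

lemma evec_zpow (x : Cir) (k : ℤ) : evec x ^ k = fourier k x := by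
  unfold evec
  simp only [fourier_apply, one_zsmul, AddCircle.toCircle_zsmul, Circle.coe_zpow]

lemma volume_Ioc_pi : volume (Ioc (-Real.pi) Real.pi) = ENNReal.ofReal (2 * Real.pi) := by
  rw [Real.volume_Ioc]
  congr 1
  ring

lemma measurable_expI : Measurable (fun θ : ℝ => Complex.exp (θ * Complex.I)) := by
  (clear * -; fun_prop)

instance : IsProbabilityMeasure nu := by
  have h : IsProbabilityMeasure (ProbabilityTheory.cond volume (Ioc (-Real.pi) Real.pi)) := by
    apply ProbabilityTheory.cond_isProbabilityMeasure_of_finite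
    · rw [volume_Ioc_pi]
      simp [Real.pi_pos]
    · rw [volume_Ioc_pi]
      exact ENNReal.ofReal_ne_top
  exact Measure.isProbabilityMeasure_map measurable_expI.aemeasurable

lemma nu_eq_map : nu = (AddCircle.haarAddCircle : Measure Cir).map evec := by
  have h1 := (AddCircle.measurePreserving_mk (2 * Real.pi) (-Real.pi)).map_eq
  have h2 : (-Real.pi + 2 * Real.pi) = Real.pi := by ring
  rw [h2] at h1
  have h3 : (AddCircle.haarAddCircle : Measure Cir) =
      (ENNReal.ofReal (2 * Real.pi))⁻¹ • (volume : Measure Cir) := by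
    rw [AddCircle.volume_eq_smul_haarAddCircle, smul_smul, ENNReal.inv_mul_cancel, one_smul]
    · simp only [Nat.ofNat_nonneg, ENNReal.ofReal_mul, ENNReal.ofReal_ofNat, ne_eq, mul_eq_zero, OfNat.ofNat_ne_zero, ENNReal.ofReal_eq_zero, false_or, not_le, Real.pi_pos]
    · exact ENNReal.ofReal_ne_top
  rw [h3, ← h1, nu, ProbabilityTheory.cond, volume_Ioc_pi, Measure.map_smul, Measure.map_smul,
    Measure.map_map measurable_evec (by fun_prop)]
  congr 2
  funext θ
  simp only [Function.comp]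
  rw [← evec_coe]

lemma measurePreserving_evec : MeasurePreserving evec AddCircle.haarAddCircle nu :=
  ⟨measurable_evec, nu_eq_map.symm⟩

lemma nu_eq (f : ℂ → ℂ) (hf : Measurable f) :
    ∫ u, f u ∂nu = (2 * Real.pi)⁻¹ • ∫ θ in (-Real.pi)..Real.pi, f (Complex.exp (θ * Complex.I)) := by
  rw [nu, integral_map measurable_expI.aemeasurable hf.aestronglyMeasurable,
    ProbabilityTheory.cond, integral_smul_measure, volume_Ioc_pi,
    intervalIntegral.integral_of_le (by (clear * -; linarith [Real.pi_pos]))]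
  congr 1
  rw [ENNReal.toReal_inv, ENNReal.toReal_ofReal (by positivity)]

lemma ae_norm : ∀ᵐ u ∂nu, ‖u‖ = 1 := by
  rw [nu_eq_map, ae_map_iff measurable_evec.aemeasurable]
  · exact ae_of_all _ norm_evec
  · exact measurableSet_eq_fun measurable_norm measurable_const

lemma exists_evec_eq {ω : ℂ} (hω : ‖ω‖ = 1) : ∃ a : Cir, evec a = ω := by
  refine ⟨(ω.arg : Cir), ?_⟩
  rw [evec_coe]
  have := Complex.norm_mul_exp_arg_mul_I ω
  rw [hω] at this
  simpa using this

lemma measurePreserving_mul {ω : ℂ} (hω : ‖ω‖ = 1) :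
    MeasurePreserving (fun u => ω * u) nu nu := by
  obtain ⟨a, rfl⟩ := exists_evec_eq hω
  refine ⟨by fun_prop, ?_⟩
  conv_rhs => rw [nu_eq_map, ← (measurePreserving_add_left AddCircle.haarAddCircle a).map_eq]
  rw [nu_eq_map, Measure.map_map (by fun_prop) measurable_evec,
    Measure.map_map measurable_evec (by fun_prop)]
  congr 1
  funext x
  simp [evec_add]

lemma measurePreserving_conj : MeasurePreserving (starRingEnd ℂ) nu nu := by
  have hm : Measurable (starRingEnd ℂ) := Complex.continuous_conj.measurable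
  refine ⟨hm, ?_⟩
  conv_rhs => rw [nu_eq_map, ← (Measure.measurePreserving_neg (AddCircle.haarAddCircle : Measure Cir)).map_eq]
  rw [nu_eq_map, Measure.map_map hm measurable_evec,
    Measure.map_map measurable_evec measurable_neg]
  congr 1
  funext x
  simp [evec_neg]

lemma measurePreserving_neg' : MeasurePreserving (fun u : ℂ => - u) nu nu := by
  have := measurePreserving_mul (ω := -1) (by simp)
  simpa using this

lemma ConvexPolygon.measurePreserving_refl {ns : ℕ} [NeZero ns] (T : ConvexPolygon ns) (i : Fin ns) :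
    MeasurePreserving (T.refl i) nu nu := by
  have h1 : ‖T.d i / (starRingEnd ℂ) (T.d i)‖ = 1 := by
    rw [norm_div, RCLike.norm_conj, div_self]
    exact norm_ne_zero_iff.mpr (T.d_ne i)
  have h2 := (measurePreserving_mul h1).comp measurePreserving_conj
  have h3 : T.refl i = (fun u => T.d i / (starRingEnd ℂ) (T.d i) * u) ∘ (starRingEnd ℂ) := by
    funext u
    simp [T.refl_eq]
  rw [h3]
  exact h2

/-- Fourier modes in the direction variable -/
noncomputable def mode (k : ℤ) (f : ℂ → ℂ) : ℂ := ∫ u, f u * u ^ (-k) ∂nu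

lemma mode_eq (k : ℤ) (f : ℂ → ℂ) (hf : AEStronglyMeasurable f nu) :
    mode k f = fourierCoeff (fun x : Cir => f (evec x)) k := by
  have h : AEStronglyMeasurable (fun u : ℂ => f u * u ^ (-k)) nu := by
    apply hf.mul
    exact (measurable_id.pow_const (-k)).aestronglyMeasurable
  rw [mode, fourierCoeff]
  rw [nu_eq_map] at h ⊢
  rw [integral_map measurable_evec.aemeasurable h]
  apply integral_congr_ae
  refine ae_of_all _ fun x => ?_
  simp only [smul_eq_mul]
  rw [evec_zpow, mul_comm]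

/-- Parseval's identity -/
lemma hasSum_mode (f : ℂ → ℂ) (hf : MemLp f 2 nu) :
    HasSum (fun k : ℤ => ‖mode k f‖ ^ 2) (∫ u, ‖f u‖ ^ 2 ∂nu) := by
  have h1 : MemLp (fun x : Cir => f (evec x)) 2 AddCircle.haarAddCircle :=
    hf.comp_measurePreserving measurePreserving_evec
  have h2 := hasSum_sq_fourierCoeff (h1.toLp _)
  have h3 : ∀ k, fourierCoeff (h1.toLp _) k = mode k f := by
    intro k
    rw [mode_eq k f hf.aestronglyMeasurable, fourierCoeff_congr_ae h1.coeFn_toLp]
  have h4 : ∫ t : Cir, ‖(h1.toLp _) t‖ ^ 2 ∂AddCircle.haarAddCircle = ∫ u, ‖f u‖ ^ 2 ∂nu := by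
    have h5 : ∫ t : Cir, ‖(h1.toLp _) t‖ ^ 2 ∂AddCircle.haarAddCircle =
        ∫ t : Cir, ‖f (evec t)‖ ^ 2 ∂AddCircle.haarAddCircle := by
      apply integral_congr_ae
      filter_upwards [h1.coeFn_toLp] with t ht
      rw [ht]
    rw [h5]
    have h6 : AEStronglyMeasurable (fun u : ℂ => ‖f u‖ ^ 2) nu :=
      (hf.aestronglyMeasurable.norm).pow 2
    rw [nu_eq_map] at h6 ⊢
    rw [integral_map measurable_evec.aemeasurable h6]
  rw [h4] at h2
  simpa only [h3] using h2

/-- Bessel's inequality -/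
lemma bessel (f : ℂ → ℂ) (hf : MemLp f 2 nu) (s : Finset ℤ) :
    ∑ k ∈ s, ‖mode k f‖ ^ 2 ≤ ∫ u, ‖f u‖ ^ 2 ∂nu := by
  exact sum_le_hasSum s (fun k _ => by positivity) (hasSum_mode f hf)

/-- modes tend to zero (a consequence of Bessel) -/
lemma summable_mode (f : ℂ → ℂ) (hf : MemLp f 2 nu) : Summable fun k : ℤ => ‖mode k f‖ ^ 2 := by
  exact (hasSum_mode f hf).summable

/-- uniqueness -/
lemma ae_zero_of_mode (f : ℂ → ℂ) (hf : MemLp f 2 nu) (h : ∀ k, mode k f = 0) :
    f =ᵐ[nu] 0 := by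
  have h1 := hasSum_mode f hf
  simp only [h, norm_zero] at h1
  have h2 : ∫ u, ‖f u‖ ^ 2 ∂nu = 0 := by
    have h3 : HasSum (fun _ : ℤ => (0:ℝ) ^ 2) 0 := by
      simp
    exact h1.unique h3
  rw [integral_eq_zero_iff_of_nonneg (fun u => by positivity)] at h2
  · filter_upwards [h2] with u hu
    simpa using hu
  · exact hf.integrable_norm_pow (by norm_num)

end Vale.Agent.P099C
end
end

section

section

open MeasureTheory Set Filter Topology

namespace Vale.Agent.P099C
open Vale.Agent.P099 (nu FlowErgodic FlowWeakMixing)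

/-! ### mollifiers -/

/-- There is a smooth radial mollifier. -/
lemma exists_rho : ∃ ρ : ℂ → ℝ, ContDiff ℝ (⊤ : ℕ∞) ρ ∧ (∀ z, 0 ≤ ρ z) ∧ (∀ z, 1 ≤ ‖z‖ → ρ z = 0) ∧
    (∫ z, ρ z = 1) ∧ (∀ z z', ‖z‖ = ‖z'‖ → ρ z = ρ z') := by
  set f : ℂ → ℝ := fun z => expNegInvGlue (1 - ‖z‖ ^ 2) with hf
  have hsm : ContDiff ℝ (⊤ : ℕ∞) f :=
    expNegInvGlue.contDiff.comp (contDiff_const.sub (contDiff_norm_sq ℝ))
  have hnn : ∀ z, 0 ≤ f z := fun z => expNegInvGlue.nonneg _
  have hz : ∀ z, 1 ≤ ‖z‖ → f z = 0 := by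
    intro z h
    apply expNegInvGlue.zero_of_nonpos
    nlinarith only [h]
  have hcs : HasCompactSupport f := by
    apply HasCompactSupport.intro (isCompact_closedBall (0 : ℂ) 1)
    intro z h
    apply hz
    simp only [Metric.mem_closedBall, dist_zero_right, not_le] at h
    exact h.le
  have hpos : 0 < ∫ z, f z := by
    apply hsm.continuous.integral_pos_of_hasCompactSupport_nonneg_nonzero hcs hnn (x := 0)
    have : 0 < f 0 := by
      apply expNegInvGlue.pos_of_pos
      simp only [norm_zero, ne_eq, OfNat.ofNat_ne_zero, not_false_eq_true, zero_pow, sub_zero, zero_lt_one]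
    exact this.ne'
  refine ⟨fun z => (∫ z, f z)⁻¹ * f z, contDiff_const.mul hsm, fun z => ?_, fun z h => ?_, ?_,
    fun z z' h => ?_⟩
  · exact mul_nonneg (inv_nonneg.2 hpos.le) (hnn z)
  · simp [hz z h]
  · rw [integral_const_mul, inv_mul_cancel₀ hpos.ne']
  · simp only [hf, h]

/-- the unit mollifier -/
noncomputable def rho1 : ℂ → ℝ := exists_rho.choose

/-- the mollifier at scale `ε` -/
noncomputable def rho (ε : ℝ) (z : ℂ) : ℝ := ε⁻¹ ^ 2 * rho1 ((ε⁻¹ : ℝ) • z)

lemma rho1_contDiff : ContDiff ℝ (⊤ : ℕ∞) rho1 := exists_rho.choose_spec.1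

lemma rho_contDiff (ε : ℝ) : ContDiff ℝ (⊤ : ℕ∞) (rho ε) :=
  contDiff_const.mul (rho1_contDiff.comp (contDiff_const_smul _))

lemma rho_nonneg (ε : ℝ) (z : ℂ) : 0 ≤ rho ε z :=
  mul_nonneg (by positivity) (exists_rho.choose_spec.2.1 _)

lemma rho_eq_zero {ε : ℝ} (hε : 0 < ε) {z : ℂ} (hz : ε ≤ ‖z‖) : rho ε z = 0 := by
  have h : rho1 ((ε⁻¹ : ℝ) • z) = 0 := by
    apply exists_rho.choose_spec.2.2.1
    rw [norm_smul, norm_inv, Real.norm_of_nonneg hε.le]
    rw [inv_mul_eq_div, le_div_iff₀ hε]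
    simpa only [one_mul] using hz
  rw [rho, h, mul_zero]

lemma integral_rho {ε : ℝ} (hε : 0 < ε) : ∫ z, rho ε z = 1 := by
  have h1 : ∫ z, rho1 z = 1 := exists_rho.choose_spec.2.2.2.1
  simp only [rho]
  rw [integral_const_mul, Measure.integral_comp_smul volume rho1 ε⁻¹, Complex.finrank_real_complex,
    h1, abs_of_pos (by positivity)]
  simp only [smul_eq_mul, mul_one]
  field_simp

lemma rho_radial (ε : ℝ) {z z' : ℂ} (h : ‖z‖ = ‖z'‖) : rho ε z = rho ε z' := by
  simp only [rho]
  congr 1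
  apply exists_rho.choose_spec.2.2.2.2
  rw [norm_smul, norm_smul, h]

lemma hasCompactSupport_rho {ε : ℝ} (hε : 0 < ε) : HasCompactSupport (rho ε) := by
  apply HasCompactSupport.intro (isCompact_closedBall (0 : ℂ) ε)
  intro z h
  apply rho_eq_zero hε
  simp only [Metric.mem_closedBall, dist_zero_right, not_le] at h
  exact h.le

/-- `∂_z` of the mollifier -/
noncomputable def kap (ε : ℝ) (z : ℂ) : ℂ :=
  (fderiv ℝ (rho ε) z 1 - Complex.I * fderiv ℝ (rho ε) z Complex.I) / 2

/-- directional derivative in terms of `kap` -/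
lemma fderiv_rho_apply (ε : ℝ) (z u : ℂ) :
    fderiv ℝ (rho ε) z u = 2 * (u * kap ε z).re := by
  have hu : u = (u.re : ℝ) • (1 : ℂ) + (u.im : ℝ) • Complex.I := by
    apply Complex.ext <;> simp only [Complex.real_smul, mul_one, Complex.re_add_im]
  have h1 : fderiv ℝ (rho ε) z u =
      u.re * fderiv ℝ (rho ε) z 1 + u.im * fderiv ℝ (rho ε) z Complex.I := by
    conv_lhs => rw [hu]
    rw [map_add, map_smul, map_smul]
    simp only [smul_eq_mul]
  rw [h1, kap]
  simp only [Complex.mul_re, Complex.div_ofNat_re, Complex.sub_re, Complex.ofReal_re, Complex.I_re,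
    zero_mul, Complex.I_im, Complex.ofReal_im, mul_zero, sub_self, Complex.div_ofNat_im,
    Complex.sub_im, Complex.mul_im, one_mul, zero_add]
  ring

lemma continuous_fderiv_rho (ε : ℝ) (u : ℂ) : Continuous fun z => fderiv ℝ (rho ε) z u :=
  ((rho_contDiff ε).continuous_fderiv (by simp)).clm_apply continuous_const

lemma continuous_kap (ε : ℝ) : Continuous (kap ε) := by
  unfold kap
  exact ((Complex.continuous_ofReal.comp (continuous_fderiv_rho ε 1)).sub
    (continuous_const.mul (Complex.continuous_ofReal.comp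
      (continuous_fderiv_rho ε Complex.I)))).div_const 2

lemma fderiv_rho_eq_zero {ε : ℝ} (hε : 0 < ε) {z : ℂ} (hz : ε ≤ ‖z‖) :
    fderiv ℝ (rho ε) z = 0 := by
  apply IsLocalMin.fderiv_eq_zero
  apply Eventually.of_forall
  intro y
  simp only [rho_eq_zero hε hz]
  exact rho_nonneg ε y

lemma kap_eq_zero {ε : ℝ} (hε : 0 < ε) {z : ℂ} (hz : ε ≤ ‖z‖) : kap ε z = 0 := by
  simp only [kap, fderiv_rho_eq_zero hε hz, zero_apply, Complex.ofReal_zero, mul_zero, sub_self, zero_div]

lemma hasCompactSupport_kap {ε : ℝ} (hε : 0 < ε) : HasCompactSupport (kap ε) := by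
  apply HasCompactSupport.intro (isCompact_closedBall (0 : ℂ) ε)
  intro z h
  apply kap_eq_zero hε
  simp only [Metric.mem_closedBall, dist_zero_right, not_le] at h
  exact h.le

lemma hasCompactSupport_fderiv_rho {ε : ℝ} (hε : 0 < ε) (u : ℂ) :
    HasCompactSupport fun z => fderiv ℝ (rho ε) z u := by
  apply HasCompactSupport.intro (isCompact_closedBall (0 : ℂ) ε)
  intro z h
  have : fderiv ℝ (rho ε) z = 0 := by
    apply fderiv_rho_eq_zero hε
    simp only [Metric.mem_closedBall, dist_zero_right, not_le] at h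
    exact h.le
  simp [this]

lemma integral_fderiv_rho {ε : ℝ} (hε : 0 < ε) (u : ℂ) :
    ∫ z, fderiv ℝ (rho ε) z u = 0 := by
  have h := integral_mul_fderiv_eq_neg_fderiv_mul_of_integrable (μ := (volume : Measure ℂ))
    (f := fun _ : ℂ => (1 : ℝ)) (g := rho ε) (v := u) (by simp only [fderiv_fun_const, Pi.zero_apply, zero_apply, zero_mul, integrable_fun_zero])
    (by
      simpa only [one_mul] using     (continuous_fderiv_rho ε u).integrable_of_hasCompactSupport (hasCompactSupport_fderiv_rho hε u))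
    (by
      simpa only [one_mul] using     (rho_contDiff ε).continuous.integrable_of_hasCompactSupport (hasCompactSupport_rho hε))
    (fun x _ => differentiableAt_const _)
    (fun x _ => ((rho_contDiff ε).differentiable (by simp)).differentiableAt)
  simpa only [one_mul, fderiv_fun_const, Pi.zero_apply, zero_apply, zero_mul, integral_zero, neg_zero] using h

lemma integrable_kap {ε : ℝ} (hε : 0 < ε) : Integrable (kap ε) :=
  (continuous_kap ε).integrable_of_hasCompactSupport (hasCompactSupport_kap hε)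

lemma integral_kap {ε : ℝ} (hε : 0 < ε) : ∫ z, kap ε z = 0 := by
  have hi : ∀ u : ℂ, Integrable fun z => ((fderiv ℝ (rho ε) z u : ℝ) : ℂ) := fun u =>
    ((continuous_fderiv_rho ε u).integrable_of_hasCompactSupport
      (hasCompactSupport_fderiv_rho hε u)).ofReal
  simp only [kap]
  rw [integral_div, integral_sub (hi 1) ((hi Complex.I).const_mul _), integral_const_mul,
    integral_complex_ofReal, integral_complex_ofReal, integral_fderiv_rho hε,
    integral_fderiv_rho hε]
  simp

lemma rho_eq_rho_one {ε : ℝ} (z : ℂ) : rho ε z = ε⁻¹ ^ 2 * rho 1 ((ε⁻¹ : ℝ) • z) := by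
  simp only [rho, inv_pow, Complex.real_smul, Complex.ofReal_inv, inv_one, one_pow, one_smul, one_mul]

lemma fderiv_rho_scale {ε : ℝ} (z u : ℂ) :
    fderiv ℝ (rho ε) z u = ε⁻¹ ^ 3 * fderiv ℝ (rho 1) ((ε⁻¹ : ℝ) • z) u := by
  have h1 : HasFDerivAt (rho 1) (fderiv ℝ (rho 1) ((ε⁻¹ : ℝ) • z)) ((ε⁻¹ : ℝ) • z) :=
    (((rho_contDiff 1).differentiable (by simp)).differentiableAt).hasFDerivAt
  have h2 : HasFDerivAt (fun z : ℂ => (ε⁻¹ : ℝ) • z) ((ε⁻¹ : ℝ) • ContinuousLinearMap.id ℝ ℂ) z :=
    ((ε⁻¹ : ℝ) • ContinuousLinearMap.id ℝ ℂ).hasFDerivAt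
  have h3 := (h1.comp z h2).const_mul (ε⁻¹ ^ 2)
  have h4 : (fun z => ε⁻¹ ^ 2 * (rho 1 ∘ fun z : ℂ => (ε⁻¹ : ℝ) • z) z) = rho ε := by
    funext z
    rw [rho_eq_rho_one z]
    rfl
  rw [h4] at h3
  rw [h3.fderiv]
  simp only [ContinuousLinearMap.coe_smul', ContinuousLinearMap.coe_comp', Pi.smul_apply,
    Function.comp_apply, ContinuousLinearMap.coe_id', id_eq, map_smul, smul_eq_mul]
  ring

lemma kap_scale {ε : ℝ} (z : ℂ) : kap ε z = (ε⁻¹ ^ 3 : ℝ) * kap 1 ((ε⁻¹ : ℝ) • z) := by
  simp only [kap]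
  rw [fderiv_rho_scale z 1, fderiv_rho_scale z Complex.I]
  push_cast
  ring

/-- a bound for the `L¹` norm of the gradient of the mollifier -/
lemma exists_kap_bound : ∃ C : ℝ, 0 < C ∧ ∀ ε : ℝ, 0 < ε → ∫ z, ‖kap ε z‖ ≤ C / ε := by
  refine ⟨(∫ z, ‖kap 1 z‖) + 1, ?_, fun ε hε => ?_⟩
  · have : 0 ≤ ∫ z, ‖kap 1 z‖ := integral_nonneg fun z => norm_nonneg _
    linarith
  · have h1 : ∀ z, ‖kap ε z‖ = ε⁻¹ ^ 3 * ‖kap 1 ((ε⁻¹ : ℝ) • z)‖ := by
      intro z
      rw [kap_scale, norm_mul, Complex.norm_real, Real.norm_of_nonneg (by positivity)]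
    simp only [h1]
    rw [integral_const_mul, Measure.integral_comp_smul volume (fun z => ‖kap 1 z‖) ε⁻¹,
      Complex.finrank_real_complex, abs_of_pos (by positivity)]
    simp only [smul_eq_mul]
    have h2 : 0 ≤ ∫ z, ‖kap 1 z‖ := integral_nonneg fun z => norm_nonneg _
    have h3 : ε⁻¹ ^ 3 * ((ε⁻¹ ^ 2)⁻¹ * ∫ z, ‖kap 1 z‖) = (∫ z, ‖kap 1 z‖) / ε := by
      (clear * - hε; field_simp)
    rw [h3]
    gcongr
    linarith only []

/-- convolution with a kernel -/
noncomputable def conv (κ : ℂ → ℂ) (f : ℂ → ℂ) (x : ℂ) : ℂ := ∫ y, κ (x - y) * f y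

/-- `∂_z` and `∂_zbar` -/
noncomputable def dz (w : ℂ → ℂ) (x : ℂ) : ℂ :=
  (fderiv ℝ w x 1 - Complex.I * fderiv ℝ w x Complex.I) / 2

noncomputable def dzb (w : ℂ → ℂ) (x : ℂ) : ℂ :=
  (fderiv ℝ w x 1 + Complex.I * fderiv ℝ w x Complex.I) / 2

lemma conv_eq_convolution (κ f : ℂ → ℂ) :
    conv κ f = convolution f κ (ContinuousLinearMap.mul ℝ ℂ) volume := by
  funext x
  simp only [conv, convolution_def, ContinuousLinearMap.mul_apply', mul_comm]

lemma rhoC_contDiff (ε : ℝ) : ContDiff ℝ (⊤ : ℕ∞) fun z => (rho ε z : ℂ) :=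
  Complex.ofRealCLM.contDiff.comp (rho_contDiff ε)

lemma hasCompactSupport_rhoC {ε : ℝ} (hε : 0 < ε) :
    HasCompactSupport fun z => (rho ε z : ℂ) :=
  (hasCompactSupport_rho hε).comp_left (g := fun r : ℝ => (r : ℂ)) (by simp)

lemma contDiff_conv {ε : ℝ} (hε : 0 < ε) {f : ℂ → ℂ} (hf : LocallyIntegrable f) :
    ContDiff ℝ (⊤ : ℕ∞) (conv (fun z => (rho ε z : ℂ)) f) := by
  rw [conv_eq_convolution]
  exact (hasCompactSupport_rhoC hε).contDiff_convolution_right _ hf (rhoC_contDiff ε)

lemma fderiv_rhoC (ε : ℝ) (z u : ℂ) :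
    fderiv ℝ (fun z => (rho ε z : ℂ)) z u =
      u * kap ε z + (starRingEnd ℂ) u * (starRingEnd ℂ) (kap ε z) := by
  have h1 : HasFDerivAt (rho ε) (fderiv ℝ (rho ε) z) z :=
    (((rho_contDiff ε).differentiable (by simp)).differentiableAt).hasFDerivAt
  have h2 : HasFDerivAt (fun z => (rho ε z : ℂ)) (Complex.ofRealCLM.comp (fderiv ℝ (rho ε) z)) z :=
    Complex.ofRealCLM.hasFDerivAt.comp z h1
  rw [h2.fderiv]
  simp only [ContinuousLinearMap.coe_comp, Function.comp_apply, Complex.ofRealCLM_apply]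
  rw [fderiv_rho_apply]
  rw [← map_mul, Complex.add_conj]

lemma conv_integrable {κ : ℂ → ℂ} (hκ : Continuous κ) (hc : HasCompactSupport κ) {f : ℂ → ℂ}
    (hf : LocallyIntegrable f) (x : ℂ) : Integrable fun y => κ (x - y) * f y := by
  have h := hc.convolutionExists_right (ContinuousLinearMap.mul ℝ ℂ) hf hκ x
  have h' : Integrable fun y => f y * κ (x - y) := h
  simpa only [mul_comm] using h'

lemma fderiv_conv {ε : ℝ} (hε : 0 < ε) {f : ℂ → ℂ} (hf : LocallyIntegrable f) (x u : ℂ) :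
    fderiv ℝ (conv (fun z => (rho ε z : ℂ)) f) x u =
      u * conv (kap ε) f x + (starRingEnd ℂ) u * conv (fun z => (starRingEnd ℂ) (kap ε z)) f x := by
  rw [conv_eq_convolution]
  rw [((hasCompactSupport_rhoC hε).hasFDerivAt_convolution_right (ContinuousLinearMap.mul ℝ ℂ) hf
    ((rhoC_contDiff ε).of_le (by exact_mod_cast le_top)) x).fderiv]
  have hc : HasCompactSupport fun z => (starRingEnd ℂ) (kap ε z) :=
    (hasCompactSupport_kap hε).comp_left (g := fun z : ℂ => (starRingEnd ℂ) z) (by simp)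
  have hcont : Continuous fun z => (starRingEnd ℂ) (kap ε z) :=
    Complex.continuous_conj.comp (continuous_kap ε)
  rw [convolution_precompR_apply (ContinuousLinearMap.mul ℝ ℂ) hf
    ((hasCompactSupport_rhoC hε).fderiv ℝ)
    ((rhoC_contDiff ε).continuous_fderiv (by simp))]
  simp only [convolution_def, ContinuousLinearMap.mul_apply', fderiv_rhoC, conv]
  rw [← integral_const_mul, ← integral_const_mul, ← integral_add]
  · congr 1
    funext y
    ring
  · exact (conv_integrable (continuous_kap ε) (hasCompactSupport_kap hε) hf x).const_mul _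
  · exact (conv_integrable hcont hc hf x).const_mul _

lemma dz_conv {ε : ℝ} (hε : 0 < ε) {f : ℂ → ℂ} (hf : LocallyIntegrable f) (x : ℂ) :
    dz (conv (fun z => (rho ε z : ℂ)) f) x = conv (kap ε) f x := by
  rw [dz, fderiv_conv hε hf, fderiv_conv hε hf]
  simp only [map_one, one_mul, Complex.conj_I]
  linear_combination (conv (kap ε) f x - conv (fun z => (starRingEnd ℂ) (kap ε z)) f x) *
    (-1 / 2) * Complex.I_mul_I

lemma dzb_conv {ε : ℝ} (hε : 0 < ε) {f : ℂ → ℂ} (hf : LocallyIntegrable f) (x : ℂ) :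
    dzb (conv (fun z => (rho ε z : ℂ)) f) x = conv (fun z => (starRingEnd ℂ) (kap ε z)) f x := by
  rw [dzb, fderiv_conv hε hf, fderiv_conv hε hf]
  simp only [map_one, one_mul, Complex.conj_I]
  linear_combination (conv (kap ε) f x - conv (fun z => (starRingEnd ℂ) (kap ε z)) f x) *
    (1 / 2) * Complex.I_mul_I

end Vale.Agent.P099C
end
end

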