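import Vale.Agent.P099.MathlibUsed
import Vale.Agent.P099.H504.CPB
attribute [-instance] ProperSMul.toContinuousSMul IsTopologicalTorsor.toContinuousSMul IdemSemiring.toCanonicallyOrderedAdd IdemSemiring.toMulLeftMono IdemSemiring.toMulRightMono AddQuantale.instAddLeftMono AddQuantale.instAddRightMono Quantale.instMulLeftMono Quantale.instMulRightMono FiniteDimensional.rclike_to_real IsScalarTower.complexToReal FiniteDimensional.complexToReal

set_option linter.all false

section

section

/-!
# P099: Green's formulas on the triangle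
-/

open MeasureTheory Set Filter Topology

open scoped ComplexConjugate

namespace Vale.Agent.P099C
open Vale.Agent.P099 (nu FlowErgodic FlowWeakMixing)

theorem fderiv_real_eq (p : ℂ → ℝ) (z v : ℂ) :
    fderiv ℝ p z v = v.re * fderiv ℝ p z 1 + v.im * fderiv ℝ p z Complex.I := by
  have hv : v = v.re • (1 : ℂ) + v.im • Complex.I := by
    simp [Complex.re_add_im]
  conv_lhs => rw [hv]
  rw [map_add, map_smul, map_smul, smul_eq_mul, smul_eq_mul]

theorem fderiv_complex_eq (h : ℂ → ℂ) (z v : ℂ) :
    fderiv ℝ h z v = v.re * fderiv ℝ h z 1 + v.im * fderiv ℝ h z Complex.I := by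
  have hv : v = v.re • (1 : ℂ) + v.im • Complex.I := by
    simp [Complex.re_add_im]
  conv_lhs => rw [hv]
  rw [map_add, map_smul, map_smul, Complex.real_smul, Complex.real_smul]

/-- Pointwise identity for the Jacobian. -/
theorem jac_point (h : ℂ → ℂ) (z u v : ℂ) :
    conj (fderiv ℝ h z u) * fderiv ℝ h z v - conj (fderiv ℝ h z v) * fderiv ℝ h z u
      = (2 * cr u v * (‖dz h z‖ ^ 2 - ‖dzb h z‖ ^ 2) : ℝ) * Complex.I := by
  rw [fderiv_complex_eq h z u, fderiv_complex_eq h z v]
  unfold dz dzb cr
  generalize fderiv ℝ h z 1 = a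
  generalize fderiv ℝ h z Complex.I = b
  have h1 : ‖(a - Complex.I * b) / 2‖ ^ 2
      = ((a.re + b.im) ^ 2 + (a.im - b.re) ^ 2) / 4 := by
    rw [← Complex.normSq_eq_norm_sq, Complex.normSq_apply]
    simp only [Complex.div_ofNat_re, Complex.sub_re, Complex.mul_re, Complex.I_re, zero_mul, Complex.I_im, one_mul, zero_sub, sub_neg_eq_add, Complex.div_ofNat_im, Complex.sub_im, Complex.mul_im, zero_add]
    ring
  have h2 : ‖(a + Complex.I * b) / 2‖ ^ 2
      = ((a.re - b.im) ^ 2 + (a.im + b.re) ^ 2) / 4 := by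
    rw [← Complex.normSq_eq_norm_sq, Complex.normSq_apply]
    simp only [Complex.div_ofNat_re, Complex.add_re, Complex.mul_re, Complex.I_re, zero_mul, Complex.I_im, one_mul, zero_sub, Complex.div_ofNat_im, Complex.add_im, Complex.mul_im, zero_add]
    ring
  rw [h1, h2]
  apply Complex.ext
  · rw [Complex.re_ofReal_mul, Complex.I_re, mul_zero]
    simp only [map_add, map_mul, Complex.conj_ofReal, Complex.sub_re, Complex.mul_re, Complex.add_re, Complex.ofReal_re, Complex.conj_re, Complex.ofReal_im, Complex.conj_im, mul_neg, zero_mul, neg_zero, sub_zero, Complex.add_im, Complex.mul_im, add_zero]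
    ring
  · rw [Complex.im_ofReal_mul, Complex.I_im, mul_one]
    simp only [map_add, map_mul, Complex.conj_ofReal, Complex.sub_im, Complex.mul_im, Complex.add_re, Complex.mul_re, Complex.ofReal_re, Complex.conj_re, Complex.ofReal_im, Complex.conj_im, mul_neg, zero_mul, neg_zero, sub_zero, Complex.add_im, add_zero]
    ring

/-- Integral along a segment on which `h` takes values in a real line. -/
theorem side_real {h : ℂ → ℂ} (hh : ContDiff ℝ 1 h) (P V c : ℂ)
    (hc : ∀ t ∈ Icc (0 : ℝ) 1, ∃ r : ℝ, h (P + t • V) = r * c) :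
    (∫ t in (0 : ℝ)..1, conj (h (P + t • V)) * fderiv ℝ h (P + t • V) V).im = 0 := by
  have hcd : Continuous (fderiv ℝ h) := hh.continuous_fderiv one_ne_zero
  have hcont : Continuous fun t : ℝ => conj (h (P + t • V)) * fderiv ℝ h (P + t • V) V := by
    have h1 : Continuous fun t : ℝ => P + t • V := by fun_prop
    refine (Complex.continuous_conj.comp (hh.continuous.comp h1)).mul ?_
    exact (hcd.comp h1).clm_apply continuous_const
  have him : ∀ t ∈ Ioo (0 : ℝ) 1,
      (conj (h (P + t • V)) * fderiv ℝ h (P + t • V) V).im = 0 := by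
    intro t ht
    have hder : HasDerivAt (fun t : ℝ => h (P + t • V)) (fderiv ℝ h (P + t • V) V) t := by
      have h1 : HasFDerivAt h (fderiv ℝ h (P + t • V)) (P + t • V) :=
        (hh.differentiable one_ne_zero _).hasFDerivAt
      have h2 : HasDerivAt (fun t : ℝ => P + t • V) V t := by
        simpa using ((hasDerivAt_id t).smul_const V).const_add P
      exact h1.comp_hasDerivAt t h2
    by_cases hc0 : c = 0
    · obtain ⟨r, hr⟩ := hc t ⟨ht.1.le, ht.2.le⟩
      rw [hr, hc0]
      simp only [mul_zero, map_zero, Complex.real_smul, zero_mul, Complex.zero_im]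
    · have h3 : HasDerivAt (fun t : ℝ => (h (P + t • V) / c).im)
          ((fderiv ℝ h (P + t • V) V / c).im) t := by
        have h4 := hder.div_const c
        exact (Complex.imCLM.hasFDerivAt.comp_hasDerivAt t h4)
      have h5 : (fun t : ℝ => (h (P + t • V) / c).im) =ᶠ[nhds t] fun _ => (0 : ℝ) := by
        filter_upwards [Ioo_mem_nhds ht.1 ht.2] with t' ht'
        obtain ⟨r, hr⟩ := hc t' ⟨ht'.1.le, ht'.2.le⟩
        rw [hr, mul_div_cancel_right₀ _ hc0]
        exact Complex.ofReal_im r
      have h6 : (fderiv ℝ h (P + t • V) V / c).im = 0 := by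
        have h7 := h5.deriv_eq
        rw [h3.deriv] at h7
        simpa only [Complex.real_smul, deriv_const'] using h7
      obtain ⟨r, hr⟩ := hc t ⟨ht.1.le, ht.2.le⟩
      set q := fderiv ℝ h (P + t • V) V / c with hq
      have h8 : fderiv ℝ h (P + t • V) V = q * c := by
        rw [hq, div_mul_cancel₀ _ hc0]
      rw [hr, h8]
      have h9 : q = (q.re : ℂ) := by
        apply Complex.ext
        · simp
        · simpa using h6
      rw [h9]
      simp only [map_mul, Complex.conj_ofReal, Complex.mul_im, Complex.mul_re, Complex.ofReal_re, Complex.conj_re, Complex.ofReal_im, Complex.conj_im, mul_neg, zero_mul, neg_zero, sub_zero, add_zero, neg_mul]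
      ring
  have hint : IntervalIntegrable
      (fun t : ℝ => conj (h (P + t • V)) * fderiv ℝ h (P + t • V) V) volume 0 1 :=
    hcont.intervalIntegrable _ _
  have h10 : (∫ t in (0 : ℝ)..1, conj (h (P + t • V)) * fderiv ℝ h (P + t • V) V).im
      = ∫ t in (0 : ℝ)..1, (conj (h (P + t • V)) * fderiv ℝ h (P + t • V) V).im := by
    have := Complex.imCLM.intervalIntegral_comp_comm hint
    simpa only [Complex.real_smul, Complex.mul_im, Complex.conj_re, Complex.conj_im, neg_mul,     Complex.imCLM_apply] using this.symm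
  rw [h10, intervalIntegral.integral_of_le zero_le_one, integral_Ioc_eq_integral_Ioo]
  rw [setIntegral_congr_fun measurableSet_Ioo him]
  simp only [integral_zero]

/-- Values fixed by `w ↦ ω * conj w` lie on a real line. -/
theorem exists_line (ω : ℂ) : ∃ c : ℂ, ∀ w : ℂ, w = ω * conj w → ∃ r : ℝ, w = r * c := by
  by_cases hω : ‖ω‖ = 1
  · obtain ⟨c, hc⟩ := IsAlgClosed.exists_pow_nat_eq ω (n := 2) two_pos
    have hcn : ‖c‖ = 1 := by
      have h1 : ‖c‖ ^ 2 = 1 := by rw [← norm_pow, hc, hω]
      (clear * - h1; nlinarith [norm_nonneg c])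
    have hc0 : c ≠ 0 := by
      intro h
      rw [h, norm_zero] at hcn
      exact zero_ne_one hcn
    have hcc : c * conj c = 1 := by
      rw [Complex.mul_conj, Complex.normSq_eq_norm_sq, hcn]
      norm_num
    refine ⟨c, fun w hw => ⟨(w * conj c).re, ?_⟩⟩
    have hreal : conj (w * conj c) = w * conj c := by
      rw [map_mul, Complex.conj_conj]
      calc conj w * c = (c * conj c) * (conj w * c) := by rw [hcc, one_mul]
        _ = (c ^ 2 * conj w) * conj c := by ring
        _ = w * conj c := by rw [hc, ← hw]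
    have h2 : ((w * conj c).re : ℂ) = w * conj c := Complex.conj_eq_iff_re.1 hreal
    rw [h2, mul_assoc, mul_comm (conj c) c, hcc, mul_one]
  · refine ⟨0, fun w hw => ⟨0, ?_⟩⟩
    have h1 : ‖w‖ = ‖ω‖ * ‖w‖ := by
      conv_lhs => rw [hw]
      rw [norm_mul, RCLike.norm_conj]
    have h2 : ‖w‖ = 0 := by
      have h3 : (1 - ‖ω‖) * ‖w‖ = 0 := by linarith
      rcases mul_eq_zero.1 h3 with h4 | h4
      · exact absurd (by linarith only [h4]) hω
      · exact h4
    rw [norm_eq_zero.1 h2]
    simp

namespace ConvexPolygon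

variable {ns : ℕ} [NeZero ns] (T : ConvexPolygon ns)

/-- the closed polygon -/
def ctab : Set ℂ := {x | ∀ i, 0 ≤ T.lam i x}

lemma isCompact_ctab : IsCompact T.ctab := by
  obtain ⟨y, hy⟩ := T.table_nonempty
  rw [mem_table_iff] at hy
  refine Metric.isCompact_of_isClosed_isBounded ?_ ?_
  · have h : T.ctab = ⋂ i, {x | 0 ≤ T.lam i x} := by
      ext x
      simp only [ctab, mem_setOf_eq, mem_iInter]
    rw [h]
    exact isClosed_iInter fun i => isClosed_le continuous_const (T.continuous_lam0 i)
  · refine (Metric.isBounded_closedBall (x := y) (r := T.dm)).subset ?_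
    intro x hx
    rw [Metric.mem_closedBall, dist_eq_norm]
    exact T.norm_sub_le_dm hx (fun i => (hy i).le)

lemma table_subset_ctab : T.table ⊆ T.ctab := fun x hx i => ((T.mem_table_iff x).1 hx i).le

theorem mem_seg {A B : ℂ} {t : ℝ} (ht : t ∈ Icc (0 : ℝ) 1) : A + t • (B - A) ∈ segment ℝ A B := by
  rw [segment_eq_image']
  exact ⟨t, ht, rfl⟩

/-- the closed sides -/
lemma mem_segment_of {i : Fin ns} {x : ℂ} (hx : x ∈ T.ctab) (h1 : T.lam i x = 0) :
    x ∈ segment ℝ (T.P i) (T.P (i + 1)) := by
  obtain ⟨s, hs⟩ := T.exists_on_line h1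
  have hxe : ∀ j, T.lam j x = T.lam j (T.P i) + s * T.ell j (T.d i) := by
    intro j
    rw [hs, T.lam_add_smul]
  have h3 : s ≤ 1 := by
    have h4 := hx (i + 1)
    rw [hxe, T.ell_d, T.lam_P_self] at h4
    have h5 : 0 < T.lam (i + 1) (T.P i) :=
      T.lam_P_pos (T.add_one_ne i).symm (T.add_two_ne i).symm
    by_contra hn
    push Not at hn
    nlinarith
  have h3' : 0 ≤ s := by
    have h4 := hx (i - 1)
    have e1 : T.lam (i - 1) (T.P i) = 0 := by
      have := T.lam_P_next (i - 1)
      rwa [sub_add_cancel] at this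
    rw [hxe, T.ell_d, e1] at h4
    have h5 : 0 < T.lam (i - 1) (T.P (i + 1)) := by
      refine T.lam_P_pos ?_ ?_
      · intro h
        have h6 : i - 1 + 1 + 1 = i - 1 := by rw [sub_add_cancel]; exact h
        exact T.add_two_ne _ h6
      · rw [sub_add_cancel]
        exact T.add_one_ne i
    by_contra hn
    push Not at hn
    nlinarith
  rw [hs]
  exact mem_seg ⟨h3', h3⟩

/-- the volume of a rectangle -/
lemma volume_rect {A B : ℝ} (hA : 0 < A) (hB : 0 < B) (c : ℂ) {u : ℂ} (hu : ‖u‖ = 1) :
    volume {y : ℂ | |dt (c - y) u| < A ∧ |cr (c - y) u| < B} ≤ ENNReal.ofReal (4 * (A * B)) := by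
  have hu' : (starRingEnd ℂ) u ∈ Submonoid.unitSphere ℂ := by
    rw [Submonoid.unitSphere]
    simp only [Submonoid.mem_mk, Subsemigroup.mem_mk, mem_sphere_iff_norm, sub_zero, RCLike.norm_conj, hu]
  have hmp : MeasurePreserving (fun y : ℂ => (starRingEnd ℂ) u * (c - y)) volume volume :=
    (rotation (⟨(starRingEnd ℂ) u, hu'⟩ : Circle)).measurePreserving.comp
      (Measure.measurePreserving_sub_left volume c)
  have hbox : MeasurableSet ((Ioo (-A) A) ×ℂ (Ioo (-B) B)) :=
    (Complex.measurable_re measurableSet_Ioo).inter (Complex.measurable_im measurableSet_Ioo)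
  have hsub : {y : ℂ | |dt (c - y) u| < A ∧ |cr (c - y) u| < B} ⊆
      (fun y : ℂ => (starRingEnd ℂ) u * (c - y)) ⁻¹' ((Ioo (-A) A) ×ℂ (Ioo (-B) B)) := by
    rintro y ⟨h3, h1⟩
    rw [abs_lt] at h1 h3
    rw [mem_preimage, Complex.mem_reProdIm]
    have e1 : ((starRingEnd ℂ) u * (c - y)).re = dt (c - y) u := by
      simp only [dt, Complex.mul_re, Complex.conj_re, Complex.conj_im]
      ring
    have e2 : ((starRingEnd ℂ) u * (c - y)).im = - cr (c - y) u := by
      simp only [cr, Complex.mul_im, Complex.conj_re, Complex.conj_im]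
      ring
    rw [e1, e2]
    refine ⟨⟨by linarith only [h3], h3.2⟩, ⟨by linarith only [h1], by linarith only [h1]⟩⟩
  calc volume {y : ℂ | |dt (c - y) u| < A ∧ |cr (c - y) u| < B}
      ≤ volume ((fun y : ℂ => (starRingEnd ℂ) u * (c - y)) ⁻¹'
        ((Ioo (-A) A) ×ℂ (Ioo (-B) B))) := measure_mono hsub
    _ = volume ((Ioo (-A) A) ×ℂ (Ioo (-B) B)) :=
        hmp.measure_preimage hbox.nullMeasurableSet
    _ = ENNReal.ofReal (4 * (A * B)) := by
        have h := Complex.volume_preserving_equiv_real_prod.measure_preimage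
          ((measurableSet_Ioo.prod measurableSet_Ioo).nullMeasurableSet (μ := volume)
            (s := (Ioo (-A) A) ×ˢ (Ioo (-B) B)))
        have e : Complex.measurableEquivRealProd ⁻¹'
            ((Ioo (-A) A) ×ˢ (Ioo (-B) B)) =
            ((Ioo (-A) A) ×ℂ (Ioo (-B) B)) := by
          ext z
          simp only [Complex.measurableEquivRealProd, Homeomorph.toMeasurableEquiv_coe, ContinuousLinearEquiv.coe_toHomeomorph, mem_preimage, Complex.equivRealProdCLM_apply, mem_prod, mem_Ioo, Complex.mem_reProdIm]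
        rw [e] at h
        rw [h, Measure.volume_eq_prod, Measure.prod_prod, Real.volume_Ioo, Real.volume_Ioo,
          ← ENNReal.ofReal_mul (by linarith only [hA])]
        congr 1
        ring

/-- the strip along a side has small area -/
lemma exists_strip : ∃ C : ℝ, 0 < C ∧ ∀ (i : Fin ns) (ε : ℝ), 0 < ε →
    volume.real (T.ctab ∩ {x | T.lam i x ≤ 2 * ε}) ≤ C * ε := by
  have hD := T.Del_pos
  have hm : ∀ i, ∃ C : ℝ, 0 < C ∧ ∀ (ε : ℝ), 0 < ε →
      volume.real (T.ctab ∩ {x | T.lam i x ≤ 2 * ε}) ≤ C * ε := by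
    intro i
    have hd : 0 < ‖T.d i‖ := norm_pos_iff.2 (T.d_ne i)
    have hdm := T.dm_pos
    refine ⟨4 * ((T.dm + 1) * (3 * T.Del / ‖T.d i‖)), by positivity, fun ε hε => ?_⟩
    set u : ℂ := ((‖T.d i‖⁻¹ : ℝ) : ℂ) * T.d i with hu
    have hu1 : ‖u‖ = 1 := by
      rw [hu, norm_mul, Complex.norm_real, norm_inv, norm_norm, inv_mul_cancel₀ hd.ne']
    have hsub : T.ctab ∩ {x | T.lam i x ≤ 2 * ε} ⊆
        {y : ℂ | |dt (T.P i - y) u| < T.dm + 1 ∧ |cr (T.P i - y) u| < 3 * T.Del / ‖T.d i‖ * ε} := by
      rintro x ⟨hx, hx2⟩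
      have hx2' : T.lam i x ≤ 2 * ε := hx2
      have h0 := hx i
      refine ⟨?_, ?_⟩
      · have h1 : |dt (T.P i - x) u| ≤ ‖T.P i - x‖ := by
          rw [dt_eq_re]
          refine (Complex.abs_re_le_norm _).trans ?_
          rw [norm_mul, RCLike.norm_conj, hu1, mul_one]
        have h2 : ‖T.P i - x‖ ≤ T.dm := T.norm_sub_le_dm (fun j => T.lam_P_nonneg j i) hx
        linarith
      · have h1 : cr (T.P i - x) u = ‖T.d i‖⁻¹ * (T.Del * T.lam i x) := by
          have h2 : T.Del * T.lam i x = cr (T.d i) (x - T.P i) := by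
            unfold lam
            rw [mul_div_cancel₀ _ T.Del_ne]
          rw [h2, hu]
          unfold cr
          rw [Complex.re_ofReal_mul, Complex.im_ofReal_mul]
          simp only [Complex.sub_re, Complex.sub_im]
          ring
        rw [h1, abs_of_nonneg (by positivity)]
        have h3 : T.Del * T.lam i x < 3 * T.Del * ε := by nlinarith
        calc ‖T.d i‖⁻¹ * (T.Del * T.lam i x) < ‖T.d i‖⁻¹ * (3 * T.Del * ε) :=
              mul_lt_mul_of_pos_left h3 (by positivity)
          _ = 3 * T.Del / ‖T.d i‖ * ε := by field_simp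
    have hv := volume_rect (A := T.dm + 1) (B := 3 * T.Del / ‖T.d i‖ * ε) (by positivity)
      (by positivity) (T.P i) hu1
    have h5 := (measure_mono hsub).trans hv
    have h6 := ENNReal.toReal_mono ENNReal.ofReal_ne_top h5
    rw [ENNReal.toReal_ofReal (by positivity)] at h6
    unfold Measure.real
    refine h6.trans (le_of_eq (by ring))
  choose C hC hC2 using hm
  refine ⟨∑ i, C i, Finset.sum_pos (fun i _ => hC i) ⟨0, Finset.mem_univ _⟩, fun i ε hε => ?_⟩
  refine (hC2 i ε hε).trans (mul_le_mul_of_nonneg_right ?_ hε.le)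
  exact Finset.single_le_sum (f := C) (fun j _ => (hC j).le) (Finset.mem_univ i)

/-- a continuous function which vanishes on a closed side is small near it -/
lemma small_near {i : Fin ns} {G : ℂ → ℝ} (hG : Continuous G)
    (hG0 : ∀ y ∈ segment ℝ (T.P i) (T.P (i + 1)), G y = 0) {δ : ℝ} (hδ : 0 < δ) :
    ∃ m : ℝ, 0 < m ∧ ∀ x ∈ T.ctab, T.lam i x < m → |G x| < δ := by
  set B : Set ℂ := T.ctab ∩ {x | δ ≤ |G x|} with hB
  have hBc : IsCompact B := T.isCompact_ctab.inter_right (isClosed_le continuous_const hG.abs)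
  rcases B.eq_empty_or_nonempty with h | h
  · refine ⟨1, one_pos, fun x hx _ => ?_⟩
    by_contra hn
    push Not at hn
    have : x ∈ B := ⟨hx, hn⟩
    rw [h] at this
    exact this
  · obtain ⟨z, hz, hz2⟩ := hBc.exists_isMinOn h (T.continuous_lam0 i).continuousOn
    refine ⟨T.lam i z, ?_, fun x hx hxm => ?_⟩
    · rcases (hz.1 i).eq_or_lt with h1 | h1
      · exfalso
        have h2 := hG0 z (T.mem_segment_of hz.1 h1.symm)
        have h3 : δ ≤ |G z| := hz.2
        rw [h2, abs_zero] at h3
        linarith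
      · exact h1
    · by_contra hn
      push Not at hn
      have h1 : T.lam i z ≤ T.lam i x := hz2 ⟨hx, hn⟩
      linarith

/-- integral of a derivative -/
lemma integral_fderiv_zero {g : ℂ → ℝ} (hg : ContDiff ℝ 1 g) (hc : HasCompactSupport g) (u : ℂ) :
    ∫ z, fderiv ℝ g z u = 0 := by
  have h1 : Continuous fun z => fderiv ℝ g z u :=
    (hg.continuous_fderiv one_ne_zero).clm_apply continuous_const
  have h2 : HasCompactSupport fun z => fderiv ℝ g z u := by
    refine (hc.fderiv (𝕜 := ℝ)).mono ?_
    intro z hz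
    rw [Function.mem_support] at hz ⊢
    intro h
    apply hz
    rw [h]
    rfl
  have h := integral_mul_fderiv_eq_neg_fderiv_mul_of_integrable (μ := (volume : Measure ℂ))
    (f := fun _ : ℂ => (1 : ℝ)) (g := g) (v := u) (by simp only [fderiv_fun_const, Pi.zero_apply, zero_apply, zero_mul, integrable_fun_zero])
    (by simpa only [one_mul] using h1.integrable_of_hasCompactSupport h2)
    (by simpa only [one_mul] using hg.continuous.integrable_of_hasCompactSupport hc)
    (fun x _ => differentiableAt_const _)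
    (fun x _ => (hg.differentiable one_ne_zero).differentiableAt)
  simpa only [one_mul, fderiv_fun_const, Pi.zero_apply, zero_apply, zero_mul, integral_zero, neg_zero] using h

/-- the profile of the cut-off -/
noncomputable def sg (t : ℝ) : ℝ := Real.smoothTransition (t - 1)

lemma sg_contDiff : ContDiff ℝ 1 sg :=
  Real.smoothTransition.contDiff.comp (contDiff_id.sub contDiff_const)

lemma sg_nonneg (t : ℝ) : 0 ≤ sg t := Real.smoothTransition.nonneg _
lemma sg_le_one (t : ℝ) : sg t ≤ 1 := Real.smoothTransition.le_one _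
lemma sg_zero {t : ℝ} (h : t ≤ 1) : sg t = 0 := Real.smoothTransition.zero_of_nonpos (by linarith)
lemma sg_one {t : ℝ} (h : 2 ≤ t) : sg t = 1 := Real.smoothTransition.one_of_one_le (by linarith)

lemma sg_deriv_zero {t : ℝ} (h : t < 1 ∨ 2 < t) : deriv sg t = 0 := by
  rcases h with h | h
  · have h1 : sg =ᶠ[𝓝 t] fun _ => 0 := by
      filter_upwards [Iio_mem_nhds h] with s hs
      exact sg_zero (le_of_lt hs)
    rw [h1.deriv_eq]
    simp
  · have h1 : sg =ᶠ[𝓝 t] fun _ => 1 := by
      filter_upwards [Ioi_mem_nhds h] with s hs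
      exact sg_one (le_of_lt hs)
    rw [h1.deriv_eq]
    simp

lemma exists_sg_bound : ∃ K : ℝ, 0 < K ∧ ∀ t, |deriv sg t| ≤ K := by
  have hc : Continuous (deriv sg) := sg_contDiff.continuous_deriv_one
  obtain ⟨C, hC⟩ := (isCompact_Icc (a := (1:ℝ)) (b := 2)).exists_bound_of_continuousOn hc.continuousOn
  refine ⟨max C 1, lt_max_of_lt_right one_pos, fun t => ?_⟩
  by_cases h : t ∈ Icc (1:ℝ) 2
  · exact (hC t h).trans (le_max_left _ _)
  · rw [mem_Icc, not_and_or, not_le, not_le] at h
    rw [sg_deriv_zero h, abs_zero]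
    exact le_trans zero_le_one (le_max_right _ _)

/-- the cut-off -/
noncomputable def ct (ε : ℝ) (x : ℂ) : ℝ := ∏ i, sg (T.lam i x / ε)

lemma lam_contDiff (i : Fin ns) : ContDiff ℝ 1 (T.lam i) := by
  unfold lam cr
  refine ContDiff.div_const ?_ _
  refine ((contDiff_const).mul ?_).sub ((contDiff_const).mul ?_)
  · exact Complex.imCLM.contDiff.comp (contDiff_id.sub contDiff_const)
  · exact Complex.reCLM.contDiff.comp (contDiff_id.sub contDiff_const)

lemma ct_contDiff (ε : ℝ) : ContDiff ℝ 1 (T.ct ε) := by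
  unfold ct
  exact contDiff_prod fun i _ => sg_contDiff.comp ((T.lam_contDiff i).div_const ε)

lemma ct_nonneg (ε : ℝ) (x : ℂ) : 0 ≤ T.ct ε x := Finset.prod_nonneg fun i _ => sg_nonneg _
lemma ct_le_one (ε : ℝ) (x : ℂ) : T.ct ε x ≤ 1 :=
  Finset.prod_le_one (fun i _ => sg_nonneg _) fun i _ => sg_le_one _

lemma ct_zero {ε : ℝ} (hε : 0 < ε) {x : ℂ} (h : ∃ i, T.lam i x ≤ ε) : T.ct ε x = 0 := by
  obtain ⟨i, hi⟩ := h
  refine Finset.prod_eq_zero (Finset.mem_univ i) (sg_zero ?_)
  rwa [div_le_one hε]

lemma ct_eq_one {ε : ℝ} (hε : 0 < ε) {x : ℂ} (h : ∀ i, 2 * ε ≤ T.lam i x) : T.ct ε x = 1 :=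
  Finset.prod_eq_one fun i _ => sg_one (by rw [le_div_iff₀ hε]; exact h i)

lemma ct_support {ε : ℝ} (hε : 0 < ε) : Function.support (T.ct ε) ⊆ T.ctab := by
  intro x hx i
  by_contra hn
  push Not at hn
  exact hx (T.ct_zero hε ⟨i, by linarith⟩)

lemma ct_compact {ε : ℝ} (hε : 0 < ε) : HasCompactSupport (T.ct ε) :=
  HasCompactSupport.of_support_subset_isCompact T.isCompact_ctab (T.ct_support hε)

lemma hasFDerivAt_lam (i : Fin ns) (x : ℂ) : ∃ L : ℂ →L[ℝ] ℝ, HasFDerivAt (T.lam i) L x ∧
    ∀ v, L v = T.ell i v := by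
  have h := ((T.lam_contDiff i).differentiable one_ne_zero x).hasFDerivAt
  refine ⟨_, h, fun v => ?_⟩
  have h2 : HasDerivAt (fun t : ℝ => T.lam i (x + t • v)) (fderiv ℝ (T.lam i) x v) 0 := by
    have h3 : HasDerivAt (fun t : ℝ => x + t • v) v 0 := by
      simpa using ((hasDerivAt_id (0:ℝ)).smul_const v).const_add x
    have h4 : HasFDerivAt (T.lam i) (fderiv ℝ (T.lam i) x) (x + (0:ℝ) • v) := by
      rw [zero_smul, add_zero]; exact h
    exact h4.comp_hasDerivAt (0:ℝ) h3
  have h5 : HasDerivAt (fun t : ℝ => T.lam i (x + t • v)) (T.ell i v) 0 := by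
    simp only [T.lam_add_smul]
    simpa using ((hasDerivAt_id (0:ℝ)).mul_const (T.ell i v)).const_add (T.lam i x)
  exact h2.unique h5

/-- the coefficients of the derivative of the cut-off -/
noncomputable def cc1 (ε : ℝ) (i : Fin ns) (x : ℂ) : ℝ :=
  (∏ j ∈ Finset.univ.erase i, sg (T.lam j x / ε)) * (deriv sg (T.lam i x / ε) / ε)

lemma fderiv_ct {ε : ℝ} (x v : ℂ) :
    fderiv ℝ (T.ct ε) x v = ∑ i, T.cc1 ε i x * T.ell i v := by
  have h1 : ∀ i, ∃ L : ℂ →L[ℝ] ℝ, HasFDerivAt (fun x => sg (T.lam i x / ε)) L x ∧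
      ∀ v, L v = deriv sg (T.lam i x / ε) / ε * T.ell i v := by
    intro i
    obtain ⟨L, hL, hL2⟩ := T.hasFDerivAt_lam i x
    have h2 : HasDerivAt sg (deriv sg (T.lam i x / ε)) (T.lam i x / ε) :=
      ((sg_contDiff.differentiable one_ne_zero) _).hasDerivAt
    have h3 : HasFDerivAt (fun x => T.lam i x / ε) (ε⁻¹ • L) x := by
      have := hL.const_mul ε⁻¹
      refine this.congr_of_eventuallyEq (Eventually.of_forall fun y => ?_)
      simp only [div_eq_inv_mul]
    have h4 := h2.comp_hasFDerivAt x h3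
    refine ⟨_, h4, fun v => ?_⟩
    simp only [_root_.smul_apply, smul_eq_mul, hL2]
    ring
  choose L hL hL2 using h1
  have h4 := HasFDerivAt.finset_prod (u := Finset.univ) (fun i _ => hL i)
  have h5 : HasFDerivAt (T.ct ε) _ x := h4
  rw [h5.fderiv]
  rw [ContinuousLinearMap.sum_apply]
  refine Finset.sum_congr rfl fun i _ => ?_
  simp only [_root_.smul_apply, smul_eq_mul, hL2, cc1]
  ring

lemma abs_cc1_le {K : ℝ} (hK : ∀ t, |deriv sg t| ≤ K) {ε : ℝ} (hε : 0 < ε) (i : Fin ns) (x : ℂ) :
    |T.cc1 ε i x| ≤ (T.ctab ∩ {x | T.lam i x ≤ 2 * ε}).indicator (fun _ => K / ε) x := by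
  classical
  have hK0 : 0 ≤ K := (abs_nonneg _).trans (hK 0)
  by_cases hx : x ∈ T.ctab ∩ {x | T.lam i x ≤ 2 * ε}
  · rw [indicator_of_mem hx]
    unfold cc1
    rw [abs_mul, abs_div, abs_of_pos hε]
    have h1 : |∏ j ∈ Finset.univ.erase i, sg (T.lam j x / ε)| ≤ 1 := by
      rw [abs_of_nonneg (Finset.prod_nonneg fun i _ => sg_nonneg _)]
      exact Finset.prod_le_one (fun i _ => sg_nonneg _) fun i _ => sg_le_one _
    have h2 : |deriv sg (T.lam i x / ε)| / ε ≤ K / ε :=
      div_le_div_of_nonneg_right (hK _) hε.le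
    calc _ ≤ 1 * (K / ε) := mul_le_mul h1 h2 (by positivity) zero_le_one
      _ = K / ε := one_mul _
  · rw [indicator_of_notMem hx]
    have h0 : T.cc1 ε i x = 0 := by
      unfold cc1
      rw [mem_inter_iff, not_and_or] at hx
      rcases hx with hx | hx
      · have hx' : ∃ j, T.lam j x < 0 := by
          by_contra hn
          push Not at hn
          exact hx hn
        obtain ⟨j, hj⟩ := hx'
        by_cases hji : j = i
        · rw [sg_deriv_zero (Or.inl ?_), zero_div, mul_zero]
          rw [← hji]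
          exact (div_neg_of_neg_of_pos hj hε).trans one_pos
        · rw [Finset.prod_eq_zero (Finset.mem_erase.2 ⟨hji, Finset.mem_univ j⟩), zero_mul]
          exact sg_zero ((div_neg_of_neg_of_pos hj hε).le.trans zero_le_one)
      · rw [mem_setOf_eq, not_le] at hx
        rw [sg_deriv_zero (Or.inr ?_), zero_div, mul_zero]
        rwa [lt_div_iff₀ hε]
    rw [h0, abs_zero]

/-- the divergence theorem for fields with no flux through the sides -/
theorem div0 (p q : ℂ → ℝ) (hp : ContDiff ℝ 1 p) (hq : ContDiff ℝ 1 q)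
    (hb : ∀ i, ∀ y ∈ segment ℝ (T.P i) (T.P (i + 1)),
      cr ((p y : ℂ) + q y * Complex.I) (T.d i) = 0) :
    ∫ x in T.table, (fderiv ℝ p x 1 + fderiv ℝ q x Complex.I) = 0 := by
  classical
  obtain ⟨C, hC, hCs⟩ := T.exists_strip
  obtain ⟨K, hK, hKb⟩ := exists_sg_bound
  set D : ℂ → ℝ := fun x => fderiv ℝ p x 1 + fderiv ℝ q x Complex.I with hD
  have hDc : Continuous D :=
    ((hp.continuous_fderiv one_ne_zero).clm_apply continuous_const).add
      ((hq.continuous_fderiv one_ne_zero).clm_apply continuous_const)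
  set G : Fin ns → ℂ → ℝ := fun i x => T.ell i ((p x : ℂ) + q x * Complex.I) with hG
  have hell : ∀ (i : Fin ns) (x : ℂ), G i x = p x * T.ell i 1 + q x * T.ell i Complex.I := by
    intro i x
    simp only [hG]
    unfold ell cr
    simp
    ring
  have hGc : ∀ i, Continuous (G i) := by
    intro i
    have : G i = fun x => p x * T.ell i 1 + q x * T.ell i Complex.I := funext (hell i)
    rw [this]
    exact (hp.continuous.mul continuous_const).add (hq.continuous.mul continuous_const)
  have hG0 : ∀ i, ∀ y ∈ segment ℝ (T.P i) (T.P (i + 1)), G i y = 0 := by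
    intro i y hy
    have h1 := hb i y hy
    simp only [hG]
    unfold ell
    have h2 : cr (T.d i) ((p y : ℂ) + q y * Complex.I) =
      - cr ((p y : ℂ) + q y * Complex.I) (T.d i) := by unfold cr; ring
    rw [h2, h1, neg_zero, zero_div]
  have hctabm : MeasurableSet T.ctab := T.isCompact_ctab.isClosed.measurableSet
  have hSm : ∀ (i : Fin ns) (ε : ℝ), MeasurableSet (T.ctab ∩ {x | T.lam i x ≤ 2 * ε}) := fun i ε =>
    hctabm.inter (isClosed_le (T.continuous_lam0 i) continuous_const).measurableSet
  have hSf : ∀ (i : Fin ns) (ε : ℝ), volume (T.ctab ∩ {x | T.lam i x ≤ 2 * ε}) ≠ ⊤ := fun i ε =>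
    ((measure_mono inter_subset_left).trans_lt T.isCompact_ctab.measure_lt_top).ne
  -- the identity for the cut-off
  have hid : ∀ ε : ℝ, 0 < ε → ∫ x, T.ct ε x * D x = - ∑ i, ∫ x, T.cc1 ε i x * G i x := by
    intro ε hε
    have hcp := (T.ct_contDiff ε).mul hp
    have hcq := (T.ct_contDiff ε).mul hq
    have h1 := integral_fderiv_zero hcp (T.ct_compact hε).mul_right 1
    have h2 := integral_fderiv_zero hcq (T.ct_compact hε).mul_right Complex.I
    have hi : ∀ (g : ℂ → ℝ) (hg : ContDiff ℝ 1 g) (u : ℂ),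
        Integrable fun z => fderiv ℝ (fun x => T.ct ε x * g x) z u := by
      intro g hg u
      have h3 : Continuous fun z => fderiv ℝ (fun x => T.ct ε x * g x) z u :=
        (((T.ct_contDiff ε).mul hg).continuous_fderiv one_ne_zero).clm_apply continuous_const
      refine h3.integrable_of_hasCompactSupport ?_
      refine (((T.ct_compact hε).mul_right (f' := g)).fderiv (𝕜 := ℝ)).mono ?_
      intro z hz
      rw [Function.mem_support] at hz ⊢
      intro h
      apply hz
      have h' : fderiv ℝ (fun x => T.ct ε x * g x) z = 0 := h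
      rw [h']
      rfl
    have h3 : ∫ x, (fderiv ℝ (fun x => T.ct ε x * p x) x 1 +
        fderiv ℝ (fun x => T.ct ε x * q x) x Complex.I) = 0 := by
      rw [integral_add (hi p hp 1) (hi q hq Complex.I), h1, h2, add_zero]
    have h4 : ∀ x, fderiv ℝ (fun x => T.ct ε x * p x) x 1 +
        fderiv ℝ (fun x => T.ct ε x * q x) x Complex.I =
        T.ct ε x * D x + ∑ i, T.cc1 ε i x * G i x := by
      intro x
      have hc := ((T.ct_contDiff ε).differentiable one_ne_zero x)
      have e1 : fderiv ℝ (fun x => T.ct ε x * p x) x 1 =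
          T.ct ε x * fderiv ℝ p x 1 + p x * fderiv ℝ (T.ct ε) x 1 := by
        rw [fderiv_fun_mul hc (hp.differentiable one_ne_zero x)]
        rfl
      have e2 : fderiv ℝ (fun x => T.ct ε x * q x) x Complex.I =
          T.ct ε x * fderiv ℝ q x Complex.I + q x * fderiv ℝ (T.ct ε) x Complex.I := by
        rw [fderiv_fun_mul hc (hq.differentiable one_ne_zero x)]
        rfl
      rw [e1, e2, T.fderiv_ct, T.fderiv_ct, Finset.mul_sum, Finset.mul_sum]
      have e3 : ∑ i, T.cc1 ε i x * G i x = ∑ i, p x * (T.cc1 ε i x * T.ell i 1) +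
          ∑ i, q x * (T.cc1 ε i x * T.ell i Complex.I) := by
        rw [← Finset.sum_add_distrib]
        refine Finset.sum_congr rfl fun i _ => ?_
        rw [hell]
        ring
      rw [e3]
      simp only [hD]
      ring
    simp only [h4] at h3
    have hIc : ∀ i, Integrable fun x => T.cc1 ε i x * G i x := by
      intro i
      have hcont : Continuous (T.cc1 ε i) := by
        unfold cc1
        have hs : Continuous sg := sg_contDiff.continuous
        have hs' : Continuous (deriv sg) := sg_contDiff.continuous_deriv_one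
        refine (continuous_finset_prod _ fun j _ => hs.comp ((T.continuous_lam0 j).div_const ε)).mul
          ((hs'.comp ((T.continuous_lam0 i).div_const ε)).div_const ε)
      refine (hcont.mul (hGc i)).integrable_of_hasCompactSupport ?_
      refine HasCompactSupport.of_support_subset_isCompact T.isCompact_ctab ?_
      intro x hx
      rw [Function.mem_support] at hx
      by_contra hn
      apply hx
      have h5 := T.abs_cc1_le hKb hε i x
      rw [indicator_of_notMem (fun h => hn h.1)] at h5
      rw [Pi.mul_apply, abs_nonpos_iff.1 h5, zero_mul]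
    have hIt : Integrable fun x => T.ct ε x * D x := by
      refine ((T.ct_contDiff ε).continuous.mul hDc).integrable_of_hasCompactSupport ?_
      exact (T.ct_compact hε).mul_right
    rw [integral_add hIt (integrable_finset_sum _ fun i _ => hIc i),
      integral_finset_sum _ fun i _ => hIc i] at h3
    linarith
  -- the boundary terms are small
  have hsmall : ∀ δ : ℝ, 0 < δ → ∀ᶠ ε : ℝ in 𝓝[>] 0, |∫ x, T.ct ε x * D x| ≤ ns * (K * C * δ) := by
    intro δ hδ
    have h1 : ∀ i, ∃ m : ℝ, 0 < m ∧ ∀ x ∈ T.ctab, T.lam i x < m → |G i x| < δ := fun i =>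
      T.small_near (hGc i) (hG0 i) hδ
    choose m hm hm2 using h1
    have h2 : ∀ᶠ ε : ℝ in 𝓝[>] 0, ∀ i, 2 * ε < m i := by
      rw [eventually_all]
      intro i
      have : ∀ᶠ ε : ℝ in 𝓝[>] 0, ε < m i / 2 :=
        eventually_nhdsWithin_of_eventually_nhds (Iio_mem_nhds (by have := hm i; positivity))
      filter_upwards [this] with ε hε
      linarith
    filter_upwards [h2, self_mem_nhdsWithin] with ε h3 hε
    have hε : 0 < ε := hε
    rw [hid ε hε, abs_neg]
    refine (Finset.abs_sum_le_sum_abs _ _).trans ?_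
    have h4 : ∀ i ∈ (Finset.univ : Finset (Fin ns)), |∫ x, T.cc1 ε i x * G i x| ≤ K * C * δ := by
      intro i _
      have h5 : ∀ x, ‖T.cc1 ε i x * G i x‖ ≤
          (T.ctab ∩ {x | T.lam i x ≤ 2 * ε}).indicator (fun _ => K / ε * δ) x := by
        intro x
        rw [norm_mul, Real.norm_eq_abs, Real.norm_eq_abs]
        have h6 := T.abs_cc1_le hKb hε i x
        by_cases hx : x ∈ T.ctab ∩ {x | T.lam i x ≤ 2 * ε}
        · rw [indicator_of_mem hx] at h6 ⊢
          have h7 := hm2 i x hx.1 (lt_of_le_of_lt hx.2 (h3 i))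
          exact mul_le_mul h6 h7.le (abs_nonneg _) (by positivity)
        · rw [indicator_of_notMem hx] at h6 ⊢
          rw [abs_nonpos_iff.1 h6, abs_zero, zero_mul]
      have h8 : Integrable ((T.ctab ∩ {x | T.lam i x ≤ 2 * ε}).indicator
          (fun _ => K / ε * δ)) (volume : Measure ℂ) := by
        rw [integrable_indicator_iff (hSm i ε)]
        exact integrableOn_const (hSf i ε)
      have h9 := norm_integral_le_of_norm_le h8 (Eventually.of_forall h5)
      rw [Real.norm_eq_abs, integral_indicator_const _ (hSm i ε), smul_eq_mul] at h9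
      refine h9.trans ?_
      have h10 := hCs i ε hε
      calc volume.real (T.ctab ∩ {x | T.lam i x ≤ 2 * ε}) * (K / ε * δ)
          ≤ (C * ε) * (K / ε * δ) := mul_le_mul_of_nonneg_right h10 (by positivity)
        _ = K * C * δ := by field_simp
    refine (Finset.sum_le_card_nsmul _ _ _ h4).trans ?_
    rw [Finset.card_univ, Fintype.card_fin, nsmul_eq_mul]
  -- the limit of the main term
  have hlim : Tendsto (fun ε : ℝ => ∫ x, T.ct ε x * D x) (𝓝[>] 0) (𝓝 (∫ x in T.table, D x)) := by
    rw [← integral_indicator T.isOpen_table.measurableSet]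
    refine tendsto_integral_filter_of_dominated_convergence
      (T.ctab.indicator fun x => |D x|) ?_ ?_ ?_ ?_
    · exact Eventually.of_forall fun ε =>
        ((T.ct_contDiff ε).continuous.mul hDc).aestronglyMeasurable
    · filter_upwards [self_mem_nhdsWithin] with ε hε
      refine Eventually.of_forall fun x => ?_
      rw [norm_mul, Real.norm_eq_abs, Real.norm_eq_abs]
      by_cases hx : x ∈ T.ctab
      · rw [indicator_of_mem hx, abs_of_nonneg (T.ct_nonneg ε x)]
        have := T.ct_le_one ε x
        nlinarith [abs_nonneg (D x)]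
      · rw [indicator_of_notMem hx]
        have h0 : T.ct ε x = 0 := by
          by_contra hn
          exact hx (T.ct_support hε hn)
        rw [h0, abs_zero, zero_mul]
    · rw [integrable_indicator_iff hctabm]
      exact hDc.abs.continuousOn.integrableOn_compact T.isCompact_ctab
    · refine Eventually.of_forall fun x => ?_
      by_cases hx : x ∈ T.table
      · rw [indicator_of_mem hx]
        have hx' := (T.mem_table_iff x).1 hx
        have h2 : ∀ᶠ ε : ℝ in 𝓝[>] 0, ∀ i, 2 * ε < T.lam i x := by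
          rw [eventually_all]
          intro i
          have : ∀ᶠ ε : ℝ in 𝓝[>] 0, ε < T.lam i x / 2 :=
            eventually_nhdsWithin_of_eventually_nhds (Iio_mem_nhds (by have := hx' i; positivity))
          filter_upwards [this] with ε hε
          linarith
        refine tendsto_const_nhds.congr' ?_
        filter_upwards [h2, self_mem_nhdsWithin] with ε h3 hε
        rw [T.ct_eq_one hε fun i => (h3 i).le, one_mul]
      · rw [indicator_of_notMem hx]
        have hx' : ∃ i, T.lam i x ≤ 0 := by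
          by_contra hn
          push Not at hn
          exact hx ((T.mem_table_iff x).2 hn)
        obtain ⟨i, hi⟩ := hx'
        refine tendsto_const_nhds.congr' ?_
        filter_upwards [self_mem_nhdsWithin] with ε hε
        have hε : 0 < ε := hε
        rw [T.ct_zero hε ⟨i, by linarith⟩, zero_mul]
  have habs : ∀ δ : ℝ, 0 < δ → |∫ x in T.table, D x| ≤ ns * (K * C * δ) := fun δ hδ =>
    le_of_tendsto hlim.abs (hsmall δ hδ)
  have hz : |∫ x in T.table, D x| ≤ 0 := by
    have h1 : Tendsto (fun δ : ℝ => ns * (K * C * δ)) (𝓝[>] 0) (𝓝 (ns * (K * C * 0))) :=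
      (tendsto_nhdsWithin_of_tendsto_nhds (Continuous.tendsto (by fun_prop) 0))
    rw [mul_zero, mul_zero] at h1
    exact ge_of_tendsto h1 (by filter_upwards [self_mem_nhdsWithin] with δ hδ using habs δ hδ)
  exact abs_nonpos_iff.1 hz


theorem cr_eq_zero_of_refl {a d : ℂ} (hd : d ≠ 0) (h : a = d / conj d * conj a) : cr a d = 0 := by
  have hc : conj d ≠ 0 := by simpa using hd
  have h1 : a * conj d = d * conj a := by
    conv_lhs => rw [h]
    field_simp
  have h2 := congrArg Complex.im h1
  simp only [Complex.mul_im, Complex.conj_im, mul_neg, Complex.conj_re] at h2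
  unfold cr
  linarith only [h2]


/-- first consequence: `Re ∫ ∂_z h = 0` -/
theorem green1 (h : ℂ → ℂ) (hh : ContDiff ℝ 1 h)
    (hb : ∀ i, ∀ y ∈ segment ℝ (T.P i) (T.P (i + 1)),
      h y = T.d i / (starRingEnd ℂ) (T.d i) * (starRingEnd ℂ) (h y)) :
    (∫ x in T.table, dz h x).re = 0 := by
  have hp : ContDiff ℝ 1 (fun z => (h z).re) := Complex.reCLM.contDiff.comp hh
  have hq : ContDiff ℝ 1 (fun z => (h z).im) := Complex.imCLM.contDiff.comp hh
  have hfd : Continuous (fderiv ℝ h) := hh.continuous_fderiv one_ne_zero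
  have hdz : Continuous (dz h) := by
    unfold dz
    exact (((hfd.clm_apply continuous_const)).sub
      (continuous_const.mul (hfd.clm_apply continuous_const))).div_const _
  have hint : IntegrableOn (dz h) T.table :=
    (hdz.continuousOn.integrableOn_compact T.isCompact_ctab).mono_set T.table_subset_ctab
  have hre : (∫ x in T.table, dz h x).re = ∫ x in T.table, (dz h x).re := by
    have := integral_re hint
    simpa only [RCLike.re_to_complex] using this.symm
  have hD : Differentiable ℝ h := hh.differentiable one_ne_zero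
  have hpt : ∀ x, (dz h x).re
      = (1 / 2) * (fderiv ℝ (fun z => (h z).re) x 1 + fderiv ℝ (fun z => (h z).im) x Complex.I) := by
    intro x
    have h1 : fderiv ℝ (fun z => (h z).re) x = Complex.reCLM.comp (fderiv ℝ h x) :=
      (Complex.reCLM.hasFDerivAt.comp x (hD x).hasFDerivAt).fderiv
    have h2 : fderiv ℝ (fun z => (h z).im) x = Complex.imCLM.comp (fderiv ℝ h x) :=
      (Complex.imCLM.hasFDerivAt.comp x (hD x).hasFDerivAt).fderiv
    rw [h1, h2]
    unfold dz
    simp only [Complex.div_ofNat_re, Complex.sub_re, Complex.mul_re, Complex.I_re, zero_mul, Complex.I_im, one_mul, zero_sub, sub_neg_eq_add, one_div, ContinuousLinearMap.comp_apply, Complex.reCLM_apply, Complex.imCLM_apply]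
    ring
  rw [hre]
  simp only [hpt]
  rw [integral_const_mul, div0 T _ _ hp hq, mul_zero]
  intro i y hy
  rw [Complex.re_add_im]
  exact cr_eq_zero_of_refl (T.d_ne i) (hb i _ hy)

/-- energy identity -/
theorem green2 (w : ℂ → ℂ) (hw : ContDiff ℝ 2 w)
    (hb : ∀ i, ∃ ω : ℂ, ∀ y ∈ segment ℝ (T.P i) (T.P (i + 1)),
      w y = ω * (starRingEnd ℂ) (w y)) :
    ∫ x in T.table, (‖dz w x‖ ^ 2 - ‖dzb w x‖ ^ 2) = 0 := by
  have hw1 : ContDiff ℝ 1 w := hw.of_le (by norm_num)
  have hwd : Differentiable ℝ w := hw.differentiable two_ne_zero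
  have hfd : ContDiff ℝ 1 (fderiv ℝ w) := hw.fderiv_right (by norm_num)
  have hfx : ∀ v : ℂ, ContDiff ℝ 1 (fun x => fderiv ℝ w x v) := fun v =>
    hfd.clm_apply contDiff_const
  have hcj : ContDiff ℝ 1 fun x => (starRingEnd ℂ) (w x) :=
    Complex.conjCLE.contDiff.comp hw1
  set p : ℂ → ℝ := fun x => ((starRingEnd ℂ) (w x) * fderiv ℝ w x Complex.I).im with hpdef
  set q : ℂ → ℝ := fun x => -((starRingEnd ℂ) (w x) * fderiv ℝ w x 1).im with hqdef
  have hp : ContDiff ℝ 1 p := Complex.imCLM.contDiff.comp (hcj.mul (hfx _))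
  have hq : ContDiff ℝ 1 q := (Complex.imCLM.contDiff.comp (hcj.mul (hfx _))).neg
  have hd0 := div0 T p q hp hq ?_
  · -- the divergence is twice the Jacobian
    have hpt : ∀ x, fderiv ℝ p x 1 + fderiv ℝ q x Complex.I =
        2 * (‖dz w x‖ ^ 2 - ‖dzb w x‖ ^ 2) := by
      intro x
      have hf1 := ((hfx 1).differentiable one_ne_zero x).hasFDerivAt
      have hfI := ((hfx Complex.I).differentiable one_ne_zero x).hasFDerivAt
      have hc := (hcj.differentiable one_ne_zero x).hasFDerivAt
      have ec : ∀ v, fderiv ℝ (fun x => (starRingEnd ℂ) (w x)) x v = (starRingEnd ℂ) (fderiv ℝ w x v) := by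
        intro v
        have h1 : HasFDerivAt (fun x => (starRingEnd ℂ) (w x))
            ((Complex.conjCLE : ℂ →L[ℝ] ℂ).comp (fderiv ℝ w x)) x :=
          (Complex.conjCLE : ℂ →L[ℝ] ℂ).hasFDerivAt.comp x (hwd x).hasFDerivAt
        rw [h1.fderiv]
        rfl
      have e1 : fderiv ℝ p x 1 = ((starRingEnd ℂ) (w x) * fderiv ℝ (fun x => fderiv ℝ w x Complex.I) x 1
          + fderiv ℝ w x Complex.I * (starRingEnd ℂ) (fderiv ℝ w x 1)).im := by
        have h1 : HasFDerivAt p (Complex.imCLM.comp ((starRingEnd ℂ) (w x) •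
            fderiv ℝ (fun x => fderiv ℝ w x Complex.I) x + fderiv ℝ w x Complex.I •
            fderiv ℝ (fun x => (starRingEnd ℂ) (w x)) x)) x :=
          Complex.imCLM.hasFDerivAt.comp x (hc.mul hfI)
        rw [h1.fderiv]
        simp only [ContinuousLinearMap.comp_apply, _root_.add_apply, _root_.smul_apply,
          smul_eq_mul, Complex.imCLM_apply, ec]
      have e2 : fderiv ℝ q x Complex.I = -((starRingEnd ℂ) (w x) * fderiv ℝ (fun x => fderiv ℝ w x 1) x Complex.I
          + fderiv ℝ w x 1 * (starRingEnd ℂ) (fderiv ℝ w x Complex.I)).im := by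
        have h1 : HasFDerivAt q (-(Complex.imCLM.comp ((starRingEnd ℂ) (w x) •
            fderiv ℝ (fun x => fderiv ℝ w x 1) x + fderiv ℝ w x 1 •
            fderiv ℝ (fun x => (starRingEnd ℂ) (w x)) x))) x :=
          (Complex.imCLM.hasFDerivAt.comp x (hc.mul hf1)).neg
        rw [h1.fderiv]
        simp only [ContinuousLinearMap.comp_apply, _root_.add_apply, _root_.smul_apply,
          _root_.neg_apply, smul_eq_mul, Complex.imCLM_apply, ec]
      -- symmetry of second derivatives
      have hsym : fderiv ℝ (fun x => fderiv ℝ w x Complex.I) x 1 =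
          fderiv ℝ (fun x => fderiv ℝ w x 1) x Complex.I := by
        have hdd := (hfd.differentiable one_ne_zero x).hasFDerivAt
        have h1 : ∀ v u, fderiv ℝ (fun x => fderiv ℝ w x v) x u = fderiv ℝ (fderiv ℝ w) x u v := by
          intro v u
          have h2 : HasFDerivAt (fun x => fderiv ℝ w x v)
              ((ContinuousLinearMap.apply ℝ ℂ v).comp (fderiv ℝ (fderiv ℝ w) x)) x :=
            (ContinuousLinearMap.apply ℝ ℂ v).hasFDerivAt.comp x hdd
          rw [h2.fderiv]
          rfl
        rw [h1, h1]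
        exact second_derivative_symmetric (fun y => (hwd y).hasFDerivAt) hdd 1 Complex.I
      have hj := jac_point w x 1 Complex.I
      have hj2 := congrArg Complex.im hj
      rw [Complex.im_ofReal_mul, Complex.I_im, mul_one] at hj2
      have hcr : cr 1 Complex.I = 1 := by unfold cr; simp
      rw [hcr, mul_one] at hj2
      rw [e1, e2, hsym, ← hj2]
      simp only [Complex.add_im, Complex.sub_im, Complex.mul_im, Complex.conj_re, Complex.conj_im]
      ring
    simp only [hpt] at hd0
    rw [integral_const_mul] at hd0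
    rcases mul_eq_zero.1 hd0 with h | h
    · norm_num at h
    · exact h
  · intro i y hy
    obtain ⟨ω, hω⟩ := hb i
    obtain ⟨c, hc⟩ := exists_line ω
    have hline : ∀ z ∈ segment ℝ (T.P i) (T.P (i + 1)), ∃ r : ℝ, w z = r * c := fun z hz =>
      hc (w z) (hω z hz)
    -- the tangential derivative
    have key : ∀ t ∈ Ioo (0:ℝ) 1, ((starRingEnd ℂ) (w (T.P i + t • T.d i)) *
        fderiv ℝ w (T.P i + t • T.d i) (T.d i)).im = 0 := by
      intro t ht
      have hseg : ∀ s ∈ Ioo (0:ℝ) 1, T.P i + s • T.d i ∈ segment ℝ (T.P i) (T.P (i + 1)) :=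
        fun s hs => mem_seg ⟨hs.1.le, hs.2.le⟩
      have hder : HasDerivAt (fun t : ℝ => w (T.P i + t • T.d i))
          (fderiv ℝ w (T.P i + t • T.d i) (T.d i)) t := by
        have h1 : HasFDerivAt w (fderiv ℝ w (T.P i + t • T.d i)) (T.P i + t • T.d i) :=
          (hwd _).hasFDerivAt
        have h2 : HasDerivAt (fun t : ℝ => T.P i + t • T.d i) (T.d i) t := by
          simpa using ((hasDerivAt_id t).smul_const (T.d i)).const_add (T.P i)
        exact h1.comp_hasDerivAt t h2
      by_cases hc0 : c = 0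
      · obtain ⟨r, hr⟩ := hline _ (hseg t ht)
        rw [hr, hc0]
        simp only [mul_zero, map_zero, zero_mul, Complex.zero_im]
      · have h3 : HasDerivAt (fun t : ℝ => (w (T.P i + t • T.d i) / c).im)
            ((fderiv ℝ w (T.P i + t • T.d i) (T.d i) / c).im) t := by
          have h4 := hder.div_const c
          exact (Complex.imCLM.hasFDerivAt.comp_hasDerivAt t h4)
        have h5 : (fun t : ℝ => (w (T.P i + t • T.d i) / c).im) =ᶠ[nhds t] fun _ => (0 : ℝ) := by
          filter_upwards [Ioo_mem_nhds ht.1 ht.2] with t' ht'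
          obtain ⟨r, hr⟩ := hline _ (hseg t' ht')
          rw [hr, mul_div_cancel_right₀ _ hc0]
          exact Complex.ofReal_im r
        have h6 : (fderiv ℝ w (T.P i + t • T.d i) (T.d i) / c).im = 0 := by
          have h7 := h5.deriv_eq
          rw [h3.deriv] at h7
          simpa only [deriv_const'] using h7
        obtain ⟨r, hr⟩ := hline _ (hseg t ht)
        set Q := fderiv ℝ w (T.P i + t • T.d i) (T.d i) / c with hQ
        have h8 : fderiv ℝ w (T.P i + t • T.d i) (T.d i) = Q * c := by
          rw [hQ, div_mul_cancel₀ _ hc0]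
        rw [hr, h8]
        have h9 : Q = (Q.re : ℂ) := by
          apply Complex.ext
          · simp
          · simpa using h6
        rw [h9]
        simp only [map_mul, Complex.conj_ofReal, Complex.mul_im, Complex.mul_re, Complex.ofReal_re, Complex.conj_re, Complex.ofReal_im, Complex.conj_im, mul_neg, zero_mul, neg_zero, sub_zero, add_zero, neg_mul]
        ring
    -- by continuity at the end points too
    have hflux : ∀ z, cr ((p z : ℂ) + q z * Complex.I) (T.d i) =
        ((starRingEnd ℂ) (w z) * fderiv ℝ w z (T.d i)).im := by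
      intro z
      rw [fderiv_complex_eq w z (T.d i)]
      simp only [hpdef, hqdef]
      unfold cr
      simp only [Complex.add_re, Complex.add_im, Complex.mul_re, Complex.mul_im, Complex.ofReal_re,
        Complex.ofReal_im, Complex.I_re, Complex.I_im, Complex.conj_re, Complex.conj_im]
      ring
    rw [hflux]
    have hy2 : ∃ t ∈ Icc (0:ℝ) 1, y = T.P i + t • T.d i := by
      rw [segment_eq_image'] at hy
      obtain ⟨t, ht, rfl⟩ := hy
      exact ⟨t, ht, rfl⟩
    obtain ⟨t, ht, rfl⟩ := hy2
    have hcont : Continuous fun t : ℝ => ((starRingEnd ℂ) (w (T.P i + t • T.d i)) *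
        fderiv ℝ w (T.P i + t • T.d i) (T.d i)).im := by
      have h1 : Continuous fun t : ℝ => T.P i + t • T.d i := by fun_prop
      refine Complex.continuous_im.comp ?_
      refine (Complex.continuous_conj.comp (hw1.continuous.comp h1)).mul ?_
      exact (hfd.continuous.comp h1).clm_apply continuous_const
    have hcl : t ∈ closure (Ioo (0:ℝ) 1) := by
      rw [closure_Ioo zero_ne_one]; exact ht
    exact (isClosed_eq hcont continuous_const).closure_subset_iff.2 key hcl


end ConvexPolygon

end Vale.Agent.P099C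
end
end

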