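import Vale.Agent.P099.MathlibUsed
import Vale.Agent.P099.H504.CPC
attribute [-instance] ProperSMul.toContinuousSMul IsTopologicalTorsor.toContinuousSMul IdemSemiring.toCanonicallyOrderedAdd IdemSemiring.toMulLeftMono IdemSemiring.toMulRightMono AddQuantale.instAddLeftMono AddQuantale.instAddRightMono Quantale.instMulLeftMono Quantale.instMulRightMono FiniteDimensional.rclike_to_real IsScalarTower.complexToReal FiniteDimensional.complexToReal

set_option linter.all false

section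

section

/-!
# P099: Green's formula on the standard simplex and the Jacobian identity
-/

namespace Vale.Agent.P099C
open Vale.Agent.P099 (nu FlowErgodic FlowWeakMixing)

open MeasureTheory Set

/-- The open standard simplex. -/
def simp2 : Set (ℝ × ℝ) := {p | 0 < p.1 ∧ 0 < p.2 ∧ p.1 + p.2 < 1}

theorem isOpen_simp2 : IsOpen simp2 := by
  have h1 : IsOpen {p : ℝ × ℝ | 0 < p.1} := isOpen_lt continuous_const continuous_fst
  have h2 : IsOpen {p : ℝ × ℝ | 0 < p.2} := isOpen_lt continuous_const continuous_snd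
  have h3 : IsOpen {p : ℝ × ℝ | p.1 + p.2 < 1} :=
    isOpen_lt (continuous_fst.add continuous_snd) continuous_const
  exact h1.inter (h2.inter h3)

theorem simp2_subset : simp2 ⊆ Icc 0 1 ×ˢ Icc 0 1 := by
  rintro ⟨s, t⟩ ⟨h1, h2, h3⟩
  simp only at h1 h2 h3
  exact ⟨⟨h1.le, by linarith⟩, ⟨h2.le, by linarith⟩⟩

variable {E : Type*} [NormedAddCommGroup E] [NormedSpace ℝ E] [CompleteSpace E]

omit [CompleteSpace E] [NormedSpace ℝ E] in
theorem integrableOn_simp2 {φ : ℝ × ℝ → E} (hφ : Continuous φ) :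
    IntegrableOn φ simp2 (volume : Measure (ℝ × ℝ)) := by
  have hK : IsCompact (Icc (0 : ℝ) 1 ×ˢ Icc (0 : ℝ) 1) := isCompact_Icc.prod isCompact_Icc
  exact (hφ.continuousOn.integrableOn_compact hK).mono_set simp2_subset

omit [CompleteSpace E] in
theorem integral_simp2 {φ : ℝ × ℝ → E} (hφ : Continuous φ) :
    ∫ p in simp2, φ p = ∫ s in (0 : ℝ)..1, ∫ t in (0 : ℝ)..(1 - s), φ (s, t) := by
  have hm : MeasurableSet simp2 := isOpen_simp2.measurableSet
  have hint : Integrable (simp2.indicator φ) ((volume : Measure ℝ).prod (volume : Measure ℝ)) :=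
    (integrable_indicator_iff hm).2 (integrableOn_simp2 hφ)
  rw [← integral_indicator hm]
  have h0 : ∫ p, simp2.indicator φ p
      = ∫ s : ℝ, ∫ t : ℝ, simp2.indicator φ (s, t) := integral_prod _ hint
  rw [h0, intervalIntegral.integral_of_le zero_le_one, integral_Ioc_eq_integral_Ioo,
    ← integral_indicator measurableSet_Ioo]
  congr 1
  funext s
  by_cases hs : s ∈ Ioo (0 : ℝ) 1
  · rw [indicator_of_mem hs, intervalIntegral.integral_of_le (by linarith only [hs.2]),
      integral_Ioc_eq_integral_Ioo, ← integral_indicator measurableSet_Ioo]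
    congr 1
    funext t
    by_cases ht : t ∈ Ioo (0 : ℝ) (1 - s)
    · rw [indicator_of_mem ht, indicator_of_mem]
      exact ⟨hs.1, ht.1, by have := ht.2; simp only; linarith⟩
    · rw [indicator_of_notMem ht, indicator_of_notMem]
      rintro ⟨_, h2, h3⟩
      simp only at h2 h3
      exact ht ⟨h2, by linarith⟩
  · rw [indicator_of_notMem hs]
    have hz : ∀ t : ℝ, simp2.indicator φ (s, t) = 0 := by
      intro t
      rw [indicator_of_notMem]
      rintro ⟨h1, h2, h3⟩
      simp only at h1 h2 h3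
      exact hs ⟨h1, by linarith⟩
    simp only [hz, integral_zero]

omit [CompleteSpace E] in
theorem integral_simp2' {φ : ℝ × ℝ → E} (hφ : Continuous φ) :
    ∫ p in simp2, φ p = ∫ t in (0 : ℝ)..1, ∫ s in (0 : ℝ)..(1 - t), φ (s, t) := by
  have hsw : MeasurePreserving (Prod.swap : ℝ × ℝ → ℝ × ℝ) volume volume :=
    Measure.measurePreserving_swap
  have he : MeasurableEmbedding (Prod.swap : ℝ × ℝ → ℝ × ℝ) :=
    (MeasurableEquiv.prodComm (α := ℝ) (β := ℝ)).measurableEmbedding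
  have h1 := hsw.setIntegral_preimage_emb he φ simp2
  have h2 : (Prod.swap : ℝ × ℝ → ℝ × ℝ) ⁻¹' simp2 = simp2 := by
    ext ⟨s, t⟩
    simp only [simp2, mem_preimage, Prod.swap_prod_mk, mem_ofPred_eq]
    constructor
    · rintro ⟨a, b, c⟩
      exact ⟨b, a, by linarith only [c]⟩
    · rintro ⟨a, b, c⟩
      exact ⟨b, a, by linarith⟩
  rw [h2] at h1
  rw [← h1]
  exact integral_simp2 (φ := fun p => φ p.swap) (hφ.comp continuous_swap)

/-- Green's formula on the simplex. -/
theorem green_simp2 {F G Fs Gt : ℝ × ℝ → E} (hFc : Continuous Fs) (hGc : Continuous Gt)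
    (hF : ∀ s t, HasDerivAt (fun s => F (s, t)) (Fs (s, t)) s)
    (hG : ∀ s t, HasDerivAt (fun t => G (s, t)) (Gt (s, t)) t)
    (hFcont : Continuous F) (hGcont : Continuous G) :
    ∫ p in simp2, (Fs p - Gt p)
      = (∫ t in (0 : ℝ)..1, (F (1 - t, t) - G (1 - t, t))) - (∫ t in (0 : ℝ)..1, F (0, t))
        + ∫ s in (0 : ℝ)..1, G (s, 0) := by
  rw [integral_sub (integrableOn_simp2 hFc) (integrableOn_simp2 hGc), integral_simp2' hFc,
    integral_simp2 hGc]
  have h1 : ∀ t : ℝ, ∫ s in (0 : ℝ)..(1 - t), Fs (s, t) = F (1 - t, t) - F (0, t) := by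
    intro t
    refine intervalIntegral.integral_eq_sub_of_hasDerivAt (fun s _ => hF s t) ?_
    exact (hFc.comp (continuous_id.prodMk continuous_const)).intervalIntegrable _ _
  have h2 : ∀ s : ℝ, ∫ t in (0 : ℝ)..(1 - s), Gt (s, t) = G (s, 1 - s) - G (s, 0) := by
    intro s
    refine intervalIntegral.integral_eq_sub_of_hasDerivAt (fun t _ => hG s t) ?_
    exact (hGc.comp (continuous_const.prodMk continuous_id)).intervalIntegrable _ _
  simp only [h1, h2]
  have c1 : Continuous fun t : ℝ => F (1 - t, t) := by fun_prop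
  have c2 : Continuous fun t : ℝ => F (0, t) := by fun_prop
  have c3 : Continuous fun t : ℝ => G (1 - t, t) := by fun_prop
  have c4 : Continuous fun t : ℝ => G (t, 1 - t) := by fun_prop
  have c5 : Continuous fun t : ℝ => G (t, 0) := by fun_prop
  rw [intervalIntegral.integral_sub (c1.intervalIntegrable _ _) (c2.intervalIntegrable _ _),
    intervalIntegral.integral_sub (c4.intervalIntegrable _ _) (c5.intervalIntegrable _ _),
    intervalIntegral.integral_sub (c1.intervalIntegrable _ _) (c3.intervalIntegrable _ _)]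
  have h3 : ∫ s in (0 : ℝ)..1, G (s, 1 - s) = ∫ t in (0 : ℝ)..1, G (1 - t, t) := by
    have := intervalIntegral.integral_comp_sub_left (a := 0) (b := 1)
      (fun s : ℝ => G (s, 1 - s)) 1
    simp only [sub_sub_cancel, sub_zero, sub_self] at this
    exact this.symm
  rw [h3]
  abel

/-- Determinant of two plane vectors. -/
def cdet (u v : ℂ) : ℝ := u.re * v.im - u.im * v.re

/-- Affine parametrization of a triangle. -/
noncomputable def tri (A u v : ℂ) (p : ℝ × ℝ) : ℂ := A + (p.1 • u + p.2 • v)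

theorem continuous_tri (A u v : ℂ) : Continuous (tri A u v) := by
  unfold tri
  fun_prop

/-- The linear part as a continuous linear map of `ℂ`. -/
noncomputable def triL (u v : ℂ) : ℂ →L[ℝ] ℂ :=
  Complex.reCLM.smulRight u + Complex.imCLM.smulRight v

theorem triL_apply (u v z : ℂ) : triL u v z = z.re • u + z.im • v := rfl

theorem det_triL (u v : ℂ) : (triL u v).det = cdet u v := by
  have h : (triL u v).det = LinearMap.det ((triL u v : ℂ →L[ℝ] ℂ) : ℂ →ₗ[ℝ] ℂ) := rfl
  rw [h, ← LinearMap.det_toMatrix Complex.basisOneI, Matrix.det_fin_two]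
  simp only [LinearMap.toMatrix_apply, ContinuousLinearMap.coe_coe, triL_apply]
  unfold cdet
  simp
  ring

theorem triL_injective {u v : ℂ} (h : cdet u v ≠ 0) : Function.Injective (triL u v) := by
  intro z z' hz
  rw [triL_apply, triL_apply] at hz
  have h1 := congrArg Complex.re hz
  have h2 := congrArg Complex.im hz
  simp only [Complex.real_smul, Complex.add_re, Complex.mul_re, Complex.ofReal_re, Complex.ofReal_im, zero_mul, sub_zero, Complex.add_im, Complex.mul_im, add_zero] at h1 h2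
  unfold cdet at h
  have e1 : (z.re - z'.re) * (u.re * v.im - u.im * v.re) = 0 := by
    linear_combination v.im * h1 - v.re * h2
  have e2 : (z.im - z'.im) * (u.re * v.im - u.im * v.re) = 0 := by
    linear_combination u.re * h2 - u.im * h1
  apply Complex.ext
  · rcases mul_eq_zero.1 e1 with h3 | h3
    · linarith
    · exact absurd h3 h
  · rcases mul_eq_zero.1 e2 with h3 | h3
    · linarith only [h3]
    · exact absurd h3 h

/-- Change of variables from the triangle to the simplex. -/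
theorem integral_tri {E : Type*} [NormedAddCommGroup E] [NormedSpace ℝ E] (A : ℂ) {u v : ℂ}
    (h : cdet u v ≠ 0) (f : ℂ → E) :
    ∫ x in tri A u v '' simp2, f x = |cdet u v| • ∫ p in simp2, f (tri A u v p) := by
  set e := Complex.measurableEquivRealProd with he
  have hmp : MeasurePreserving e volume volume := Complex.volume_preserving_equiv_real_prod
  set S : Set ℂ := e ⁻¹' simp2 with hS
  have hSm : MeasurableSet S := e.measurable isOpen_simp2.measurableSet
  set φ : ℂ → ℂ := fun z => A + triL u v z with hφ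
  have hφe : ∀ z, φ z = tri A u v (e z) := fun z => rfl
  have himg : tri A u v '' simp2 = φ '' S := by
    ext x
    constructor
    · rintro ⟨p, hp, rfl⟩
      refine ⟨e.symm p, ?_, ?_⟩
      · show e (e.symm p) ∈ simp2
        rwa [e.apply_symm_apply]
      · rw [hφe, e.apply_symm_apply]
    · rintro ⟨z, hz, rfl⟩
      exact ⟨e z, hz, (hφe z).symm⟩
  have hinj : Function.Injective φ := fun z z' hz => triL_injective h (add_left_cancel hz)
  have hder : ∀ z ∈ S, HasFDerivWithinAt φ (triL u v) S z := fun z _ =>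
    ((triL u v).hasFDerivAt.const_add A).hasFDerivWithinAt
  rw [himg, integral_image_eq_integral_abs_det_fderiv_smul volume hSm hder hinj.injOn f,
    det_triL, integral_smul]
  congr 1
  exact hmp.setIntegral_preimage_emb e.measurableEmbedding (fun p => f (tri A u v p)) simp2

theorem integrableOn_tri {E : Type*} [NormedAddCommGroup E] {A u v : ℂ}
    {f : ℂ → E} (hf : Continuous f) : IntegrableOn f (tri A u v '' simp2) := by
  have hK : IsCompact (tri A u v '' (Icc (0 : ℝ) 1 ×ˢ Icc (0 : ℝ) 1)) :=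
    (isCompact_Icc.prod isCompact_Icc).image (continuous_tri A u v)
  exact (hf.continuousOn.integrableOn_compact hK).mono_set (image_mono simp2_subset)

end Vale.Agent.P099C
end
end

section

section

open Filter Topology

namespace Vale.Agent.P099C
open Vale.Agent.P099 (nu FlowErgodic FlowWeakMixing)

variable {H : Type*} [NormedAddCommGroup H] [InnerProductSpace ℂ H]

/-- a sequence with bounded sums of squares tends to zero along `k + N` -/
lemma hil_tendsto_zero (A : ℤ → H) (a : ℝ)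
    (hA : ∀ s : Finset ℤ, ∑ k ∈ s, ‖A k‖ ^ 2 ≤ a ^ 2) (k : ℤ) :
    Tendsto (fun N : ℕ => ‖A (k + N)‖) atTop (𝓝 0) := by
  have hs : Summable (fun k : ℤ => ‖A k‖ ^ 2) :=
    summable_of_sum_le (fun k => by positivity) hA
  have h0 : Tendsto (fun k : ℤ => ‖A k‖ ^ 2) cofinite (𝓝 0) := hs.tendsto_cofinite_zero
  have hinj : Function.Injective (fun N : ℕ => k + (N : ℤ)) := by
    intro x y hxy
    have : (x : ℤ) = y := by simpa only [Nat.cast_inj, add_right_inj] using hxy
    exact_mod_cast this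
  have h1 : Tendsto (fun N : ℕ => ‖A (k + N)‖ ^ 2) atTop (𝓝 0) := by
    have := h0.comp hinj.tendsto_cofinite
    rwa [Nat.cofinite_eq_atTop] at this
  have h2 := h1.sqrt
  simpa only [Real.sqrt_sq (norm_nonneg _), Real.sqrt_zero] using h2

/-- Cauchy-Schwarz for finite sums, in the form used here -/
lemma hil_cs (s : Finset ℤ) (x y : ℤ → ℝ) (hx : ∀ k, 0 ≤ x k) (hy : ∀ k, 0 ≤ y k) (p q : ℝ)
    (hp : 0 ≤ p) (hq : 0 ≤ q) (h1 : ∑ k ∈ s, x k ^ 2 ≤ p ^ 2) (h2 : ∑ k ∈ s, y k ^ 2 ≤ q ^ 2) :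
    ∑ k ∈ s, x k * y k ≤ p * q := by
  have h := Finset.sum_mul_sq_le_sq_mul_sq s x y
  have h3 : (∑ k ∈ s, x k * y k) ^ 2 ≤ (p * q) ^ 2 := by
    calc (∑ k ∈ s, x k * y k) ^ 2 ≤ (∑ k ∈ s, x k ^ 2) * ∑ k ∈ s, y k ^ 2 := h
      _ ≤ p ^ 2 * q ^ 2 := by
          apply mul_le_mul h1 h2 (Finset.sum_nonneg fun k _ => by (clear * -; positivity)) (by positivity)
      _ = (p * q) ^ 2 := by ring
  exact abs_le_of_sq_le_sq' h3 (by positivity) |>.2

/-- The abstract energy argument. -/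
theorem hilbert_energy (A B V g : ℤ → H)
    (hAB : ∀ k, ‖A k‖ = ‖B k‖)
    (hsum : ∀ k, A (k - 1) + B (k + 1) = V k + g k)
    (hskew : ∀ k, (inner ℂ (A (k - 1)) (V k)).re = (inner ℂ (V (k - 1)) (B k)).re)
    (a v e : ℝ) (ha : 0 ≤ a) (hv : 0 ≤ v) (he : 0 ≤ e)
    (hA : ∀ s : Finset ℤ, ∑ k ∈ s, ‖A k‖ ^ 2 ≤ a ^ 2)
    (hV : ∀ s : Finset ℤ, ∑ k ∈ s, ‖V k‖ ^ 2 ≤ v ^ 2)
    (hg : ∀ s : Finset ℤ, ∑ k ∈ s, ‖g k‖ ^ 2 ≤ e ^ 2)
    (k : ℤ) (n : ℕ) (hn : |k| ≤ n) :
    ‖A (k - 1) - B (k + 1)‖ ^ 2 ≤ ‖V (n + 1)‖ ^ 2 + ‖V (-n - 1)‖ ^ 2 +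
      100 * (n + 1) * (e * a + e * v + e ^ 2) := by
  classical
  -- real inner products
  set b : ℤ → ℝ := fun k => (inner ℂ (A (k - 1)) (V k)).re with hb
  set σ : ℤ → ℝ := fun k => (inner ℂ (g k) (V k)).re with hσ
  set δ : ℤ → ℝ := fun k => (inner ℂ (g k) (B (k + 1) - A (k - 1))).re with hδ
  set y : ℤ → ℝ := fun k => ‖A (k - 1) - B (k + 1)‖ ^ 2 with hy
  set D : ℤ → ℝ := fun k => ‖A k‖ ^ 2 + ‖A (k - 1)‖ ^ 2 - b k with hD
  have hsym : ∀ x z : H, (inner ℂ x z).re = (inner ℂ z x).re := fun x z =>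
    inner_re_symm (𝕜 := ℂ) x z
  -- (i)
  have h1 : ∀ k, b k + b (k + 1) = ‖V k‖ ^ 2 + σ k := by
    intro k
    have e1 : b (k + 1) = (inner ℂ (B (k + 1)) (V k)).re := by
      have := hskew (k + 1)
      simp only [add_sub_cancel_right] at this
      simp only [hb, add_sub_cancel_right]
      rw [this, hsym]
    have e2 : (inner ℂ (A (k - 1) + B (k + 1)) (V k)).re = (inner ℂ (V k + g k) (V k)).re := by
      rw [hsum k]
    rw [inner_add_left, inner_add_left, Complex.add_re, Complex.add_re] at e2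
    have e3 : (inner ℂ (V k) (V k)).re = ‖V k‖ ^ 2 := by
      rw [inner_self_eq_norm_sq_to_K]
      norm_cast
    rw [e1]
    simp only [hb, hσ]
    linarith only [e2, e3]
  -- (ii)
  have h2 : ∀ k, D (k + 1) = D k + δ k := by
    intro k
    have e1 : ‖B (k + 1)‖ ^ 2 - ‖A (k - 1)‖ ^ 2 =
        (inner ℂ (A (k - 1) + B (k + 1)) (B (k + 1) - A (k - 1))).re := by
      rw [inner_add_left, inner_sub_right, inner_sub_right]
      simp only [Complex.add_re, Complex.sub_re]
      rw [hsym (A (k - 1)) (B (k + 1))]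
      have e3 : (inner ℂ (B (k + 1)) (B (k + 1))).re = ‖B (k + 1)‖ ^ 2 := by
        rw [inner_self_eq_norm_sq_to_K]; norm_cast
      have e4 : (inner ℂ (A (k - 1)) (A (k - 1))).re = ‖A (k - 1)‖ ^ 2 := by
        rw [inner_self_eq_norm_sq_to_K]; norm_cast
      rw [e3, e4]; ring
    rw [hsum k, inner_add_left, Complex.add_re] at e1
    have e2 : (inner ℂ (V k) (B (k + 1) - A (k - 1))).re = b (k + 1) - b k := by
      rw [inner_sub_right, Complex.sub_re]
      have := hskew (k + 1)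
      simp only [add_sub_cancel_right] at this
      simp only [hb, add_sub_cancel_right]
      rw [this, hsym (V k) (A (k - 1))]
    rw [e2] at e1
    have e5 : ‖A (k + 1)‖ ^ 2 = ‖B (k + 1)‖ ^ 2 := by rw [hAB]
    simp only [hD, hδ, add_sub_cancel_right]
    linarith only [e1, e5]
  -- (iii)
  have h3 : ∀ k, y k ≤ 2 * (‖A (k - 1)‖ ^ 2 + ‖A (k + 1)‖ ^ 2) - b k - b (k + 1) - σ k := by
    intro k
    have e1 := parallelogram_law_with_norm ℂ (A (k - 1)) (B (k + 1))
    have e2 : ‖A (k - 1) + B (k + 1)‖ * ‖A (k - 1) + B (k + 1)‖ ≥ ‖V k‖ ^ 2 + 2 * σ k := by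
      rw [hsum k]
      have e3 : ‖V k + g k‖ * ‖V k + g k‖ = ‖V k‖ * ‖V k‖ + 2 * (inner ℂ (V k) (g k)).re +
          ‖g k‖ * ‖g k‖ := by
        have := norm_add_mul_self (𝕜 := ℂ) (V k) (g k)
        simpa only [RCLike.re_to_complex] using this
      rw [e3]
      simp only [hσ]
      rw [hsym (V k) (g k)]
      nlinarith only []
    have e4 : ‖A (k + 1)‖ = ‖B (k + 1)‖ := hAB _
    have e5 := h1 k
    simp only [hy]
    rw [e4]
    linarith
  -- bounds on the errors
  have hσb : ∀ s : Finset ℤ, ∑ k ∈ s, |σ k| ≤ e * v := by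
    intro s
    calc ∑ k ∈ s, |σ k| ≤ ∑ k ∈ s, ‖g k‖ * ‖V k‖ := by
          apply Finset.sum_le_sum
          intro k _
          exact (Complex.abs_re_le_norm _).trans (norm_inner_le_norm _ _)
      _ ≤ e * v := hil_cs s _ _ (fun _ => norm_nonneg _) (fun _ => norm_nonneg _) e v he hv
          (hg s) (hV s)
  have hshift : ∀ (c : ℤ) (s : Finset ℤ), ∑ k ∈ s, ‖A (k + c)‖ ^ 2 ≤ a ^ 2 := by
    intro c s
    have := hA (s.map (Equiv.addRight c).toEmbedding)
    rwa [Finset.sum_map] at this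
  have hδb : ∀ s : Finset ℤ, ∑ k ∈ s, |δ k| ≤ 2 * (e * a) := by
    intro s
    calc ∑ k ∈ s, |δ k| ≤ ∑ k ∈ s, (‖g k‖ * ‖A (k + 1)‖ + ‖g k‖ * ‖A (k + -1)‖) := by
          apply Finset.sum_le_sum
          intro k _
          calc |δ k| ≤ ‖inner ℂ (g k) (B (k + 1) - A (k - 1))‖ := Complex.abs_re_le_norm _
            _ ≤ ‖g k‖ * ‖B (k + 1) - A (k - 1)‖ := norm_inner_le_norm _ _
            _ ≤ ‖g k‖ * (‖B (k + 1)‖ + ‖A (k - 1)‖) := by
                gcongr
                exact norm_sub_le _ _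
            _ = ‖g k‖ * ‖A (k + 1)‖ + ‖g k‖ * ‖A (k + -1)‖ := by
                rw [hAB (k + 1)]
                ring_nf
      _ = ∑ k ∈ s, ‖g k‖ * ‖A (k + 1)‖ + ∑ k ∈ s, ‖g k‖ * ‖A (k + -1)‖ :=
          Finset.sum_add_distrib
      _ ≤ e * a + e * a := by
          apply add_le_add
          · exact hil_cs s _ _ (fun _ => norm_nonneg _) (fun _ => norm_nonneg _) e a he ha
              (hg s) (hshift 1 s)
          · exact hil_cs s _ _ (fun _ => norm_nonneg _) (fun _ => norm_nonneg _) e a he ha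
              (hg s) (hshift (-1) s)
      _ = 2 * (e * a) := by ring
  have hσ1 : ∀ k, |σ k| ≤ e * v := fun k => by
    simpa only [Finset.sum_singleton] using hσb { k }
  -- telescoping of D
  have hDN : ∀ (k : ℤ) (N : ℕ), D (k + N) = D k + ∑ j ∈ Finset.range N, δ (k + j) := by
    intro k N
    induction N with
    | zero => simp
    | succ N ih =>
      rw [Finset.sum_range_succ, ← add_assoc, ← ih]
      have := h2 (k + N)
      push_cast
      rw [← add_assoc]
      exact this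
  have hDlim : ∀ k : ℤ, Tendsto (fun N : ℕ => D (k + N)) atTop (𝓝 0) := by
    intro k
    have t1 := hil_tendsto_zero A a hA k
    have t2 := hil_tendsto_zero A a hA (k - 1)
    have t3 := hil_tendsto_zero V v hV k
    have t4 : Tendsto (fun N : ℕ => b (k + N)) atTop (𝓝 0) := by
      refine squeeze_zero_norm (a := fun N : ℕ => ‖A (k - 1 + N)‖ * ‖V (k + N)‖) ?_ ?_
      · intro N
        calc ‖b (k + N)‖ ≤ ‖inner ℂ (A (k + N - 1)) (V (k + N))‖ := Complex.abs_re_le_norm _
          _ ≤ ‖A (k + N - 1)‖ * ‖V (k + N)‖ := norm_inner_le_norm _ _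
          _ = ‖A (k - 1 + N)‖ * ‖V (k + N)‖ := by
              rw [show k + (N : ℤ) - 1 = k - 1 + N by ring]
      · simpa only [mul_zero] using t2.mul t3
    have t5 := ((t1.pow 2).add (t2.pow 2)).sub t4
    simp only [ne_eq, OfNat.ofNat_ne_zero, not_false_eq_true, zero_pow, add_zero, sub_zero] at t5
    refine t5.congr ?_
    intro N
    simp only [hD]
    rw [show k + (N : ℤ) - 1 = k - 1 + N by ring]
  have hDb : ∀ k, |D k| ≤ 2 * (e * a) := by
    intro k
    have t : Tendsto (fun N : ℕ => |D (k + N) - D k|) atTop (𝓝 |0 - D k|) :=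
      ((hDlim k).sub_const _).abs
    have hle : |0 - D k| ≤ 2 * (e * a) := by
      refine le_of_tendsto t (Eventually.of_forall ?_)
      intro N
      rw [hDN k N, add_sub_cancel_left]
      calc |∑ j ∈ Finset.range N, δ (k + j)| ≤ ∑ j ∈ Finset.range N, |δ (k + j)| :=
            Finset.abs_sum_le_sum_abs _ _
        _ = ∑ j ∈ (Finset.range N).map ⟨fun j : ℕ => k + (j : ℤ), by
              intro x y hxy
              have : (x : ℤ) = y := by simpa using hxy
              exact_mod_cast this⟩, |δ j| := by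
            rw [Finset.sum_map]; rfl
        _ ≤ 2 * (e * a) := hδb _
    simpa only [ge_iff_le, zero_sub, abs_neg] using hle
  -- lower and upper bounds for b
  have hblow : ∀ k, -(2 * (e * a)) ≤ b k := by
    intro k
    have := (abs_le.1 (hDb k)).2
    simp only [hD] at this
    nlinarith only [this]
  have hbup1 : ∀ k, b k ≤ ‖V k‖ ^ 2 + e * v + 2 * (e * a) := by
    intro k
    have e1 := h1 k
    have e2 := hblow (k + 1)
    have e3 := (abs_le.1 (hσ1 k)).2
    linarith only [e1, e2, e3]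
  have hbup2 : ∀ k, b (k + 1) ≤ ‖V k‖ ^ 2 + e * v + 2 * (e * a) := by
    intro k
    have e1 := h1 k
    have e2 := hblow k
    have e3 := (abs_le.1 (hσ1 k)).2
    linarith only [e1, e2, e3]
  -- one step
  have hstep : ∀ k, y k + y (k + 1) ≤
      (b k - b (k + 1)) - (b (k + 1) - b (k + 1 + 1)) + (8 * (e * a) + 2 * (e * v)) := by
    intro k
    have e1 := h3 k
    have e2 := h3 (k + 1)
    simp only [add_sub_cancel_right] at e2
    have e3 := (abs_le.1 (hDb k)).2
    have e4 := (abs_le.1 (hDb (k + 1 + 1))).2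
    have e5 := (abs_le.1 (hσ1 k)).1
    have e6 := (abs_le.1 (hσ1 (k + 1))).1
    simp only [hD, add_sub_cancel_right] at e3 e4
    linarith only [e1, e2, e5, e6, e3, e4]
  have hynn : ∀ k, 0 ≤ y k := fun k => by simp only [hy]; (clear * -; positivity)
  -- summation
  have hsumm : ∀ (m : ℤ) (N : ℕ), ∑ j ∈ Finset.range N, (y (m + j) + y (m + j + 1)) ≤
      (b m - b (m + 1)) - (b (m + N) - b (m + N + 1)) + N * (8 * (e * a) + 2 * (e * v)) := by
    intro m N
    induction N with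
    | zero => simp
    | succ N ih =>
      rw [Finset.sum_range_succ]
      have := hstep (m + N)
      have e1 : m + ((N + 1 : ℕ) : ℤ) = m + N + 1 := by push_cast; ring
      rw [e1]
      push_cast
      linarith only [this, ih]
  have hfin := hsumm (-n) (2 * n + 1)
  have hterm : y k ≤ ∑ j ∈ Finset.range (2 * n + 1), (y (-n + j) + y (-n + j + 1)) := by
    have hk := abs_le.1 hn
    have hmem : (k + n).toNat ∈ Finset.range (2 * n + 1) := by
      rw [Finset.mem_range]
      omega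
    have e1 : y k ≤ y (-n + ((k + n).toNat : ℤ)) + y (-n + ((k + n).toNat : ℤ) + 1) := by
      have : (-n : ℤ) + ((k + n).toNat : ℤ) = k := by (clear * - hk; omega)
      rw [this]
      linarith only [hynn (k + 1)]
    exact e1.trans (Finset.single_le_sum (f := fun j : ℕ => y (-n + j) + y (-n + j + 1))
      (fun j _ => add_nonneg (hynn _) (hynn _)) hmem)
  have e1 : b (-n) ≤ ‖V (-n - 1)‖ ^ 2 + e * v + 2 * (e * a) := by
    have := hbup2 (-n - 1)
    simpa only [ge_iff_le, sub_add_cancel] using this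
  have e2 := hblow (-n + 1)
  have e3 : (-n : ℤ) + ((2 * n + 1 : ℕ) : ℤ) = n + 1 := by push_cast; ring
  rw [e3] at hfin
  have e4 := hblow (n + 1)
  have e5 : b (n + 1 + 1) ≤ ‖V (n + 1)‖ ^ 2 + e * v + 2 * (e * a) := hbup2 (n + 1)
  have hea : 0 ≤ e * a := by (clear * - he ha; positivity)
  have hev : 0 ≤ e * v := by (clear * - he hv; positivity)
  have hnn : (0 : ℝ) ≤ n := by (clear * -; positivity)
  have hfin' := hterm.trans hfin
  push_cast at hfin'
  have : y k = ‖A (k - 1) - B (k + 1)‖ ^ 2 := rfl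
  rw [← this]
  linarith only [mul_nonneg (sub_nonneg.2 hev) (sub_nonneg.2 hnn), mul_nonneg (sub_nonneg.2 hea) (sub_nonneg.2 hnn), mul_nonneg (sq_nonneg (e : ℝ)) (sub_nonneg.2 hnn), hfin', hev, hea, e5, e4, e2, e1, sq_nonneg (e : ℝ)]

end Vale.Agent.P099C
end
end

section

section

open MeasureTheory Set Filter Topology

namespace Vale.Agent.P099C
open Vale.Agent.P099 (nu FlowErgodic FlowWeakMixing)

variable {Ω : Type} [MeasurableSpace Ω]

/-- bounded measurable functions of (position, (direction, parameter)) -/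
def Bdd (f : ℂ → ℂ × Ω → ℝ) : Prop :=
  Measurable (fun p : ℂ × (ℂ × Ω) => f p.1 p.2) ∧ ∃ C : ℝ, ∀ y ω, |f y ω| ≤ C

/-- bounded measurable functions, with bounded support in the position -/
def BddSupp (f : ℂ → ℂ × Ω → ℝ) : Prop :=
  Bdd f ∧ ∃ r : ℝ, ∀ y ω, r ≤ ‖y‖ → f y ω = 0

/-- mollification in the position variable -/
noncomputable def mol (ε : ℝ) (f : ℂ → ℂ × Ω → ℝ) (x : ℂ) (ω : ℂ × Ω) : ℝ :=
  ∫ y, rho ε (x - y) * f y ω

/-- `∂_z` of the mollification -/
noncomputable def grd (ε : ℝ) (f : ℂ → ℂ × Ω → ℝ) (x : ℂ) (ω : ℂ × Ω) : ℂ :=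
  ∫ y, kap ε (x - y) * (f y ω : ℂ)

/-- the derivative of the mollification in the direction of motion -/
noncomputable def Xd (ε : ℝ) (f : ℂ → ℂ × Ω → ℝ) (x : ℂ) (ω : ℂ × Ω) : ℝ :=
  2 * (ω.1 * grd ε f x ω).re

/-- Fourier modes in the direction -/
noncomputable def md (k : ℤ) (F : ℂ → ℂ × Ω → ℂ) (x : ℂ) (q : Ω) : ℂ :=
  ∫ u, F x (u, q) * u ^ (-k) ∂nu

namespace ConvexPolygon

variable {ns : ℕ} [NeZero ns] (T : ConvexPolygon ns) (m : Measure Ω)

/-- squared `L²` norm over the phase space -/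
noncomputable def nrm (F : ℂ → ℂ × Ω → ℂ) : ℝ :=
  ∫ x in T.table, ∫ ω, ‖F x ω‖ ^ 2 ∂(nu.prod m)

/-- squared `L²` norm over table times parameter -/
noncomputable def nrmq (F : ℂ → Ω → ℂ) : ℝ := ∫ x in T.table, ∫ q, ‖F x q‖ ^ 2 ∂m

/-- extension by reflection in the three sides -/
noncomputable def ext (f : ℂ → ℂ × Ω → ℝ) (y : ℂ) (ω : ℂ × Ω) : ℝ :=
  T.table.indicator (fun y => f y ω) y +
    ∑ i, (T.R i ⁻¹' T.table).indicator (fun y => f (T.R i y) (T.refl i ω.1, ω.2)) y

/-- the mollification satisfies the reflection boundary condition -/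
def Sym (ε : ℝ) (f : ℂ → ℂ × Ω → ℝ) : Prop :=
  ∀ i, ∀ y ∈ segment ℝ (T.P i) (T.P (i + 1)), ∀ ω : ℂ × Ω,
    mol ε f y (T.refl i ω.1, ω.2) = mol ε f y ω

/-- `V` is the derivative of `U` along free flights. -/
def FreeDer (U V : ℂ → ℂ × Ω → ℝ) : Prop :=
  ∀ t : ℝ, 0 < t → ∀ᵐ p ∂((volume.restrict T.table).prod (nu.prod m)),
    p.1 + t • p.2.1 ∈ T.table →
      U (p.1 + t • p.2.1) p.2 - U p.1 p.2 = ∫ s in (0:ℝ)..t, V (p.1 + s • p.2.1) p.2

/-- `V` is the derivative of `U` along motions with one collision. -/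
def BounceDer (U V : ℂ → ℂ × Ω → ℝ) : Prop :=
  ∀ t : ℝ, 0 < t → ∀ i, ∀ᵐ p ∂((volume.restrict T.table).prod (nu.prod m)),
    T.E i (p.1, p.2.1) → T.hitT i (p.1, p.2.1) < t → T.R i (p.1 + t • p.2.1) ∈ T.table →
      U (T.R i (p.1 + t • p.2.1)) (T.refl i p.2.1, p.2.2) - U p.1 p.2 =
        (∫ s in (0:ℝ)..(T.hitT i (p.1, p.2.1)), V (p.1 + s • p.2.1) p.2) +
        ∫ s in (T.hitT i (p.1, p.2.1))..t, V (T.R i (p.1 + s • p.2.1)) (T.refl i p.2.1, p.2.2)

end ConvexPolygon

end Vale.Agent.P099C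
end
end

section

section

open MeasureTheory Set Filter Topology

namespace Vale.Agent.P099C
open Vale.Agent.P099 (nu FlowErgodic FlowWeakMixing)

variable {Ω : Type} [MeasurableSpace Ω]

set_option linter.unusedSectionVars false

/-! ### bounded measurable functions -/

/-- jointly measurable and bounded -/
def BM (F : ℂ → ℂ × Ω → ℂ) : Prop :=
  Measurable (fun p : ℂ × (ℂ × Ω) => F p.1 p.2) ∧ ∃ C : ℝ, ∀ x ω, ‖F x ω‖ ≤ C

/-- jointly measurable and bounded -/
def BMq (F : ℂ → Ω → ℂ) : Prop :=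
  Measurable (fun p : ℂ × Ω => F p.1 p.2) ∧ ∃ C : ℝ, ∀ x q, ‖F x q‖ ≤ C

lemma BM.meas_u {F : ℂ → ℂ × Ω → ℂ} (hF : BM F) (x : ℂ) (q : Ω) :
    Measurable (fun u : ℂ => F x (u, q)) :=
  hF.1.comp (by fun_prop : Measurable fun u : ℂ => (x, (u, q)))

lemma BM.meas_ω {F : ℂ → ℂ × Ω → ℂ} (hF : BM F) (x : ℂ) :
    Measurable (fun ω : ℂ × Ω => F x ω) :=
  hF.1.comp (by fun_prop : Measurable fun ω : ℂ × Ω => (x, ω))

lemma BMq.meas_x {F : ℂ → Ω → ℂ} (hF : BMq F) (q : Ω) :
    Measurable (fun x : ℂ => F x q) :=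
  hF.1.comp (by fun_prop : Measurable fun x : ℂ => (x, q))

lemma BMq.meas_q {F : ℂ → Ω → ℂ} (hF : BMq F) (x : ℂ) :
    Measurable (fun q : Ω => F x q) :=
  hF.1.comp (by fun_prop : Measurable fun q : Ω => (x, q))

/-- convolution in the position variable with a complex kernel -/
noncomputable def cv (κ : ℂ → ℂ) (f : ℂ → ℂ × Ω → ℝ) (x : ℂ) (ω : ℂ × Ω) : ℂ :=
  ∫ y, κ (x - y) * (f y ω : ℂ)

lemma bm_cv {κ : ℂ → ℂ} (hκ : Continuous κ) (hκc : HasCompactSupport κ)
    {f : ℂ → ℂ × Ω → ℝ} (hf : Bdd f) : BM (cv κ f) := by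
  obtain ⟨hm, C, hC⟩ := hf
  refine ⟨?_, C * ∫ y, ‖κ y‖, ?_⟩
  · have h1 : StronglyMeasurable (fun p : (ℂ × (ℂ × Ω)) × ℂ =>
        κ (p.1.1 - p.2) * (f p.2 p.1.2 : ℂ)) := by
      apply Measurable.stronglyMeasurable
      apply Measurable.mul
      · exact hκ.measurable.comp (by fun_prop)
      · apply Complex.measurable_ofReal.comp
        exact hm.comp (by fun_prop : Measurable fun p : (ℂ × (ℂ × Ω)) × ℂ => (p.2, p.1.2))
    exact (h1.integral_prod_right (ν := volume)).measurable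
  · intro x ω
    have hi : Integrable (fun y => ‖κ y‖) := (hκ.integrable_of_hasCompactSupport hκc).norm
    have hC0 : 0 ≤ C := (abs_nonneg _).trans (hC x ω)
    calc ‖cv κ f x ω‖ ≤ ∫ y, ‖κ (x - y) * (f y ω : ℂ)‖ := norm_integral_le_integral_norm _
      _ ≤ ∫ y, C * ‖κ (x - y)‖ := by
          apply integral_mono_of_nonneg
          · exact Eventually.of_forall fun y => norm_nonneg _
          · exact (hi.comp_sub_left x).const_mul C
          · refine Eventually.of_forall fun y => ?_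
            simp only [norm_mul, Complex.norm_real, Real.norm_eq_abs]
            rw [mul_comm]
            exact mul_le_mul_of_nonneg_right (hC y ω) (norm_nonneg _)
      _ = C * ∫ y, ‖κ y‖ := by
          rw [integral_const_mul]
          congr 1
          exact integral_sub_left_eq_self (fun y => ‖κ y‖) volume x

lemma norm_zpow_ae (k : ℤ) : ∀ᵐ u ∂nu, ‖u ^ (-k)‖ = 1 := by
  filter_upwards [ae_norm] with u hu
  rw [norm_zpow, hu, one_zpow]

lemma measurable_zpow' (k : ℤ) : Measurable (fun u : ℂ => u ^ (-k)) := by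
  (clear * -; fun_prop)

lemma bm_md {F : ℂ → ℂ × Ω → ℂ} (hF : BM F) (k : ℤ) : BMq (md k F) := by
  obtain ⟨hm, C, hC⟩ := hF
  refine ⟨?_, C, ?_⟩
  · have h1 : StronglyMeasurable (fun p : (ℂ × Ω) × ℂ => F p.1.1 (p.2, p.1.2) * p.2 ^ (-k)) := by
      apply Measurable.stronglyMeasurable
      apply Measurable.mul
      · exact hm.comp (by fun_prop : Measurable fun p : (ℂ × Ω) × ℂ => (p.1.1, (p.2, p.1.2)))
      · exact (measurable_zpow' k).comp measurable_snd
    exact (h1.integral_prod_right (ν := nu)).measurable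
  · intro x q
    have h := norm_integral_le_of_norm_le_const (μ := nu) (f := fun u => F x (u, q) * u ^ (-k))
      (C := C) (by
        filter_upwards [norm_zpow_ae k] with u hu
        rw [norm_mul, hu, mul_one]
        exact hC _ _)
    calc ‖md k F x q‖ ≤ C * nu.real univ := h
      _ = C := by simp

/-! ### relations between convolutions and modes -/

lemma conj_cv (κ : ℂ → ℂ) (f : ℂ → ℂ × Ω → ℝ) (x : ℂ) (ω : ℂ × Ω) :
    (starRingEnd ℂ) (cv κ f x ω) = cv (fun z => (starRingEnd ℂ) (κ z)) f x ω := by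
  unfold cv
  rw [← integral_conj]
  congr 1
  ext y
  simp

lemma mol_eq_cv (ε : ℝ) (f : ℂ → ℂ × Ω → ℝ) (x : ℂ) (ω : ℂ × Ω) :
    (mol ε f x ω : ℂ) = cv (fun z => (rho ε z : ℂ)) f x ω := by
  unfold mol cv
  rw [← integral_complex_ofReal]
  congr 1
  ext y
  simp

lemma conj_zpow_ae (k : ℤ) : ∀ᵐ u ∂nu, (starRingEnd ℂ) (u ^ (-k)) = u ^ (- -k) := by
  filter_upwards [ae_norm] with u hu
  have h1 : (starRingEnd ℂ) u = u⁻¹ := by
    rw [Complex.inv_def, Complex.normSq_eq_norm_sq, hu]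
    simp
  rw [map_zpow₀, h1, inv_zpow']

lemma conj_md (k : ℤ) (F : ℂ → ℂ × Ω → ℂ) (x : ℂ) (q : Ω) :
    (starRingEnd ℂ) (md k F x q) = md (-k) (fun x ω => (starRingEnd ℂ) (F x ω)) x q := by
  unfold md
  rw [← integral_conj]
  apply integral_congr_ae
  filter_upwards [conj_zpow_ae k] with u hu
  rw [map_mul, hu]

/-- modes of a convolution -/
lemma md_cv {κ : ℂ → ℂ} (hκ : Continuous κ) (hκc : HasCompactSupport κ)
    {f : ℂ → ℂ × Ω → ℝ} (hf : Bdd f) (k : ℤ) (x : ℂ) (q : Ω) :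
    md k (cv κ f) x q = conv κ (fun y => md k (fun y ω => (f y ω : ℂ)) y q) x := by
  obtain ⟨hm, C, hC⟩ := hf
  have hκi : Integrable (fun y => κ (x - y)) :=
    (hκ.integrable_of_hasCompactSupport hκc).comp_sub_left x
  have hint : Integrable (Function.uncurry fun (u y : ℂ) =>
      κ (x - y) * (f y (u, q) : ℂ) * u ^ (-k)) (nu.prod volume) := by
    have hdom : Integrable (fun p : ℂ × ℂ => (C : ℝ) * ‖κ (x - p.2)‖) (nu.prod volume) := by
      have := (integrable_const (C : ℝ) (μ := nu)).mul_prod hκi.norm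
      exact this
    refine hdom.mono' ?_ ?_
    · apply Measurable.aestronglyMeasurable
      apply Measurable.mul
      · apply Measurable.mul
        · exact hκ.measurable.comp (by fun_prop)
        · apply Complex.measurable_ofReal.comp
          exact hm.comp (by fun_prop : Measurable fun p : ℂ × ℂ => (p.2, (p.1, q)))
      · exact (measurable_zpow' k).comp measurable_fst
    · have h1 : ∀ᵐ p ∂(nu.prod (volume : Measure ℂ)), ‖p.1 ^ (-k)‖ = 1 :=
        Measure.quasiMeasurePreserving_fst.ae (norm_zpow_ae k)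
      filter_upwards [h1] with p hp
      simp only [Function.uncurry, norm_mul, Complex.norm_real, Real.norm_eq_abs]
      rw [hp, mul_one, mul_comm]
      exact mul_le_mul_of_nonneg_right (hC _ _) (norm_nonneg _)
  unfold md cv conv
  calc ∫ u, (∫ y, κ (x - y) * (f y (u, q) : ℂ)) * u ^ (-k) ∂nu
      = ∫ u, (∫ y, κ (x - y) * (f y (u, q) : ℂ) * u ^ (-k)) ∂nu := by
        congr 1
        ext u
        rw [integral_mul_const]
    _ = ∫ y, (∫ u, κ (x - y) * (f y (u, q) : ℂ) * u ^ (-k) ∂nu) := integral_integral_swap hint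
    _ = ∫ y, κ (x - y) * ∫ u, (f y (u, q) : ℂ) * u ^ (-k) ∂nu := by
        congr 1
        ext y
        rw [← integral_const_mul]
        congr 1
        ext u
        ring

lemma bm_ofReal {f : ℂ → ℂ × Ω → ℝ} (hf : Bdd f) : BM (fun y ω => (f y ω : ℂ)) := by
  obtain ⟨hm, C, hC⟩ := hf
  exact ⟨Complex.measurable_ofReal.comp hm, C, fun x ω => by
    rw [Complex.norm_real, Real.norm_eq_abs]; exact hC x ω⟩

lemma locInt_md {f : ℂ → ℂ × Ω → ℝ} (hf : Bdd f) (k : ℤ) (q : Ω) :
    LocallyIntegrable (fun y => md k (fun y ω => (f y ω : ℂ)) y q) := by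
  obtain ⟨hm, C, hC⟩ := bm_md (bm_ofReal hf) k
  have h1 : Measurable (fun y => md k (fun y ω => (f y ω : ℂ)) y q) :=
    hm.comp (by fun_prop : Measurable fun y : ℂ => (y, q))
  intro x
  refine ⟨Metric.ball x 1, Metric.ball_mem_nhds x one_pos, ?_⟩
  refine Measure.integrableOn_of_bounded (M := C) measure_ball_lt_top.ne
    h1.aestronglyMeasurable (Eventually.of_forall fun y => hC y q)

section smooth

variable {ε : ℝ} (hε : 0 < ε) {f : ℂ → ℂ × Ω → ℝ} (hf : Bdd f)

lemma continuous_rhoC (ε : ℝ) : Continuous (fun z => (rho ε z : ℂ)) :=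
  Complex.continuous_ofReal.comp (rho_contDiff ε).continuous

include hε in
lemma hcs_rhoC : HasCompactSupport (fun z => (rho ε z : ℂ)) :=
  (hasCompactSupport_rho hε).comp_left (g := fun r : ℝ => (r : ℂ)) Complex.ofReal_zero

include hε in
lemma hcs_kap : HasCompactSupport (kap ε) := by
  apply HasCompactSupport.of_support_subset_isCompact (isCompact_closedBall (0 : ℂ) ε)
  intro z hz
  rw [mem_closedBall_zero_iff]
  by_contra h
  push Not at h
  exact hz (kap_eq_zero hε h.le)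

include hε in
lemma hcs_conj_kap : HasCompactSupport (fun z => (starRingEnd ℂ) (kap ε z)) :=
  (hcs_kap hε).comp_left (g := fun z : ℂ => (starRingEnd ℂ) z) (map_zero _)

lemma continuous_conj_kap (ε : ℝ) : Continuous (fun z => (starRingEnd ℂ) (kap ε z)) :=
  Complex.continuous_conj.comp (continuous_kap ε)

include hε hf in
lemma md_mol_contDiff (k : ℤ) (q : Ω) :
    ContDiff ℝ (⊤ : ℕ∞) (fun x => md k (fun x ω => (mol ε f x ω : ℂ)) x q) := by
  have h : (fun x => md k (fun x ω => (mol ε f x ω : ℂ)) x q) =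
      conv (fun z => (rho ε z : ℂ)) (fun y => md k (fun y ω => (f y ω : ℂ)) y q) := by
    ext x
    rw [← md_cv (continuous_rhoC ε) (hcs_rhoC hε) hf k x q]
    simp only [mol_eq_cv]
  rw [h]
  exact contDiff_conv hε (locInt_md hf k q)

include hε hf in
lemma dz_md_mol (k : ℤ) (q : Ω) (x : ℂ) :
    dz (fun x => md k (fun x ω => (mol ε f x ω : ℂ)) x q) x = md k (grd ε f) x q := by
  have h : (fun x => md k (fun x ω => (mol ε f x ω : ℂ)) x q) =
      conv (fun z => (rho ε z : ℂ)) (fun y => md k (fun y ω => (f y ω : ℂ)) y q) := by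
    ext x
    rw [← md_cv (continuous_rhoC ε) (hcs_rhoC hε) hf k x q]
    simp only [mol_eq_cv]
  rw [h, dz_conv hε (locInt_md hf k q), ← md_cv (continuous_kap ε) (hcs_kap hε) hf k x q]
  rfl

include hε hf in
lemma dzb_md_mol (k : ℤ) (q : Ω) (x : ℂ) :
    dzb (fun x => md k (fun x ω => (mol ε f x ω : ℂ)) x q) x =
      md k (fun x ω => (starRingEnd ℂ) (grd ε f x ω)) x q := by
  have h : (fun x => md k (fun x ω => (mol ε f x ω : ℂ)) x q) =
      conv (fun z => (rho ε z : ℂ)) (fun y => md k (fun y ω => (f y ω : ℂ)) y q) := by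
    ext x
    rw [← md_cv (continuous_rhoC ε) (hcs_rhoC hε) hf k x q]
    simp only [mol_eq_cv]
  rw [h, dzb_conv hε (locInt_md hf k q),
    ← md_cv (continuous_conj_kap ε) (hcs_conj_kap hε) hf k x q]
  congr 1
  ext x ω
  exact (conj_cv (kap ε) f x ω).symm

end smooth

namespace ConvexPolygon

variable {ns : ℕ} [NeZero ns] (T : ConvexPolygon ns) (m : Measure Ω)

/-- boundary condition for the modes -/
lemma md_bdry {ε : ℝ} {f : ℂ → ℂ × Ω → ℝ} (hε : 0 < ε) (hf : Bdd f) (hfs : T.Sym ε f) (k : ℤ) (q : Ω)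
    (i : Fin ns) (y : ℂ) (hy : y ∈ segment ℝ (T.P i) (T.P (i + 1))) :
    md k (fun x ω => (mol ε f x ω : ℂ)) y q =
      (T.d i / (starRingEnd ℂ) (T.d i)) ^ (-k) *
        (starRingEnd ℂ) (md k (fun x ω => (mol ε f x ω : ℂ)) y q) := by
  have hmeas : Measurable (fun u : ℂ => (mol ε f y (u, q) : ℂ) * u ^ (-k)) := by
    have h2 := (bm_cv (continuous_rhoC ε) (hcs_rhoC hε) hf).meas_u y q
    simp only [← mol_eq_cv] at h2
    exact h2.mul (measurable_zpow' k)
  have hmp := T.measurePreserving_refl i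
  calc md k (fun x ω => (mol ε f x ω : ℂ)) y q
      = ∫ u, (mol ε f y (u, q) : ℂ) * u ^ (-k) ∂(nu.map (T.refl i)) := by
        rw [hmp.map_eq]; rfl
    _ = ∫ u, (mol ε f y (T.refl i u, q) : ℂ) * (T.refl i u) ^ (-k) ∂nu :=
        integral_map hmp.measurable.aemeasurable hmeas.aestronglyMeasurable
    _ = ∫ u, (T.d i / (starRingEnd ℂ) (T.d i)) ^ (-k) *
          (starRingEnd ℂ) ((mol ε f y (u, q) : ℂ) * u ^ (-k)) ∂nu := by
        congr 1
        ext u
        have h1 := hfs i y hy (u, q)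
        simp only at h1
        rw [h1, T.refl_eq i u, mul_zpow, map_mul, map_zpow₀, Complex.conj_ofReal]
        ring
    _ = (T.d i / (starRingEnd ℂ) (T.d i)) ^ (-k) *
        (starRingEnd ℂ) (md k (fun x ω => (mol ε f x ω : ℂ)) y q) := by
        rw [integral_const_mul, integral_conj]
        rfl

end ConvexPolygon

/-! ### the Hilbert space -/

section L2

variable {ns : ℕ} [NeZero ns] (T : ConvexPolygon ns) (m : Measure Ω) [IsProbabilityMeasure m]

instance finT : IsFiniteMeasure (volume.restrict T.table) :=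
  ⟨by simpa using T.volume_table_lt_top⟩

/-- table times parameter -/
noncomputable abbrev lm : Measure (ℂ × Ω) := (volume.restrict T.table).prod m

lemma BMq.memLp {F : ℂ → Ω → ℂ} (hF : BMq F) :
    MemLp (fun p : ℂ × Ω => F p.1 p.2) 2 (lm T m) := by
  obtain ⟨hm, C, hC⟩ := hF
  exact MemLp.of_bound hm.aestronglyMeasurable C (Eventually.of_forall fun p => hC _ _)

/-- class in `L²` -/
noncomputable def cls {F : ℂ → Ω → ℂ} (hF : BMq F) : Lp ℂ 2 (lm T m) :=
  (hF.memLp T m).toLp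

lemma BMq.mul {F G : ℂ → Ω → ℂ} (hF : BMq F) (hG : BMq G) : BMq (fun x q => F x q * G x q) := by
  obtain ⟨hm, C, hC⟩ := hF
  obtain ⟨hm', C', hC'⟩ := hG
  refine ⟨hm.mul hm', C * C', fun x q => ?_⟩
  rw [norm_mul]
  exact mul_le_mul (hC x q) (hC' x q) (norm_nonneg _) ((norm_nonneg _).trans (hC x q))

lemma BMq.add {F G : ℂ → Ω → ℂ} (hF : BMq F) (hG : BMq G) : BMq (fun x q => F x q + G x q) := by
  obtain ⟨hm, C, hC⟩ := hF
  obtain ⟨hm', C', hC'⟩ := hG
  exact ⟨hm.add hm', C + C', fun x q => (norm_add_le _ _).trans (add_le_add (hC x q) (hC' x q))⟩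

lemma BMq.sub {F G : ℂ → Ω → ℂ} (hF : BMq F) (hG : BMq G) : BMq (fun x q => F x q - G x q) := by
  obtain ⟨hm, C, hC⟩ := hF
  obtain ⟨hm', C', hC'⟩ := hG
  exact ⟨hm.sub hm', C + C', fun x q => (norm_sub_le _ _).trans (add_le_add (hC x q) (hC' x q))⟩

lemma BMq.conj {F : ℂ → Ω → ℂ} (hF : BMq F) : BMq (fun x q => (starRingEnd ℂ) (F x q)) := by
  obtain ⟨hm, C, hC⟩ := hF
  exact ⟨Complex.continuous_conj.measurable.comp hm, C, fun x q => by
    rw [RCLike.norm_conj]; exact hC x q⟩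

lemma BMq.integrable {F : ℂ → Ω → ℂ} (hF : BMq F) :
    Integrable (fun p : ℂ × Ω => F p.1 p.2) (lm T m) := by
  obtain ⟨hm, C, hC⟩ := hF
  exact Integrable.of_bound hm.aestronglyMeasurable C (Eventually.of_forall fun p => hC _ _)

lemma BMq.integrable_q {F : ℂ → Ω → ℂ} (hF : BMq F) (x : ℂ) :
    Integrable (fun q : Ω => F x q) m := by
  have h := hF.meas_q x
  obtain ⟨_, C, hC⟩ := hF
  exact Integrable.of_bound h.aestronglyMeasurable C (Eventually.of_forall fun p => hC _ _)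

lemma BMq.integrable_x {F : ℂ → Ω → ℂ} (hF : BMq F) (q : Ω) :
    Integrable (fun x : ℂ => F x q) (volume.restrict T.table) := by
  have h := hF.meas_x q
  obtain ⟨_, C, hC⟩ := hF
  exact Integrable.of_bound h.aestronglyMeasurable C (Eventually.of_forall fun p => hC _ _)

lemma BMq.integrable_sq {F : ℂ → Ω → ℂ} (hF : BMq F) :
    Integrable (fun p : ℂ × Ω => ‖F p.1 p.2‖ ^ 2) (lm T m) := by
  obtain ⟨hm, C, hC⟩ := hF
  refine Integrable.of_bound (hm.norm.pow_const 2).aestronglyMeasurable (C ^ 2)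
    (Eventually.of_forall fun p => ?_)
  rw [norm_pow, norm_norm]
  exact pow_le_pow_left₀ (norm_nonneg _) (hC _ _) 2

lemma BMq.integrable_sq_q {F : ℂ → Ω → ℂ} (hF : BMq F) (x : ℂ) :
    Integrable (fun q : Ω => ‖F x q‖ ^ 2) m := by
  have h := hF.meas_q x
  obtain ⟨_, C, hC⟩ := hF
  refine Integrable.of_bound (h.norm.pow_const 2).aestronglyMeasurable (C ^ 2)
    (Eventually.of_forall fun p => ?_)
  rw [norm_pow, norm_norm]
  exact pow_le_pow_left₀ (norm_nonneg _) (hC _ _) 2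

lemma BMq.integrable_sq_x {F : ℂ → Ω → ℂ} (hF : BMq F) (q : Ω) :
    Integrable (fun x : ℂ => ‖F x q‖ ^ 2) (volume.restrict T.table) := by
  have h := hF.meas_x q
  obtain ⟨_, C, hC⟩ := hF
  refine Integrable.of_bound (h.norm.pow_const 2).aestronglyMeasurable (C ^ 2)
    (Eventually.of_forall fun p => ?_)
  rw [norm_pow, norm_norm]
  exact pow_le_pow_left₀ (norm_nonneg _) (hC _ _) 2

lemma inner_cls {F G : ℂ → Ω → ℂ} (hF : BMq F) (hG : BMq G) :
    inner ℂ (cls T m hF) (cls T m hG) =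
      ∫ p, (starRingEnd ℂ) (F p.1 p.2) * G p.1 p.2 ∂(lm T m) := by
  rw [MeasureTheory.L2.inner_def]
  apply integral_congr_ae
  filter_upwards [(hF.memLp T m).coeFn_toLp, (hG.memLp T m).coeFn_toLp] with p h1 h2
  unfold cls
  rw [h1, h2, RCLike.inner_apply']

lemma nrmq_eq_integral {F : ℂ → Ω → ℂ} (hF : BMq F) :
    T.nrmq m F = ∫ p, ‖F p.1 p.2‖ ^ 2 ∂(lm T m) :=
  (integral_prod _ (hF.integrable_sq T m)).symm

lemma norm_cls_sq {F : ℂ → Ω → ℂ} (hF : BMq F) : ‖cls T m hF‖ ^ 2 = T.nrmq m F := by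
  have h1 := inner_self_eq_norm_sq_to_K (𝕜 := ℂ) (cls T m hF)
  rw [inner_cls] at h1
  rw [nrmq_eq_integral T m hF]
  have h2 : ∫ p, (starRingEnd ℂ) (F p.1 p.2) * F p.1 p.2 ∂(lm T m) =
      ((∫ p, ‖F p.1 p.2‖ ^ 2 ∂(lm T m) : ℝ) : ℂ) := by
    rw [← integral_complex_ofReal]
    congr 1
    ext p
    rw [Complex.conj_mul']
    norm_cast
  rw [h2] at h1
  apply Complex.ofReal_injective
  rw [h1]
  simp only [Complex.ofReal_pow, Complex.coe_algebraMap]

lemma cls_add {F G : ℂ → Ω → ℂ} (hF : BMq F) (hG : BMq G) :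
    cls T m (hF.add hG) = cls T m hF + cls T m hG := by
  exact MemLp.toLp_add _ _

lemma cls_sub {F G : ℂ → Ω → ℂ} (hF : BMq F) (hG : BMq G) :
    cls T m (hF.sub hG) = cls T m hF - cls T m hG := by
  exact MemLp.toLp_sub _ _

lemma cls_congr {F G : ℂ → Ω → ℂ} (hF : BMq F) (hG : BMq G) (h : ∀ x q, F x q = G x q) :
    cls T m hF = cls T m hG := by
  have : F = G := by ext x q; exact h x q
  subst this
  rfl

/-- Bessel's inequality -/
lemma bessel_md {F : ℂ → ℂ × Ω → ℂ} (hF : BM F) (s : Finset ℤ) :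
    ∑ k ∈ s, T.nrmq m (md k F) ≤ T.nrm m F := by
  have e1 : ∑ k ∈ s, T.nrmq m (md k F) =
      ∫ x in T.table, ∫ q, ∑ k ∈ s, ‖md k F x q‖ ^ 2 ∂m := by
    unfold ConvexPolygon.nrmq
    rw [← integral_finsetSum]
    · congr 1
      ext x
      rw [integral_finsetSum]
      intro k _
      exact (bm_md hF k).integrable_sq_q m x
    · intro k _
      exact ((bm_md hF k).integrable_sq T m).integral_prod_left
  rw [e1]
  unfold ConvexPolygon.nrm
  obtain ⟨hm, C, hC⟩ := hF
  have hF : BM F := ⟨hm, C, hC⟩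
  have hi : Integrable (fun p : ℂ × (ℂ × Ω) => ‖F p.1 p.2‖ ^ 2)
      ((volume.restrict T.table).prod (nu.prod m)) := by
    refine Integrable.of_bound (hm.norm.pow_const 2).aestronglyMeasurable (C ^ 2)
      (Eventually.of_forall fun p => ?_)
    rw [norm_pow, norm_norm]
    exact pow_le_pow_left₀ (norm_nonneg _) (hC _ _) 2
  apply integral_mono
  · have : Integrable (fun p : ℂ × Ω => ∑ k ∈ s, ‖md k F p.1 p.2‖ ^ 2) (lm T m) :=
      integrable_finsetSum _ fun k _ => (bm_md hF k).integrable_sq T m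
    exact this.integral_prod_left
  · exact hi.integral_prod_left
  · intro x
    have hix : Integrable (fun ω : ℂ × Ω => ‖F x ω‖ ^ 2) (nu.prod m) := by
      refine Integrable.of_bound ((hF.meas_ω x).norm.pow_const 2).aestronglyMeasurable (C ^ 2)
        (Eventually.of_forall fun p => ?_)
      rw [norm_pow, norm_norm]
      exact pow_le_pow_left₀ (norm_nonneg _) (hC _ _) 2
    simp only
    rw [integral_prod_symm _ hix]
    apply integral_mono
    · exact integrable_finsetSum _ fun k _ => (bm_md hF k).integrable_sq_q m x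
    · exact hix.integral_prod_right
    · intro q
      have hL : MemLp (fun u => F x (u, q)) 2 nu :=
        MemLp.of_bound (hF.meas_u x q).aestronglyMeasurable C
          (Eventually.of_forall fun p => hC _ _)
      exact bessel _ hL s

end L2

/-! ### the identities -/

section identities

variable {ns : ℕ} [NeZero ns] (T : ConvexPolygon ns) (m : Measure Ω) [IsProbabilityMeasure m]

lemma bm_mol {ε : ℝ} (hε : 0 < ε) {f : ℂ → ℂ × Ω → ℝ} (hf : Bdd f) :
    BM (fun x ω => (mol ε f x ω : ℂ)) := by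
  simp only [mol_eq_cv]
  exact bm_cv (continuous_rhoC ε) (hcs_rhoC hε) hf

lemma bm_grd {ε : ℝ} (hε : 0 < ε) {f : ℂ → ℂ × Ω → ℝ} (hf : Bdd f) : BM (grd ε f) :=
  bm_cv (continuous_kap ε) (hcs_kap hε) hf

lemma bm_cgrd {ε : ℝ} (hε : 0 < ε) {f : ℂ → ℂ × Ω → ℝ} (hf : Bdd f) :
    BM (fun x ω => (starRingEnd ℂ) (grd ε f x ω)) := by
  have h : (fun x ω => (starRingEnd ℂ) (grd ε f x ω)) = cv (fun z => (starRingEnd ℂ) (kap ε z)) f := by
    ext x ω
    exact conj_cv (kap ε) f x ω
  rw [h]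
  exact bm_cv (continuous_conj_kap ε) (hcs_conj_kap hε) hf

lemma nrmq_grd_eq {ε : ℝ} (hε : 0 < ε) {f : ℂ → ℂ × Ω → ℝ} (hf : Bdd f) (hfs : T.Sym ε f)
    (k : ℤ) : T.nrmq m (md k (grd ε f)) =
      T.nrmq m (md k (fun x ω => (starRingEnd ℂ) (grd ε f x ω))) := by
  have hA := bm_md (bm_grd hε hf) k
  have hB := bm_md (bm_cgrd hε hf) k
  rw [nrmq_eq_integral T m hA, nrmq_eq_integral T m hB,
    integral_prod_symm _ (hA.integrable_sq T m), integral_prod_symm _ (hB.integrable_sq T m)]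
  congr 1
  ext q
  simp only
  rw [← sub_eq_zero, ← integral_sub (hA.integrable_sq_x T q) (hB.integrable_sq_x T q)]
  have hw := md_mol_contDiff hε hf k q
  have h := T.green2 (fun x => md k (fun x ω => (mol ε f x ω : ℂ)) x q)
    (contDiff_infty.1 hw 2)
    (fun i => ⟨_, fun y hy => T.md_bdry hε hf hfs k q i y hy⟩)
  simp only [dz_md_mol hε hf k q, dzb_md_mol hε hf k q] at h
  exact h

lemma dz_mul_conj {w w' : ℂ → ℂ} {x : ℂ} (hw : DifferentiableAt ℝ w x)
    (hw' : DifferentiableAt ℝ w' x) :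
    dz (fun x => w x * (starRingEnd ℂ) (w' x)) x =
      dz w x * (starRingEnd ℂ) (w' x) + w x * (starRingEnd ℂ) (dzb w' x) := by
  have h1 : HasFDerivAt (fun x => (starRingEnd ℂ) (w' x))
      ((Complex.conjCLE.toContinuousLinearMap).comp (fderiv ℝ w' x)) x :=
    (Complex.conjCLE.toContinuousLinearMap).hasFDerivAt.comp x hw'.hasFDerivAt
  have h2 : HasFDerivAt (fun x => w x * (starRingEnd ℂ) (w' x))
      (w x • (Complex.conjCLE.toContinuousLinearMap).comp (fderiv ℝ w' x) +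
        (starRingEnd ℂ) (w' x) • fderiv ℝ w x) x := hw.hasFDerivAt.mul h1
  unfold dz dzb
  rw [h2.fderiv]
  simp only [add_apply, smul_apply, smul_eq_mul,
    ContinuousLinearMap.comp_apply, map_div₀, map_add, map_mul, Complex.conj_I]
  have h3 : ∀ z : ℂ, (Complex.conjCLE.toContinuousLinearMap : ℂ →L[ℝ] ℂ) z = (starRingEnd ℂ) z :=
    fun z => rfl
  simp only [h3]
  have h4 : (starRingEnd ℂ) (2 : ℂ) = 2 := map_ofNat _ 2
  rw [h4]
  ring

/-- modes of convolutions as integrals over a product -/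
lemma md_cv_prod {κ : ℂ → ℂ} (hκ : Continuous κ) (hκc : HasCompactSupport κ)
    {f : ℂ → ℂ × Ω → ℝ} (hf : Bdd f) (k : ℤ) (x : ℂ) (q : Ω) :
    md k (cv κ f) x q =
      ∫ z, (κ (x - z.2) * z.1 ^ (-k)) * (f z.2 (z.1, q) : ℂ) ∂(nu.prod volume) := by
  obtain ⟨hm, C, hC⟩ := hf
  have hκi : Integrable (fun y => κ (x - y)) :=
    (hκ.integrable_of_hasCompactSupport hκc).comp_sub_left x
  have hint : Integrable (fun z : ℂ × ℂ =>
      (κ (x - z.2) * z.1 ^ (-k)) * (f z.2 (z.1, q) : ℂ)) (nu.prod volume) := by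
    have hdom : Integrable (fun p : ℂ × ℂ => (C : ℝ) * ‖κ (x - p.2)‖) (nu.prod volume) := by
      have := (integrable_const (C : ℝ) (μ := nu)).mul_prod hκi.norm
      exact this
    refine hdom.mono' ?_ ?_
    · apply Measurable.aestronglyMeasurable
      apply Measurable.mul
      · apply Measurable.mul
        · exact hκ.measurable.comp (by fun_prop)
        · exact (measurable_zpow' k).comp measurable_fst
      · apply Complex.measurable_ofReal.comp
        exact hm.comp (by fun_prop : Measurable fun p : ℂ × ℂ => (p.2, (p.1, q)))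
    · have h1 : ∀ᵐ p ∂(nu.prod (volume : Measure ℂ)), ‖p.1 ^ (-k)‖ = 1 :=
        Measure.quasiMeasurePreserving_fst.ae (norm_zpow_ae k)
      filter_upwards [h1] with p hp
      simp only [norm_mul, Complex.norm_real, Real.norm_eq_abs]
      rw [hp, mul_one, mul_comm]
      exact mul_le_mul_of_nonneg_right (hC _ _) (norm_nonneg _)
  rw [integral_prod _ hint]
  unfold md cv
  congr 1
  ext u
  rw [← integral_mul_const]
  congr 1
  ext y
  simp only
  ring

/-- products of modes of convolutions -/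
lemma md_cv_mul {κ κ' : ℂ → ℂ} (hκ : Continuous κ) (hκc : HasCompactSupport κ)
    (hκ' : Continuous κ') (hκc' : HasCompactSupport κ')
    {f h : ℂ → ℂ × Ω → ℝ} (hf : Bdd f) (hh : Bdd h) (j j' : ℤ) (x : ℂ) :
    ∫ q, md j (cv κ f) x q * md j' (cv κ' h) x q ∂m =
      ∫ z, (κ (x - z.1.2) * z.1.1 ^ (-j)) * (κ' (x - z.2.2) * z.2.1 ^ (-j')) *
        ((∫ q, f z.1.2 (z.1.1, q) * h z.2.2 (z.2.1, q) ∂m : ℝ) : ℂ)
        ∂((nu.prod volume).prod (nu.prod volume)) := by
  obtain ⟨hm, C, hC⟩ := hf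
  obtain ⟨hm', C', hC'⟩ := hh
  have hf : Bdd f := ⟨hm, C, hC⟩
  have hh : Bdd h := ⟨hm', C', hC'⟩
  set P : Measure (ℂ × ℂ) := nu.prod volume with hP
  set a : ℂ × ℂ → ℂ := fun z => κ (x - z.2) * z.1 ^ (-j) with ha
  set a' : ℂ × ℂ → ℂ := fun z => κ' (x - z.2) * z.1 ^ (-j') with ha'
  have hai : ∀ {κ : ℂ → ℂ}, Continuous κ → HasCompactSupport κ → ∀ j : ℤ,
      Integrable (fun z : ℂ × ℂ => κ (x - z.2) * z.1 ^ (-j)) P := by
    intro κ hκ hκc j
    have hκi : Integrable (fun y => κ (x - y)) :=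
      (hκ.integrable_of_hasCompactSupport hκc).comp_sub_left x
    have hdom : Integrable (fun p : ℂ × ℂ => (1 : ℝ) * ‖κ (x - p.2)‖) P :=
      (integrable_const (1 : ℝ) (μ := nu)).mul_prod hκi.norm
    refine hdom.mono' ?_ ?_
    · apply Measurable.aestronglyMeasurable
      apply Measurable.mul
      · exact hκ.measurable.comp (by fun_prop)
      · exact (measurable_zpow' j).comp measurable_fst
    · have h1 : ∀ᵐ p ∂P, ‖p.1 ^ (-j)‖ = 1 :=
        Measure.quasiMeasurePreserving_fst.ae (norm_zpow_ae j)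
      filter_upwards [h1] with p hp
      simp only [norm_mul]
      rw [hp, mul_one, one_mul]
  have h1 : ∀ q, md j (cv κ f) x q * md j' (cv κ' h) x q =
      ∫ z, (a z.1 * (f z.1.2 (z.1.1, q) : ℂ)) * (a' z.2 * (h z.2.2 (z.2.1, q) : ℂ)) ∂(P.prod P) := by
    intro q
    rw [md_cv_prod hκ hκc hf, md_cv_prod hκ' hκc' hh]
    exact (integral_prod_mul (μ := P) (ν := P) (fun z => a z * (f z.2 (z.1, q) : ℂ))
      (fun z => a' z * (h z.2 (z.1, q) : ℂ))).symm
  have hdom : Integrable (fun p : Ω × ((ℂ × ℂ) × (ℂ × ℂ)) =>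
      (C * C') * (‖a p.2.1‖ * ‖a' p.2.2‖)) (m.prod (P.prod P)) := by
    have e1 := (hai hκ hκc j).norm.mul_prod (hai hκ' hκc' j').norm
    exact (integrable_const (C * C') (μ := m)).mul_prod e1
  have hint : Integrable (Function.uncurry fun (q : Ω) (z : (ℂ × ℂ) × (ℂ × ℂ)) =>
      (a z.1 * (f z.1.2 (z.1.1, q) : ℂ)) * (a' z.2 * (h z.2.2 (z.2.1, q) : ℂ)))
      (m.prod (P.prod P)) := by
    refine hdom.mono' ?_ ?_
    · apply Measurable.aestronglyMeasurable
      have m1 : Measurable a := by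
        apply Measurable.mul
        · exact hκ.measurable.comp (by fun_prop)
        · exact (measurable_zpow' j).comp measurable_fst
      have m2 : Measurable a' := by
        apply Measurable.mul
        · exact hκ'.measurable.comp (by fun_prop)
        · exact (measurable_zpow' j').comp measurable_fst
      apply Measurable.mul
      · apply Measurable.mul
        · exact m1.comp (by fun_prop)
        · apply Complex.measurable_ofReal.comp
          exact hm.comp (by fun_prop : Measurable fun p : Ω × ((ℂ × ℂ) × (ℂ × ℂ)) =>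
            (p.2.1.2, (p.2.1.1, p.1)))
      · apply Measurable.mul
        · exact m2.comp (by fun_prop)
        · apply Complex.measurable_ofReal.comp
          exact hm'.comp (by fun_prop : Measurable fun p : Ω × ((ℂ × ℂ) × (ℂ × ℂ)) =>
            (p.2.2.2, (p.2.2.1, p.1)))
    · refine Eventually.of_forall fun p => ?_
      simp only [Function.uncurry, norm_mul, Complex.norm_real, Real.norm_eq_abs]
      have b1 := hC p.2.1.2 (p.2.1.1, p.1)
      have b2 := hC' p.2.2.2 (p.2.2.1, p.1)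
      have hC0 : 0 ≤ C := (abs_nonneg _).trans b1
      calc ‖a p.2.1‖ * |f p.2.1.2 (p.2.1.1, p.1)| * (‖a' p.2.2‖ * |h p.2.2.2 (p.2.2.1, p.1)|)
          = (|f p.2.1.2 (p.2.1.1, p.1)| * |h p.2.2.2 (p.2.2.1, p.1)|) *
            (‖a p.2.1‖ * ‖a' p.2.2‖) := by ring
        _ ≤ (C * C') * (‖a p.2.1‖ * ‖a' p.2.2‖) := by
            apply mul_le_mul_of_nonneg_right _ (by (clear * -; positivity))
            exact mul_le_mul b1 b2 (abs_nonneg _) hC0
  calc ∫ q, md j (cv κ f) x q * md j' (cv κ' h) x q ∂m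
      = ∫ q, (∫ z, (a z.1 * (f z.1.2 (z.1.1, q) : ℂ)) *
          (a' z.2 * (h z.2.2 (z.2.1, q) : ℂ)) ∂(P.prod P)) ∂m := by
        congr 1
        ext q
        exact h1 q
    _ = ∫ z, (∫ q, (a z.1 * (f z.1.2 (z.1.1, q) : ℂ)) *
          (a' z.2 * (h z.2.2 (z.2.1, q) : ℂ)) ∂m) ∂(P.prod P) := integral_integral_swap hint
    _ = _ := by
        congr 1
        ext z
        rw [← integral_complex_ofReal, ← integral_const_mul]
        congr 1
        ext q
        push_cast
        ring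

lemma skew_md {κ κ' : ℂ → ℂ} (hκ : Continuous κ) (hκc : HasCompactSupport κ)
    (hκ' : Continuous κ') (hκc' : HasCompactSupport κ')
    {f h : ℂ → ℂ × Ω → ℝ} (hf : Bdd f) (hh : Bdd h)
    (hskew : ∀ y y' u u', ∫ q, h y (u, q) * f y' (u', q) ∂m =
      - ∫ q, f y (u, q) * h y' (u', q) ∂m) (j j' : ℤ) (x : ℂ) :
    ∫ q, md j (cv κ f) x q * md j' (cv κ' h) x q ∂m =
      - ∫ q, md j (cv κ h) x q * md j' (cv κ' f) x q ∂m := by
  rw [md_cv_mul m hκ hκc hκ' hκc' hf hh, md_cv_mul m hκ hκc hκ' hκc' hh hf, ← integral_neg]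
  congr 1
  ext z
  rw [hskew]
  push_cast
  ring

end identities

/-! ### the final assembly -/

section final

variable {ns : ℕ} [NeZero ns] (T : ConvexPolygon ns) (m : Measure Ω) [IsProbabilityMeasure m]

lemma re_conj_mul_swap (a b : ℂ) : ((starRingEnd ℂ) a * b).re = (a * (starRingEnd ℂ) b).re := by
  simp [Complex.mul_re]

lemma re_integral_lm {F : ℂ → Ω → ℂ} (hF : BMq F) :
    (∫ p, F p.1 p.2 ∂(lm T m)).re = ∫ p, (F p.1 p.2).re ∂(lm T m) :=
  (Complex.reCLM.integral_comp_comm (hF.integrable T m)).symm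

lemma re_inner_cls {F G : ℂ → Ω → ℂ} (hF : BMq F) (hG : BMq G) :
    (inner ℂ (cls T m hF) (cls T m hG)).re =
      (∫ p, F p.1 p.2 * (starRingEnd ℂ) (G p.1 p.2) ∂(lm T m)).re := by
  rw [inner_cls, re_integral_lm T m (hF.conj.mul hG), re_integral_lm T m (hF.mul hG.conj)]
  congr 1
  ext p
  exact re_conj_mul_swap _ _

lemma skew_id {ε : ℝ} (hε : 0 < ε) {f h : ℂ → ℂ × Ω → ℝ} (hf : Bdd f) (hh : Bdd h)
    (hfs : T.Sym ε f) (hhs : T.Sym ε h)
    (hskew : ∀ y y' u u', ∫ q, h y (u, q) * f y' (u', q) ∂m =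
      - ∫ q, f y (u, q) * h y' (u', q) ∂m) (k : ℤ) :
    (inner ℂ (cls T m (bm_md (bm_grd hε hf) (k - 1))) (cls T m (bm_md (bm_mol hε hh) k))).re =
      (inner ℂ (cls T m (bm_md (bm_mol hε hh) (k - 1)))
        (cls T m (bm_md (bm_cgrd hε hf) k))).re := by
  rw [re_inner_cls, re_inner_cls]
  -- the three functions
  have hT1 : BMq (fun x q => md (k - 1) (grd ε f) x q *
      (starRingEnd ℂ) (md k (fun x ω => (mol ε h x ω : ℂ)) x q)) :=
    (bm_md (bm_grd hε hf) (k - 1)).mul (bm_md (bm_mol hε hh) k).conj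
  have hT2 : BMq (fun x q => md (k - 1) (fun x ω => (mol ε f x ω : ℂ)) x q *
      (starRingEnd ℂ) (md k (fun x ω => (starRingEnd ℂ) (grd ε h x ω)) x q)) :=
    (bm_md (bm_mol hε hf) (k - 1)).mul (bm_md (bm_cgrd hε hh) k).conj
  have hT3 : BMq (fun x q => md (k - 1) (fun x ω => (mol ε h x ω : ℂ)) x q *
      (starRingEnd ℂ) (md k (fun x ω => (starRingEnd ℂ) (grd ε f x ω)) x q)) :=
    (bm_md (bm_mol hε hh) (k - 1)).mul (bm_md (bm_cgrd hε hf) k).conj
  -- Green's formula
  have hgreen : ∀ q, (∫ x in T.table, (md (k - 1) (grd ε f) x q *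
      (starRingEnd ℂ) (md k (fun x ω => (mol ε h x ω : ℂ)) x q) +
      md (k - 1) (fun x ω => (mol ε f x ω : ℂ)) x q *
      (starRingEnd ℂ) (md k (fun x ω => (starRingEnd ℂ) (grd ε h x ω)) x q))).re = 0 := by
    intro q
    have hw := md_mol_contDiff hε hf (k - 1) q
    have hw' := md_mol_contDiff hε hh k q
    have hcd : ContDiff ℝ 1 (fun x => md (k - 1) (fun x ω => (mol ε f x ω : ℂ)) x q *
        (starRingEnd ℂ) (md k (fun x ω => (mol ε h x ω : ℂ)) x q)) := by
      apply ContDiff.mul (contDiff_infty.1 hw 1)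
      exact (Complex.conjCLE.toContinuousLinearMap).contDiff.comp (contDiff_infty.1 hw' 1)
    have hgr := T.green1 _ hcd (by
      intro i y hy
      have b1 := T.md_bdry hε hf hfs (k - 1) q i y hy
      have b2 := T.md_bdry hε hh hhs k q i y hy
      set c : ℂ := T.d i / (starRingEnd ℂ) (T.d i) with hc
      have hd : T.d i ≠ 0 := T.d_ne i
      have hd' : (starRingEnd ℂ) (T.d i) ≠ 0 := by simpa using hd
      have hc0 : c ≠ 0 := div_ne_zero hd hd'
      have hcc : (starRingEnd ℂ) c = c⁻¹ := by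
        rw [hc, map_div₀, Complex.conj_conj, inv_div]
      have b3 : (starRingEnd ℂ) (md k (fun x ω => (mol ε h x ω : ℂ)) y q) =
          c ^ k * md k (fun x ω => (mol ε h x ω : ℂ)) y q := by
        conv_lhs => rw [b2]
        rw [map_mul, map_zpow₀, hcc, Complex.conj_conj, inv_zpow', neg_neg]
      rw [map_mul, Complex.conj_conj]
      conv_lhs => rw [b1, b3]
      have e1 : c ^ (-(k - 1)) * c ^ k = c := by
        rw [← zpow_add₀ hc0]
        have : -(k - 1) + k = 1 := by ring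
        rw [this, zpow_one]
      calc c ^ (-(k - 1)) * (starRingEnd ℂ) (md (k - 1) (fun x ω => (mol ε f x ω : ℂ)) y q) *
            (c ^ k * md k (fun x ω => (mol ε h x ω : ℂ)) y q)
          = (c ^ (-(k - 1)) * c ^ k) *
            ((starRingEnd ℂ) (md (k - 1) (fun x ω => (mol ε f x ω : ℂ)) y q) *
              md k (fun x ω => (mol ε h x ω : ℂ)) y q) := by ring
        _ = _ := by rw [e1])
    have hdz : ∀ x, dz (fun x => md (k - 1) (fun x ω => (mol ε f x ω : ℂ)) x q *
        (starRingEnd ℂ) (md k (fun x ω => (mol ε h x ω : ℂ)) x q)) x =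
        md (k - 1) (grd ε f) x q *
      (starRingEnd ℂ) (md k (fun x ω => (mol ε h x ω : ℂ)) x q) +
      md (k - 1) (fun x ω => (mol ε f x ω : ℂ)) x q *
      (starRingEnd ℂ) (md k (fun x ω => (starRingEnd ℂ) (grd ε h x ω)) x q) := by
      intro x
      rw [dz_mul_conj ((contDiff_infty.1 hw 1).differentiable one_ne_zero x)
        ((contDiff_infty.1 hw' 1).differentiable one_ne_zero x),
        dz_md_mol hε hf (k - 1) q x, dzb_md_mol hε hh k q x]
    simp only [hdz] at hgr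
    exact hgr
  have h12 : (∫ p, (md (k - 1) (grd ε f) p.1 p.2 *
      (starRingEnd ℂ) (md k (fun x ω => (mol ε h x ω : ℂ)) p.1 p.2) +
      md (k - 1) (fun x ω => (mol ε f x ω : ℂ)) p.1 p.2 *
      (starRingEnd ℂ) (md k (fun x ω => (starRingEnd ℂ) (grd ε h x ω)) p.1 p.2))
        ∂(lm T m)).re = 0 := by
    have hT12 := hT1.add hT2
    have hint := hT12.integrable T m
    have h0 := congrArg Complex.re (integral_prod_symm _ hint)
    have h1 : (∫ q, (∫ x in T.table, (md (k - 1) (grd ε f) x q *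
      (starRingEnd ℂ) (md k (fun x ω => (mol ε h x ω : ℂ)) x q) +
      md (k - 1) (fun x ω => (mol ε f x ω : ℂ)) x q *
      (starRingEnd ℂ) (md k (fun x ω => (starRingEnd ℂ) (grd ε h x ω)) x q))) ∂m).re =
      ∫ q, (∫ x in T.table, (md (k - 1) (grd ε f) x q *
      (starRingEnd ℂ) (md k (fun x ω => (mol ε h x ω : ℂ)) x q) +
      md (k - 1) (fun x ω => (mol ε f x ω : ℂ)) x q *
      (starRingEnd ℂ) (md k (fun x ω => (starRingEnd ℂ) (grd ε h x ω)) x q))).re ∂m :=
      (Complex.reCLM.integral_comp_comm hint.integral_prod_right).symm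
    refine h0.trans (h1.trans ?_)
    simp only [hgreen, integral_zero]
  have h3 : ∫ p, md (k - 1) (fun x ω => (mol ε f x ω : ℂ)) p.1 p.2 *
      (starRingEnd ℂ) (md k (fun x ω => (starRingEnd ℂ) (grd ε h x ω)) p.1 p.2) ∂(lm T m) =
      - ∫ p, md (k - 1) (fun x ω => (mol ε h x ω : ℂ)) p.1 p.2 *
      (starRingEnd ℂ) (md k (fun x ω => (starRingEnd ℂ) (grd ε f x ω)) p.1 p.2) ∂(lm T m) := by
    have e2 := integral_prod _ (hT2.integrable T m)
    have e3 := integral_prod _ (hT3.integrable T m)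
    rw [show (∫ p, md (k - 1) (fun x ω => (mol ε f x ω : ℂ)) p.1 p.2 *
      (starRingEnd ℂ) (md k (fun x ω => (starRingEnd ℂ) (grd ε h x ω)) p.1 p.2) ∂(lm T m)) = _
      from e2, show (∫ p, md (k - 1) (fun x ω => (mol ε h x ω : ℂ)) p.1 p.2 *
      (starRingEnd ℂ) (md k (fun x ω => (starRingEnd ℂ) (grd ε f x ω)) p.1 p.2) ∂(lm T m)) = _
      from e3, ← integral_neg]
    congr 1
    ext x
    have hs := skew_md m (continuous_rhoC ε) (hcs_rhoC hε) (continuous_kap ε) (hcs_kap hε)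
      hf hh hskew (k - 1) (-k) x
    have c1 : ∀ (f' : ℂ → ℂ × Ω → ℝ) q,
        (starRingEnd ℂ) (md k (fun x ω => (starRingEnd ℂ) (grd ε f' x ω)) x q) =
        md (-k) (cv (kap ε) f') x q := by
      intro f' q
      rw [conj_md]
      simp only [Complex.conj_conj]
      rfl
    simp only [c1, mol_eq_cv]
    exact hs
  rw [integral_add (hT1.integrable T m) (hT2.integrable T m), Complex.add_re, h3,
    Complex.neg_re] at h12
  linarith only [h12]

lemma md_congr {F G : ℂ → ℂ × Ω → ℂ} (k : ℤ) (x : ℂ) (q : Ω)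
    (h : ∀ᵐ u ∂nu, F x (u, q) = G x (u, q)) : md k F x q = md k G x q := by
  unfold md
  apply integral_congr_ae
  filter_upwards [h] with u hu
  rw [hu]

lemma BM.integrable_md {F : ℂ → ℂ × Ω → ℂ} (hF : BM F) (k : ℤ) (x : ℂ) (q : Ω) :
    Integrable (fun u => F x (u, q) * u ^ (-k)) nu := by
  have hm := hF.meas_u x q
  obtain ⟨_, C, hC⟩ := hF
  refine Integrable.of_bound (hm.mul (measurable_zpow' k)).aestronglyMeasurable C ?_
  filter_upwards [norm_zpow_ae k] with u hu
  rw [norm_mul, hu, mul_one]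
  exact hC _ _

/-- the truncated error function -/
noncomputable def gt (ε : ℝ) (f h : ℂ → ℂ × Ω → ℝ) (x : ℂ) (ω : ℂ × Ω) : ℂ :=
  ({u : ℂ | ‖u‖ = 1}.indicator (fun _ => (1 : ℂ)) ω.1) *
    (ω.1 * grd ε f x ω + (starRingEnd ℂ) ω.1 * (starRingEnd ℂ) (grd ε f x ω) - (mol ε h x ω : ℂ))

lemma gt_eq (ε : ℝ) (f h : ℂ → ℂ × Ω → ℝ) (x : ℂ) (ω : ℂ × Ω) (hω : ‖ω.1‖ = 1) :
    gt ε f h x ω = ((Xd ε f x ω - mol ε h x ω : ℝ) : ℂ) := by
  unfold gt Xd
  rw [indicator_of_mem (by exact hω), one_mul, ← map_mul, Complex.add_conj]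
  push_cast
  ring

lemma bm_gt {ε : ℝ} (hε : 0 < ε) {f h : ℂ → ℂ × Ω → ℝ} (hf : Bdd f) (hh : Bdd h) :
    BM (gt ε f h) := by
  obtain ⟨m1, C1, h1⟩ := bm_grd hε hf
  obtain ⟨m2, C2, h2⟩ := bm_mol hε hh
  have hS : MeasurableSet {u : ℂ | ‖u‖ = 1} := measurableSet_eq_fun measurable_norm measurable_const
  refine ⟨?_, C1 + C1 + C2, ?_⟩
  · have m3 : Measurable (fun p : ℂ × (ℂ × Ω) => p.2.1) := by fun_prop
    have m4 : Measurable (fun p : ℂ × (ℂ × Ω) =>
        ({u : ℂ | ‖u‖ = 1}.indicator (fun _ => (1 : ℂ)) p.2.1)) :=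
      (measurable_const.indicator hS).comp m3
    exact m4.mul (((m3.mul m1).add ((Complex.continuous_conj.measurable.comp m3).mul
      (Complex.continuous_conj.measurable.comp m1))).sub m2)
  · intro x ω
    unfold gt
    by_cases hω : ‖ω.1‖ = 1
    · rw [indicator_of_mem (by exact hω), one_mul]
      refine (norm_sub_le _ _).trans (add_le_add ((norm_add_le _ _).trans (add_le_add ?_ ?_)) ?_)
      · rw [norm_mul, hω, one_mul]; exact h1 x ω
      · rw [norm_mul, RCLike.norm_conj, RCLike.norm_conj, hω, one_mul]; exact h1 x ω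
      · exact h2 x ω
    · rw [indicator_of_notMem (by exact hω), zero_mul, norm_zero]
      have a1 := (norm_nonneg _).trans (h1 x ω)
      have a2 := (norm_nonneg _).trans (h2 x ω)
      linarith

lemma md_gt {ε : ℝ} (hε : 0 < ε) {f h : ℂ → ℂ × Ω → ℝ} (hf : Bdd f) (hh : Bdd h)
    (k : ℤ) (x : ℂ) (q : Ω) :
    md (k - 1) (grd ε f) x q + md (k + 1) (fun x ω => (starRingEnd ℂ) (grd ε f x ω)) x q =
      md k (fun x ω => (mol ε h x ω : ℂ)) x q + md k (gt ε f h) x q := by
  unfold md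
  rw [← integral_add ((bm_grd hε hf).integrable_md (k - 1) x q)
    ((bm_cgrd hε hf).integrable_md (k + 1) x q),
    ← integral_add ((bm_mol hε hh).integrable_md k x q) ((bm_gt hε hf hh).integrable_md k x q)]
  apply integral_congr_ae
  filter_upwards [ae_norm] with u hu
  have hu0 : u ≠ 0 := by
    intro h
    rw [h, norm_zero] at hu
    exact zero_ne_one hu
  have hconj : (starRingEnd ℂ) u = u⁻¹ := by
    rw [Complex.inv_def, Complex.normSq_eq_norm_sq, hu]
    simp
  have e1 : u ^ (-(k - 1)) = u * u ^ (-k) := by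
    rw [show -(k - 1) = 1 + -k by ring, zpow_add₀ hu0, zpow_one]
  have e2 : u ^ (-(k + 1)) = u⁻¹ * u ^ (-k) := by
    rw [show -(k + 1) = -1 + -k by ring, zpow_add₀ hu0, zpow_neg_one]
  unfold gt
  rw [indicator_of_mem (by exact hu), one_mul, hconj, e1, e2]
  ring

lemma nrm_gt {ε : ℝ} {f h : ℂ → ℂ × Ω → ℝ} :
    T.nrm m (gt ε f h) = T.nrm m (fun x ω => ((Xd ε f x ω - mol ε h x ω : ℝ) : ℂ)) := by
  unfold ConvexPolygon.nrm
  congr 1
  ext x
  apply integral_congr_ae
  have h1 : ∀ᵐ ω ∂(nu.prod m), ‖ω.1‖ = 1 := Measure.quasiMeasurePreserving_fst.ae ae_norm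
  filter_upwards [h1] with ω hω
  rw [gt_eq ε f h x ω hω]

end final

namespace ConvexPolygon

variable {ns : ℕ} [NeZero ns] (T : ConvexPolygon ns) (m : Measure Ω)

/-- The energy estimate. -/
theorem energy [IsProbabilityMeasure m] {ε : ℝ} (hε : 0 < ε) (f h : ℂ → ℂ × Ω → ℝ)
    (hf : BddSupp f) (hh : BddSupp h) (hfs : T.Sym ε f) (hhs : T.Sym ε h)
    (hskew : ∀ y y' u u', ∫ q, h y (u, q) * f y' (u', q) ∂m =
      - ∫ q, f y (u, q) * h y' (u', q) ∂m)
    (a v e : ℝ) (ha : 0 ≤ a) (hv : 0 ≤ v) (he : 0 ≤ e)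
    (hA : T.nrm m (grd ε f) ≤ a ^ 2)
    (hV : T.nrm m (fun x ω => (mol ε h x ω : ℂ)) ≤ v ^ 2)
    (hE : T.nrm m (fun x ω => ((Xd ε f x ω - mol ε h x ω : ℝ) : ℂ)) ≤ e ^ 2)
    (k : ℤ) (n : ℕ) (hn : |k| ≤ n) :
    T.nrmq m (fun x q => md (k - 1) (grd ε f) x q -
        md (k + 1) (fun x ω => (starRingEnd ℂ) (grd ε f x ω)) x q) ≤
      T.nrmq m (md (n + 1) (fun x ω => (mol ε h x ω : ℂ))) +
      T.nrmq m (md (-n - 1) (fun x ω => (mol ε h x ω : ℂ))) +
      100 * (n + 1) * (e * a + e * v + e ^ 2) := by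
  have hf := hf.1
  have hh := hh.1
  have hres := hilbert_energy
    (fun k => cls T m (bm_md (bm_grd hε hf) k))
    (fun k => cls T m (bm_md (bm_cgrd hε hf) k))
    (fun k => cls T m (bm_md (bm_mol hε hh) k))
    (fun k => cls T m (bm_md (bm_gt hε hf hh) k))
    (by
      intro k
      have h1 := nrmq_grd_eq T m hε hf hfs k
      rw [← norm_cls_sq T m (bm_md (bm_grd hε hf) k),
        ← norm_cls_sq T m (bm_md (bm_cgrd hε hf) k)] at h1
      exact (pow_left_inj₀ (norm_nonneg _) (norm_nonneg _) two_ne_zero).1 h1)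
    (by
      intro k
      rw [← cls_add, ← cls_add]
      apply cls_congr
      intro x q
      exact md_gt hε hf hh k x q)
    (fun k => skew_id T m hε hf hh hfs hhs hskew k)
    a v e ha hv he
    (fun s => by
      simp only [norm_cls_sq]
      exact (bessel_md T m (bm_grd hε hf) s).trans hA)
    (fun s => by
      simp only [norm_cls_sq]
      exact (bessel_md T m (bm_mol hε hh) s).trans hV)
    (fun s => by
      simp only [norm_cls_sq]
      refine (bessel_md T m (bm_gt hε hf hh) s).trans ?_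
      rw [nrm_gt]
      exact hE)
    k n hn
  simp only [← cls_sub, norm_cls_sq] at hres
  exact hres

end ConvexPolygon

end Vale.Agent.P099C
end
end

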