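import Vale.Agent.P099.MathlibUsed
import Vale.Agent.P099.H504.CPD
attribute [-instance] ProperSMul.toContinuousSMul IsTopologicalTorsor.toContinuousSMul IdemSemiring.toCanonicallyOrderedAdd IdemSemiring.toMulLeftMono IdemSemiring.toMulRightMono AddQuantale.instAddLeftMono AddQuantale.instAddRightMono Quantale.instMulLeftMono Quantale.instMulRightMono FiniteDimensional.rclike_to_real IsScalarTower.complexToReal FiniteDimensional.complexToReal

set_option linter.all false

section

section

open MeasureTheory Set Filter Topology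

namespace Vale.Agent.P099C
open Vale.Agent.P099 (nu FlowErgodic FlowWeakMixing)

/-- anisotropic length of the vector `v` with respect to the direction `u` -/
noncomputable def an (η : ℝ) (u v : ℂ) : ℝ := |cr v u| / η + η * |dt v u|

lemma an_nonneg {η : ℝ} (hη : 0 < η) (u v : ℂ) : 0 ≤ an η u v := by
  unfold an
  positivity

lemma an_add_le {η : ℝ} (hη : 0 < η) (u v w : ℂ) : an η u (v + w) ≤ an η u v + an η u w := by
  have h1 : cr (v + w) u = cr v u + cr w u := by
    simp only [cr, Complex.add_re, Complex.add_im]; ring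
  have h2 : dt (v + w) u = dt v u + dt w u := by
    simp only [dt, Complex.add_re, Complex.add_im]; ring
  unfold an
  rw [h1, h2]
  have h3 := abs_add_le (cr v u) (cr w u)
  have h4 := abs_add_le (dt v u) (dt w u)
  have h5 : |cr v u + cr w u| / η ≤ |cr v u| / η + |cr w u| / η := by
    rw [← add_div]
    (clear * - h3 hη; gcongr)
  linarith only [mul_nonneg (le_of_lt (sub_pos.2 hη)) (sub_nonneg.2 h4), h5]

lemma an_smul (η : ℝ) (u v : ℂ) (t : ℝ) : an η u (t • v) = |t| * an η u v := by
  have h1 : cr (t • v) u = t * cr v u := by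
    simp only [cr, Complex.real_smul, Complex.re_ofReal_mul, Complex.im_ofReal_mul]; ring
  have h2 : dt (t • v) u = t * dt v u := by
    simp only [dt, Complex.real_smul, Complex.re_ofReal_mul, Complex.im_ofReal_mul]; ring
  unfold an
  rw [h1, h2, abs_mul, abs_mul]
  ring

lemma an_neg (η : ℝ) (u v : ℂ) : an η u (-v) = an η u v := by
  have h := an_smul η u v (-1)
  simpa using h

lemma abs_cr_le {u : ℂ} (hu : ‖u‖ = 1) (v : ℂ) : |cr v u| ≤ ‖v‖ := by
  rw [ConvexPolygon.cr_eq_im]
  calc |((starRingEnd ℂ) v * u).im| ≤ ‖(starRingEnd ℂ) v * u‖ := Complex.abs_im_le_norm _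
    _ = ‖v‖ := by rw [norm_mul, hu, mul_one, RCLike.norm_conj]

lemma abs_dt_le {u : ℂ} (hu : ‖u‖ = 1) (v : ℂ) : |dt v u| ≤ ‖v‖ := by
  rw [ConvexPolygon.dt_eq_re]
  calc |((starRingEnd ℂ) v * u).re| ≤ ‖(starRingEnd ℂ) v * u‖ := Complex.abs_re_le_norm _
    _ = ‖v‖ := by rw [norm_mul, hu, mul_one, RCLike.norm_conj]

lemma an_le {η : ℝ} (hη : 0 < η) {u : ℂ} (hu : ‖u‖ = 1) (v : ℂ) :
    an η u v ≤ ‖v‖ / η + η * ‖v‖ := by
  unfold an
  have h1 := abs_cr_le hu v
  have h2 := abs_dt_le hu v
  gcongr

/-- motion along the direction -/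
lemma an_self {η : ℝ} {u : ℂ} (hu : ‖u‖ = 1) (t : ℝ) : an η u (t • u) = η * |t| := by
  rw [an_smul]
  have h1 : cr u u = 0 := by unfold cr; ring
  have h2 : dt u u = 1 := by
    rw [ConvexPolygon.dt_eq_re, ← Complex.normSq_eq_conj_mul_self, Complex.normSq_eq_norm_sq, hu]
    simp
  unfold an
  rw [h1, h2]
  simp only [abs_zero, zero_div, abs_one, mul_one, zero_add]
  ring

lemma an_sub_comm (η : ℝ) (u v w : ℂ) : an η u (v - w) = an η u (w - v) := by
  rw [← an_neg, neg_sub]

lemma an_tri {η : ℝ} (hη : 0 < η) (u a b c : ℂ) :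
    an η u (a - c) ≤ an η u (a - b) + an η u (b - c) := by
  have h := an_add_le hη u (a - b) (b - c)
  rwa [sub_add_sub_cancel] at h

namespace ConvexPolygon

variable {ns : ℕ} [NeZero ns] (T : ConvexPolygon ns)

lemma an_refl (η : ℝ) (i : Fin ns) (u v : ℂ) : an η (T.refl i u) (T.refl i v) = an η u v := by
  unfold an
  rw [cr_refl, dt_refl, abs_neg]

lemma an_R (η : ℝ) (i : Fin ns) (u x y : ℂ) :
    an η (T.refl i u) (T.R i x - T.R i y) = an η u (x - y) := by
  have h : T.R i x - T.R i y = T.refl i (x - y) := by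
    have := T.R_add i y (x - y)
    rw [add_sub_cancel] at this
    rw [this]
    ring
  rw [h, an_refl]

/-- the segment from `x` to `z` leaves the table through the open side `i` -/
def Cross (i : Fin ns) (x z : ℂ) : Prop :=
  T.lam i z < 0 ∧ ∀ j, j ≠ i → 0 < T.lam i x * T.lam j z - T.lam j x * T.lam i z

/-- `z` is an (unfolded) vertex which is visible from `x` after unfolding along the word -/
def Vis : List (Fin ns) → ℂ → ℂ → Prop
  | [], _, z => ∃ k, z = T.P k
  | i :: w, x, z => T.Cross i x z ∧ Vis w (T.R i x) (T.R i z)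

/-- the anisotropic distance to the visible vertices -/
noncomputable def D (η : ℝ) (s : ℂ × ℂ) : ℝ :=
  sInf {r : ℝ | ∃ w z, T.Vis w s.1 z ∧ r = an η s.2 (z - s.1)}

lemma vis_nil (x z : ℂ) : T.Vis [] x z ↔ ∃ k, z = T.P k := Iff.rfl

lemma vis_cons (i : Fin ns) (w : List (Fin ns)) (x z : ℂ) :
    T.Vis (i :: w) x z ↔ T.Cross i x z ∧ T.Vis w (T.R i x) (T.R i z) := Iff.rfl

/-! ### the bilinear forms -/

/-- the cross condition in barycentric coordinates -/
noncomputable def bb (i j : Fin ns) (x z : ℂ) : ℝ := T.lam i x * T.lam j z - T.lam j x * T.lam i z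

lemma lam_seg (j : Fin ns) (x y : ℂ) (s : ℝ) :
    T.lam j (x + s • (y - x)) = (1 - s) * T.lam j x + s * T.lam j y := by
  have h1 := T.lam_add_smul j x (y - x) s
  have h2 := T.lam_add j x (y - x)
  rw [add_sub_cancel] at h2
  rw [h1, h2]
  ring

lemma R_seg (i : Fin ns) (x y : ℂ) (s : ℝ) :
    T.R i (x + s • (y - x)) = T.R i x + s • (T.R i y - T.R i x) := by
  have h1 := T.R_add i x (s • (y - x))
  have h2 := T.R_add i x (y - x)
  rw [add_sub_cancel] at h2
  rw [h1, h2, T.refl_smul]
  simp

lemma ell_next_pos (i : Fin ns) : 0 < T.ell i (T.d (i + 1)) := by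
  unfold ell
  exact div_pos (T.cr_consec i) T.Del_pos

/-- decomposition of a point along side `i` and the next side -/
lemma exists_decomp (i : Fin ns) (x : ℂ) : ∃ a b : ℝ, x = T.P i + (a • T.d i + b • T.d (i + 1)) := by
  have h3 := cr_solve (T.d i) (T.d (i + 1)) (x - T.P i)
  have hc := (T.cr_consec i).ne'
  refine ⟨(cr (T.d i) (T.d (i + 1)))⁻¹ * cr (x - T.P i) (T.d (i + 1)),
    (cr (T.d i) (T.d (i + 1)))⁻¹ * cr (T.d i) (x - T.P i), ?_⟩
  rw [mul_smul, mul_smul, ← smul_add, ← h3, smul_smul, inv_mul_cancel₀ hc, one_smul]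
  ring

lemma lam_R_ne (i j : Fin ns) : ∃ κ : ℝ, ∀ x, T.lam j (T.R i x) = T.lam j x + κ * T.lam i x := by
  have hp := T.ell_next_pos i
  refine ⟨(T.ell j (T.refl i (T.d (i + 1))) - T.ell j (T.d (i + 1))) / T.ell i (T.d (i + 1)),
    fun x => ?_⟩
  obtain ⟨a, b, hx⟩ := T.exists_decomp i x
  have h4 : T.R i x = T.P i + (a • T.d i + b • T.refl i (T.d (i + 1))) := by
    unfold R
    rw [hx, add_sub_cancel_left, T.refl_add, T.refl_smul, T.refl_smul, T.refl_d]
  have h5 : T.lam i x = b * T.ell i (T.d (i + 1)) := by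
    rw [hx, T.lam_add, T.lam_P_self, T.ell_add, T.ell_smul, T.ell_smul, T.ell_d_self]
    ring
  rw [h5, h4, T.lam_add, T.ell_add, T.ell_smul, T.ell_smul]
  conv_rhs => rw [hx, T.lam_add, T.ell_add, T.ell_smul, T.ell_smul]
  field_simp
  ring

lemma bb_R (i j : Fin ns) (x z : ℂ) : T.bb i j (T.R i x) (T.R i z) = - T.bb i j x z := by
  obtain ⟨κ, hκ⟩ := T.lam_R_ne i j
  simp only [bb, hκ, T.lam_R]
  ring

lemma bb_swap (i j : Fin ns) (x z : ℂ) : T.bb i j x z = - T.bb j i x z := by
  simp only [bb]; ring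

lemma bb_seg_left (i j : Fin ns) (x y z : ℂ) (s : ℝ) :
    T.bb i j (x + s • (y - x)) z = (1 - s) * T.bb i j x z + s * T.bb i j y z := by
  simp only [bb, lam_seg]; ring

lemma bb_seg_self (i j : Fin ns) (x z : ℂ) (s : ℝ) :
    T.bb i j x (x + s • (z - x)) = s * T.bb i j x z := by
  simp only [bb, lam_seg]; ring

lemma cross_iff (i : Fin ns) (x z : ℂ) :
    T.Cross i x z ↔ T.lam i z < 0 ∧ ∀ j, j ≠ i → 0 < T.bb i j x z := Iff.rfl

/-- another side through the same vertex -/
lemma exists_other {i k : Fin ns} (h : T.lam i (T.P k) = 0) : ∃ j, j ≠ i ∧ T.lam j (T.P k) = 0 := by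
  by_cases hk : k = i
  · refine ⟨i - 1, T.sub_one_ne i, ?_⟩
    rw [hk]
    have := T.lam_P_next (i - 1)
    rwa [sub_add_cancel] at this
  · by_cases hk1 : k = i + 1
    · refine ⟨i + 1, T.add_one_ne i, ?_⟩
      rw [hk1]
      exact T.lam_P_self _
    · exact absurd h (T.lam_P_pos hk hk1).ne'

include T in
lemma exists_ne (i : Fin ns) : ∃ j, j ≠ i := ⟨i + 1, T.add_one_ne i⟩

/-- a point of the closed polygon on two sides is a vertex -/
lemma vertex_of {i j : Fin ns} {x : ℂ} (hx : ∀ k, 0 ≤ T.lam k x) (hi : T.lam i x = 0)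
    (hj : T.lam j x = 0) (hij : j ≠ i) : ∃ k, x = T.P k := by
  obtain ⟨s, hs⟩ := T.exists_on_line hi
  have hseg := T.mem_segment_of hx hi
  obtain ⟨a, b, ha, hb, hab, hx2⟩ := hseg
  rw [← hx2, T.lam_comb j hab] at hj
  have h1 := T.lam_P_nonneg j i
  have h2 := T.lam_P_nonneg j (i + 1)
  have h3 := mul_nonneg ha h1
  have h4 := mul_nonneg hb h2
  by_cases hcase : i = j + 1
  · have h5 : 0 < T.lam j (T.P (i + 1)) := by
      refine T.lam_P_pos ?_ ?_
      · rw [hcase]; exact T.add_two_ne j
      · rw [hcase]; exact T.add_one_ne _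
    have h6 : b = 0 := by
      rcases mul_eq_zero.1 (by linarith : b * T.lam j (T.P (i + 1)) = 0) with h | h
      · exact h
      · exact absurd h h5.ne'
    refine ⟨i, ?_⟩
    rw [← hx2, h6, show a = 1 by linarith, one_smul, zero_smul, add_zero]
  · have h5 : 0 < T.lam j (T.P i) := T.lam_P_pos (Ne.symm hij) hcase
    have h6 : a = 0 := by
      rcases mul_eq_zero.1 (by linarith : a * T.lam j (T.P i) = 0) with h | h
      · exact h
      · exact absurd h h5.ne'
    refine ⟨i + 1, ?_⟩
    rw [← hx2, h6, show b = 1 by linarith, one_smul, zero_smul, zero_add]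

/-- first exit time of finitely many affine functions -/
lemma first_exit {ι : Type*} [Fintype ι] [DecidableEq ι] {i : ι} (a b : ι → ℝ)
    (ha : ∀ j, j ≠ i → 0 < a j) {j1 : ι} (hj1 : j1 ≠ i) (hb1 : b j1 ≤ 0) :
    ∃ (s : ℝ) (j : ι), 0 ≤ s ∧ s ≤ 1 ∧ j ≠ i ∧ (1 - s) * a j + s * b j = 0 ∧
      ∀ k, k ≠ i → 0 ≤ (1 - s) * a k + s * b k := by
  set S : Finset ι := Finset.univ.filter fun j => j ≠ i ∧ b j ≤ 0 with hS
  have hne : S.Nonempty := ⟨j1, by rw [hS, Finset.mem_filter]; exact ⟨Finset.mem_univ _, hj1, hb1⟩⟩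
  obtain ⟨j, hjS, hmin⟩ := S.exists_min_image (fun j => a j / (a j - b j)) hne
  rw [hS, Finset.mem_filter] at hjS
  obtain ⟨-, hji, hbj⟩ := hjS
  have haj := ha j hji
  have hden : 0 < a j - b j := by linarith
  refine ⟨a j / (a j - b j), j, div_nonneg haj.le hden.le, ?_, hji, ?_, fun k hk => ?_⟩
  · rw [div_le_one hden]; linarith
  · field_simp
    ring
  · have hak := ha k hk
    have hs0 : 0 ≤ a j / (a j - b j) := div_nonneg haj.le hden.le
    have hs1 : a j / (a j - b j) ≤ 1 := by rw [div_le_one hden]; linarith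
    by_cases hbk : b k ≤ 0
    · have h1 := hmin k (by rw [hS, Finset.mem_filter]; exact ⟨Finset.mem_univ _, hk, hbk⟩)
      have h2 : 0 < a k - b k := by linarith
      rw [le_div_iff₀ h2] at h1
      linarith
    · push Not at hbk
      have h1 := mul_nonneg (sub_nonneg.2 hs1) hak.le
      have h2 := mul_nonneg hs0 hbk.le
      linarith

/-- positivity of the next coordinate -/
lemma pos_next {i m : Fin ns} {x z : ℂ} (hx : 0 ≤ T.lam i x) (hz : T.lam i z < 0)
    (hb : ∀ j, j ≠ i → 0 ≤ T.bb i j x z) (hm : T.lam m (T.R i z) < 0) :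
    0 ≤ T.lam m (T.R i x) := by
  have hmi : m ≠ i := by
    rintro rfl
    rw [T.lam_R] at hm
    linarith
  have h1 := T.bb_R i m x z
  have h2 := hb m hmi
  simp only [bb] at h1 h2
  rw [T.lam_R, T.lam_R] at h1
  by_contra h3
  push Not at h3
  linarith only [mul_pos (sub_pos.2 h3) (sub_pos.2 hz), mul_nonneg (sub_nonneg.2 hx) (le_of_lt (sub_pos.2 hm)), h2, h1]

/-- the crossing condition is inherited by targets on the segment -/
lemma cross_of_seg {i : Fin ns} {x z : ℂ} {c : ℝ} {w : List (Fin ns)} (hx : 0 ≤ T.lam i x)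
    (h : T.Cross i x z) (hc : 0 ≤ c) (hw : T.Vis w (T.R i x) (T.R i (x + c • (z - x))))
    (hh : ∀ m, w.head? = some m → T.lam m (T.R i z) < 0) :
    T.Cross i x (x + c • (z - x)) := by
  set z' := x + c • (z - x) with hz'
  have hbb : ∀ j, T.bb i j x z' = c * T.bb i j x z := fun j => T.bb_seg_self i j x z c
  obtain ⟨hz, hb⟩ := (T.cross_iff i x z).1 h
  cases w with
  | nil =>
    obtain ⟨k, hk⟩ := hw
    have hk' : z' = T.R i (T.P k) := by rw [← hk, T.R_R]
    by_cases hki : 0 < T.lam i (T.P k)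
    · have h1 : T.lam i z' < 0 := by
        rw [hk', T.lam_R]; linarith
      have hc0 : c ≠ 0 := by
        rintro rfl
        have : z' = x := by rw [hz']; simp
        rw [this] at h1
        linarith
      have hcpos : 0 < c := lt_of_le_of_ne hc (Ne.symm hc0)
      refine (T.cross_iff _ _ _).2 ⟨h1, fun j hj => ?_⟩
      rw [hbb]
      exact mul_pos hcpos (hb j hj)
    · exfalso
      have h0 : T.lam i (T.P k) = 0 := le_antisymm (not_lt.1 hki) (T.lam_P_nonneg i k)
      have h1 : z' = T.P k := by rw [hk', T.R_of_lam_eq_zero h0]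
      obtain ⟨j, hji, hjk⟩ := T.exists_other h0
      have h2 : T.lam j z' = 0 := by rw [h1, hjk]
      have h3 : T.lam i z' = 0 := by rw [h1, h0]
      have h4 := hbb j
      simp only [bb] at h4
      rw [h2, h3] at h4
      have h5 := hb j hji
      simp only [bb] at h5
      have hc0 : c = 0 := by
        by_contra hc0
        have : 0 < c * (T.lam i x * T.lam j z - T.lam j x * T.lam i z) :=
          mul_pos (lt_of_le_of_ne hc (Ne.symm hc0)) h5
        linarith only [h4, this]
      have h6 : z' = x := by rw [hz', hc0]; simp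
      rw [← h6, h3, h2] at h5
      simp at h5
  | cons m w' =>
    obtain ⟨hcm, -⟩ := hw
    obtain ⟨hm1, hm2⟩ := (T.cross_iff _ _ _).1 hcm
    have hmz : T.lam m (T.R i z) < 0 := hh m rfl
    have hmi : m ≠ i := by
      rintro rfl
      rw [T.lam_R] at hmz
      linarith
    have hc0 : c ≠ 0 := by
      rintro rfl
      have h1 : z' = x := by rw [hz']; simp
      obtain ⟨j, hj⟩ := T.exists_ne m
      have h2 := hm2 j hj
      rw [h1] at h2
      simp only [bb] at h2
      linarith only [h2]
    have hcpos : 0 < c := lt_of_le_of_ne hc (Ne.symm hc0)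
    have hX : 0 ≤ T.lam m (T.R i x) :=
      T.pos_next hx hz (fun j hj => (hb j hj).le) hmz
    refine (T.cross_iff _ _ _).2 ⟨?_, fun j hj => ?_⟩
    · have h1 := hm2 i (Ne.symm hmi)
      simp only [bb] at h1
      rw [T.lam_R, T.lam_R] at h1
      by_contra h2
      push Not at h2
      linarith only [mul_nonneg (sub_nonneg.2 hx) (le_of_lt (sub_pos.2 hm1)), mul_nonneg (sub_nonneg.2 hX) (sub_nonneg.2 h2), h1]
    · rw [hbb]
      exact mul_pos hcpos (hb j hj)

/-- the exit lemma -/
lemma exit (w : List (Fin ns)) : ∀ x y z : ℂ, T.Vis w x z →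
    (∀ i, w.head? = some i → 0 ≤ T.lam i x ∧ 0 ≤ T.lam i y) →
    T.Vis w y z ∨ ∃ (s c : ℝ) (w' : List (Fin ns)), 0 ≤ s ∧ s ≤ 1 ∧ 0 ≤ c ∧ c ≤ 1 ∧
      w'.length < w.length ∧ (∀ i, w'.head? = some i → w.head? = some i) ∧
      T.Vis w' (x + s • (y - x)) (x + s • (y - x) + c • (z - (x + s • (y - x)))) := by
  induction w with
  | nil =>
    intro x y z h _
    exact Or.inl h
  | cons i w ih =>
    intro x y z h hpos
    obtain ⟨hx, hy⟩ := hpos i rfl
    obtain ⟨hcr, hv⟩ := h
    obtain ⟨hz, hb⟩ := (T.cross_iff _ _ _).1 hcr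
    by_cases hcase : ∀ j, j ≠ i → 0 < T.bb i j y z
    · -- no exit at the first level
      have hcry : T.Cross i y z := (T.cross_iff _ _ _).2 ⟨hz, hcase⟩
      have hhead : ∀ m, w.head? = some m → T.lam m (T.R i z) < 0 := by
        intro m hm
        cases w with
        | nil => simp at hm
        | cons m' w' =>
          simp only [List.head?_cons, Option.some.injEq] at hm
          subst hm
          exact hv.1.1
      have hpos' : ∀ m, w.head? = some m → 0 ≤ T.lam m (T.R i x) ∧ 0 ≤ T.lam m (T.R i y) := by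
        intro m hm
        exact ⟨T.pos_next hx hz (fun j hj => (hb j hj).le) (hhead m hm),
          T.pos_next hy hz (fun j hj => (hcase j hj).le) (hhead m hm)⟩
      rcases ih _ _ _ hv hpos' with h1 | ⟨s, c, w', hs0, hs1, hc0, hc1, hlen, hhd, hvis⟩
      · exact Or.inl ⟨hcry, h1⟩
      · right
        set xs := x + s • (y - x) with hxs
        have hRxs : T.R i x + s • (T.R i y - T.R i x) = T.R i xs := by rw [hxs, T.R_seg]
        rw [hRxs] at hvis
        rw [← T.R_seg] at hvis
        have hxsi : 0 ≤ T.lam i xs := by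
          rw [hxs, lam_seg]
          have : 0 ≤ 1 - s := by linarith only [hs1]
          (clear * - hs1 hx hs0 hy; positivity)
        have hcrs : T.Cross i xs z := by
          refine (T.cross_iff _ _ _).2 ⟨hz, fun j hj => ?_⟩
          rw [hxs, bb_seg_left]
          have h1 := hb j hj
          have h2 := hcase j hj
          rcases eq_or_lt_of_le hs0 with h3 | h3
          · rw [← h3]; simpa using h1
          · have : 0 ≤ 1 - s := by linarith only [hs1]
            have h4 := mul_pos h3 h2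
            have h5 := mul_nonneg this h1.le
            linarith only [h4, h5]
        have hcr' : T.Cross i xs (xs + c • (z - xs)) :=
          T.cross_of_seg hxsi hcrs hc0 hvis (fun m hm => hhead m (hhd m hm))
        refine ⟨s, c, i :: w', hs0, hs1, hc0, hc1, ?_, ?_, hcr', hvis⟩
        · simpa only [List.length_cons, Order.lt_add_one_iff, Order.add_one_le_iff] using hlen
        · intro m hm
          simpa using hm
    · -- exit at the first level
      right
      push Not at hcase
      obtain ⟨j1, hj1, hb1⟩ := hcase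
      -- the exit time
      obtain ⟨s, j, hs0, hs1, hji, hsj, hall⟩ : ∃ (s : ℝ) (j : Fin ns), 0 ≤ s ∧ s ≤ 1 ∧ j ≠ i ∧
          (1 - s) * T.bb i j x z + s * T.bb i j y z = 0 ∧
          ∀ k, k ≠ i → 0 ≤ (1 - s) * T.bb i k x z + s * T.bb i k y z := by
        exact first_exit (fun j => T.bb i j x z) (fun j => T.bb i j y z) hb hj1 hb1
      set xs := x + s • (y - x) with hxs
      have hxsi : 0 ≤ T.lam i xs := by
        rw [hxs, lam_seg]
        have : 0 ≤ 1 - s := by linarith
        (clear * - hs1 hx hs0 hy; positivity)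
      have hden : 0 < T.lam i xs - T.lam i z := by linarith only [hz, hxsi]
      have hbj : T.bb i j xs z = 0 := by rw [hxs, bb_seg_left]; exact hsj
      set c := T.lam i xs / (T.lam i xs - T.lam i z) with hcdef
      have hc0 : 0 ≤ c := div_nonneg hxsi hden.le
      have hc1 : c ≤ 1 := by
        rw [hcdef, div_le_one hden]; linarith only [hz]
      refine ⟨s, c, [], hs0, hs1, hc0, hc1, by simp, by simp, ?_⟩
      change ∃ k, xs + c • (z - xs) = T.P k
      set z' := xs + c • (z - xs) with hz'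
      have hci : T.lam i z' = 0 := by
        rw [hz', lam_seg, hcdef]
        field_simp
        ring
      have hcj : T.lam j z' = 0 := by
        have hne := hden.ne'
        simp only [bb] at hbj
        rw [hz', lam_seg, hcdef]
        field_simp
        linarith only [hbj]
      refine T.vertex_of (fun m => ?_) hci hcj hji
      by_cases hm : m = i
      · rw [hm]; exact hci.ge
      · have h1 := hall m hm
        rw [← bb_seg_left, ← hxs] at h1
        simp only [bb] at h1
        have h2 : (T.lam i xs - T.lam i z) * T.lam m z' =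
            T.lam i xs * T.lam m z - T.lam m xs * T.lam i z := by
          have h3 : T.lam m z' = (1 - c) * T.lam m xs + c * T.lam m z := by rw [hz', lam_seg]
          have hne := hden.ne'
          have h4 : c * (T.lam i xs - T.lam i z) = T.lam i xs := by
            rw [hcdef, div_mul_cancel₀ _ hne]
          rw [h3]
          linear_combination (T.lam m z - T.lam m xs) * h4
        rw [← h2] at h1
        exact nonneg_of_mul_nonneg_right h1 hden

/-- the sweeping lemma -/
lemma sweep {η : ℝ} (hη : 0 < η) (u : ℂ) (n : ℕ) : ∀ (w : List (Fin ns)), w.length = n →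
    ∀ x y z : ℂ, T.Vis w x z → (∀ i, w.head? = some i → 0 ≤ T.lam i x ∧ 0 ≤ T.lam i y) →
    ∃ w' z', T.Vis w' y z' ∧ (∀ i, w'.head? = some i → w.head? = some i) ∧
      an η u (z' - y) ≤ an η u (z - x) + an η u (y - x) := by
  induction n using Nat.strong_induction_on with
  | _ n ih =>
    intro w hw x y z hv hpos
    rcases T.exit w x y z hv hpos with h | ⟨s, c, w', hs0, hs1, hc0, hc1, hlen, hhd, hvis⟩
    · refine ⟨w, z, h, fun i hi => hi, ?_⟩
      have := an_tri hη u z x y
      rw [an_sub_comm η u x y] at this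
      exact this
    · set xs := x + s • (y - x) with hxs
      have h1 : xs - x = s • (y - x) := by rw [hxs]; ring
      have h2 : y - xs = (1 - s) • (y - x) := by
        rw [hxs, sub_smul, one_smul]; ring
      have hpos' : ∀ i, w'.head? = some i → 0 ≤ T.lam i xs ∧ 0 ≤ T.lam i y := by
        intro i hi
        obtain ⟨ha, hb⟩ := hpos i (hhd i hi)
        refine ⟨?_, hb⟩
        rw [hxs, lam_seg]
        have : 0 ≤ 1 - s := by linarith only [hs1]
        (clear * - hs1 ha hs0 hb; positivity)
      obtain ⟨w'', z'', hv'', hhd'', hle⟩ := ih w'.length (by omega) w' rfl _ _ _ hvis hpos'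
      refine ⟨w'', z'', hv'', fun i hi => hhd i (hhd'' i hi), hle.trans ?_⟩
      rw [add_sub_cancel_left, an_smul, abs_of_nonneg hc0, h2, an_smul,
        abs_of_nonneg (by linarith only [hs1] : (0:ℝ) ≤ 1 - s)]
      have h3 : an η u (z - xs) ≤ an η u (z - x) + s * an η u (y - x) := by
        have := an_tri hη u z x xs
        rw [an_sub_comm η u x xs, h1, an_smul, abs_of_nonneg hs0] at this
        exact this
      have h4 := an_nonneg hη u (z - xs)
      linarith only [mul_nonneg (sub_nonneg.2 hc1) (sub_nonneg.2 h4), h3]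

lemma bddBelow_D {η : ℝ} (hη : 0 < η) (s : ℂ × ℂ) :
    BddBelow {r : ℝ | ∃ w z, T.Vis w s.1 z ∧ r = an η s.2 (z - s.1)} := by
  refine ⟨0, ?_⟩
  rintro r ⟨w, z, -, rfl⟩
  exact an_nonneg hη _ _

lemma nonempty_D (η : ℝ) (s : ℂ × ℂ) :
    {r : ℝ | ∃ w z, T.Vis w s.1 z ∧ r = an η s.2 (z - s.1)}.Nonempty :=
  ⟨_, [], T.P 0, ⟨0, rfl⟩, rfl⟩

lemma D_le_of_vis {η : ℝ} (hη : 0 < η) (s : ℂ × ℂ) {w : List (Fin ns)} {z : ℂ}
    (h : T.Vis w s.1 z) : T.D η s ≤ an η s.2 (z - s.1) :=
  csInf_le (T.bddBelow_D hη s) ⟨w, z, h, rfl⟩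

lemma le_D {η : ℝ} (s : ℂ × ℂ) {c : ℝ}
    (h : ∀ w z, T.Vis w s.1 z → c ≤ an η s.2 (z - s.1)) : c ≤ T.D η s := by
  apply le_csInf (T.nonempty_D η s)
  rintro r ⟨w, z, hv, rfl⟩
  exact h w z hv

lemma exists_vis_of_D_lt {η : ℝ} (s : ℂ × ℂ) {c : ℝ} (h : T.D η s < c) :
    ∃ w z, T.Vis w s.1 z ∧ an η s.2 (z - s.1) < c := by
  by_contra hcon
  push Not at hcon
  exact absurd h (not_lt.2 (T.le_D s hcon))

lemma D_nonneg {η : ℝ} (hη : 0 < η) (s : ℂ × ℂ) : 0 ≤ T.D η s :=
  T.le_D s fun _ _ _ => an_nonneg hη _ _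

lemma D_le {η : ℝ} (hη : 0 < η) (s : ℂ × ℂ) (k : Fin ns) :
    T.D η s ≤ an η s.2 (T.P k - s.1) :=
  T.D_le_of_vis hη s (w := []) ⟨k, rfl⟩

lemma D_le_add {η : ℝ} (hη : 0 < η) {x y : ℂ} (u : ℂ) (hx : x ∈ T.table) (hy : y ∈ T.table) :
    T.D η (y, u) ≤ T.D η (x, u) + an η u (y - x) := by
  rw [← sub_le_iff_le_add]
  apply T.le_D
  intro w z hv
  obtain ⟨w', z', hv', -, hle⟩ := T.sweep hη u w.length w rfl x y z hv
    (fun i _ => ⟨((T.mem_table_iff x).1 hx i).le, ((T.mem_table_iff y).1 hy i).le⟩)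
  have h1 := T.D_le_of_vis hη (y, u) hv'
  simp only at h1 ⊢
  linarith only [hle, h1]

lemma D_lip {η : ℝ} (hη : 0 < η) {x y : ℂ} (u : ℂ) (hx : x ∈ T.table) (hy : y ∈ T.table) :
    |T.D η (y, u) - T.D η (x, u)| ≤ an η u (y - x) := by
  have h1 := T.D_le_add hη u hx hy
  have h2 := T.D_le_add hη u hy hx
  rw [an_sub_comm η u x y] at h2
  rw [abs_le]
  constructor <;> linarith

/-- the crossing point of the segment with the side -/
lemma exists_cross_point {x x' : ℂ} {i : Fin ns} (hx : x ∈ T.table) (h : T.Cross i x x') :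
    ∃ s : ℝ, 0 ≤ s ∧ s ≤ 1 ∧ T.lam i (x + s • (x' - x)) = 0 ∧
      ∀ j, j ≠ i → 0 < T.lam j (x + s • (x' - x)) := by
  obtain ⟨h1, h2⟩ := (T.cross_iff _ _ _).1 h
  have hxi : 0 < T.lam i x := (T.mem_table_iff x).1 hx i
  have hden : 0 < T.lam i x - T.lam i x' := by linarith
  refine ⟨T.lam i x / (T.lam i x - T.lam i x'), div_nonneg hxi.le hden.le, ?_, ?_, fun j hj => ?_⟩
  · rw [div_le_one hden]; linarith
  · rw [lam_seg]
    have := hden.ne'
    field_simp
    ring
  · rw [lam_seg]
    have h3 := h2 j hj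
    simp only [bb] at h3
    have h4 : (1 - T.lam i x / (T.lam i x - T.lam i x')) * T.lam j x +
        T.lam i x / (T.lam i x - T.lam i x') * T.lam j x' =
        (T.lam i x * T.lam j x' - T.lam j x * T.lam i x') / (T.lam i x - T.lam i x') := by
      have := hden.ne'
      field_simp
      ring
    rw [h4]
    exact div_pos h3 hden

lemma D_cross_le {η : ℝ} (hη : 0 < η) {x y : ℂ} (u : ℂ) {i : Fin ns} (hx : x ∈ T.table)
    (hy : y ∈ T.table) (h : T.Cross i x (T.R i y)) :
    T.D η (y, T.refl i u) ≤ T.D η (x, u) + an η u (T.R i y - x) := by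
  rw [← sub_le_iff_le_add]
  apply T.le_D
  intro w z hv
  simp only at hv ⊢
  suffices hsuff : ∃ w' z', T.Vis w' y z' ∧
      an η (T.refl i u) (z' - y) ≤ an η u (z - x) + an η u (T.R i y - x) by
    obtain ⟨w', z', hv', hle⟩ := hsuff
    have h1 := T.D_le_of_vis hη (y, T.refl i u) hv'
    simp only at h1
    linarith
  have hx' := (T.mem_table_iff x).1 hx
  have hy' := (T.mem_table_iff y).1 hy
  by_cases hhead : w.head? = some i
  · -- the word starts with `i`
    cases w with
    | nil => simp at hhead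
    | cons m w =>
      simp only [List.head?_cons, Option.some.injEq] at hhead
      subst hhead
      obtain ⟨hcr, hv1⟩ := hv
      obtain ⟨w', z', hv', -, hle⟩ := T.sweep hη (T.refl m u) w.length w rfl (T.R m x) y
        (T.R m z) hv1 (by
          intro k hk
          refine ⟨?_, (hy' k).le⟩
          apply T.pos_next (hx' m).le hcr.1 (fun j hj => (hcr.2 j hj).le)
          cases w with
          | nil => simp at hk
          | cons m' w' =>
            simp only [List.head?_cons, Option.some.injEq] at hk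
            subst hk
            exact hv1.1.1)
      refine ⟨w', z', hv', hle.trans (le_of_eq ?_)⟩
      rw [T.an_R]
      congr 1
      have : y = T.R m (T.R m y) := (T.R_R m y).symm
      conv_lhs => rw [this]
      rw [T.an_R]
  · -- sweep to the side
    obtain ⟨s, hs0, hs1, hci, hcj⟩ := T.exists_cross_point hx h
    set c := x + s • (T.R i y - x) with hc
    have hcnn : ∀ j, 0 ≤ T.lam j c := by
      intro j
      by_cases hj : j = i
      · rw [hj, hci]
      · exact (hcj j hj).le
    obtain ⟨w', z', hv', hhd', hle⟩ := T.sweep hη u w.length w rfl x c z hv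
      (fun j _ => ⟨(hx' j).le, hcnn j⟩)
    have hRc : T.R i c = c := T.R_of_lam_eq_zero hci
    have hw'i : w'.head? ≠ some i := fun h1 => hhead (hhd' i h1)
    have hzi : 0 < T.lam i z' ∨ (∃ k, z' = T.P k ∧ T.lam i (T.P k) = 0) := by
      cases w' with
      | nil =>
        obtain ⟨k, hk⟩ := hv'
        rcases (T.lam_P_nonneg i k).eq_or_lt with hki | hki
        · right
          exact ⟨k, hk, hki.symm⟩
        · left
          rw [hk]
          exact hki
      | cons m w'' =>
        left
        obtain ⟨⟨hm1, hm2⟩, -⟩ := hv'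
        have hmi : m ≠ i := by
          rintro rfl
          exact hw'i rfl
        have h3 := hm2 i (Ne.symm hmi)
        rw [hci] at h3
        simp only [zero_mul, sub_zero] at h3
        exact (pos_iff_pos_of_mul_pos h3).1 (hcj m hmi)
    have hlen : an η u (c - x) + an η u (T.R i y - c) = an η u (T.R i y - x) := by
      have h1 : c - x = s • (T.R i y - x) := by rw [hc]; ring
      have h2 : T.R i y - c = (1 - s) • (T.R i y - x) := by
        rw [hc, sub_smul, one_smul]; ring
      rw [h1, h2, an_smul, an_smul, abs_of_nonneg hs0,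
        abs_of_nonneg (by linarith only [hs1] : (0:ℝ) ≤ 1 - s)]
      ring
    rcases hzi with hzi | ⟨k, hk, hki⟩
    · -- add the letter `i`
      have hv2 : T.Vis (i :: w') c (T.R i z') := by
        refine ⟨(T.cross_iff _ _ _).2 ⟨?_, fun j hj => ?_⟩, ?_⟩
        · rw [T.lam_R]; linarith only [hzi]
        · simp only [bb]
          rw [hci, T.lam_R]
          have := mul_pos (hcj j hj) hzi
          linarith only [this]
        · rw [T.R_R, hRc]
          exact hv'
      obtain ⟨w'', z'', hv'', -, hle2⟩ := T.sweep hη (T.refl i u) (i :: w').length (i :: w') rfl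
        c y (T.R i z') hv2 (fun j _ => ⟨hcnn j, (hy' j).le⟩)
      refine ⟨w'', z'', hv'', hle2.trans ?_⟩
      have e1 : an η (T.refl i u) (T.R i z' - c) = an η u (z' - c) := by
        conv_lhs => rw [← hRc]
        rw [T.an_R]
      have e2 : an η (T.refl i u) (y - c) = an η u (T.R i y - c) := by
        conv_lhs => rw [← T.R_R i y, ← hRc]
        rw [T.an_R]
      rw [e1, e2]
      linarith only [hle, hlen]
    · -- the vertex lies on the side
      refine ⟨[], z', ⟨k, hk⟩, ?_⟩
      have h0 : T.lam i z' = 0 := by rw [hk, hki]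
      have e1 : an η (T.refl i u) (z' - y) = an η u (z' - T.R i y) := by
        conv_lhs => rw [← T.R_R i y, ← T.R_of_lam_eq_zero h0]
        rw [T.an_R]
      rw [e1]
      have h1 := an_tri hη u z' c (T.R i y)
      rw [an_sub_comm η u c (T.R i y)] at h1
      linarith only [hle, hlen, h1]

lemma D_cross {η : ℝ} (hη : 0 < η) {x y : ℂ} (u : ℂ) {i : Fin ns} (hx : x ∈ T.table)
    (hy : y ∈ T.table) (h : T.Cross i x (T.R i y)) :
    |T.D η (y, T.refl i u) - T.D η (x, u)| ≤ an η u (T.R i y - x) := by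
  have h1 := T.D_cross_le hη u hx hy h
  have hsym : T.Cross i y (T.R i x) := by
    obtain ⟨ha, hb⟩ := (T.cross_iff _ _ _).1 h
    refine (T.cross_iff _ _ _).2 ⟨?_, fun j hj => ?_⟩
    · rw [T.lam_R]
      have := (T.mem_table_iff x).1 hx i
      linarith only [this]
    · have h2 := T.bb_R i j x (T.R i y)
      rw [T.R_R] at h2
      have h3 := hb j hj
      simp only [bb] at h2 h3 ⊢
      linarith
  have h2 := T.D_cross_le hη (T.refl i u) hy hx hsym
  rw [T.refl_refl] at h2
  have h3 : an η (T.refl i u) (T.R i x - y) = an η u (T.R i y - x) := by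
    conv_lhs => rw [← T.R_R i y]
    rw [T.an_R, an_sub_comm]
  rw [h3] at h2
  rw [abs_le]
  constructor <;> linarith only [h1, h2]

/-! ### measurability -/

lemma continuous_lam (i : Fin ns) : Continuous (T.lam i) := by
  unfold lam cr
  fun_prop

/-- the unfolded vertices -/
noncomputable def unf : List (Fin ns) → Fin ns → ℂ
  | [], k => T.P k
  | i :: w, k => T.R i (unf w k)

lemma exists_unf (w : List (Fin ns)) : ∀ x z : ℂ, T.Vis w x z → ∃ k, z = T.unf w k := by
  induction w with
  | nil =>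
    rintro x z ⟨k, hk⟩
    exact ⟨k, hk⟩
  | cons i w ih =>
    rintro x z ⟨-, hv⟩
    obtain ⟨k, hk⟩ := ih _ _ hv
    exact ⟨k, by rw [unf, ← hk, T.R_R]⟩

lemma measurableSet_vis (w : List (Fin ns)) : ∀ z : ℂ, MeasurableSet {x | T.Vis w x z} := by
  induction w with
  | nil =>
    intro z
    by_cases h : ∃ k, z = T.P k
    · have : {x : ℂ | T.Vis [] x z} = univ := by
        ext x; simpa only [vis_nil, mem_ofPred_eq, mem_univ, iff_true] using h
      rw [this]
      exact MeasurableSet.univ
    · have : {x : ℂ | T.Vis [] x z} = ∅ := by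
        ext x; simpa only [vis_nil, mem_ofPred_eq, mem_empty_iff_false, iff_false, not_exists] using h
      rw [this]
      exact MeasurableSet.empty
  | cons i w ih =>
    intro z
    have h1 : {x | T.Vis (i :: w) x z} =
        ({x | T.lam i z < 0} ∩ ⋂ j, ⋂ (_ : j ≠ i),
          {x | 0 < T.lam i x * T.lam j z - T.lam j x * T.lam i z}) ∩
        (T.R i) ⁻¹' {x | T.Vis w x (T.R i z)} := by
      ext x
      simp only [vis_cons, Cross, mem_ofPred_eq, mem_inter_iff, mem_iInter, mem_preimage]
    rw [h1]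
    apply MeasurableSet.inter
    · apply MeasurableSet.inter (MeasurableSet.const _)
      apply MeasurableSet.iInter
      intro j
      apply MeasurableSet.iInter
      intro _
      apply (isOpen_lt continuous_const _).measurableSet
      exact ((T.continuous_lam i).mul continuous_const).sub
        ((T.continuous_lam j).mul continuous_const)
    · exact (T.continuous_R i).measurable (ih (T.R i z))

lemma measurable_an (η : ℝ) (z : ℂ) :
    Measurable fun s : ℂ × ℂ => an η s.2 (z - s.1) := by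
  apply Continuous.measurable
  unfold an cr dt
  fun_prop

open Classical in
/-- the terms of the infimum -/
noncomputable def gterm (η : ℝ) (p : List (Fin ns) × Fin ns) (s : ℂ × ℂ) : ℝ :=
  if T.Vis p.1 s.1 (T.unf p.1 p.2) then an η s.2 (T.unf p.1 p.2 - s.1) else an η s.2 (T.P 0 - s.1)

lemma D_eq_iInf (η : ℝ) (s : ℂ × ℂ) : T.D η s = ⨅ p, T.gterm η p s := by
  unfold D iInf
  congr 1
  ext r
  simp only [mem_ofPred_eq, mem_range, Prod.exists]
  constructor
  · rintro ⟨w, z, hv, rfl⟩
    obtain ⟨k, hk⟩ := T.exists_unf w _ _ hv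
    refine ⟨w, k, ?_⟩
    rw [gterm, if_pos (by simpa [← hk] using hv), hk]
  · rintro ⟨w, k, rfl⟩
    unfold gterm
    split_ifs with h
    · exact ⟨w, _, h, rfl⟩
    · exact ⟨[], T.P 0, ⟨0, rfl⟩, rfl⟩

lemma measurable_D (η : ℝ) : Measurable (T.D η) := by
  have : T.D η = fun s => ⨅ p, T.gterm η p s := by
    funext s
    exact T.D_eq_iInf η s
  rw [this]
  apply Measurable.iInf
  intro p
  unfold gterm
  apply Measurable.ite
  · exact measurable_fst (T.measurableSet_vis p.1 (T.unf p.1 p.2))
  · exact measurable_an η _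
  · exact measurable_an η _

end ConvexPolygon

end Vale.Agent.P099C
end
end

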