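import Vale.Agent.P099.MathlibUsed
import Vale.Agent.P099.H504.CPE
attribute [-instance] ProperSMul.toContinuousSMul IsTopologicalTorsor.toContinuousSMul IdemSemiring.toCanonicallyOrderedAdd IdemSemiring.toMulLeftMono IdemSemiring.toMulRightMono AddQuantale.instAddLeftMono AddQuantale.instAddRightMono Quantale.instMulLeftMono Quantale.instMulRightMono FiniteDimensional.rclike_to_real IsScalarTower.complexToReal FiniteDimensional.complexToReal

set_option linter.all false

section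

section

open MeasureTheory Set Filter Topology

namespace Vale.Agent.P099C
open Vale.Agent.P099 (nu FlowErgodic FlowWeakMixing)

set_option linter.unusedSectionVars false

variable {Ω : Type} [MeasurableSpace Ω]

namespace ConvexPolygon

variable {ns : ℕ} [NeZero ns] (T : ConvexPolygon ns)

/-! ### positions relative to the sides -/

lemma abs_lam_sub_le (i : Fin ns) (x y : ℂ) : |T.lam i y - T.lam i x| ≤ T.Lp * ‖y - x‖ := by
  have h := T.lam_add i x (y - x)
  rw [add_sub_cancel] at h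
  rw [h, add_sub_cancel_left]
  exact T.abs_ell_le i (y - x)

/-- close to a point of the closed table, away from the vertices, only one side matters -/
def LocAt (i : Fin ns) (y : ℂ) : Prop :=
  (∀ j, j ≠ i → 0 < T.lam j y) ∧ (T.lam i y ≤ 0 → ∀ j, j ≠ i → 0 < T.lam j (T.R i y))

lemma mem_segment_lam {i : Fin ns} {y : ℂ}
    (hy : y ∈ segment ℝ (T.P i) (T.P (i + 1))) :
    T.lam i y = 0 ∧ ∀ j, 0 ≤ T.lam j y := by
  obtain ⟨a, b, ha, hb, hab, rfl⟩ := hy
  have h1 : ∀ j, T.lam j (a • T.P i + b • T.P (i + 1)) =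
      a * T.lam j (T.P i) + b * T.lam j (T.P (i + 1)) := by
    intro j
    have h2 : a • T.P i + b • T.P (i + 1) =
        T.P i + b • (T.P (i + 1) - T.P i) := by
      have : a = 1 - b := by linarith only [hab]
      rw [this, sub_smul, smul_sub, one_smul]
      ring
    have h3 := T.lam_add j (T.P i) (T.P (i + 1) - T.P i)
    rw [add_sub_cancel] at h3
    rw [h2, T.lam_add, T.ell_smul]
    have : a = 1 - b := by linarith
    rw [this]
    linear_combination (-b) * h3
  constructor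
  · rw [h1, T.lam_P_self, T.lam_P_next]
    ring
  · intro j
    rw [h1]
    exact add_nonneg (mul_nonneg ha (T.lam_P_nonneg _ _)) (mul_nonneg hb (T.lam_P_nonneg _ _))

/-- near the vertex common to two consecutive sides -/
lemma vertex_near_adj (i : Fin ns) : ∃ C : ℝ, 0 < C ∧ ∀ x : ℂ, (∀ k, 0 ≤ T.lam k x) →
    ‖x - T.P (i + 1)‖ ≤ C * (T.lam i x + T.lam (i + 1) x) := by
  have hc := T.cr_consec i
  have hD := T.Del_pos
  have hd1 : 0 < ‖T.d i‖ := norm_pos_iff.2 (T.d_ne i)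
  refine ⟨T.Del / cr (T.d i) (T.d (i + 1)) * (‖T.d i‖ + ‖T.d (i + 1)‖), by positivity,
    fun x hx => ?_⟩
  have h1 : cr (T.d i) (x - T.P (i + 1)) = T.Del * T.lam i x := by
    have h2 := T.lam_add i (T.P (i + 1)) (x - T.P (i + 1))
    rw [add_sub_cancel, T.lam_P_next, zero_add] at h2
    rw [h2]
    unfold ell
    rw [mul_div_cancel₀ _ T.Del_ne]
  have h1' : cr (T.d (i + 1)) (x - T.P (i + 1)) = T.Del * T.lam (i + 1) x := by
    unfold lam
    rw [mul_div_cancel₀ _ T.Del_ne]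
  have h3 := cr_solve (T.d i) (T.d (i + 1)) (x - T.P (i + 1))
  have h4 : cr (x - T.P (i + 1)) (T.d (i + 1)) = - cr (T.d (i + 1)) (x - T.P (i + 1)) := by
    unfold cr; ring
  have a1 := hx i
  have a2 := hx (i + 1)
  have h5 : cr (T.d i) (T.d (i + 1)) * ‖x - T.P (i + 1)‖ ≤
      T.Del * T.lam (i + 1) x * ‖T.d i‖ + T.Del * T.lam i x * ‖T.d (i + 1)‖ := by
    have h6 := congrArg norm h3
    rw [norm_smul, Real.norm_eq_abs, abs_of_pos hc] at h6
    rw [h6]
    refine (norm_add_le _ _).trans (le_of_eq ?_)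
    rw [norm_smul, norm_smul, Real.norm_eq_abs, Real.norm_eq_abs, h4, abs_neg, h1, h1',
      abs_of_nonneg (by positivity), abs_of_nonneg (by positivity)]
  rw [div_mul_eq_mul_div, div_mul_eq_mul_div, le_div_iff₀ hc]
  have b1 := norm_nonneg (T.d i)
  have b2 := norm_nonneg (T.d (i + 1))
  have c1 : 0 ≤ T.Del * T.lam i x * ‖T.d i‖ := by positivity
  have c2 : 0 ≤ T.Del * T.lam (i + 1) x * ‖T.d (i + 1)‖ := by positivity
  linarith

/-- two small coordinates mean that a vertex is near -/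
lemma vertex_near {i j : Fin ns} (hij : i ≠ j) : ∃ C : ℝ, 0 < C ∧ ∀ x : ℂ, (∀ k, 0 ≤ T.lam k x) →
    ∃ m, ‖x - T.P m‖ ≤ C * (T.lam i x + T.lam j x) := by
  by_cases h1 : j = i + 1
  · obtain ⟨C, hC, h⟩ := T.vertex_near_adj i
    exact ⟨C, hC, fun x hx => ⟨i + 1, by rw [h1]; exact h x hx⟩⟩
  by_cases h2 : i = j + 1
  · obtain ⟨C, hC, h⟩ := T.vertex_near_adj j
    refine ⟨C, hC, fun x hx => ⟨j + 1, ?_⟩⟩
    have := h x hx
    rw [h2]
    linarith
  · -- the sum is bounded below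
    have hK := T.isCompact_ctab
    have hne : T.ctab.Nonempty := T.table_nonempty.mono T.table_subset_ctab
    have hcont : Continuous fun x => T.lam i x + T.lam j x :=
      (T.continuous_lam0 i).add (T.continuous_lam0 j)
    obtain ⟨z, hz, hmin⟩ := hK.exists_isMinOn hne hcont.continuousOn
    have hpos : 0 < T.lam i z + T.lam j z := by
      have a1 := hz i
      have a2 := hz j
      rcases (add_nonneg a1 a2).eq_or_lt with h | h
      · exfalso
        have e1 : T.lam i z = 0 := by linarith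
        have e2 : T.lam j z = 0 := by linarith
        obtain ⟨k, hk⟩ := T.vertex_of hz e1 e2 (Ne.symm hij)
        rw [hk] at e1 e2
        have k1 : k = i ∨ k = i + 1 := by
          by_contra hn
          push Not at hn
          exact (T.lam_P_pos hn.1 hn.2).ne' e1
        have k2 : k = j ∨ k = j + 1 := by
          by_contra hn
          push Not at hn
          exact (T.lam_P_pos hn.1 hn.2).ne' e2
        rcases k1 with k1 | k1 <;> rcases k2 with k2 | k2
        · exact hij (k1.symm.trans k2)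
        · exact h2 (k1.symm.trans k2)
        · exact h1 (k2.symm.trans k1)
        · exact hij (add_right_cancel (k1.symm.trans k2))
      · exact h
    have hdm := T.dm_pos
    refine ⟨T.dm / (T.lam i z + T.lam j z), by positivity, fun x hx => ⟨0, ?_⟩⟩
    have h5 : T.lam i z + T.lam j z ≤ T.lam i x + T.lam j x := hmin hx
    have h6 : ‖x - T.P 0‖ ≤ T.dm := T.norm_sub_le_dm hx fun k => T.lam_P_nonneg k 0
    rw [div_mul_eq_mul_div, le_div_iff₀ hpos]
    nlinarith [norm_nonneg (x - T.P 0)]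

lemma vertex_near_unif : ∃ C : ℝ, 0 < C ∧ ∀ i j : Fin ns, i ≠ j → ∀ x : ℂ, (∀ k, 0 ≤ T.lam k x) →
    ∃ m, ‖x - T.P m‖ ≤ C * (T.lam i x + T.lam j x) := by
  have h : ∀ p : Fin ns × Fin ns, ∃ C : ℝ, 0 < C ∧ (p.1 ≠ p.2 → ∀ x : ℂ, (∀ k, 0 ≤ T.lam k x) →
      ∃ m, ‖x - T.P m‖ ≤ C * (T.lam p.1 x + T.lam p.2 x)) := by
    intro p
    by_cases hp : p.1 ≠ p.2
    · obtain ⟨C, hC, h⟩ := T.vertex_near hp
      exact ⟨C, hC, fun _ => h⟩
    · exact ⟨1, one_pos, fun h => absurd h hp⟩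
  choose C hC hC2 using h
  refine ⟨∑ p, C p, Finset.sum_pos (fun p _ => hC p) ⟨(0, 0), Finset.mem_univ _⟩,
    fun i j hij x hx => ?_⟩
  obtain ⟨m, hm⟩ := hC2 (i, j) hij x hx
  refine ⟨m, hm.trans (mul_le_mul_of_nonneg_right ?_ (add_nonneg (hx i) (hx j)))⟩
  exact Finset.single_le_sum (f := C) (fun p _ => (hC p).le) (Finset.mem_univ (i, j))

/-- (a) -/
lemma exists_locAt : ∃ κ : ℝ, 0 < κ ∧ ∀ r0 : ℝ, 0 < r0 → ∀ ε : ℝ, 0 < ε → ε ≤ κ * r0 →
    ∀ x : ℂ, (∀ i, 0 ≤ T.lam i x) → (∀ m, r0 / 2 ≤ ‖x - T.P m‖) →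
      ∃ i, ∀ y, ‖y - x‖ < 2 * ε → T.LocAt i y := by
  have hdm := T.dm_pos
  have hL := T.Lp_pos
  obtain ⟨C, hC, hCn⟩ := T.vertex_near_unif
  refine ⟨(1 / (8 * C)) / (2 * T.Lp), by positivity, ?_⟩
  intro r0 hr0 ε hε hεκ x hx hm
  set c : ℝ := 1 / (8 * C) with hc
  have hc0 : 0 < c := by positivity
  have hmin : ∃ i : Fin ns, ∀ j, j ≠ i → c * r0 < T.lam j x := by
    by_cases hsm : ∃ i, T.lam i x ≤ c * r0
    · obtain ⟨i, hi⟩ := hsm
      refine ⟨i, fun j hj => ?_⟩
      by_contra hn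
      push Not at hn
      obtain ⟨m, h1⟩ := hCn j i hj x hx
      have h2 := hm m
      have h3 : C * (T.lam j x + T.lam i x) ≤ C * (c * r0 + c * r0) := by gcongr
      have h4 : C * (c * r0 + c * r0) = r0 / 4 := by
        rw [hc]; field_simp; ring
      linarith only [h1, h2, h3, h4, hr0]
    · push Not at hsm
      exact ⟨0, fun j _ => hsm j⟩
  obtain ⟨i, hi⟩ := hmin
  refine ⟨i, fun y hy => ?_⟩
  have hLe : T.Lp * (2 * ε) ≤ c * r0 := by
    have h6 : T.Lp * (2 * (c / (2 * T.Lp) * r0)) = c * r0 := by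
      field_simp
    rw [← h6]
    (clear * - hεκ hL; gcongr)
  have hpos : ∀ z : ℂ, ‖z - x‖ < 2 * ε → ∀ j, j ≠ i → 0 < T.lam j z := by
    intro z hz j hj
    have h7 := T.abs_lam_sub_le j x z
    have h8 := hi j hj
    have h9 : T.Lp * ‖z - x‖ < T.Lp * (2 * ε) := by (clear * - hz hL; gcongr)
    have h10 := (abs_le.mp h7).1
    linarith only [hLe, h8, h9, h10]
  refine ⟨hpos y hy, fun hiy j hj => ?_⟩
  exact hpos (T.R i y) (lt_of_le_of_lt (T.norm_R_sub_le i (hx i) hiy) hy) j hj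

/-! ### the extension near a point -/

variable {T}

lemma not_mem_table_of_nonpos {i : Fin ns} {y : ℂ} (h : T.lam i y ≤ 0) : y ∉ T.table := by
  intro hy
  have := (T.mem_table_iff y).mp hy i
  linarith

lemma R_not_mem_table {i : Fin ns} {y : ℂ} (h : 0 ≤ T.lam i y) : T.R i y ∉ T.table := by
  apply not_mem_table_of_nonpos (i := i)
  rw [T.lam_R]
  linarith

lemma LocAt.mem_table {i : Fin ns} {y : ℂ} (h : T.LocAt i y) (hi : 0 < T.lam i y) :
    y ∈ T.table := by
  rw [T.mem_table_iff]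
  intro j
  by_cases hj : j = i
  · rw [hj]; exact hi
  · exact h.1 j hj

lemma LocAt.R_mem_table {i : Fin ns} {y : ℂ} (h : T.LocAt i y) (hi : T.lam i y < 0) :
    T.R i y ∈ T.table := by
  rw [T.mem_table_iff]
  intro j
  by_cases hj : j = i
  · rw [hj, T.lam_R]; linarith
  · exact h.2 hi.le j hj

lemma ext_of_pos {f : ℂ → ℂ × Ω → ℝ} {y : ℂ} (h : y ∈ T.table) (ω : ℂ × Ω) :
    T.ext f y ω = f y ω := by
  unfold ext
  rw [indicator_of_mem h, Finset.sum_eq_zero, add_zero]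
  intro j _
  apply indicator_of_notMem
  exact R_not_mem_table ((T.mem_table_iff y).mp h j).le

lemma LocAt.ext_of_neg {f : ℂ → ℂ × Ω → ℝ} {i : Fin ns} {y : ℂ} (h : T.LocAt i y)
    (hi : T.lam i y < 0) (ω : ℂ × Ω) :
    T.ext f y ω = f (T.R i y) (T.refl i ω.1, ω.2) := by
  unfold ext
  rw [indicator_of_notMem (not_mem_table_of_nonpos hi.le), zero_add,
    Finset.sum_eq_single i]
  · rw [indicator_of_mem]
    exact h.R_mem_table hi
  · intro j _ hj
    apply indicator_of_notMem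
    exact R_not_mem_table (h.1 j hj).le
  · simp

lemma LocAt.ext_of_zero {f : ℂ → ℂ × Ω → ℝ} {i : Fin ns} {y : ℂ} (h : T.LocAt i y)
    (hi : T.lam i y = 0) (ω : ℂ × Ω) :
    T.ext f y ω = 0 := by
  unfold ext
  rw [indicator_of_notMem (not_mem_table_of_nonpos hi.le), zero_add, Finset.sum_eq_zero]
  intro j _
  apply indicator_of_notMem
  by_cases hj : j = i
  · apply R_not_mem_table
    rw [hj, hi]
  · exact R_not_mem_table (h.1 j hj).le

variable (T)

lemma R_P {i m : Fin ns} (h : T.lam i (T.P m) = 0) : T.R i (T.P m) = T.P m := by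
  apply T.R_of_lam_eq_zero
  exact h

/-- (b) -/
lemma ext_eq_zero_near {r0 : ℝ} (hr1 : T.Lp * r0 ≤ 1) {f : ℂ → ℂ × Ω → ℝ}
    (hf : ∀ m, ∀ x ∈ T.table, ‖x - T.P m‖ < r0 → ∀ ω, f x ω = 0) {m : Fin ns} {y : ℂ}
    (hy : ‖y - T.P m‖ < r0) (ω : ℂ × Ω) : T.ext f y ω = 0 := by
  unfold ext
  have h1 : T.table.indicator (fun y => f y ω) y = 0 := by
    by_cases h : y ∈ T.table
    · rw [indicator_of_mem h]
      exact hf m y h hy ω
    · exact indicator_of_notMem h _
  rw [h1, zero_add]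
  apply Finset.sum_eq_zero
  intro j _
  by_cases h : T.R j y ∈ T.table
  · rw [indicator_of_mem (by exact h)]
    by_cases hj : 0 < T.lam j (T.P m)
    · exfalso
      have hj1 : m ≠ j := by
        intro h0
        rw [h0, T.lam_P_self] at hj
        exact lt_irrefl _ hj
      have hj2 : m ≠ j + 1 := by
        intro h0
        rw [h0, T.lam_P_next] at hj
        exact lt_irrefl _ hj
      have hc0 := T.c0_le hj1 hj2
      have h2 := (T.mem_table_iff _).mp h j
      rw [T.lam_R] at h2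
      have h3 : |T.lam j y - T.lam j (T.P m)| ≤ T.c0 * T.Lp * ‖y - T.P m‖ := by
        have h := T.lam_add j (T.P m) (y - T.P m)
        rw [add_sub_cancel] at h
        rw [h, add_sub_cancel_left]
        exact T.abs_ell_le' j (y - T.P m)
      have h4 : T.c0 * (T.Lp * ‖y - T.P m‖) ≤ T.c0 * 1 := by
        have h5 := T.Lp_pos
        have h6 := T.c0_pos
        have h7 : T.Lp * ‖y - T.P m‖ ≤ T.Lp * r0 := by (clear * - hy h5; gcongr)
        exact mul_le_mul_of_nonneg_left (h7.trans hr1) h6.le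
      have h5 := (abs_le.mp h3).1
      linarith only [hc0, h2, h4, h5]
    · have hj : T.lam j (T.P m) = 0 := le_antisymm (not_lt.1 hj) (T.lam_P_nonneg _ _)
      apply hf m _ h
      rw [← T.R_P hj, T.norm_R_sub_R]
      exact hy
  · exact indicator_of_notMem (s := T.R j ⁻¹' T.table) (by exact h) _

/-- symmetry of the extension under the reflection, near the side -/
lemma LocAt.ext_R {ns : ℕ} [NeZero ns] {T : ConvexPolygon ns} {f : ℂ → ℂ × Ω → ℝ} {i : Fin ns} {z : ℂ} (h : T.LocAt i z)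
    (h' : T.LocAt i (T.R i z)) (ω : ℂ × Ω) :
    T.ext f (T.R i z) (T.refl i ω.1, ω.2) = T.ext f z ω := by
  rcases lt_trichotomy (T.lam i z) 0 with h0 | h0 | h0
  · rw [h.ext_of_neg h0, ext_of_pos (h.R_mem_table h0)]
  · rw [h.ext_of_zero h0, T.R_of_lam_eq_zero h0, h.ext_of_zero h0]
  · rw [ext_of_pos (h.mem_table h0), h'.ext_of_neg (by rw [T.lam_R]; linarith), T.R_R]
    simp only [T.refl_refl]

/-- (c) -/
lemma sym_ext : ∃ κ : ℝ, 0 < κ ∧ ∀ r0 : ℝ, 0 < r0 → T.Lp * r0 ≤ 1 → ∀ ε : ℝ, 0 < ε → ε ≤ κ * r0 →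
    ∀ f : ℂ → ℂ × Ω → ℝ, (∀ m, ∀ x ∈ T.table, ‖x - T.P m‖ < r0 → ∀ ω, f x ω = 0) →
    T.Sym ε (T.ext f) := by
  obtain ⟨κ, hκ, hloc⟩ := T.exists_locAt
  refine ⟨min κ (1 / 4), by positivity, ?_⟩
  intro r0 hr0 hr1 ε hε hεκ f hf i y hy ω
  have hεκ1 : ε ≤ κ * r0 := hεκ.trans (by gcongr; exact min_le_left _ _)
  have hεκ2 : ε ≤ 1 / 4 * r0 := hεκ.trans (by gcongr; exact min_le_right _ _)
  obtain ⟨hyi, hyj⟩ := T.mem_segment_lam hy
  have hRy : T.R i y = y := T.R_of_lam_eq_zero hyi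
  unfold mol
  rw [← (T.measurePreserving_R i).integral_comp
    (MeasurableEquiv.measurableEmbedding
      ⟨⟨T.R i, T.R i, T.R_R i, T.R_R i⟩, (T.continuous_R i).measurable, (T.continuous_R i).measurable⟩)]
  congr 1
  funext z
  have h1 : ‖y - T.R i z‖ = ‖y - z‖ := by
    conv_lhs => rw [← hRy]
    exact T.norm_R_sub_R i y z
  rw [rho_radial ε h1]
  by_cases hz : ε ≤ ‖y - z‖
  · rw [rho_eq_zero hε hz, zero_mul, zero_mul]
  · push Not at hz
    congr 1
    by_cases hm : ∀ m, r0 / 2 ≤ ‖y - T.P m‖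
    · obtain ⟨i', hi'⟩ := hloc r0 hr0 ε hε hεκ1 y hyj hm
      have hii : i' = i := by
        by_contra hne
        have := (hi' y (by simp; positivity)).1 i (Ne.symm hne)
        linarith only [hyi, this]
      subst hii
      apply LocAt.ext_R
      · apply hi'
        rw [norm_sub_rev]
        linarith only [hε, hz]
      · apply hi'
        rw [norm_sub_rev, h1]
        linarith only [hε, hz]
    · push Not at hm
      obtain ⟨m, hm⟩ := hm
      rw [T.ext_eq_zero_near hr1 hf (m := m), T.ext_eq_zero_near hr1 hf (m := m)]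
      · calc ‖z - T.P m‖ = ‖(y - T.P m) - (y - z)‖ := by congr 1; ring
          _ ≤ ‖y - T.P m‖ + ‖y - z‖ := norm_sub_le _ _
          _ < r0 := by linarith only [hm, hz, hεκ2, hε]
      · calc ‖T.R i z - T.P m‖ = ‖(y - T.P m) - (y - T.R i z)‖ := by congr 1; ring
          _ ≤ ‖y - T.P m‖ + ‖y - T.R i z‖ := norm_sub_le _ _
          _ < r0 := by rw [h1]; linarith only [hm, hz, hεκ2, hε]

/-! ### the same facts in another form -/

/-- inside the table the extension is the function -/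
lemma ext_of_mem (f : ℂ → ℂ × Ω → ℝ) {y : ℂ} (hy : y ∈ T.table) (ω : ℂ × Ω) :
    T.ext f y ω = f y ω := ext_of_pos hy ω

/-- in the mirror image, away from the other two sides -/
lemma ext_of_R (f : ℂ → ℂ × Ω → ℝ) {y : ℂ} {i : Fin ns} (hy : T.R i y ∈ T.table)
    (h : ∀ j, j ≠ i → 0 < T.lam j y) (ω : ℂ × Ω) :
    T.ext f y ω = f (T.R i y) (T.refl i ω.1, ω.2) := by
  have h1 := (T.mem_table_iff _).mp hy
  have h0 : T.lam i y < 0 := by
    have := h1 i
    rw [T.lam_R] at this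
    linarith
  exact LocAt.ext_of_neg (i := i) ⟨h, fun _ j _ => h1 j⟩ h0 ω

/-- Local structure: near a point of the closed table one only sees a vertex or at most one side. -/
lemma exists_loc : ∃ κ r1 : ℝ, 0 < κ ∧ κ ≤ 1 / 4 ∧ 0 < r1 ∧
    (∀ (f : ℂ → ℂ × Ω → ℝ) (r0 : ℝ), r0 < r1 →
      (∀ x ω, x ∈ T.table → (∃ k, ‖x - T.P k‖ < r0) → f x ω = 0) →
      ∀ y ω, (∃ k, ‖y - T.P k‖ < r0) → T.ext f y ω = 0) ∧
    (∀ (f : ℂ → ℂ × Ω → ℝ) (r0 ε : ℝ), 0 < r0 → r0 < r1 → 0 < ε → ε ≤ κ * r0 →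
      (∀ x ω, x ∈ T.table → (∃ k, ‖x - T.P k‖ < r0) → f x ω = 0) → T.Sym ε (T.ext f)) ∧
    ∀ r0 ε : ℝ, 0 < r0 → r0 < r1 → 0 < ε → ε ≤ κ * r0 → ∀ x, (∀ i, 0 ≤ T.lam i x) →
      (∃ k, ∀ y, ‖y - x‖ < 2 * ε → ‖y - T.P k‖ < r0) ∨
      (∃ i, ∀ y, ‖y - x‖ < 2 * ε → T.LocAt i y) := by
  obtain ⟨κ1, hκ1, hloc⟩ := T.exists_locAt
  obtain ⟨κ2, hκ2, hsym⟩ := T.sym_ext (Ω := Ω)
  have hL := T.Lp_pos
  refine ⟨min (1 / 4) (min κ1 κ2), 1 / T.Lp, by positivity, min_le_left _ _, by positivity,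
    ?_, ?_, ?_⟩
  · intro f r0 hr0 hf y ω ⟨k, hk⟩
    apply T.ext_eq_zero_near (r0 := r0) _ (fun m x hx hxm ω => hf x ω hx ⟨m, hxm⟩) hk
    rw [lt_div_iff₀ hL] at hr0
    linarith
  · intro f r0 ε hr0 hr1 hε hεκ hf
    apply hsym r0 hr0 _ ε hε _ f (fun m x hx hxm ω => hf x ω hx ⟨m, hxm⟩)
    · rw [lt_div_iff₀ hL] at hr1
      linarith only [hr1]
    · refine hεκ.trans ?_
      gcongr
      exact (min_le_right _ _).trans (min_le_right _ _)
  · intro r0 ε hr0 hr1 hε hεκ x hx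
    have h1 : ε ≤ κ1 * r0 := by
      refine hεκ.trans ?_
      gcongr
      exact (min_le_right _ _).trans (min_le_left _ _)
    have h2 : ε ≤ 1 / 4 * r0 := by
      refine hεκ.trans ?_
      gcongr
      exact min_le_left _ _
    by_cases hm : ∀ m, r0 / 2 ≤ ‖x - T.P m‖
    · exact Or.inr (hloc r0 hr0 ε hε h1 x hx hm)
    · push Not at hm
      obtain ⟨k, hk⟩ := hm
      refine Or.inl ⟨k, fun y hy => ?_⟩
      calc ‖y - T.P k‖ = ‖(y - x) + (x - T.P k)‖ := by congr 1; ring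
        _ ≤ ‖y - x‖ + ‖x - T.P k‖ := norm_add_le _ _
        _ < r0 := by linarith only [hy, hk, h2]

/-! ### boundedness and measurability of the extension -/

lemma exists_table_bound : ∃ r : ℝ, 0 < r ∧ ∀ y ∈ T.table, ‖y‖ < r := by
  refine ⟨T.dm + ‖T.P 0‖ + 1, by have := T.dm_pos; positivity, fun y hy => ?_⟩
  have h1 : ‖y - T.P 0‖ ≤ T.dm := by
    apply T.norm_sub_le_dm
    · intro i; exact ((T.mem_table_iff y).mp hy i).le
    · intro i; exact T.lam_P_nonneg _ _
  have h2 : ‖y‖ ≤ ‖y - T.P 0‖ + ‖T.P 0‖ := by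
    have := norm_add_le (y - T.P 0) (T.P 0)
    simpa only [Fin.isValue, ge_iff_le, sub_add_cancel] using this
  linarith

lemma exists_table_bound' : ∃ r : ℝ, 0 < r ∧ (∀ y ∈ T.table, ‖y‖ < r) ∧
    ∀ i, ∀ y, T.R i y ∈ T.table → ‖y‖ < r := by
  obtain ⟨r, hr, hrt⟩ := T.exists_table_bound
  have hS : 0 ≤ ∑ i, ‖T.R i 0‖ := Finset.sum_nonneg fun i _ => norm_nonneg _
  refine ⟨r + (r + ∑ i, ‖T.R i 0‖), by positivity,
    fun y hy => by
      have := hrt y hy
      linarith, fun i y hy => ?_⟩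
  have h1 := hrt _ hy
  have h2 : ‖y‖ = ‖T.R i y - T.R i 0‖ := by rw [T.norm_R_sub_R, sub_zero]
  have h3 := norm_sub_le (T.R i y) (T.R i 0)
  have h4 : ‖T.R i 0‖ ≤ ∑ i, ‖T.R i 0‖ :=
    Finset.single_le_sum (f := fun i => ‖T.R i 0‖) (fun j _ => norm_nonneg _) (Finset.mem_univ i)
  linarith only [hr, h1, h2, h3, h4]

lemma measurable_ext {f : ℂ → ℂ × Ω → ℝ}
    (hf : Measurable (fun p : ℂ × (ℂ × Ω) => f p.1 p.2)) :
    Measurable (fun p : ℂ × (ℂ × Ω) => T.ext f p.1 p.2) := by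
  have hmt : MeasurableSet T.table := T.isOpen_table.measurableSet
  have h1 : Measurable (fun p : ℂ × (ℂ × Ω) => T.table.indicator (fun y => f y p.2) p.1) := by
    have : (fun p : ℂ × (ℂ × Ω) => T.table.indicator (fun y => f y p.2) p.1) =
        (Prod.fst ⁻¹' T.table).indicator (fun p : ℂ × (ℂ × Ω) => f p.1 p.2) := by
      funext p
      simp only [indicator, mem_preimage]
      rfl
    rw [this]
    exact hf.indicator (measurable_fst hmt)
  have h2 : ∀ i, Measurable (fun p : ℂ × (ℂ × Ω) =>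
      (T.R i ⁻¹' T.table).indicator (fun y => f (T.R i y) (T.refl i p.2.1, p.2.2)) p.1) := by
    intro i
    have hR : Measurable (T.R i) := (T.continuous_R i).measurable
    have hr : Measurable (T.refl i) := (T.continuous_refl i).measurable
    have : (fun p : ℂ × (ℂ × Ω) =>
      (T.R i ⁻¹' T.table).indicator (fun y => f (T.R i y) (T.refl i p.2.1, p.2.2)) p.1) =
        (Prod.fst ⁻¹' (T.R i ⁻¹' T.table)).indicator
          (fun p : ℂ × (ℂ × Ω) => f (T.R i p.1) (T.refl i p.2.1, p.2.2)) := by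
      funext p
      simp only [indicator, mem_preimage]
      rfl
    rw [this]
    apply Measurable.indicator
    · have h3 : Measurable (fun p : ℂ × (ℂ × Ω) =>
          ((T.R i p.1, (T.refl i p.2.1, p.2.2)) : ℂ × (ℂ × Ω))) := by
        refine (hR.comp measurable_fst).prodMk ?_
        exact (hr.comp (measurable_fst.comp measurable_snd)).prodMk
          (measurable_snd.comp measurable_snd)
      exact hf.comp h3
    · exact measurable_fst (hR hmt)
  unfold ext
  exact h1.add (Finset.measurable_sum _ fun i _ => h2 i)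

/-- (d) -/
lemma bddSupp_ext {f : ℂ → ℂ × Ω → ℝ} (hf : Bdd f) : BddSupp (T.ext f) := by
  obtain ⟨hm, C, hC⟩ := hf
  obtain ⟨r, hr, hr1, hr2⟩ := T.exists_table_bound'
  refine ⟨⟨T.measurable_ext hm, (ns + 1) * |C|, fun y ω => ?_⟩, r, fun y ω hy => ?_⟩
  · unfold ext
    have h1 : |T.table.indicator (fun y => f y ω) y| ≤ |C| := by
      unfold indicator
      split_ifs
      · exact (hC y ω).trans (le_abs_self C)
      · simp
    have h2 : ∀ i, |(T.R i ⁻¹' T.table).indicator (fun y => f (T.R i y) (T.refl i ω.1, ω.2)) y| ≤ |C| := by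
      intro i
      unfold indicator
      split_ifs
      · exact (hC _ _).trans (le_abs_self C)
      · simp
    calc _ ≤ |T.table.indicator (fun y => f y ω) y| +
        |∑ i, (T.R i ⁻¹' T.table).indicator (fun y => f (T.R i y) (T.refl i ω.1, ω.2)) y| :=
          abs_add_le _ _
      _ ≤ |C| + ∑ i, |(T.R i ⁻¹' T.table).indicator (fun y => f (T.R i y) (T.refl i ω.1, ω.2)) y| := by
          gcongr
          exact Finset.abs_sum_le_sum_abs _ _
      _ ≤ |C| + ∑ _i : Fin ns, |C| := by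
          have := Finset.sum_le_sum (s := Finset.univ) (fun i _ => h2 i)
          linarith only [this]
      _ = (ns + 1) * |C| := by simp; ring
  · unfold ext
    rw [indicator_of_notMem, Finset.sum_eq_zero, add_zero]
    · intro i _
      apply indicator_of_notMem
      intro h
      have := hr2 i y h
      linarith
    · intro h
      have := hr1 y h
      linarith

end ConvexPolygon

end Vale.Agent.P099C
end
end

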