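import Vale.Agent.P099.MathlibUsed
import Vale.Agent.P099.H504.CPF
attribute [-instance] ProperSMul.toContinuousSMul IsTopologicalTorsor.toContinuousSMul IdemSemiring.toCanonicallyOrderedAdd IdemSemiring.toMulLeftMono IdemSemiring.toMulRightMono AddQuantale.instAddLeftMono AddQuantale.instAddRightMono Quantale.instMulLeftMono Quantale.instMulRightMono FiniteDimensional.rclike_to_real IsScalarTower.complexToReal FiniteDimensional.complexToReal

set_option linter.all false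

section

section

open MeasureTheory Set Filter Topology

set_option linter.unusedSectionVars false

namespace Vale.Agent.P099C
open Vale.Agent.P099 (nu FlowErgodic FlowWeakMixing)

variable {Ω : Type} [MeasurableSpace Ω]

/-- convolution of a complex kernel with a function of position and parameter -/
noncomputable def kcv (κ : ℂ → ℂ) (f : ℂ → ℂ × Ω → ℝ) (x : ℂ) (ω : ℂ × Ω) : ℂ :=
  ∫ y, κ (x - y) * (f y ω : ℂ)

lemma grd_eq_kcv (ε : ℝ) (f : ℂ → ℂ × Ω → ℝ) : grd ε f = kcv (kap ε) f := rfl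

lemma mol_eq_kcv (ε : ℝ) (f : ℂ → ℂ × Ω → ℝ) (x : ℂ) (ω : ℂ × Ω) :
    ((mol ε f x ω : ℝ) : ℂ) = kcv (fun z => (rho ε z : ℂ)) f x ω := by
  unfold mol kcv
  rw [← integral_complex_ofReal]
  refine integral_congr_ae (Eventually.of_forall fun y => ?_)
  push_cast
  rfl

lemma measurable_kcv {κ : ℂ → ℂ} (hκ : Continuous κ) {f : ℂ → ℂ × Ω → ℝ} (hf : Bdd f) :
    Measurable (fun p : ℂ × (ℂ × Ω) => kcv κ f p.1 p.2) := by
  have h1 : StronglyMeasurable (Function.uncurry fun (p : ℂ × (ℂ × Ω)) (y : ℂ) =>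
      κ (p.1 - y) * (f y p.2 : ℂ)) := by
    apply Measurable.stronglyMeasurable
    apply Measurable.mul
    · exact hκ.measurable.comp ((measurable_fst.comp measurable_fst).sub measurable_snd)
    · exact Complex.measurable_ofReal.comp
        (hf.1.comp (measurable_snd.prodMk (measurable_snd.comp measurable_fst)))
  exact h1.integral_prod_right.measurable

lemma measurable_mol (ε : ℝ) {f : ℂ → ℂ × Ω → ℝ} (hf : Bdd f) :
    Measurable (fun p : ℂ × (ℂ × Ω) => mol ε f p.1 p.2) := by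
  have h1 := measurable_kcv (κ := fun z => (rho ε z : ℂ))
    (Complex.continuous_ofReal.comp (rho_contDiff ε).continuous) hf
  have h2 := Complex.measurable_re.comp h1
  have h3 : (Complex.re ∘ fun p : ℂ × (ℂ × Ω) => kcv (fun z => (rho ε z : ℂ)) f p.1 p.2) =
      fun p : ℂ × (ℂ × Ω) => mol ε f p.1 p.2 := by
    funext p
    simp only [Function.comp_apply]
    rw [← mol_eq_kcv, Complex.ofReal_re]
  rwa [h3] at h2

/-- Cauchy-Schwarz with a weight. -/
lemma weighted_cs {k g : ℂ → ℝ} (hk : Integrable k) (hk0 : ∀ y, 0 ≤ k y)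
    (hg : Measurable g) {C : ℝ} (hC : ∀ y, |g y| ≤ C) :
    (∫ y, k y * g y) ^ 2 ≤ (∫ y, k y) * ∫ y, k y * g y ^ 2 := by
  have hkg : Integrable fun y => k y * g y := by
    refine hk.mul_bdd (c := C) hg.aestronglyMeasurable (Eventually.of_forall fun y => ?_)
    rw [Real.norm_eq_abs]
    exact hC y
  have hkg2 : Integrable fun y => k y * g y ^ 2 := by
    refine hk.mul_bdd (c := C ^ 2) (hg.pow_const 2).aestronglyMeasurable
      (Eventually.of_forall fun y => ?_)
    rw [Real.norm_eq_abs, abs_pow]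
    exact pow_le_pow_left₀ (abs_nonneg _) (hC y) 2
  set K := ∫ y, k y with hK
  set B := ∫ y, k y * g y with hB
  set A := ∫ y, k y * g y ^ 2 with hA
  have hK0 : 0 ≤ K := integral_nonneg hk0
  have hA0 : 0 ≤ A := integral_nonneg fun y => mul_nonneg (hk0 y) (sq_nonneg _)
  have hquad : ∀ t : ℝ, 0 ≤ A - 2 * t * B + t ^ 2 * K := by
    intro t
    have h1 : ∫ y, k y * (g y - t) ^ 2 = A - 2 * t * B + t ^ 2 * K := by
      have h2 : ∀ y, k y * (g y - t) ^ 2 = (k y * g y ^ 2 - (2 * t) * (k y * g y)) + t ^ 2 * k y := by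
        intro y
        ring
      have e1 := integral_add (hkg2.sub (hkg.const_mul (2 * t))) (hk.const_mul (t ^ 2))
      have e2 := integral_sub hkg2 (hkg.const_mul (2 * t))
      simp only [Pi.sub_apply] at e1
      simp_rw [h2]
      rw [e1, e2, integral_const_mul, integral_const_mul]
    rw [← h1]
    exact integral_nonneg fun y => mul_nonneg (hk0 y) (sq_nonneg _)
  rcases hK0.eq_or_lt with h0 | h0
  · -- K = 0
    have hB0 : B = 0 := by
      by_contra hne
      have h1 := hquad ((A + 1) / (2 * B))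
      rw [← h0, mul_zero, add_zero] at h1
      have h2 : 2 * ((A + 1) / (2 * B)) * B = A + 1 := by (clear * - hne hA0; field_simp)
      rw [h2] at h1
      linarith only [h1]
    rw [hB0, ← h0]
    simp
  · have h1 := hquad (B / K)
    have h2 : A - 2 * (B / K) * B + (B / K) ^ 2 * K = A - B ^ 2 / K := by
      field_simp
      ring
    rw [h2] at h1
    have h3 : B ^ 2 / K ≤ A := by linarith only [h1]
    rw [div_le_iff₀ h0] at h3
    linarith only [h3]

lemma norm_kcv_sq_le {κ : ℂ → ℂ} (hκ : Continuous κ) (hκc : HasCompactSupport κ)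
    {f : ℂ → ℂ × Ω → ℝ} (hf : Bdd f) (x : ℂ) (ω : ℂ × Ω) :
    ‖kcv κ f x ω‖ ^ 2 ≤ (∫ z, ‖κ z‖) * ∫ y, ‖κ (x - y)‖ * f y ω ^ 2 := by
  obtain ⟨hm, C, hC⟩ := hf
  have hkint : Integrable fun z => ‖κ z‖ :=
    (hκ.integrable_of_hasCompactSupport hκc).norm
  have hkx : Integrable fun y => ‖κ (x - y)‖ := hkint.comp_sub_left x
  have hg : Measurable fun y => |f y ω| := by
    exact (hm.comp (measurable_id.prodMk measurable_const)).abs
  have h1 := weighted_cs hkx (fun y => norm_nonneg _) hg (C := C) (fun y => by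
    rw [abs_abs]
    exact hC y ω)
  have h2 : ∫ y, ‖κ (x - y)‖ = ∫ z, ‖κ z‖ :=
    integral_sub_left_eq_self (fun z => ‖κ z‖) volume x
  rw [h2] at h1
  simp only [sq_abs] at h1
  refine le_trans ?_ h1
  apply pow_le_pow_left₀ (norm_nonneg _)
  calc ‖kcv κ f x ω‖ ≤ ∫ y, ‖κ (x - y) * (f y ω : ℂ)‖ := norm_integral_le_integral_norm _
    _ = ∫ y, ‖κ (x - y)‖ * |f y ω| := by
        refine integral_congr_ae (Eventually.of_forall fun y => ?_)
        simp only [norm_mul, Complex.norm_real, Real.norm_eq_abs]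

lemma norm_kcv_le {κ : ℂ → ℂ} (hκ : Continuous κ) (hκc : HasCompactSupport κ)
    {f : ℂ → ℂ × Ω → ℝ} {C : ℝ} (hC : ∀ y ω, |f y ω| ≤ C) (x : ℂ) (ω : ℂ × Ω) :
    ‖kcv κ f x ω‖ ≤ (∫ z, ‖κ z‖) * C := by
  have hkint : Integrable fun z => ‖κ z‖ :=
    (hκ.integrable_of_hasCompactSupport hκc).norm
  have hkx : Integrable fun y => ‖κ (x - y)‖ := hkint.comp_sub_left x
  have h2 : ∫ y, ‖κ (x - y)‖ = ∫ z, ‖κ z‖ :=
    integral_sub_left_eq_self (fun z => ‖κ z‖) volume x
  calc ‖kcv κ f x ω‖ ≤ ∫ y, ‖κ (x - y) * (f y ω : ℂ)‖ := norm_integral_le_integral_norm _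
    _ ≤ ∫ y, ‖κ (x - y)‖ * C := by
        refine integral_mono_of_nonneg (Eventually.of_forall fun y => norm_nonneg _)
          (hkx.mul_const C) (Eventually.of_forall fun y => ?_)
        simp only [norm_mul, Complex.norm_real, Real.norm_eq_abs]
        exact mul_le_mul_of_nonneg_left (hC y ω) (norm_nonneg _)
    _ = (∫ z, ‖κ z‖) * C := by rw [integral_mul_const, h2]

lemma abs_mol_le {ε : ℝ} (hε : 0 < ε) {f : ℂ → ℂ × Ω → ℝ} {C : ℝ} (hC : ∀ y ω, |f y ω| ≤ C)
    (x : ℂ) (ω : ℂ × Ω) : |mol ε f x ω| ≤ C := by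
  have h1 := norm_kcv_le (κ := fun z => (rho ε z : ℂ))
    (Complex.continuous_ofReal.comp (rho_contDiff ε).continuous)
    (((hasCompactSupport_rho hε).comp_left Complex.ofReal_zero :)) hC x ω
  rw [← mol_eq_kcv, Complex.norm_real, Real.norm_eq_abs] at h1
  have h2 : ∫ z, ‖((rho ε z : ℝ) : ℂ)‖ = 1 := by
    rw [← integral_rho hε]
    refine integral_congr_ae (Eventually.of_forall fun z => ?_)
    simp only [Complex.norm_real, Real.norm_eq_abs]
    exact abs_of_nonneg (rho_nonneg ε z)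
  rwa [h2, one_mul] at h1

namespace ConvexPolygon

variable {ns : ℕ} [NeZero ns] (T : ConvexPolygon ns) (m : Measure Ω)

/-- the phase space measure, not normalized in the position -/
noncomputable def muT : Measure (ℂ × (ℂ × Ω)) := (volume.restrict T.table).prod (nu.prod m)

instance : IsFiniteMeasure (volume.restrict T.table) :=
  ⟨by rw [Measure.restrict_apply_univ]; exact T.volume_table_lt_top⟩

instance [IsProbabilityMeasure m] : IsFiniteMeasure (T.muT m) := by
  unfold muT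
  infer_instance

lemma nrm_eq_prod [IsProbabilityMeasure m] {F : ℂ → ℂ × Ω → ℂ}
    (hF : Measurable fun p : ℂ × (ℂ × Ω) => F p.1 p.2) {C : ℝ} (hC : ∀ x ω, ‖F x ω‖ ≤ C) :
    T.nrm m F = ∫ p, ‖F p.1 p.2‖ ^ 2 ∂(T.muT m) := by
  unfold nrm muT
  rw [integral_prod]
  refine Integrable.of_bound (hF.norm.pow_const 2).aestronglyMeasurable (C ^ 2)
    (Eventually.of_forall fun p => ?_)
  rw [Real.norm_eq_abs, abs_pow, abs_of_nonneg (norm_nonneg _)]
  exact pow_le_pow_left₀ (norm_nonneg _) (hC _ _) 2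

lemma nrm_nonneg (F : ℂ → ℂ × Ω → ℂ) : 0 ≤ T.nrm m F := by
  unfold nrm
  exact integral_nonneg fun x => integral_nonneg fun ω => sq_nonneg _

lemma integrable_sq [IsProbabilityMeasure m] {F : ℂ → ℂ × Ω → ℂ}
    (hF : Measurable fun p : ℂ × (ℂ × Ω) => F p.1 p.2) {C : ℝ} (hC : ∀ x ω, ‖F x ω‖ ≤ C) :
    Integrable (fun p : ℂ × (ℂ × Ω) => ‖F p.1 p.2‖ ^ 2) (T.muT m) := by
  refine Integrable.of_bound (hF.norm.pow_const 2).aestronglyMeasurable (C ^ 2)
    (Eventually.of_forall fun p => ?_)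
  rw [Real.norm_eq_abs, abs_pow, abs_of_nonneg (norm_nonneg _)]
  exact pow_le_pow_left₀ (norm_nonneg _) (hC _ _) 2

/-- monotonicity of the squared norm -/
lemma nrm_mono [IsProbabilityMeasure m] {F G : ℂ → ℂ × Ω → ℂ}
    (hF : Measurable fun p : ℂ × (ℂ × Ω) => F p.1 p.2)
    (hG : Measurable fun p : ℂ × (ℂ × Ω) => G p.1 p.2) {C D : ℝ} (hC : ∀ x ω, ‖F x ω‖ ≤ C)
    (hD : ∀ x ω, ‖G x ω‖ ≤ D)
    (h : ∀ᵐ p ∂(T.muT m), ‖F p.1 p.2‖ ≤ ‖G p.1 p.2‖) : T.nrm m F ≤ T.nrm m G := by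
  rw [T.nrm_eq_prod m hF hC, T.nrm_eq_prod m hG hD]
  refine integral_mono_ae (T.integrable_sq m hF hC) (T.integrable_sq m hG hD) ?_
  filter_upwards [h] with p hp
  exact pow_le_pow_left₀ (norm_nonneg _) hp 2

lemma nrm_congr [IsProbabilityMeasure m] {F G : ℂ → ℂ × Ω → ℂ}
    (h : ∀ x ∈ T.table, ∀ ω, ‖F x ω‖ = ‖G x ω‖) : T.nrm m F = T.nrm m G := by
  unfold nrm
  refine setIntegral_congr_fun T.isOpen_table.measurableSet fun x hx => ?_
  refine integral_congr_ae (Eventually.of_forall fun ω => ?_)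
  simp only
  rw [h x hx ω]

lemma nrm_add_le [IsProbabilityMeasure m] {F G : ℂ → ℂ × Ω → ℂ}
    (hF : Measurable fun p : ℂ × (ℂ × Ω) => F p.1 p.2)
    (hG : Measurable fun p : ℂ × (ℂ × Ω) => G p.1 p.2) {C D : ℝ} (hC : ∀ x ω, ‖F x ω‖ ≤ C)
    (hD : ∀ x ω, ‖G x ω‖ ≤ D) :
    T.nrm m (fun x ω => F x ω + G x ω) ≤ 2 * T.nrm m F + 2 * T.nrm m G := by
  rw [T.nrm_eq_prod m hF hC, T.nrm_eq_prod m hG hD,
    T.nrm_eq_prod m (F := fun x ω => F x ω + G x ω) (hF.add hG) (C := C + D)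
      (fun x ω => (norm_add_le _ _).trans (add_le_add (hC x ω) (hD x ω)))]
  rw [← integral_const_mul, ← integral_const_mul, ← integral_add
    ((T.integrable_sq m hF hC).const_mul 2) ((T.integrable_sq m hG hD).const_mul 2)]
  refine integral_mono (T.integrable_sq m (F := fun x ω => F x ω + G x ω) (hF.add hG) (C := C + D)
      (fun x ω => (norm_add_le _ _).trans (add_le_add (hC x ω) (hD x ω))))
    (((T.integrable_sq m hF hC).const_mul 2).add ((T.integrable_sq m hG hD).const_mul 2)) ?_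
  intro p
  have h1 := norm_add_le (F p.1 p.2) (G p.1 p.2)
  have h2 : ‖F p.1 p.2 + G p.1 p.2‖ ^ 2 ≤ (‖F p.1 p.2‖ + ‖G p.1 p.2‖) ^ 2 :=
    pow_le_pow_left₀ (norm_nonneg _) h1 2
  change ‖F p.1 p.2 + G p.1 p.2‖ ^ 2 ≤ 2 * ‖F p.1 p.2‖ ^ 2 + 2 * ‖G p.1 p.2‖ ^ 2
  linarith only [sq_nonneg (‖F p.1 p.2‖ - ‖G p.1 p.2‖), h2]

/-- Young's inequality for a compactly supported kernel. -/
lemma nrm_kcv_le [IsProbabilityMeasure m] {κ : ℂ → ℂ} (hκ : Continuous κ)
    (hκc : HasCompactSupport κ) {f : ℂ → ℂ × Ω → ℝ} (hf : BddSupp f) :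
    T.nrm m (kcv κ f) ≤ (∫ z, ‖κ z‖) ^ 2 * ∫ ω, (∫ y, f y ω ^ 2) ∂(nu.prod m) := by
  obtain ⟨hb, r, hr⟩ := hf
  obtain ⟨hm, C, hC⟩ := hb
  have hfb : IsFiniteMeasure (volume.restrict (Metric.closedBall (0 : ℂ) r)) :=
    ⟨by rw [Measure.restrict_apply_univ]; exact measure_closedBall_lt_top⟩
  have hkint : Integrable fun z => ‖κ z‖ :=
    (hκ.integrable_of_hasCompactSupport hκc).norm
  have hK0 : 0 ≤ ∫ z, ‖κ z‖ := integral_nonneg fun z => norm_nonneg _
  -- the function A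
  set A : ℂ → ℂ × Ω → ℝ := fun x ω => ∫ y, ‖κ (x - y)‖ * f y ω ^ 2 with hA
  have hAm : Measurable fun p : ℂ × (ℂ × Ω) => A p.1 p.2 := by
    have h1 : StronglyMeasurable (Function.uncurry fun (p : ℂ × (ℂ × Ω)) (y : ℂ) =>
        ‖κ (p.1 - y)‖ * f y p.2 ^ 2) := by
      apply Measurable.stronglyMeasurable
      apply Measurable.mul
      · exact (hκ.measurable.comp
          ((measurable_fst.comp measurable_fst).sub measurable_snd)).norm
      · exact (hm.comp (measurable_snd.prodMk (measurable_snd.comp measurable_fst))).pow_const 2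
    exact h1.integral_prod_right.measurable
  have hAb : ∀ x ω, |A x ω| ≤ (∫ z, ‖κ z‖) * C ^ 2 := by
    intro x ω
    have hkx : Integrable fun y => ‖κ (x - y)‖ := hkint.comp_sub_left x
    have h2 : ∫ y, ‖κ (x - y)‖ = ∫ z, ‖κ z‖ :=
      integral_sub_left_eq_self (fun z => ‖κ z‖) volume x
    rw [abs_of_nonneg (integral_nonneg fun y => mul_nonneg (norm_nonneg _) (sq_nonneg _)),
      ← h2, ← integral_mul_const]
    refine integral_mono_of_nonneg (Eventually.of_forall fun y =>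
      mul_nonneg (norm_nonneg _) (sq_nonneg _)) (hkx.mul_const _)
      (Eventually.of_forall fun y => ?_)
    simp only
    apply mul_le_mul_of_nonneg_left _ (norm_nonneg _)
    rw [← sq_abs]
    exact pow_le_pow_left₀ (abs_nonneg _) (hC y ω) 2
  have hAint : Integrable (fun p : ℂ × (ℂ × Ω) => A p.1 p.2) (T.muT m) :=
    Integrable.of_bound hAm.aestronglyMeasurable ((∫ z, ‖κ z‖) * C ^ 2)
      (Eventually.of_forall fun p => by rw [Real.norm_eq_abs]; exact hAb _ _)
  -- bound of the inner integral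
  have hinner : ∀ ω, ∫ x in T.table, A x ω ≤ (∫ z, ‖κ z‖) * ∫ y, f y ω ^ 2 := by
    intro ω
    have hfm : Measurable fun y => f y ω ^ 2 :=
      (hm.comp (measurable_id.prodMk measurable_const)).pow_const 2
    have hfi : Integrable fun y => f y ω ^ 2 := by
      have h1 : IntegrableOn (fun y => f y ω ^ 2) (Metric.closedBall 0 r) := by
        refine Integrable.of_bound hfm.aestronglyMeasurable (C ^ 2)
          (Eventually.of_forall fun y => ?_)
        rw [Real.norm_eq_abs, abs_pow]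
        exact pow_le_pow_left₀ (abs_nonneg _) (hC y ω) 2
      rw [integrableOn_iff_integrable_of_support_subset] at h1
      · exact h1
      · intro y hy
        rw [Metric.mem_closedBall, dist_zero_right]
        by_contra hlt
        apply hy
        simp only
        rw [hr y ω (not_le.1 hlt).le]
        simp
    have hconv := integral_convolution (ContinuousLinearMap.mul ℝ ℝ) (μ := volume) (ν := volume)
      hfi hkint
    have hci := hfi.integrable_convolution (ContinuousLinearMap.mul ℝ ℝ) hkint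
    have he : ∀ x, A x ω = (MeasureTheory.convolution (fun y => f y ω ^ 2) (fun z => ‖κ z‖)
        (ContinuousLinearMap.mul ℝ ℝ) volume) x := by
      intro x
      rw [hA]
      simp only [MeasureTheory.convolution, ContinuousLinearMap.mul_apply']
      refine integral_congr_ae (Eventually.of_forall fun y => ?_)
      simp only
      ring
    have hAi : Integrable fun x => A x ω := by
      simp_rw [he]
      exact hci
    calc ∫ x in T.table, A x ω ≤ ∫ x, A x ω := by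
          refine setIntegral_le_integral hAi (Eventually.of_forall fun x => ?_)
          exact integral_nonneg fun y => mul_nonneg (norm_nonneg _) (sq_nonneg _)
      _ = (∫ z, ‖κ z‖) * ∫ y, f y ω ^ 2 := by
          simp_rw [he]
          rw [hconv, ContinuousLinearMap.mul_apply']
          ring
  have hmk := measurable_kcv hκ ⟨hm, C, hC⟩
  have hbk := norm_kcv_le hκ hκc hC
  calc T.nrm m (kcv κ f) = ∫ p, ‖kcv κ f p.1 p.2‖ ^ 2 ∂(T.muT m) := T.nrm_eq_prod m hmk hbk
    _ ≤ ∫ p, (∫ z, ‖κ z‖) * A p.1 p.2 ∂(T.muT m) := by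
        refine integral_mono (T.integrable_sq m hmk hbk) (hAint.const_mul _) fun p => ?_
        exact norm_kcv_sq_le hκ hκc ⟨hm, C, hC⟩ p.1 p.2
    _ = (∫ z, ‖κ z‖) * ∫ p, A p.1 p.2 ∂(T.muT m) := integral_const_mul _ _
    _ = (∫ z, ‖κ z‖) * ∫ ω, (∫ x in T.table, A x ω) ∂(nu.prod m) := by
        congr 1
        unfold muT
        rw [integral_prod_symm]
        exact hAint
    _ ≤ (∫ z, ‖κ z‖) * ∫ ω, ((∫ z, ‖κ z‖) * ∫ y, f y ω ^ 2) ∂(nu.prod m) := by
        apply mul_le_mul_of_nonneg_left _ hK0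
        have hi1 : Integrable (fun ω => ∫ x in T.table, A x ω) (nu.prod m) := by
          unfold muT at hAint
          exact hAint.integral_prod_right
        have hi2 : Integrable (fun ω => (∫ z, ‖κ z‖) * ∫ y, f y ω ^ 2) (nu.prod m) := by
          apply Integrable.const_mul
          have h1 : StronglyMeasurable (Function.uncurry fun (ω : ℂ × Ω) (y : ℂ) => f y ω ^ 2) :=
            ((hm.comp (measurable_snd.prodMk measurable_fst)).pow_const 2).stronglyMeasurable
          refine Integrable.of_bound h1.integral_prod_right.aestronglyMeasurable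
            (C ^ 2 * (volume.real (Metric.closedBall (0 : ℂ) r)))
            (Eventually.of_forall fun ω => ?_)
          rw [Real.norm_eq_abs, abs_of_nonneg (integral_nonneg fun y => sq_nonneg _)]
          have h2 : ∫ y, f y ω ^ 2 = ∫ y in Metric.closedBall (0 : ℂ) r, f y ω ^ 2 := by
            rw [setIntegral_eq_integral_of_forall_compl_eq_zero]
            intro y hy
            rw [Metric.mem_closedBall, dist_zero_right, not_le] at hy
            rw [hr y ω hy.le]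
            simp
          rw [h2]
          have h3 := setIntegral_mono_on (f := fun y => f y ω ^ 2) (g := fun _ => C ^ 2)
            (s := Metric.closedBall (0 : ℂ) r) (μ := volume) ?_ ?_ measurableSet_closedBall ?_
          · refine h3.trans ?_
            rw [setIntegral_const, smul_eq_mul, mul_comm]
          · refine Integrable.of_bound (((hm.comp
              (measurable_id.prodMk measurable_const)).pow_const 2).aestronglyMeasurable) (C ^ 2)
              (Eventually.of_forall fun y => ?_)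
            rw [Real.norm_eq_abs, abs_pow]
            exact pow_le_pow_left₀ (abs_nonneg _) (hC y ω) 2
          · exact integrableOn_const (by exact measure_closedBall_lt_top.ne) (by simp)
          · intro y _
            rw [← sq_abs]
            exact pow_le_pow_left₀ (abs_nonneg _) (hC y ω) 2
        exact integral_mono hi1 hi2 hinner
    _ = (∫ z, ‖κ z‖) ^ 2 * ∫ ω, (∫ y, f y ω ^ 2) ∂(nu.prod m) := by
        rw [integral_const_mul]
        ring

end ConvexPolygon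

end Vale.Agent.P099C
end
end

section

section

open MeasureTheory Set Filter Topology

set_option linter.unusedSectionVars false

namespace Vale.Agent.P099C
open Vale.Agent.P099 (nu FlowErgodic FlowWeakMixing)

variable {Ω : Type} [MeasurableSpace Ω]

/-! ### measurability and boundedness of mollifications, gradients, extensions -/

lemma measurable_grd (ε : ℝ) {f : ℂ → ℂ × Ω → ℝ} (hf : Bdd f) :
    Measurable (fun p : ℂ × (ℂ × Ω) => grd ε f p.1 p.2) :=
  measurable_kcv (continuous_kap ε) hf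

lemma norm_grd_le {ε : ℝ} (hε : 0 < ε) {f : ℂ → ℂ × Ω → ℝ} {C : ℝ} (hC : ∀ y ω, |f y ω| ≤ C)
    (x : ℂ) (ω : ℂ × Ω) : ‖grd ε f x ω‖ ≤ (∫ z, ‖kap ε z‖) * C :=
  norm_kcv_le (continuous_kap ε) (hasCompactSupport_kap hε) hC x ω

lemma exists_norm_grd_le {ε : ℝ} (hε : 0 < ε) {f : ℂ → ℂ × Ω → ℝ} (hf : Bdd f) :
    ∃ C : ℝ, ∀ x ω, ‖grd ε f x ω‖ ≤ C := by
  obtain ⟨_, C, hC⟩ := hf
  exact ⟨_, fun x ω => norm_grd_le hε hC x ω⟩

lemma Bdd.mol {ε : ℝ} (hε : 0 < ε) {f : ℂ → ℂ × Ω → ℝ} (hf : Bdd f) : Bdd (mol ε f) := by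
  obtain ⟨_, C, hC⟩ := id hf
  exact ⟨measurable_mol ε hf, C, fun x ω => abs_mol_le hε hC x ω⟩

lemma BddSupp.mol {ε : ℝ} (hε : 0 < ε) {f : ℂ → ℂ × Ω → ℝ} (hf : BddSupp f) :
    BddSupp (mol ε f) := by
  obtain ⟨hb, r, hr⟩ := hf
  refine ⟨hb.mol hε, r + ε, fun x ω hx => ?_⟩
  unfold Vale.Agent.P099C.mol
  have h1 : ∀ y, rho ε (x - y) * f y ω = 0 := by
    intro y
    rcases le_or_gt r ‖y‖ with h | h
    · rw [hr y ω h, mul_zero]
    · rw [rho_eq_zero hε, zero_mul]
      have := norm_sub_norm_le x y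
      linarith
  simp only [h1, integral_zero]

lemma BddSupp.grd_eq_zero {ε : ℝ} (hε : 0 < ε) {f : ℂ → ℂ × Ω → ℝ} (hf : BddSupp f) :
    ∃ r : ℝ, ∀ x ω, r ≤ ‖x‖ → grd ε f x ω = 0 := by
  obtain ⟨hb, r, hr⟩ := hf
  refine ⟨r + ε, fun x ω hx => ?_⟩
  unfold grd
  have h1 : ∀ y, kap ε (x - y) * (f y ω : ℂ) = 0 := by
    intro y
    rcases le_or_gt r ‖y‖ with h | h
    · rw [hr y ω h]
      simp
    · rw [kap_eq_zero hε, zero_mul]
      have := norm_sub_norm_le x y
      linarith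
  simp only [h1, integral_zero]

/-- basic operations on bounded functions -/
lemma Bdd.add {f g : ℂ → ℂ × Ω → ℝ} (hf : Bdd f) (hg : Bdd g) :
    Bdd (fun x ω => f x ω + g x ω) := by
  obtain ⟨h1, C, hC⟩ := hf
  obtain ⟨h2, D, hD⟩ := hg
  exact ⟨h1.add h2, C + D, fun y ω => (abs_add_le _ _).trans (add_le_add (hC y ω) (hD y ω))⟩

lemma Bdd.sub {f g : ℂ → ℂ × Ω → ℝ} (hf : Bdd f) (hg : Bdd g) :
    Bdd (fun x ω => f x ω - g x ω) := by
  obtain ⟨h1, C, hC⟩ := hf
  obtain ⟨h2, D, hD⟩ := hg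
  exact ⟨h1.sub h2, C + D, fun y ω => (abs_sub _ _).trans (add_le_add (hC y ω) (hD y ω))⟩

lemma Bdd.mul {f g : ℂ → ℂ × Ω → ℝ} (hf : Bdd f) (hg : Bdd g) :
    Bdd (fun x ω => f x ω * g x ω) := by
  obtain ⟨h1, C, hC⟩ := hf
  obtain ⟨h2, D, hD⟩ := hg
  refine ⟨h1.mul h2, |C| * |D|, fun y ω => ?_⟩
  rw [abs_mul]
  exact mul_le_mul ((hC y ω).trans (le_abs_self _)) ((hD y ω).trans (le_abs_self _))
    (abs_nonneg _) (abs_nonneg _)

lemma Bdd.section {f : ℂ → ℂ × Ω → ℝ} (hf : Bdd f) (ω : ℂ × Ω) : Measurable fun y => f y ω :=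
  hf.1.comp (measurable_id.prodMk measurable_const)

lemma BddSupp.sub {f g : ℂ → ℂ × Ω → ℝ} (hf : BddSupp f) (hg : BddSupp g) :
    BddSupp (fun x ω => f x ω - g x ω) := by
  obtain ⟨h1, r, hr⟩ := hf
  obtain ⟨h2, s, hs⟩ := hg
  refine ⟨h1.sub h2, max r s, fun y ω hy => ?_⟩
  change f y ω - g y ω = 0
  rw [hr y ω ((le_max_left _ _).trans hy), hs y ω ((le_max_right _ _).trans hy), sub_zero]

lemma BddSupp.add {f g : ℂ → ℂ × Ω → ℝ} (hf : BddSupp f) (hg : BddSupp g) :
    BddSupp (fun x ω => f x ω + g x ω) := by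
  obtain ⟨h1, r, hr⟩ := hf
  obtain ⟨h2, s, hs⟩ := hg
  refine ⟨h1.add h2, max r s, fun y ω hy => ?_⟩
  change f y ω + g y ω = 0
  rw [hr y ω ((le_max_left _ _).trans hy), hs y ω ((le_max_right _ _).trans hy), add_zero]

lemma BddSupp.mul_left {f g : ℂ → ℂ × Ω → ℝ} (hf : Bdd f) (hg : BddSupp g) :
    BddSupp (fun x ω => f x ω * g x ω) := by
  obtain ⟨h2, s, hs⟩ := hg
  refine ⟨hf.mul h2, s, fun y ω hy => ?_⟩
  change f y ω * g y ω = 0
  rw [hs y ω hy, mul_zero]

/-- a bounded function supported in a bounded set of positions -/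
lemma Bdd.bddSupp_indicator {f : ℂ → ℂ × Ω → ℝ} (hf : Bdd f) {K : Set ℂ}
    (hK : MeasurableSet K) (hKb : Bornology.IsBounded K) :
    BddSupp (fun x ω => K.indicator (fun y => f y ω) x) := by
  obtain ⟨h1, C, hC⟩ := hf
  obtain ⟨r, hr⟩ := hKb.subset_ball (0 : ℂ)
  refine ⟨⟨?_, |C|, fun y ω => ?_⟩, r, fun y ω hy => ?_⟩
  · have : (fun p : ℂ × (ℂ × Ω) => K.indicator (fun y => f y p.2) p.1) =
        (Prod.fst ⁻¹' K).indicator (fun p : ℂ × (ℂ × Ω) => f p.1 p.2) := by
      funext p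
      by_cases hp : p.1 ∈ K
      · rw [indicator_of_mem hp, indicator_of_mem (by exact hp)]
      · rw [indicator_of_notMem hp, indicator_of_notMem (by exact hp)]
    rw [this]
    exact h1.indicator (measurable_fst hK)
  · change |K.indicator (fun y => f y ω) y| ≤ |C|
    by_cases hp : y ∈ K
    · rw [indicator_of_mem hp]
      exact (hC y ω).trans (le_abs_self _)
    · rw [indicator_of_notMem hp, abs_zero]
      exact abs_nonneg _
  · change K.indicator (fun y => f y ω) y = 0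
    rw [indicator_of_notMem]
    intro hyK
    have := hr hyK
    rw [mem_ball_zero_iff] at this
    linarith only [hy, this]

namespace ConvexPolygon

variable {ns : ℕ} [NeZero ns] (T : ConvexPolygon ns)

lemma isBounded_table : Bornology.IsBounded T.table := by
  exact T.isCompact_ctab.isBounded.subset T.table_subset_ctab

lemma measurableSet_table : MeasurableSet T.table := T.isOpen_table.measurableSet

lemma measurableSet_R_table (i : Fin ns) : MeasurableSet (T.R i ⁻¹' T.table) :=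
  (T.isOpen_table.preimage (T.continuous_R i)).measurableSet

lemma isBounded_R_table (i : Fin ns) : Bornology.IsBounded (T.R i ⁻¹' T.table) := by
  obtain ⟨r, hr⟩ := T.isBounded_table.subset_ball (T.R i 0)
  refine (Metric.isBounded_ball (x := (0 : ℂ)) (r := r)).subset fun y hy => ?_
  have h1 := hr hy
  rw [Metric.mem_ball, dist_eq_norm, T.norm_R_sub_R] at h1
  rw [Metric.mem_ball, dist_eq_norm]
  exact h1

/-- `f` in the reflected coordinates -/
lemma bdd_refl {f : ℂ → ℂ × Ω → ℝ} (hf : Bdd f) (i : Fin ns) :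
    Bdd (fun y ω => f (T.R i y) (T.refl i ω.1, ω.2)) := by
  obtain ⟨h1, C, hC⟩ := hf
  refine ⟨?_, C, fun y ω => hC _ _⟩
  exact h1.comp (((T.continuous_R i).measurable.comp measurable_fst).prodMk
    (((T.continuous_refl i).measurable.comp (measurable_fst.comp measurable_snd)).prodMk
      (measurable_snd.comp measurable_snd)))

lemma ext_eq (f : ℂ → ℂ × Ω → ℝ) (y : ℂ) (ω : ℂ × Ω) :
    T.ext f y ω = T.table.indicator (fun y => f y ω) y +
      ∑ i, (T.R i ⁻¹' T.table).indicator (fun y => f (T.R i y) (T.refl i ω.1, ω.2)) y := rfl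

lemma _root_.Vale.Agent.P099C.Bdd.ext {ns : ℕ} [NeZero ns] (T : ConvexPolygon ns) {f : ℂ → ℂ × Ω → ℝ} (hf : Bdd f) :
    BddSupp (T.ext f) := T.bddSupp_ext hf

lemma disjoint_table_R (i : Fin ns) {y : ℂ} (hy : y ∈ T.table) : T.R i y ∉ T.table := by
  intro h
  have h1 := (T.mem_table_iff y).1 hy i
  have h2 := (T.mem_table_iff _).1 h i
  rw [T.lam_R] at h2
  linarith only [h1, h2]

lemma ext_of_mem_table (f : ℂ → ℂ × Ω → ℝ) {y : ℂ} (hy : y ∈ T.table) (ω : ℂ × Ω) :
    T.ext f y ω = f y ω := by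
  have hi : ∀ i, y ∉ T.R i ⁻¹' T.table := fun i => T.disjoint_table_R i hy
  rw [T.ext_eq, indicator_of_mem hy, Finset.sum_eq_zero fun i _ => indicator_of_notMem (hi i) _,
    add_zero]

lemma ext_sub (f g : ℂ → ℂ × Ω → ℝ) :
    T.ext (fun x ω => f x ω - g x ω) = fun x ω => T.ext f x ω - T.ext g x ω := by
  funext y ω
  rw [T.ext_eq, T.ext_eq, T.ext_eq]
  have h : ∀ (S : Set ℂ) (a b : ℂ → ℝ), S.indicator (fun y => a y - b y) y =
      S.indicator a y - S.indicator b y := by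
    intro S a b
    by_cases hy : y ∈ S
    · simp only [indicator_of_mem hy]
    · simp only [indicator_of_notMem hy, sub_zero]
  rw [h, Finset.sum_congr rfl fun i _ => h _ _ _, Finset.sum_sub_distrib]
  ring

lemma ext_add (f g : ℂ → ℂ × Ω → ℝ) :
    T.ext (fun x ω => f x ω + g x ω) = fun x ω => T.ext f x ω + T.ext g x ω := by
  funext y ω
  rw [T.ext_eq, T.ext_eq, T.ext_eq]
  have h : ∀ (S : Set ℂ) (a b : ℂ → ℝ), S.indicator (fun y => a y + b y) y =
      S.indicator a y + S.indicator b y := by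
    intro S a b
    by_cases hy : y ∈ S
    · simp only [indicator_of_mem hy]
    · simp only [indicator_of_notMem hy, add_zero]
  rw [h, Finset.sum_congr rfl fun i _ => h _ _ _, Finset.sum_add_distrib]
  ring

end ConvexPolygon

/-- bounded functions with bounded support are integrable in the position -/
lemma BddSupp.integrable {f : ℂ → ℂ × Ω → ℝ} (hf : BddSupp f) (ω : ℂ × Ω) :
    Integrable fun y => f y ω := by
  obtain ⟨hb, r, hr⟩ := hf
  have hm := hb.section ω
  obtain ⟨_, C, hC⟩ := hb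
  have hfb : IsFiniteMeasure (volume.restrict (Metric.closedBall (0 : ℂ) r)) :=
    ⟨by rw [Measure.restrict_apply_univ]; exact measure_closedBall_lt_top⟩
  have h1 : IntegrableOn (fun y => f y ω) (Metric.closedBall 0 r) :=
    Integrable.of_bound hm.aestronglyMeasurable C (Eventually.of_forall fun y => hC y ω)
  rw [integrableOn_iff_integrable_of_support_subset] at h1
  · exact h1
  · intro y hy
    rw [Metric.mem_closedBall, dist_zero_right]
    by_contra hlt
    exact hy (hr y ω (not_le.1 hlt).le)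

/-- bounded functions are locally integrable in the position -/
lemma Bdd.locallyIntegrable {f : ℂ → ℂ × Ω → ℝ} (hf : Bdd f) (ω : ℂ × Ω) :
    LocallyIntegrable fun y => f y ω := by
  have hm := hf.section ω
  obtain ⟨_, C, hC⟩ := hf
  rw [locallyIntegrable_iff]
  intro K hK
  have hfb : IsFiniteMeasure (volume.restrict K) :=
    ⟨by rw [Measure.restrict_apply_univ]; exact hK.measure_lt_top⟩
  exact Integrable.of_bound hm.aestronglyMeasurable C (Eventually.of_forall fun y => hC y ω)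

lemma mol_sub {ε : ℝ} (hε : 0 < ε) {f g : ℂ → ℂ × Ω → ℝ} (hf : Bdd f) (hg : Bdd g)
    (x : ℂ) (ω : ℂ × Ω) :
    mol ε (fun x ω => f x ω - g x ω) x ω = mol ε f x ω - mol ε g x ω := by
  have hk : Integrable fun y => rho ε (x - y) :=
    (((rho_contDiff ε).continuous.integrable_of_hasCompactSupport
      (hasCompactSupport_rho hε))).comp_sub_left x
  obtain ⟨C, hC⟩ := hf.2
  obtain ⟨D, hD⟩ := hg.2
  have h1 : Integrable fun y => rho ε (x - y) * f y ω :=
    hk.mul_bdd (c := C) (hf.section ω).aestronglyMeasurable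
      (Eventually.of_forall fun y => hC y ω)
  have h2 : Integrable fun y => rho ε (x - y) * g y ω :=
    hk.mul_bdd (c := D) (hg.section ω).aestronglyMeasurable
      (Eventually.of_forall fun y => hD y ω)
  unfold mol
  rw [← integral_sub h1 h2]
  refine integral_congr_ae (Eventually.of_forall fun y => ?_)
  simp only
  ring

lemma mol_add {ε : ℝ} (hε : 0 < ε) {f g : ℂ → ℂ × Ω → ℝ} (hf : Bdd f) (hg : Bdd g)
    (x : ℂ) (ω : ℂ × Ω) :
    mol ε (fun x ω => f x ω + g x ω) x ω = mol ε f x ω + mol ε g x ω := by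
  have hk : Integrable fun y => rho ε (x - y) :=
    (((rho_contDiff ε).continuous.integrable_of_hasCompactSupport
      (hasCompactSupport_rho hε))).comp_sub_left x
  obtain ⟨C, hC⟩ := hf.2
  obtain ⟨D, hD⟩ := hg.2
  have h1 : Integrable fun y => rho ε (x - y) * f y ω :=
    hk.mul_bdd (c := C) (hf.section ω).aestronglyMeasurable
      (Eventually.of_forall fun y => hC y ω)
  have h2 : Integrable fun y => rho ε (x - y) * g y ω :=
    hk.mul_bdd (c := D) (hg.section ω).aestronglyMeasurable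
      (Eventually.of_forall fun y => hD y ω)
  unfold mol
  rw [← integral_add h1 h2]
  refine integral_congr_ae (Eventually.of_forall fun y => ?_)
  simp only
  ring

lemma grd_sub {ε : ℝ} (hε : 0 < ε) {f g : ℂ → ℂ × Ω → ℝ} (hf : Bdd f) (hg : Bdd g)
    (x : ℂ) (ω : ℂ × Ω) :
    grd ε (fun x ω => f x ω - g x ω) x ω = grd ε f x ω - grd ε g x ω := by
  have hk : Integrable fun y => kap ε (x - y) := (integrable_kap hε).comp_sub_left x
  obtain ⟨C, hC⟩ := hf.2
  obtain ⟨D, hD⟩ := hg.2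
  have h1 : Integrable fun y => kap ε (x - y) * (f y ω : ℂ) :=
    hk.mul_bdd (c := C) (Complex.measurable_ofReal.comp (hf.section ω)).aestronglyMeasurable
      (Eventually.of_forall fun y => by
        simp only [Complex.norm_real, Real.norm_eq_abs]; exact hC y ω)
  have h2 : Integrable fun y => kap ε (x - y) * (g y ω : ℂ) :=
    hk.mul_bdd (c := D) (Complex.measurable_ofReal.comp (hg.section ω)).aestronglyMeasurable
      (Eventually.of_forall fun y => by
        simp only [Complex.norm_real, Real.norm_eq_abs]; exact hD y ω)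
  unfold grd
  rw [← integral_sub h1 h2]
  refine integral_congr_ae (Eventually.of_forall fun y => ?_)
  simp only
  push_cast
  ring

end Vale.Agent.P099C
end
end

section

section

open MeasureTheory Set Filter Topology

namespace Vale.Agent.P099C
open Vale.Agent.P099 (nu FlowErgodic FlowWeakMixing)

namespace Rig

section basic
variable {β : Type*} [MeasurableSpace β] {μ : Measure β}

lemma cs {f g : β → ℝ} (hf : Integrable (fun x => f x ^ 2) μ) (hg : Integrable (fun x => g x ^ 2) μ)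
    (hfg : Integrable (fun x => f x * g x) μ) :
    (∫ x, f x * g x ∂μ) ^ 2 ≤ (∫ x, f x ^ 2 ∂μ) * ∫ x, g x ^ 2 ∂μ := by
  have key : ∀ t : ℝ, 0 ≤ (∫ x, f x ^ 2 ∂μ) * (t * t) + (2 * ∫ x, f x * g x ∂μ) * t +
      ∫ x, g x ^ 2 ∂μ := by
    intro t
    have h1 : ∫ x, (t * f x + g x) ^ 2 ∂μ = (∫ x, f x ^ 2 ∂μ) * (t * t) +
        (2 * ∫ x, f x * g x ∂μ) * t + ∫ x, g x ^ 2 ∂μ := by
      have h2 : (fun x => (t * f x + g x) ^ 2) =
          fun x => (f x ^ 2 * (t * t) + (f x * g x) * (2 * t)) + g x ^ 2 := by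
        funext x; ring
      have i12 : Integrable (fun x => f x ^ 2 * (t * t) + (f x * g x) * (2 * t)) μ :=
        (hf.mul_const _).add (hfg.mul_const _)
      rw [h2, integral_add i12 hg, integral_add (hf.mul_const _) (hfg.mul_const _),
        integral_mul_const, integral_mul_const]
      ring
    rw [← h1]
    exact integral_nonneg fun x => sq_nonneg _
  have := discrim_le_zero key
  unfold discrim at this
  linarith

lemma int_bdd [IsFiniteMeasure μ] {E : Type*} [NormedAddCommGroup E] [MeasurableSpace E]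
    [BorelSpace E] [SecondCountableTopology E] {f : β → E} (hf : Measurable f) {C : ℝ}
    (hC : ∀ᵐ x ∂μ, ‖f x‖ ≤ C) : Integrable f μ :=
  Integrable.of_bound hf.aestronglyMeasurable C hC

lemma int_sq [IsFiniteMeasure μ] {f : β → ℂ} (hf : Measurable f) {C : ℝ}
    (hC : ∀ᵐ x ∂μ, ‖f x‖ ≤ C) : Integrable (fun x => ‖f x‖ ^ 2) μ := by
  refine int_bdd (hf.norm.pow_const 2) (C := C ^ 2) ?_
  filter_upwards [hC] with x hx
  rw [Real.norm_of_nonneg (by positivity)]
  gcongr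

lemma cs_norm [IsFiniteMeasure μ] {f g : β → ℂ} (hf : Measurable f) (hg : Measurable g) {C K : ℝ}
    (hC : ∀ᵐ x ∂μ, ‖f x‖ ≤ C) (hK : ∀ᵐ x ∂μ, ‖g x‖ ≤ K) :
    ‖∫ x, f x * g x ∂μ‖ ^ 2 ≤ (∫ x, ‖f x‖ ^ 2 ∂μ) * ∫ x, ‖g x‖ ^ 2 ∂μ := by
  have i1 := int_sq hf hC
  have i2 := int_sq hg hK
  have i3 : Integrable (fun x => ‖f x‖ * ‖g x‖) μ := by
    refine int_bdd (hf.norm.mul hg.norm) (C := C * K) ?_
    filter_upwards [hC, hK] with x hx hx'
    rw [Real.norm_of_nonneg (by (clear * -; positivity))]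
    exact mul_le_mul hx hx' (norm_nonneg _) ((norm_nonneg _).trans hx)
  refine le_trans ?_ (cs i1 i2 i3)
  gcongr
  calc ‖∫ x, f x * g x ∂μ‖ ≤ ∫ x, ‖f x * g x‖ ∂μ := norm_integral_le_integral_norm _
    _ = ∫ x, ‖f x‖ * ‖g x‖ ∂μ := by simp only [norm_mul]

end basic

/-- bounded measurable -/
def BC {α : Type} [MeasurableSpace α] (F : ℂ → α → ℂ) : Prop :=
  Measurable (fun p : ℂ × α => F p.1 p.2) ∧ ∃ C : ℝ, 0 ≤ C ∧ ∀ x a, ‖F x a‖ ≤ C

section BC
variable {α : Type} [MeasurableSpace α]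

lemma BC.add {F G : ℂ → α → ℂ} (hF : BC F) (hG : BC G) : BC (fun x a => F x a + G x a) := by
  obtain ⟨hm, C, hC0, hC⟩ := hF
  obtain ⟨hm', C', hC0', hC'⟩ := hG
  exact ⟨hm.add hm', C + C', by positivity, fun x a =>
    (norm_add_le _ _).trans (add_le_add (hC x a) (hC' x a))⟩

lemma BC.neg {F : ℂ → α → ℂ} (hF : BC F) : BC (fun x a => - F x a) := by
  obtain ⟨hm, C, hC0, hC⟩ := hF
  exact ⟨hm.neg, C, hC0, fun x a => by rw [norm_neg]; exact hC x a⟩

lemma BC.sub {F G : ℂ → α → ℂ} (hF : BC F) (hG : BC G) : BC (fun x a => F x a - G x a) := by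
  simpa [sub_eq_add_neg] using hF.add hG.neg

lemma BC.conj {F : ℂ → α → ℂ} (hF : BC F) : BC (fun x a => (starRingEnd ℂ) (F x a)) := by
  obtain ⟨hm, C, hC0, hC⟩ := hF
  exact ⟨(Complex.continuous_conj.measurable).comp hm, C, hC0, fun x a => by
    rw [Complex.norm_conj]; exact hC x a⟩

lemma BC.of_real {F : ℂ → α → ℝ} (hm : Measurable (fun p : ℂ × α => F p.1 p.2)) {C : ℝ}
    (hC : ∀ x a, |F x a| ≤ C) : BC (fun x a => (F x a : ℂ)) :=
  ⟨Complex.measurable_ofReal.comp hm, max C 0, le_max_right _ _, fun x a => by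
    rw [Complex.norm_real]; exact (hC x a).trans (le_max_left _ _)⟩

variable (A : Set ℂ) (κ : Measure α)

/-- squared norm -/
noncomputable def N2 (F : ℂ → α → ℂ) : ℝ := ∫ x in A, ∫ a, ‖F x a‖ ^ 2 ∂κ

lemma N2_nonneg (F : ℂ → α → ℂ) : 0 ≤ N2 A κ F :=
  integral_nonneg fun x => integral_nonneg fun a => by positivity

variable {A κ}

lemma BC.int_prod [IsFiniteMeasure (volume.restrict A)] [IsFiniteMeasure κ] {F : ℂ → α → ℂ}
    (hF : BC F) : Integrable (fun p : ℂ × α => ‖F p.1 p.2‖ ^ 2) ((volume.restrict A).prod κ) := by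
  obtain ⟨hm, C, hC0, hC⟩ := hF
  exact int_sq hm (Eventually.of_forall fun p => hC p.1 p.2)

lemma N2_eq_prod [IsFiniteMeasure (volume.restrict A)] [IsFiniteMeasure κ] {F : ℂ → α → ℂ}
    (hF : BC F) : N2 A κ F = ∫ p, ‖F p.1 p.2‖ ^ 2 ∂((volume.restrict A).prod κ) := by
  rw [integral_prod _ hF.int_prod]
  rfl

lemma N2_eq_swap [IsFiniteMeasure (volume.restrict A)] [IsFiniteMeasure κ] {F : ℂ → α → ℂ}
    (hF : BC F) : N2 A κ F = ∫ a, (∫ x in A, ‖F x a‖ ^ 2) ∂κ := by
  rw [N2_eq_prod hF, integral_prod_symm _ hF.int_prod]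

lemma N2_add_le [IsFiniteMeasure (volume.restrict A)] [IsFiniteMeasure κ] {F G : ℂ → α → ℂ}
    (hF : BC F) (hG : BC G) :
    N2 A κ (fun x a => F x a + G x a) ≤ 2 * N2 A κ F + 2 * N2 A κ G := by
  rw [N2_eq_prod hF, N2_eq_prod hG, N2_eq_prod (hF.add hG), ← integral_const_mul,
    ← integral_const_mul, ← integral_add (hF.int_prod.const_mul _) (hG.int_prod.const_mul _)]
  refine integral_mono (hF.add hG).int_prod
    ((hF.int_prod.const_mul _).add (hG.int_prod.const_mul _)) fun p => ?_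
  have h1 : ‖F p.1 p.2 + G p.1 p.2‖ ≤ ‖F p.1 p.2‖ + ‖G p.1 p.2‖ := norm_add_le _ _
  have h2 : ‖F p.1 p.2 + G p.1 p.2‖ ^ 2 ≤ (‖F p.1 p.2‖ + ‖G p.1 p.2‖) ^ 2 := by (clear * - h1; gcongr)
  show ‖F p.1 p.2 + G p.1 p.2‖ ^ 2 ≤ 2 * ‖F p.1 p.2‖ ^ 2 + 2 * ‖G p.1 p.2‖ ^ 2
  linarith only [sq_nonneg (‖F p.1 p.2‖ - ‖G p.1 p.2‖), h2]

end BC

lemma meas_zpow (k : ℤ) : Measurable (fun u : ℂ => u ^ k) := by
  measurability

lemma norm_zpow_ae (k : ℤ) : ∀ᵐ u ∂nu, ‖u ^ k‖ = 1 := by
  filter_upwards [ae_norm] with u hu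
  rw [norm_zpow, hu, one_zpow]

variable {Ω : Type} [MeasurableSpace Ω]

lemma BC.md {F : ℂ → ℂ × Ω → ℂ} (hF : BC F) (k : ℤ) : BC (md k F) := by
  obtain ⟨hm, C, hC0, hC⟩ := hF
  constructor
  · have h1 : StronglyMeasurable (Function.uncurry
        (fun (p : ℂ × Ω) (u : ℂ) => F p.1 (u, p.2) * u ^ (-k))) := by
      refine Measurable.stronglyMeasurable ?_
      refine Measurable.mul ?_ ?_
      · exact hm.comp (Measurable.prodMk (by fun_prop) (by fun_prop))
      · exact (meas_zpow (-k)).comp measurable_snd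
    exact (h1.integral_prod_right (ν := nu)).measurable
  · refine ⟨C, hC0, fun x q => ?_⟩
    unfold Vale.Agent.P099C.md
    have := norm_integral_le_of_norm_le_const (μ := nu)
      (f := fun u => F x (u, q) * u ^ (-k)) (C := C) (by
        filter_upwards [norm_zpow_ae (-k)] with u hu
        rw [norm_mul, hu, mul_one]; exact hC _ _)
    simpa only [zpow_neg, ge_iff_le, probReal_univ, mul_one] using this

lemma memLp_of_bdd {f : ℂ → ℂ} (hm : Measurable f) {C : ℝ} (hC : ∀ᵐ u ∂nu, ‖f u‖ ≤ C) :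
    MemLp f 2 nu := MemLp.of_bound hm.aestronglyMeasurable C hC

lemma sum_mode_le {f : ℂ → ℂ} (hm : Measurable f) {C : ℝ} (hC : ∀ᵐ u ∂nu, ‖f u‖ ≤ C)
    (s : Finset ℤ) : ∑ k ∈ s, ‖mode k f‖ ^ 2 ≤ ∫ u, ‖f u‖ ^ 2 ∂nu :=
  bessel f (memLp_of_bdd hm hC) s

lemma mode_le {f : ℂ → ℂ} (hm : Measurable f) {C : ℝ} (hC : ∀ᵐ u ∂nu, ‖f u‖ ≤ C)
    (k : ℤ) : ‖mode k f‖ ^ 2 ≤ ∫ u, ‖f u‖ ^ 2 ∂nu := by
  simpa only [Finset.sum_singleton] using sum_mode_le hm hC { k }

lemma meas_slice {F : ℂ → ℂ × Ω → ℂ} (hm : Measurable (fun p : ℂ × (ℂ × Ω) => F p.1 p.2)) (x : ℂ)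
    (q : Ω) : Measurable (fun u : ℂ => F x (u, q)) :=
  hm.comp (Measurable.prodMk measurable_const (Measurable.prodMk measurable_id measurable_const))

variable {A : Set ℂ} {m : Measure Ω}

/-- integrated Bessel inequality -/
lemma sum_N2_md_le [IsFiniteMeasure (volume.restrict A)] [IsProbabilityMeasure m]
    {F : ℂ → ℂ × Ω → ℂ} (hF : BC F) (s : Finset ℤ) :
    ∑ k ∈ s, N2 A m (md k F) ≤ N2 A (nu.prod m) F := by
  obtain ⟨hm, C, hC0, hC⟩ := id hF
  have h1 : ∑ k ∈ s, N2 A m (md k F) =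
      ∫ p, ∑ k ∈ s, ‖md k F p.1 p.2‖ ^ 2 ∂((volume.restrict A).prod m) := by
    rw [integral_finsetSum _ fun k _ => (hF.md k).int_prod]
    exact Finset.sum_congr rfl fun k _ => N2_eq_prod (hF.md k)
  have hI : Integrable (fun p : ℂ × Ω => ∫ u, ‖F p.1 (u, p.2)‖ ^ 2 ∂nu)
      ((volume.restrict A).prod m) := by
    refine int_bdd ?_ (C := C ^ 2) (Eventually.of_forall fun p => ?_)
    · have h1 : StronglyMeasurable (Function.uncurry
        (fun (p : ℂ × Ω) (u : ℂ) => ‖F p.1 (u, p.2)‖ ^ 2)) := by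
        refine Measurable.stronglyMeasurable ?_
        exact (hm.comp (Measurable.prodMk (by fun_prop) (by fun_prop))).norm.pow_const 2
      exact (h1.integral_prod_right (ν := nu)).measurable
    · have := norm_integral_le_of_norm_le_const (μ := nu)
        (f := fun u => ‖F p.1 (u, p.2)‖ ^ 2) (C := C ^ 2) (Eventually.of_forall fun u => by
          rw [Real.norm_of_nonneg (by (clear * -; positivity))]
          have := hC p.1 (u, p.2)
          gcongr)
      simpa only [Real.norm_eq_abs, ge_iff_le, probReal_univ, mul_one] using this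
  have h2 : N2 A (nu.prod m) F =
      ∫ p, (∫ u, ‖F p.1 (u, p.2)‖ ^ 2 ∂nu) ∂((volume.restrict A).prod m) := by
    rw [integral_prod _ hI]
    unfold N2
    congr 1
    funext x
    have hI2 : Integrable (fun ω : ℂ × Ω => ‖F x ω‖ ^ 2) (nu.prod m) :=
      int_sq (hm.comp (Measurable.prodMk measurable_const measurable_id))
        (Eventually.of_forall fun ω => hC x ω)
    rw [integral_prod_symm _ hI2]
  rw [h1, h2]
  refine integral_mono (integrable_finsetSum _ fun k _ => (hF.md k).int_prod) hI fun p => ?_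
  exact sum_mode_le (meas_slice hm p.1 p.2) (Eventually.of_forall fun u => hC p.1 (u, p.2)) s

lemma N2_md_le [IsFiniteMeasure (volume.restrict A)] [IsProbabilityMeasure m]
    {F : ℂ → ℂ × Ω → ℂ} (hF : BC F) (k : ℤ) :
    N2 A m (md k F) ≤ N2 A (nu.prod m) F := by
  simpa only [Finset.sum_singleton] using sum_N2_md_le (A := A) (m := m) hF { k }

lemma tendsto_N2_md [IsFiniteMeasure (volume.restrict A)] [IsProbabilityMeasure m]
    {F : ℂ → ℂ × Ω → ℂ} (hF : BC F) :
    Tendsto (fun k : ℤ => N2 A m (md k F)) cofinite (𝓝 0) :=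
  (summable_of_sum_le (fun _ => N2_nonneg A m _) (sum_N2_md_le hF)).tendsto_cofinite_zero

end Rig

end Vale.Agent.P099C
end
end

section

section

open MeasureTheory Set Filter Topology

namespace Vale.Agent.P099C
open Vale.Agent.P099 (nu FlowErgodic FlowWeakMixing)

namespace Rig

set_option linter.unusedSectionVars false

variable {Ω : Type} [MeasurableSpace Ω]

/-! ### mollification of bounded functions with bounded support -/

lemma measurable_rho (ε : ℝ) : Measurable (rho ε) := (rho_contDiff ε).continuous.measurable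

lemma integrable_rho {ε : ℝ} (hε : 0 < ε) : Integrable (rho ε) volume :=
  (rho_contDiff ε).continuous.integrable_of_hasCompactSupport (hasCompactSupport_rho hε)

lemma hasCompactSupport_kap {ε : ℝ} (hε : 0 < ε) : HasCompactSupport (kap ε) := by
  refine HasCompactSupport.of_support_subset_isCompact (isCompact_closedBall (0 : ℂ) ε) ?_
  intro z hz
  rw [mem_closedBall_zero_iff]
  by_contra hcon
  exact hz (kap_eq_zero hε (not_le.mp hcon).le)

lemma integrable_kap {ε : ℝ} (hε : 0 < ε) : Integrable (kap ε) volume :=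
  (continuous_kap ε).integrable_of_hasCompactSupport (hasCompactSupport_kap hε)

lemma abs_conv_le {κ : ℂ → ℂ} (hκ : Integrable κ volume) {g : ℂ → ℂ} {C : ℝ}
    (hC : ∀ y, ‖g y‖ ≤ C) (x : ℂ) : ‖∫ y, κ (x - y) * g y‖ ≤ (∫ y, ‖κ y‖) * C := by
  have h1 : Integrable (fun y => ‖κ (x - y)‖ * C) volume :=
    (hκ.comp_sub_left x).norm.mul_const C
  have h2 := norm_integral_le_of_norm_le (f := fun y => κ (x - y) * g y) h1
    (Eventually.of_forall fun y => by
      rw [norm_mul]; exact mul_le_mul_of_nonneg_left (hC y) (norm_nonneg _))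
  rw [integral_mul_const] at h2
  rwa [integral_sub_left_eq_self (fun y => ‖κ y‖) volume x] at h2

lemma BC_conv {κ : ℂ → ℂ} (hκ : Integrable κ volume) (hκc : Continuous κ)
    {f : ℂ → ℂ × Ω → ℝ} (hf : Bdd f) : BC (fun x ω => ∫ y, κ (x - y) * (f y ω : ℂ)) := by
  obtain ⟨hm, C, hC⟩ := hf
  constructor
  · have h1 : StronglyMeasurable (Function.uncurry
        (fun (p : ℂ × (ℂ × Ω)) (y : ℂ) => κ (p.1 - y) * (f y p.2 : ℂ))) := by
      refine Measurable.stronglyMeasurable ?_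
      refine Measurable.mul ?_ ?_
      · exact hκc.measurable.comp (by fun_prop)
      · exact Complex.measurable_ofReal.comp (hm.comp (Measurable.prodMk (by fun_prop) (by fun_prop)))
    exact (h1.integral_prod_right (ν := volume)).measurable
  · refine ⟨(∫ y, ‖κ y‖) * |C|, mul_nonneg (integral_nonneg fun _ => norm_nonneg _) (abs_nonneg _),
      fun x ω => ?_⟩
    refine abs_conv_le hκ (fun y => ?_) x
    rw [Complex.norm_real]
    exact (hC y ω).trans (le_abs_self C)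

lemma mol_eq (ε : ℝ) (f : ℂ → ℂ × Ω → ℝ) (x : ℂ) (ω : ℂ × Ω) :
    ((mol ε f x ω : ℝ) : ℂ) = conv (fun z => (rho ε z : ℂ)) (fun y => (f y ω : ℂ)) x := by
  unfold mol conv
  rw [← integral_complex_ofReal]
  push_cast
  rfl

lemma grd_eq (ε : ℝ) (f : ℂ → ℂ × Ω → ℝ) (x : ℂ) (ω : ℂ × Ω) :
    grd ε f x ω = conv (kap ε) (fun y => (f y ω : ℂ)) x := rfl

lemma conj_grd_eq (ε : ℝ) (f : ℂ → ℂ × Ω → ℝ) (x : ℂ) (ω : ℂ × Ω) :
    (starRingEnd ℂ) (grd ε f x ω) =
      conv (fun z => (starRingEnd ℂ) (kap ε z)) (fun y => (f y ω : ℂ)) x := by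
  unfold grd conv
  rw [← integral_conj]
  congr 1
  funext y
  rw [map_mul, Complex.conj_ofReal]

lemma BC_mol {ε : ℝ} (hε : 0 < ε) {f : ℂ → ℂ × Ω → ℝ} (hf : Bdd f) :
    BC (fun x ω => ((mol ε f x ω : ℝ) : ℂ)) := by
  have h := BC_conv (κ := fun z => (rho ε z : ℂ)) (integrable_rho hε).ofReal
    (Complex.continuous_ofReal.comp (rho_contDiff ε).continuous) hf
  have e : (fun x ω => ((mol ε f x ω : ℝ) : ℂ)) =
      fun x ω => ∫ y, (rho ε (x - y) : ℂ) * (f y ω : ℂ) := by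
    funext x ω; exact mol_eq ε f x ω
  rw [e]; exact h

lemma BC_grd {ε : ℝ} (hε : 0 < ε) {f : ℂ → ℂ × Ω → ℝ} (hf : Bdd f) : BC (grd ε f) :=
  BC_conv (integrable_kap hε) (continuous_kap ε) hf

lemma locInt {f : ℂ → ℂ × Ω → ℝ} (hf : Bdd f) (ω : ℂ × Ω) :
    LocallyIntegrable (fun y => (f y ω : ℂ)) volume := by
  obtain ⟨hm, C, hC⟩ := hf
  have h1 : Measurable (fun y => (f y ω : ℂ)) :=
    Complex.measurable_ofReal.comp (hm.comp (Measurable.prodMk measurable_id measurable_const))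
  intro x
  refine ⟨Metric.ball x 1, Metric.ball_mem_nhds x one_pos, ?_⟩
  have : IsFiniteMeasure (volume.restrict (Metric.ball x 1)) :=
    ⟨by rw [Measure.restrict_apply_univ]; exact measure_ball_lt_top⟩
  exact int_bdd h1 (C := C) (Eventually.of_forall fun y => by rw [Complex.norm_real]; exact hC y ω)

end Rig

end Vale.Agent.P099C
end
end

section

section

open MeasureTheory Set Filter Topology

namespace Vale.Agent.P099C
open Vale.Agent.P099 (nu FlowErgodic FlowWeakMixing)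

namespace Rig

set_option linter.unusedSectionVars false

variable {Ω : Type} [MeasurableSpace Ω]

/-- testing in the position variable -/
noncomputable def Lam (A : Set ℂ) (φ : ℂ → ℝ) (F : ℂ → ℂ × Ω → ℂ) (ω : ℂ × Ω) : ℂ :=
  ∫ x in A, F x ω * ((fderiv ℝ φ x (Complex.I * ω.1) : ℝ) : ℂ)

section
variable {A : Set ℂ} {φ : ℂ → ℝ} {K : ℝ} {m : Measure Ω}

lemma psi_meas (hφ : ContDiff ℝ (⊤ : ℕ∞) φ) :
    Measurable (fun p : ℂ × (ℂ × Ω) => ((fderiv ℝ φ p.1 (Complex.I * p.2.1) : ℝ) : ℂ)) := by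
  have h1 : Continuous (fun p : ℂ × ℂ => fderiv ℝ φ p.1 (Complex.I * p.2)) :=
    ((hφ.continuous_fderiv (by simp)).comp continuous_fst).clm_apply (by fun_prop)
  have h2 : Measurable (fun p : ℂ × ℂ => ((fderiv ℝ φ p.1 (Complex.I * p.2) : ℝ) : ℂ)) :=
    Complex.measurable_ofReal.comp h1.measurable
  exact h2.comp (Measurable.prodMk measurable_fst (by fun_prop))

lemma psi_le (hK : ∀ x, ‖fderiv ℝ φ x‖ ≤ K) {u : ℂ} (hu : ‖u‖ = 1) (x : ℂ) :
    ‖((fderiv ℝ φ x (Complex.I * u) : ℝ) : ℂ)‖ ≤ K := by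
  rw [Complex.norm_real]
  calc ‖fderiv ℝ φ x (Complex.I * u)‖ ≤ ‖fderiv ℝ φ x‖ * ‖Complex.I * u‖ :=
        ContinuousLinearMap.le_opNorm _ _
    _ = ‖fderiv ℝ φ x‖ := by rw [norm_mul, Complex.norm_I, hu]; ring
    _ ≤ K := hK x

lemma Lam_meas [IsFiniteMeasure (volume.restrict A)] (hφ : ContDiff ℝ (⊤ : ℕ∞) φ)
    {F : ℂ → ℂ × Ω → ℂ} (hF : BC F) : Measurable (Lam A φ F) := by
  have h1 : StronglyMeasurable (Function.uncurry
        (fun (ω : ℂ × Ω) (x : ℂ) => F x ω * ((fderiv ℝ φ x (Complex.I * ω.1) : ℝ) : ℂ))) := by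
    refine Measurable.stronglyMeasurable ?_
    have h2 : Measurable (fun p : ℂ × (ℂ × Ω) =>
        F p.1 p.2 * ((fderiv ℝ φ p.1 (Complex.I * p.2.1) : ℝ) : ℂ)) := hF.1.mul (psi_meas hφ)
    exact h2.comp measurable_swap
  exact (h1.integral_prod_right (ν := volume.restrict A)).measurable

lemma sec_meas {F : ℂ → ℂ × Ω → ℂ} (hF : BC F) (ω : ℂ × Ω) : Measurable (fun x => F x ω) :=
  hF.1.comp (Measurable.prodMk measurable_id measurable_const)

lemma Lam_sq_le [IsFiniteMeasure (volume.restrict A)] (hφ : ContDiff ℝ (⊤ : ℕ∞) φ)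
    (hK : ∀ x, ‖fderiv ℝ φ x‖ ≤ K) {F : ℂ → ℂ × Ω → ℂ} (hF : BC F) {ω : ℂ × Ω} (hω : ‖ω.1‖ = 1) :
    ‖Lam A φ F ω‖ ^ 2 ≤ (∫ x in A, ‖F x ω‖ ^ 2) * (K ^ 2 * (volume A).toReal) := by
  obtain ⟨C, hC0, hC⟩ := hF.2
  have h1 := cs_norm (μ := volume.restrict A) (sec_meas hF ω)
    ((psi_meas (Ω := Ω) hφ).comp (Measurable.prodMk measurable_id measurable_const) :
      Measurable (fun x => ((fderiv ℝ φ x (Complex.I * ω.1) : ℝ) : ℂ)))
    (C := C) (K := K) (Eventually.of_forall fun x => hC x ω)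
    (Eventually.of_forall fun x => psi_le hK hω x)
  refine h1.trans ?_
  refine mul_le_mul_of_nonneg_left ?_ (integral_nonneg fun x => by (clear * -; positivity))
  have h2 := norm_integral_le_of_norm_le_const (μ := volume.restrict A)
    (f := fun x => ‖((fderiv ℝ φ x (Complex.I * ω.1) : ℝ) : ℂ)‖ ^ 2) (C := K ^ 2)
    (Eventually.of_forall fun x => by
      rw [Real.norm_of_nonneg (by positivity)]
      have := psi_le hK hω x
      gcongr)
  rw [Real.norm_of_nonneg (integral_nonneg fun x => by positivity)] at h2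
  simpa only [id_eq, Function.comp_apply, Complex.norm_real, Real.norm_eq_abs, sq_abs, ge_iff_le, Measure.real,     MeasurableSet.univ, Measure.restrict_apply, univ_inter] using h2

lemma D_meas {F : ℂ → ℂ × Ω → ℂ} (hF : BC F) [IsFiniteMeasure (volume.restrict A)] :
    Measurable (fun ω => ∫ x in A, ‖F x ω‖ ^ 2) := by
  have h1 : StronglyMeasurable (Function.uncurry (fun (ω : ℂ × Ω) (x : ℂ) => ‖F x ω‖ ^ 2)) := by
    refine Measurable.stronglyMeasurable ?_
    have h2 : Measurable (fun p : ℂ × (ℂ × Ω) => ‖F p.1 p.2‖ ^ 2) := hF.1.norm.pow_const 2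
    exact (h2.comp measurable_swap :)
  exact (h1.integral_prod_right (ν := volume.restrict A)).measurable

lemma D_le [IsFiniteMeasure (volume.restrict A)] {F : ℂ → ℂ × Ω → ℂ} {C : ℝ}
    (hC : ∀ x a, ‖F x a‖ ≤ C) (ω : ℂ × Ω) :
    ‖∫ x in A, ‖F x ω‖ ^ 2‖ ≤ C ^ 2 * (volume A).toReal := by
  have h2 := norm_integral_le_of_norm_le_const (μ := volume.restrict A)
    (f := fun x => ‖F x ω‖ ^ 2) (C := C ^ 2)
    (Eventually.of_forall fun x => by
      rw [Real.norm_of_nonneg (by positivity)]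
      have := hC x ω
      (clear * - this; gcongr))
  simpa only [Real.norm_eq_abs, ge_iff_le, Measure.real, MeasurableSet.univ, Measure.restrict_apply,     univ_inter] using h2

lemma Lam_bdd [IsFiniteMeasure (volume.restrict A)] (hφ : ContDiff ℝ (⊤ : ℕ∞) φ)
    (hK : ∀ x, ‖fderiv ℝ φ x‖ ≤ K) {F : ℂ → ℂ × Ω → ℂ} (hF : BC F) :
    ∃ B : ℝ, ∀ ω : ℂ × Ω, ‖ω.1‖ = 1 → ‖Lam A φ F ω‖ ≤ B := by
  obtain ⟨C, hC0, hC⟩ := hF.2
  refine ⟨Real.sqrt (C ^ 2 * (volume A).toReal * (K ^ 2 * (volume A).toReal)), fun ω hω => ?_⟩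
  apply Real.le_sqrt_of_sq_le
  refine (Lam_sq_le hφ hK hF hω).trans ?_
  refine mul_le_mul_of_nonneg_right ((le_abs_self _).trans (D_le hC ω)) (by (clear * -; positivity))

/-- modes of the test functional -/
noncomputable def mL (A : Set ℂ) (φ : ℂ → ℝ) (k : ℤ) (F : ℂ → ℂ × Ω → ℂ) (q : Ω) : ℂ :=
  mode k (fun u => Lam A φ F (u, q))

lemma slice_meas {f : ℂ × Ω → ℂ} (hf : Measurable f) (q : Ω) : Measurable (fun u => f (u, q)) :=
  hf.comp (Measurable.prodMk measurable_id measurable_const)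

lemma mL_meas [IsFiniteMeasure (volume.restrict A)] (hφ : ContDiff ℝ (⊤ : ℕ∞) φ)
    {F : ℂ → ℂ × Ω → ℂ} (hF : BC F) (k : ℤ) : Measurable (mL A φ k F) := by
  have h1 : StronglyMeasurable (Function.uncurry
        (fun (q : Ω) (u : ℂ) => Lam A φ F (u, q) * u ^ (-k))) := by
    refine Measurable.stronglyMeasurable (Measurable.mul ?_ ?_)
    · exact (Lam_meas hφ hF).comp measurable_swap
    · exact (meas_zpow (-k)).comp measurable_snd
  exact (h1.integral_prod_right (ν := nu)).measurable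

lemma mL_sq_le [IsFiniteMeasure (volume.restrict A)] (hφ : ContDiff ℝ (⊤ : ℕ∞) φ)
    (hK : ∀ x, ‖fderiv ℝ φ x‖ ≤ K) {F : ℂ → ℂ × Ω → ℂ} (hF : BC F) (k : ℤ) (q : Ω) :
    ‖mL A φ k F q‖ ^ 2 ≤
      (∫ u, (∫ x in A, ‖F x (u, q)‖ ^ 2) ∂nu) * (K ^ 2 * (volume A).toReal) := by
  obtain ⟨B, hB⟩ := Lam_bdd (A := A) hφ hK hF
  obtain ⟨C, hC0, hC⟩ := hF.2
  have h1 := mode_le (slice_meas (Lam_meas (A := A) hφ hF) q) (C := B)
    (by filter_upwards [ae_norm] with u hu; exact hB (u, q) hu) k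
  refine h1.trans ?_
  rw [← integral_mul_const]
  refine integral_mono_of_nonneg (Eventually.of_forall fun u => by positivity) ?_ ?_
  · refine Integrable.mul_const ?_ _
    exact int_bdd ((D_meas (A := A) hF).comp (Measurable.prodMk measurable_id measurable_const))
      (C := C ^ 2 * (volume A).toReal) (Eventually.of_forall fun u => D_le hC (u, q))
  · filter_upwards [ae_norm] with u hu
    exact Lam_sq_le hφ hK hF hu

lemma mL_bdd [IsFiniteMeasure (volume.restrict A)] (hφ : ContDiff ℝ (⊤ : ℕ∞) φ)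
    (hK : ∀ x, ‖fderiv ℝ φ x‖ ≤ K) {F : ℂ → ℂ × Ω → ℂ} (hF : BC F) (k : ℤ) :
    ∃ B : ℝ, ∀ q : Ω, ‖mL A φ k F q‖ ≤ B := by
  obtain ⟨C, hC0, hC⟩ := hF.2
  refine ⟨Real.sqrt (C ^ 2 * (volume A).toReal * (K ^ 2 * (volume A).toReal)), fun q => ?_⟩
  apply Real.le_sqrt_of_sq_le
  refine (mL_sq_le hφ hK hF k q).trans ?_
  refine mul_le_mul_of_nonneg_right ?_ (by (clear * -; positivity))
  have h2 := norm_integral_le_of_norm_le_const (μ := nu)
    (f := fun u => ∫ x in A, ‖F x (u, q)‖ ^ 2) (C := C ^ 2 * (volume A).toReal)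
    (Eventually.of_forall fun u => D_le hC (u, q))
  refine (le_abs_self _).trans (h2.trans ?_)
  simp

lemma mL_int_sq [IsFiniteMeasure (volume.restrict A)] [IsProbabilityMeasure m]
    (hφ : ContDiff ℝ (⊤ : ℕ∞) φ)
    (hK : ∀ x, ‖fderiv ℝ φ x‖ ≤ K) {F : ℂ → ℂ × Ω → ℂ} (hF : BC F) (k : ℤ) :
    Integrable (fun q => ‖mL A φ k F q‖ ^ 2) m := by
  obtain ⟨B, hB⟩ := mL_bdd (A := A) hφ hK hF k
  exact int_sq (mL_meas hφ hF k) (Eventually.of_forall hB)

/-- first estimate -/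
lemma S_le [IsFiniteMeasure (volume.restrict A)] [IsProbabilityMeasure m]
    (hφ : ContDiff ℝ (⊤ : ℕ∞) φ)
    (hK : ∀ x, ‖fderiv ℝ φ x‖ ≤ K) {F : ℂ → ℂ × Ω → ℂ} (hF : BC F) (k : ℤ) :
    ∫ q, ‖mL A φ k F q‖ ^ 2 ∂m ≤ N2 A (nu.prod m) F * (K ^ 2 * (volume A).toReal) := by
  obtain ⟨C, hC0, hC⟩ := hF.2
  have hI : Integrable (fun ω : ℂ × Ω => ∫ x in A, ‖F x ω‖ ^ 2) (nu.prod m) :=
    int_bdd (D_meas (A := A) hF) (C := C ^ 2 * (volume A).toReal)
      (Eventually.of_forall fun ω => D_le hC ω)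
  rw [N2_eq_swap hF, integral_prod_symm _ hI, ← integral_mul_const]
  refine integral_mono_of_nonneg (Eventually.of_forall fun q => by positivity) ?_
    (Eventually.of_forall fun q => mL_sq_le hφ hK hF k q)
  refine Integrable.mul_const ?_ _
  exact hI.integral_prod_right

lemma mL_add [IsFiniteMeasure (volume.restrict A)] (hφ : ContDiff ℝ (⊤ : ℕ∞) φ)
    (hK : ∀ x, ‖fderiv ℝ φ x‖ ≤ K) {F G : ℂ → ℂ × Ω → ℂ} (hF : BC F) (hG : BC G) (k : ℤ) (q : Ω) :
    mL A φ k (fun x ω => F x ω + G x ω) q = mL A φ k F q + mL A φ k G q := by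
  unfold mL mode
  obtain ⟨B, hB⟩ := Lam_bdd (A := A) hφ hK hF
  obtain ⟨B', hB'⟩ := Lam_bdd (A := A) hφ hK hG
  obtain ⟨C, hC0, hC⟩ := hF.2
  obtain ⟨C', hC0', hC'⟩ := hG.2
  rw [← integral_add]
  · refine integral_congr_ae ?_
    filter_upwards [ae_norm] with u hu
    rw [← add_mul]
    congr 1
    unfold Lam
    have hψ : Measurable (fun x => ((fderiv ℝ φ x (Complex.I * u) : ℝ) : ℂ)) :=
      (psi_meas (Ω := Ω) hφ).comp (Measurable.prodMk measurable_id
        (measurable_const (a := ((u, q) : ℂ × Ω))))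
    rw [← integral_add]
    · simp only [add_mul]
    · refine int_bdd ((sec_meas hF (u, q)).mul hψ) (C := C * K) (Eventually.of_forall fun x => ?_)
      rw [norm_mul]
      exact mul_le_mul (hC _ _) (psi_le hK hu x) (norm_nonneg _) hC0
    · refine int_bdd ((sec_meas hG (u, q)).mul hψ) (C := C' * K) (Eventually.of_forall fun x => ?_)
      rw [norm_mul]
      exact mul_le_mul (hC' _ _) (psi_le hK hu x) (norm_nonneg _) hC0'
  · refine int_bdd ((slice_meas (Lam_meas (A := A) hφ hF) q).mul (meas_zpow _)) (C := B) ?_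
    filter_upwards [ae_norm, norm_zpow_ae (-k)] with u hu hz
    rw [norm_mul, hz, mul_one]; exact hB (u, q) hu
  · refine int_bdd ((slice_meas (Lam_meas (A := A) hφ hG) q).mul (meas_zpow _)) (C := B') ?_
    filter_upwards [ae_norm, norm_zpow_ae (-k)] with u hu hz
    rw [norm_mul, hz, mul_one]; exact hB' (u, q) hu

lemma S_add_le [IsFiniteMeasure (volume.restrict A)] [IsProbabilityMeasure m]
    (hφ : ContDiff ℝ (⊤ : ℕ∞) φ)
    (hK : ∀ x, ‖fderiv ℝ φ x‖ ≤ K) {F G : ℂ → ℂ × Ω → ℂ} (hF : BC F) (hG : BC G) (k : ℤ) :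
    ∫ q, ‖mL A φ k (fun x ω => F x ω + G x ω) q‖ ^ 2 ∂m ≤
      2 * ∫ q, ‖mL A φ k F q‖ ^ 2 ∂m + 2 * ∫ q, ‖mL A φ k G q‖ ^ 2 ∂m := by
  have i1 := mL_int_sq (A := A) (m := m) hφ hK hF k
  have i2 := mL_int_sq (A := A) (m := m) hφ hK hG k
  rw [← integral_const_mul, ← integral_const_mul, ← integral_add (i1.const_mul _) (i2.const_mul _)]
  refine integral_mono (mL_int_sq hφ hK (hF.add hG) k) ((i1.const_mul _).add (i2.const_mul _))
    fun q => ?_
  rw [mL_add hφ hK hF hG k q]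
  show ‖mL A φ k F q + mL A φ k G q‖ ^ 2 ≤ 2 * ‖mL A φ k F q‖ ^ 2 + 2 * ‖mL A φ k G q‖ ^ 2
  have h1 := norm_add_le (mL A φ k F q) (mL A φ k G q)
  have h2 : ‖mL A φ k F q + mL A φ k G q‖ ^ 2 ≤ (‖mL A φ k F q‖ + ‖mL A φ k G q‖) ^ 2 := by gcongr
  (clear * - h2; linarith only [sq_nonneg (‖mL A φ k F q‖ - ‖mL A φ k G q‖), h2])

end

end Rig

end Vale.Agent.P099C
end
end

section

section

open MeasureTheory Set Filter Topology

namespace Vale.Agent.P099C
open Vale.Agent.P099 (nu FlowErgodic FlowWeakMixing)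

namespace Rig

set_option linter.unusedSectionVars false

variable {Ω : Type} [MeasurableSpace Ω]

section
variable {A : Set ℂ} {φ : ℂ → ℝ} {m : Measure Ω}

lemma hasFDerivAt_ofReal (hφ : ContDiff ℝ (⊤ : ℕ∞) φ) (x : ℂ) :
    HasFDerivAt (fun x => (φ x : ℂ)) (Complex.ofRealCLM.comp (fderiv ℝ φ x)) x :=
  Complex.ofRealCLM.hasFDerivAt.comp x ((hφ.differentiable (by simp)) x).hasFDerivAt

lemma fderiv_ofReal_apply (hφ : ContDiff ℝ (⊤ : ℕ∞) φ) (x v : ℂ) :
    fderiv ℝ (fun x => (φ x : ℂ)) x v = ((fderiv ℝ φ x v : ℝ) : ℂ) := by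
  rw [(hasFDerivAt_ofReal hφ x).fderiv]; rfl

/-- the derivative of the mollification in the transversal direction -/
noncomputable def Yg (ε : ℝ) (f : ℂ → ℂ × Ω → ℝ) (x : ℂ) (ω : ℂ × Ω) : ℂ :=
  (Complex.I * ω.1) * grd ε f x ω +
    (starRingEnd ℂ) (Complex.I * ω.1) * (starRingEnd ℂ) (grd ε f x ω)

lemma Lam_mol {ε : ℝ} (hε : 0 < ε) {f : ℂ → ℂ × Ω → ℝ} (hf : Bdd f)
    (hφ : ContDiff ℝ (⊤ : ℕ∞) φ) (hφc : HasCompactSupport φ) (hφs : tsupport φ ⊆ A)
    (ω : ℂ × Ω) :
    Lam A φ (fun x ω => ((mol ε f x ω : ℝ) : ℂ)) ω = - ∫ x in A, Yg ε f x ω * (φ x : ℂ) := by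
  obtain ⟨v, hv⟩ : ∃ v, v = Complex.I * ω.1 := ⟨_, rfl⟩
  obtain ⟨G, hG⟩ : ∃ G : ℂ → ℂ, G = conv (fun z => (rho ε z : ℂ)) (fun y => (f y ω : ℂ)) := ⟨_, rfl⟩
  have hGs : ContDiff ℝ (⊤ : ℕ∞) G := by rw [hG]; exact contDiff_conv hε (locInt hf ω)
  have hΦc : HasCompactSupport (fun x => (φ x : ℂ)) := hφc.comp_left (g := fun r : ℝ => (r : ℂ)) rfl
  have hΦs : ContDiff ℝ (⊤ : ℕ∞) (fun x => (φ x : ℂ)) := Complex.ofRealCLM.contDiff.comp hφ
  have hz : ∀ x, x ∉ A → φ x = 0 := fun x hx => image_eq_zero_of_notMem_tsupport fun h => hx (hφs h)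
  have hz' : ∀ x, x ∉ A → fderiv ℝ φ x = 0 := fun x hx => by
    by_contra h
    exact hx (hφs (support_fderiv_subset ℝ h))
  have e1 : Lam A φ (fun x ω => ((mol ε f x ω : ℝ) : ℂ)) ω =
      ∫ x, G x * fderiv ℝ (fun x => (φ x : ℂ)) x v := by
    unfold Lam
    rw [setIntegral_eq_integral_of_forall_compl_eq_zero]
    · congr 1
      funext x
      show ((mol ε f x ω : ℝ) : ℂ) * ((fderiv ℝ φ x (Complex.I * ω.1) : ℝ) : ℂ) = _
      rw [fderiv_ofReal_apply hφ, mol_eq, ← hG, hv]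
    · intro x hx
      rw [hz' x hx]; simp
  have hcG : Continuous G := hGs.continuous
  have hcG' : Continuous (fun x => fderiv ℝ G x v) :=
    (hGs.continuous_fderiv (by simp)).clm_apply continuous_const
  have hcΦ : Continuous (fun x => (φ x : ℂ)) := hΦs.continuous
  have hcΦ' : Continuous (fun x => fderiv ℝ (fun x => (φ x : ℂ)) x v) :=
    (hΦs.continuous_fderiv (by simp)).clm_apply continuous_const
  have hsΦ' : HasCompactSupport (fun x => fderiv ℝ (fun x => (φ x : ℂ)) x v) :=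
    (hΦc.fderiv (𝕜 := ℝ)).comp_left (g := fun L : ℂ →L[ℝ] ℂ => L v) rfl
  have i1 : Integrable (fun x => fderiv ℝ G x v * (φ x : ℂ)) volume :=
    (hcG'.mul hcΦ).integrable_of_hasCompactSupport hΦc.mul_left
  have i2 : Integrable (fun x => G x * fderiv ℝ (fun x => (φ x : ℂ)) x v) volume :=
    (hcG.mul hcΦ').integrable_of_hasCompactSupport hsΦ'.mul_left
  have i3 : Integrable (fun x => G x * (φ x : ℂ)) volume :=
    (hcG.mul hcΦ).integrable_of_hasCompactSupport hΦc.mul_left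
  rw [e1, integral_mul_fderiv_eq_neg_fderiv_mul_of_integrable i1 i2 i3
    (fun x _ => (hGs.differentiable (by simp)) x) (fun x _ => (hΦs.differentiable (by simp)) x)]
  congr 1
  rw [setIntegral_eq_integral_of_forall_compl_eq_zero]
  · congr 1
    funext x
    rw [hG, fderiv_conv hε (locInt hf ω), ← grd_eq, ← conj_grd_eq, hv]
    rfl
  · intro x hx
    rw [hz x hx]; simp

/-- the quantity of the energy estimate -/
noncomputable def Ek (ε : ℝ) (f : ℂ → ℂ × Ω → ℝ) (k : ℤ) (x : ℂ) (q : Ω) : ℂ :=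
  md (k - 1) (grd ε f) x q - md (k + 1) (fun x ω => (starRingEnd ℂ) (grd ε f x ω)) x q

lemma mode_Yg {ε : ℝ} (hε : 0 < ε) {f : ℂ → ℂ × Ω → ℝ} (hf : Bdd f) (k : ℤ) (x : ℂ) (q : Ω) :
    ∫ u, Yg ε f x (u, q) * u ^ (-k) ∂nu = Complex.I * Ek ε f k x q := by
  have hb := BC_grd hε hf
  obtain ⟨C, hC0, hC⟩ := hb.2
  unfold Ek md
  rw [← integral_sub, ← integral_const_mul]
  · refine integral_congr_ae ?_
    filter_upwards [ae_norm] with u hu
    have hu0 : u ≠ 0 := by rintro rfl; simp at hu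
    have hc : (starRingEnd ℂ) u = u⁻¹ := (Complex.inv_eq_conj hu).symm
    have h1 : u ^ (-(k - 1)) = u ^ (-k) * u := by
      rw [show -(k - 1) = -k + 1 by ring, zpow_add₀ hu0, zpow_one]
    have h2 : u ^ (-(k + 1)) = u ^ (-k) * u⁻¹ := by
      rw [show -(k + 1) = -k + (-1) by ring, zpow_add₀ hu0, zpow_neg_one]
    unfold Yg
    simp only
    rw [map_mul, hc, Complex.conj_I, h1, h2]
    ring
  · refine int_bdd ((meas_slice hb.1 x q).mul (meas_zpow _)) (C := C) ?_
    filter_upwards [norm_zpow_ae (-(k - 1))] with u hz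
    rw [norm_mul, hz, mul_one]; exact hC _ _
  · have hm := (meas_slice (F := fun x ω => (starRingEnd ℂ) (grd ε f x ω)) hb.conj.1 x q).mul
      (meas_zpow (-(k + 1)))
    refine int_bdd hm (C := C) ?_
    filter_upwards [norm_zpow_ae (-(k + 1))] with u hz
    show ‖(starRingEnd ℂ) (grd ε f x (u, q)) * u ^ (-(k + 1))‖ ≤ C
    rw [norm_mul, hz, mul_one, Complex.norm_conj]; exact hC _ _

lemma Yg_meas {ε : ℝ} (hε : 0 < ε) {f : ℂ → ℂ × Ω → ℝ} (hf : Bdd f) :
    Measurable (fun p : ℂ × (ℂ × Ω) => Yg ε f p.1 p.2) := by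
  have hb := BC_grd hε hf
  unfold Yg
  refine Measurable.add (Measurable.mul (by fun_prop) hb.1) (Measurable.mul ?_ hb.conj.1)
  exact Complex.continuous_conj.measurable.comp (by fun_prop)

lemma Yg_le {ε : ℝ} {f : ℂ → ℂ × Ω → ℝ} {C : ℝ}
    (hC : ∀ x ω, ‖grd ε f x ω‖ ≤ C) (x : ℂ) {ω : ℂ × Ω} (hω : ‖ω.1‖ = 1) :
    ‖Yg ε f x ω‖ ≤ 2 * C := by
  unfold Yg
  refine (norm_add_le _ _).trans ?_
  have h1 : ‖Complex.I * ω.1‖ = 1 := by rw [norm_mul, Complex.norm_I, hω, one_mul]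
  rw [norm_mul (Complex.I * ω.1), norm_mul ((starRingEnd ℂ) (Complex.I * ω.1)), Complex.norm_conj,
    Complex.norm_conj, h1]
  have := hC x ω
  linarith

lemma mL_mol [IsFiniteMeasure (volume.restrict A)] {ε : ℝ} (hε : 0 < ε) {f : ℂ → ℂ × Ω → ℝ}
    (hf : Bdd f) (hφ : ContDiff ℝ (⊤ : ℕ∞) φ) (hφc : HasCompactSupport φ) (hφs : tsupport φ ⊆ A)
    (k : ℤ) (q : Ω) :
    mL A φ k (fun x ω => ((mol ε f x ω : ℝ) : ℂ)) q =
      - ∫ x in A, (φ x : ℂ) * (Complex.I * Ek ε f k x q) := by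
  obtain ⟨C, hC0, hC⟩ := (BC_grd hε hf).2
  obtain ⟨K, hK⟩ := hφc.exists_bound_of_continuous hφ.continuous
  unfold mL mode
  have e1 : ∀ u, Lam A φ (fun x ω => ((mol ε f x ω : ℝ) : ℂ)) (u, q) * u ^ (-k) =
      - ∫ x in A, (Yg ε f x (u, q) * (φ x : ℂ)) * u ^ (-k) := by
    intro u
    rw [Lam_mol hε hf hφ hφc hφs, integral_mul_const, neg_mul]
  simp_rw [e1]
  rw [integral_neg]
  congr 1
  rw [integral_integral_swap]
  · congr 1
    funext x
    rw [← mode_Yg hε hf, ← integral_const_mul]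
    congr 1
    funext u
    ring
  · have hm : Measurable (fun p : ℂ × ℂ => Yg ε f p.2 (p.1, q) * (φ p.2 : ℂ) * p.1 ^ (-k)) := by
      have h1 := (Yg_meas hε hf).comp ((Measurable.prodMk measurable_snd
          (Measurable.prodMk measurable_fst measurable_const)) :
          Measurable (fun p : ℂ × ℂ => (p.2, (p.1, q))))
      have h2 : Measurable (fun p : ℂ × ℂ => (φ p.2 : ℂ)) :=
        Complex.measurable_ofReal.comp (hφ.continuous.measurable.comp measurable_snd)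
      exact (h1.mul h2).mul ((meas_zpow (-k)).comp measurable_fst)
    refine int_bdd (f := fun p : ℂ × ℂ => Yg ε f p.2 (p.1, q) * (φ p.2 : ℂ) * p.1 ^ (-k)) hm
      (C := 2 * C * K) ?_
    · have h1 : ∀ᵐ p ∂(nu.prod (volume.restrict A)), ‖p.1‖ = 1 ∧ ‖p.1 ^ (-k)‖ = 1 :=
        Measure.quasiMeasurePreserving_fst.ae (ae_norm.and (norm_zpow_ae (-k)))
      filter_upwards [h1] with p hp
      show ‖Yg ε f p.2 (p.1, q) * (φ p.2 : ℂ) * p.1 ^ (-k)‖ ≤ 2 * C * K
      rw [norm_mul, norm_mul, hp.2, mul_one, Complex.norm_real]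
      exact mul_le_mul (Yg_le hC p.2 hp.1) (hK p.2) (norm_nonneg _) (by (clear * - hC0; positivity))

/-- second estimate -/
lemma S_mol_le [IsFiniteMeasure (volume.restrict A)] [IsProbabilityMeasure m] {ε : ℝ} (hε : 0 < ε)
    {f : ℂ → ℂ × Ω → ℝ} (hf : Bdd f) (hφ : ContDiff ℝ (⊤ : ℕ∞) φ) (hφc : HasCompactSupport φ)
    (hφs : tsupport φ ⊆ A) (k : ℤ) :
    ∫ q, ‖mL A φ k (fun x ω => ((mol ε f x ω : ℝ) : ℂ)) q‖ ^ 2 ∂m ≤
      (∫ x in A, ‖(φ x : ℂ)‖ ^ 2) * N2 A m (Ek ε f k) := by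
  have hE : BC (Ek ε f k) := ((BC_grd hε hf).md (k - 1)).sub ((BC_grd hε hf).conj.md (k + 1))
  obtain ⟨K, hK⟩ := hφc.exists_bound_of_continuous hφ.continuous
  obtain ⟨C, hC0, hC⟩ := hE.2
  rw [N2_eq_swap hE, ← integral_const_mul]
  refine integral_mono_of_nonneg (Eventually.of_forall fun q => by (clear * -; positivity)) ?_
    (Eventually.of_forall fun q => ?_)
  · refine Integrable.const_mul ?_ _
    exact hE.int_prod.integral_prod_right
  · show ‖mL A φ k (fun x ω => ((mol ε f x ω : ℝ) : ℂ)) q‖ ^ 2 ≤ _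
    rw [mL_mol hε hf hφ hφc hφs, norm_neg]
    have h1 := cs_norm (μ := volume.restrict A) (f := fun x => (φ x : ℂ))
      (g := fun x => Complex.I * Ek ε f k x q)
      (Complex.measurable_ofReal.comp hφ.continuous.measurable)
      (Measurable.const_mul (hE.1.comp (Measurable.prodMk measurable_id measurable_const)) _)
      (C := K) (K := C) (Eventually.of_forall fun x => by rw [Complex.norm_real]; exact hK x)
      (Eventually.of_forall fun x => by rw [norm_mul, Complex.norm_I, one_mul]; exact hC x q)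
    refine h1.trans (le_of_eq ?_)
    congr 2
    funext x
    rw [norm_mul, Complex.norm_I, one_mul]

end

end Rig

end Vale.Agent.P099C
end
end

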