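import Vale.Agent.P099.MathlibUsed
import Vale.Agent.P099.H504.CPG
attribute [-instance] ProperSMul.toContinuousSMul IsTopologicalTorsor.toContinuousSMul IdemSemiring.toCanonicallyOrderedAdd IdemSemiring.toMulLeftMono IdemSemiring.toMulRightMono AddQuantale.instAddLeftMono AddQuantale.instAddRightMono Quantale.instMulLeftMono Quantale.instMulRightMono FiniteDimensional.rclike_to_real IsScalarTower.complexToReal FiniteDimensional.complexToReal

set_option linter.all false

section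

section

open MeasureTheory Set Filter Topology

namespace Vale.Agent.P099C
open Vale.Agent.P099 (nu FlowErgodic FlowWeakMixing)

namespace ConvexPolygon

variable {ns : ℕ} [NeZero ns] (T : ConvexPolygon ns)

/-- translation in time of a trajectory -/
lemma IsTrajectory.shift {γ : ℝ → ℂ × ℂ} (hγ : T.IsTrajectory γ) (a : ℝ) :
    T.IsTrajectory (fun s => γ (s + a)) := by
  intro t
  have h1 : Tendsto (fun s : ℝ => s + a) (𝓝 t) (𝓝 (t + a)) :=
    (continuous_id.add continuous_const).tendsto t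
  have h2 : Tendsto (fun s : ℝ => s + a) (𝓝[<] t) (𝓝[<] (t + a)) :=
    tendsto_nhdsWithin_of_tendsto_nhds_of_eventually_within _
      (h1.mono_left nhdsWithin_le_nhds)
      (by
        filter_upwards [self_mem_nhdsWithin] with s hs
        have : s < t := hs
        show s + a < t + a
        linarith)
  have h3 : Tendsto (fun s : ℝ => s + a) (𝓝[>] t) (𝓝[>] (t + a)) :=
    tendsto_nhdsWithin_of_tendsto_nhds_of_eventually_within _
      (h1.mono_left nhdsWithin_le_nhds)
      (by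
        filter_upwards [self_mem_nhdsWithin] with s hs
        have : t < s := hs
        show t + a < s + a
        linarith)
  rcases hγ (t + a) with ⟨hT, hE⟩ | ⟨i, u, hS, hL, hR⟩
  · refine Or.inl ⟨hT, ?_⟩
    filter_upwards [h1.eventually hE] with s hs
    rw [hs]
    congr 3
    ring
  · refine Or.inr ⟨i, u, hS, ?_, ?_⟩
    · filter_upwards [h2.eventually hL] with s hs
      rw [hs]
      congr 3
      ring
    · filter_upwards [h3.eventually hR] with s hs
      rw [hs]
      congr 3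
      ring

/-- what happens at the end of a free flight -/
lemma IsTrajectory.step {γ : ℝ → ℂ × ℂ} (hγ : T.IsTrajectory γ) {x u : ℂ} {s : ℝ} (hs : 0 < s)
    (hlt : ∀ r, 0 ≤ r → r < s → γ r = (x + r • u, u)) :
    (γ s = (x + s • u, u) ∧ x + s • u ∈ T.table ∧ ∀ᶠ r in 𝓝 s, γ r = (x + r • u, u)) ∨
    ∃ i, (γ s).1 = x + s • u ∧ x + s • u ∈ T.side i ∧
      ∀ᶠ r in 𝓝[>] s, γ r = (x + s • u + (r - s) • T.refl i u, T.refl i u) := by
  have hev : ∀ᶠ r in 𝓝[<] s, γ r = (x + r • u, u) := by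
    have : ∀ᶠ r in 𝓝[<] s, 0 < r :=
      nhdsWithin_le_nhds (lt_mem_nhds hs)
    filter_upwards [this, self_mem_nhdsWithin] with r hr hr'
    exact hlt r hr.le hr'
  rcases hγ s with ⟨hT, hE⟩ | ⟨i, u', hS, hL, hR⟩
  · have hE' := hE.filter_mono (nhdsWithin_le_nhds (s := Iio s))
    obtain ⟨r, hr1, hr2⟩ := (hev.and hE').exists
    rw [hr1] at hr2
    have e2 : u = (γ s).2 := congrArg Prod.snd hr2
    have e1 : x + r • u = (γ s).1 + (r - s) • (γ s).2 := congrArg Prod.fst hr2
    rw [← e2] at e1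
    have e3 : (γ s).1 = x + s • u := by
      have : (γ s).1 = x + r • u - (r - s) • u := by rw [e1]; ring
      rw [this, sub_smul]
      ring
    refine Or.inl ⟨Prod.ext e3 e2.symm, e3 ▸ hT, ?_⟩
    filter_upwards [hE] with r' hr'
    rw [hr', e3, ← e2]
    refine Prod.ext ?_ rfl
    simp only [sub_smul]
    ring
  · obtain ⟨r, hr1, hr2⟩ := (hev.and hL).exists
    rw [hr1] at hr2
    have e2 : u = u' := congrArg Prod.snd hr2
    have e1 : x + r • u = (γ s).1 + (r - s) • u' := congrArg Prod.fst hr2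
    subst e2
    have e3 : (γ s).1 = x + s • u := by
      have : (γ s).1 = x + r • u - (r - s) • u := by rw [e1]; ring
      rw [this, sub_smul]
      ring
    refine Or.inr ⟨i, e3, e3 ▸ hS, ?_⟩
    filter_upwards [hR] with r' hr'
    rw [hr', e3]

/-- table and sides are disjoint -/
lemma not_mem_side_of_mem_table {x : ℂ} (hx : x ∈ T.table) (i : Fin ns) : x ∉ T.side i := by
  intro h
  have h1 := (T.mem_table_iff x).1 hx i
  have h2 := ((T.mem_side_iff i x).1 h).1
  linarith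

/-- sides are pairwise disjoint -/
lemma side_unique {x : ℂ} {i j : Fin ns} (hi : x ∈ T.side i) (hj : x ∈ T.side j) : i = j := by
  by_contra h
  have h1 := ((T.mem_side_iff' i x).1 hi).1
  have h2 := ((T.mem_side_iff' j x).1 hj).2 i h
  linarith

/-- local consequence of the definition of a trajectory: free flight -/
lemma IsTrajectory.free {γ : ℝ → ℂ × ℂ} (hγ : T.IsTrajectory γ) (h0 : (γ 0).1 ∈ T.table)
    {t : ℝ} (ht : 0 ≤ t) (h : (γ 0).1 + t • (γ 0).2 ∈ T.table) :
    γ t = ((γ 0).1 + t • (γ 0).2, (γ 0).2) := by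
  set x := (γ 0).1 with hx
  set u := (γ 0).2 with hu
  have hin : ∀ s ∈ Icc (0:ℝ) t, x + s • u ∈ T.table := by
    intro s hs
    rcases ht.eq_or_lt with rfl | ht'
    · have : s = 0 := le_antisymm hs.2 hs.1
      subst this
      simpa using h0
    · have hc := T.convex_table h0 h (a := 1 - s / t) (b := s / t)
        (by have := div_le_one_of_le₀ hs.2 ht; linarith) (div_nonneg hs.1 ht) (by ring)
      have : (1 - s / t) • x + (s / t) • (x + t • u) = x + s • u := by
        have h1 : (s / t) • (t • u) = s • u := by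
          rw [smul_smul, div_mul_cancel₀ _ ht'.ne']
        rw [smul_add, h1, sub_smul, one_smul]
        ring
      rw [this] at hc
      exact hc
  have key : Icc (0:ℝ) t ⊆ {s | ∀ r, 0 ≤ r → r ≤ s → γ r = (x + r • u, u)} := by
    refine IsClosed.Icc_subset_of_forall_mem_nhdsWithin ?_ ?_ ?_
    · refine isClosed_of_closure_subset ?_
      intro s hs
      have hsI : s ∈ Icc (0:ℝ) t :=
        closure_minimal (inter_subset_right) isClosed_Icc hs
      refine ⟨?_, hsI⟩
      have hlt : ∀ r, 0 ≤ r → r < s → γ r = (x + r • u, u) := by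
        intro r hr0 hrs
        rw [mem_closure_iff] at hs
        obtain ⟨s', hs'1, hs'2⟩ := hs (Ioi r) isOpen_Ioi hrs
        exact hs'2.1 r hr0 (le_of_lt hs'1)
      intro r hr0 hrs
      rcases hrs.eq_or_lt with rfl | hrs'
      · rcases hr0.eq_or_lt with rfl | hr0'
        · simp [hx, hu]
        · rcases IsTrajectory.step T hγ hr0' hlt with ⟨h1, _, _⟩ | ⟨i, _, h2, _⟩
          · exact h1
          · exact absurd h2 (T.not_mem_side_of_mem_table (hin _ hsI) i)
      · exact hlt r hr0 hrs'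
    · intro r hr0 hr
      have : r = 0 := le_antisymm hr hr0
      subst this
      simp only [hx, hu, zero_smul, add_zero, Prod.mk.eta]
    · rintro s ⟨hsS, hs0, hst⟩
      have hev : ∀ᶠ r in 𝓝 s, γ r = (x + r • u, u) := by
        rcases hs0.eq_or_lt with rfl | hs0'
        · rcases hγ 0 with ⟨_, hE⟩ | ⟨i, u', hS, _, _⟩
          · filter_upwards [hE] with r hr
            rw [hr]
            simp [hx, hu]
          · exact absurd hS (T.not_mem_side_of_mem_table h0 i)
        · rcases IsTrajectory.step T hγ hs0' (fun r h1 h2 => hsS r h1 h2.le) with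
            ⟨_, _, h3⟩ | ⟨i, _, h2, _⟩
          · exact h3
          · exact absurd h2 (T.not_mem_side_of_mem_table (hin _ ⟨hs0, hst.le⟩) i)
      obtain ⟨ε, hε, hball⟩ := Metric.eventually_nhds_iff.1 hev
      have : Ioo s (s + ε) ∈ 𝓝[>] s := Ioo_mem_nhdsGT (by linarith)
      filter_upwards [this] with r hr
      intro r' hr'0 hr'r
      rcases le_or_gt r' s with h1 | h1
      · exact hsS r' hr'0 h1
      · apply hball
        rw [Real.dist_eq, abs_of_pos (by linarith)]
        linarith [hr.2]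
  exact key ⟨ht, le_rfl⟩ t ht le_rfl

/-- local consequence of the definition of a trajectory: one collision -/
lemma IsTrajectory.bounce {γ : ℝ → ℂ × ℂ} (hγ : T.IsTrajectory γ) (h0 : (γ 0).1 ∈ T.table)
    {t : ℝ} {i : Fin ns} (hE : T.E i (γ 0)) (ht : T.hitT i (γ 0) < t)
    (h : T.R i ((γ 0).1 + t • (γ 0).2) ∈ T.table) :
    γ t = (T.R i ((γ 0).1 + t • (γ 0).2), T.refl i (γ 0).2) := by
  set x := (γ 0).1 with hx
  set u := (γ 0).2 with hu
  set τ := T.hitT i (γ 0) with hτ
  have hadm : T.Adm (γ 0) := T.adm_of_mem_table h0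
  have hτ0 : 0 < τ := E.hitT_pos T hadm hE
  have hlt : ∀ r, 0 ≤ r → r < τ → γ r = (x + r • u, u) := by
    intro r hr0 hr
    apply IsTrajectory.free T hγ h0 hr0
    rcases hr0.eq_or_lt with rfl | hr0'
    · simpa using h0
    · exact E.mem_table T hadm hE hr0' hr
  have hside : x + τ • u ∈ T.side i := E.hit_mem_side T hE
  have hellu : T.ell i u < 0 := hE.1
  -- reflection formula
  have hRform : ∀ r : ℝ, T.R i (x + r • u) = x + τ • u + (r - τ) • T.refl i u := by
    intro r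
    have e1 : x + r • u = (x + τ • u) + (r - τ) • u := by
      rw [sub_smul]; ring
    have e2 : T.lam i (x + τ • u) = 0 := ((T.mem_side_iff i _).1 hside).1
    rw [e1, T.R_add, T.R_of_lam_eq_zero e2, T.refl_smul]
  rcases IsTrajectory.step T hγ hτ0 hlt with ⟨_, h2, _⟩ | ⟨j, _, h2, h3⟩
  · exact absurd hside (T.not_mem_side_of_mem_table h2 i)
  · have hij : j = i := T.side_unique h2 hside
    subst hij
    -- positions after the collision are in the table
    have hin : ∀ r, τ < r → r ≤ t → x + τ • u + (r - τ) • T.refl j u ∈ T.table := by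
      intro r hr1 hr2
      rw [T.mem_table_iff]
      intro k
      have hk1 : 0 ≤ T.lam k (x + τ • u) := by
        by_cases hkj : k = j
        · subst hkj
          exact le_of_eq ((T.mem_side_iff _ _).1 hside).1.symm
        · exact (((T.mem_side_iff' j _).1 hside).2 k hkj).le
      have hk2 : 0 < T.lam k (x + τ • u + (t - τ) • T.refl j u) := by
        have := (T.mem_table_iff _).1 h k
        rwa [hRform t] at this
      rw [T.lam_add_smul] at hk2 ⊢
      have hpos : 0 < t - τ := by linarith only [ht]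
      have hr : 0 < r - τ := by linarith
      rcases le_or_gt 0 (T.ell k (T.refl j u)) with hc | hc
      · rcases hc.eq_or_lt with hc0 | hc0
        · rw [← hc0] at hk2 ⊢
          linarith only [hk2]
        · have := mul_pos hr hc0
          linarith only [hk1, this]
      · have : (t - τ) * T.ell k (T.refl j u) ≤ (r - τ) * T.ell k (T.refl j u) :=
          mul_le_mul_of_nonpos_right (by linarith) hc.le
        linarith only [hk2, this]
    -- choose a time just after the collision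
    obtain ⟨s, hs1, hs2⟩ : ∃ s, γ s = (x + τ • u + (s - τ) • T.refl j u, T.refl j u) ∧
        s ∈ Ioo τ t :=
      (h3.and (Ioo_mem_nhdsGT ht)).exists
    have hshift := IsTrajectory.shift T hγ s
    have hs3 : (γ (0 + s)).1 = x + τ • u + (s - τ) • T.refl j u := by
      rw [zero_add, hs1]
    have hs4 : (γ (0 + s)).2 = T.refl j u := by
      rw [zero_add, hs1]
    have e0 : x + τ • u + (s - τ) • T.refl j u + (t - s) • T.refl j u =
        x + τ • u + (t - τ) • T.refl j u := by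
      simp only [sub_smul]
      ring
    have hfin := IsTrajectory.free T hshift (t := t - s) (by
        show (γ (0 + s)).1 ∈ T.table
        rw [hs3]; exact hin s hs2.1 hs2.2.le) (by linarith [hs2.2]) (by
        show (γ (0 + s)).1 + (t - s) • (γ (0 + s)).2 ∈ T.table
        rw [hs3, hs4, e0]
        exact hin t (by linarith only [ht]) le_rfl)
    have hfin' : γ (t - s + s) = ((γ (0 + s)).1 + (t - s) • (γ (0 + s)).2, (γ (0 + s)).2) := hfin
    rw [hs3, hs4, e0, sub_add_cancel] at hfin'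
    rw [hfin', hRform t]

end ConvexPolygon

end Vale.Agent.P099C
end
end

section

section

open MeasureTheory Set Filter Topology

namespace Vale.Agent.P099C
open Vale.Agent.P099 (nu FlowErgodic FlowWeakMixing)

/-- a line is a null set -/
lemma volume_line (P v : ℂ) (hv : v ≠ 0) : volume {y : ℂ | cr (P - y) v = 0} = 0 := by
  let L : ℂ →ₗ[ℝ] ℝ :=
    { toFun := fun y => cr y v
      map_add' := by intro a b; simp [cr]; ring
      map_smul' := by intro r a; simp [cr]; ring }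
  have hL : LinearMap.ker L ≠ ⊤ := by
    intro h
    have h1 : ∀ y, cr y v = 0 := fun y => by
      have : y ∈ LinearMap.ker L := by rw [h]; trivial
      exact this
    apply hv
    have h2 := h1 1
    have h3 := h1 Complex.I
    simp [cr] at h2 h3
    exact Complex.ext h3 h2
  have h1 : volume ((LinearMap.ker L : Submodule ℝ ℂ) : Set ℂ) = 0 :=
    Measure.addHaar_submodule volume _ hL
  have h2 : {y : ℂ | cr (P - y) v = 0} = (fun y => P - y) ⁻¹' ((LinearMap.ker L : Submodule ℝ ℂ) : Set ℂ) := by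
    ext y
    rfl
  rw [h2, (Measure.measurePreserving_sub_left volume P).measure_preimage, h1]
  exact (Submodule.closed_of_finiteDimensional _).measurableSet.nullMeasurableSet

namespace ConvexPolygon

variable {ns : ℕ} [NeZero ns] (T : ConvexPolygon ns)

/-- position part of the unfolding -/
noncomputable def GX : List (Fin ns) → ℂ → ℂ
  | [], x => x
  | i :: w, x => GX w (T.R i x)

/-- direction part of the unfolding -/
noncomputable def GU : List (Fin ns) → ℂ → ℂ
  | [], u => u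
  | i :: w, u => GU w (T.refl i u)

lemma GX_add (w : List (Fin ns)) (x v : ℂ) (r : ℝ) :
    T.GX w (x + r • v) = T.GX w x + r • T.GU w v := by
  induction w generalizing x v with
  | nil => rfl
  | cons i w ih =>
    change T.GX w (T.R i (x + r • v)) = T.GX w (T.R i x) + r • T.GU w (T.refl i v)
    rw [T.R_add, T.refl_smul, ih]

lemma norm_GU (w : List (Fin ns)) (u : ℂ) : ‖T.GU w u‖ = ‖u‖ := by
  induction w generalizing u with
  | nil => rfl
  | cons i w ih =>
    change ‖T.GU w (T.refl i u)‖ = ‖u‖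
    rw [ih, T.norm_refl]

lemma continuous_GX (w : List (Fin ns)) : Continuous (T.GX w) := by
  induction w with
  | nil => exact continuous_id
  | cons i w ih => exact ih.comp (T.continuous_R i)

lemma continuous_GU (w : List (Fin ns)) : Continuous (T.GU w) := by
  induction w with
  | nil => exact continuous_id
  | cons i w ih => exact ih.comp (T.continuous_refl i)

lemma measurePreserving_GX (w : List (Fin ns)) : MeasurePreserving (T.GX w) volume volume := by
  induction w with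
  | nil => exact MeasurePreserving.id _
  | cons i w ih => exact ih.comp (T.measurePreserving_R i)

lemma cr_orb (m : Fin ns) (w : List (Fin ns)) (s : ℂ × ℂ) (hw : T.dom w s) :
    cr (T.P m - (T.orb w s).1) (T.orb w s).2 = cr (T.P m - T.GX w s.1) (T.GU w s.2) := by
  induction w generalizing s with
  | nil => rfl
  | cons i w ih =>
    have h1 := ih (T.hit i s) hw.2
    change cr (T.P m - (T.orb w (T.hit i s)).1) (T.orb w (T.hit i s)).2
      = cr (T.P m - T.GX w (T.R i s.1)) (T.GU w (T.refl i s.2))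
    rw [h1]
    have h2 : (T.hit i s).1 = T.R i s.1 + T.hitT i s • T.refl i s.2 := by
      have h3 := T.R_of_lam_eq_zero (T.lam_hit i hw.1)
      rw [← h3]
      change T.R i (s.1 + T.hitT i s • s.2) = _
      rw [T.R_add, T.refl_smul]
    have h4 : (T.hit i s).2 = T.refl i s.2 := rfl
    rw [h2, h4, T.GX_add]
    simp only [cr, Complex.sub_re, Complex.sub_im, Complex.add_re, Complex.add_im,
      Complex.real_smul, Complex.re_ofReal_mul, Complex.im_ofReal_mul]
    ring

/-- an admissible state without exit side moves towards a vertex -/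
lemma exists_vertex {s : ℂ × ℂ} (h : T.Adm s) (hu : s.2 ≠ 0) (hE : ∀ i, ¬ T.E i s) :
    ∃ m, cr (T.P m - s.1) s.2 = 0 := by
  classical
  obtain ⟨i, hi, hmin⟩ : ∃ i, T.ell i s.2 < 0 ∧ ∀ j, T.ell j s.2 < 0 → T.hitT i s ≤ T.hitT j s := by
    have hne : (Finset.univ.filter (fun i => T.ell i s.2 < 0)).Nonempty := by
      obtain ⟨i, hi⟩ := T.exists_ell_neg hu
      exact ⟨i, by simpa using hi⟩
    obtain ⟨i, hi, hmin⟩ := Finset.exists_min_image _ (fun i => T.hitT i s) hne
    simp only [Finset.mem_filter, Finset.mem_univ, true_and] at hi hmin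
    exact ⟨i, hi, hmin⟩
  have h1 : ¬ ∀ j, j ≠ i → 0 < T.lam j (s.1 + T.hitT i s • s.2) := fun h2 => hE i ⟨hi, h2⟩
  rw [not_forall] at h1
  obtain ⟨j, hj⟩ := h1
  rw [Classical.not_imp, not_lt] at hj
  obtain ⟨hji, hj0⟩ := hj
  have hi0 : T.lam i (s.1 + T.hitT i s • s.2) = 0 := by
    rw [T.lam_add_smul, hitT, div_mul_cancel₀ _ hi.ne]; ring
  have hh : 0 ≤ T.hitT i s := div_nonneg_of_nonpos (by linarith [Adm.nonneg T h i]) hi.le
  have hj1 : ∀ j, 0 ≤ T.lam j (s.1 + T.hitT i s • s.2) := by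
    intro j
    rcases lt_or_ge (T.ell j s.2) 0 with h3 | h3
    · have h4 := hmin j h3
      by_contra h5
      rw [not_le] at h5
      rw [T.lam_add_smul] at h5
      rw [hitT, hitT, le_div_iff_of_neg h3] at h4
      rw [hitT] at h5
      linarith
    · rw [T.lam_add_smul]
      have := Adm.nonneg T h j
      have := mul_nonneg hh h3
      linarith
  have hj2 : T.lam j (s.1 + T.hitT i s • s.2) = 0 := le_antisymm hj0 (hj1 j)
  obtain ⟨m, h5⟩ := T.vertex_of hj1 hi0 hj2 hji
  refine ⟨m, ?_⟩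
  rw [← h5]
  simp only [cr, Complex.sub_re, Complex.sub_im, Complex.add_re, Complex.add_im,
      Complex.real_smul, Complex.re_ofReal_mul, Complex.im_ofReal_mul]
  ring

lemma ae_reg_one : ∀ᵐ p ∂((volume.restrict T.table).prod nu), T.Reg (p.1, p.2) := by
  have h1 : ∀ w : List (Fin ns), ∀ m : Fin ns, ∀ᵐ p ∂((volume.restrict T.table).prod nu),
      cr (T.P m - T.GX w p.1) (T.GU w p.2) ≠ 0 := by
    intro w m
    rw [ae_iff]
    simp only [not_not]
    have hc : Continuous (fun p : ℂ × ℂ => cr (T.P m - T.GX w p.1) (T.GU w p.2)) := by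
      have h2 := (T.continuous_GX w).comp (continuous_fst (X := ℂ) (Y := ℂ))
      have h3 := (T.continuous_GU w).comp (continuous_snd (X := ℂ) (Y := ℂ))
      have h4 : Continuous (fun p : ℂ × ℂ => T.P m - T.GX w p.1) := continuous_const.sub h2
      unfold cr
      exact ((Complex.continuous_re.comp h4).mul (Complex.continuous_im.comp h3)).sub
        ((Complex.continuous_im.comp h4).mul (Complex.continuous_re.comp h3))
    have hms : MeasurableSet {p : ℂ × ℂ | cr (T.P m - T.GX w p.1) (T.GU w p.2) = 0} :=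
      (isClosed_singleton.preimage hc).measurableSet
    rw [Measure.prod_apply_symm hms]
    apply lintegral_eq_zero_of_ae_eq_zero
    filter_upwards [ae_norm] with u hu
    change (volume.restrict T.table) {x | cr (T.P m - T.GX w x) (T.GU w u) = 0} = 0
    have h5 : T.GU w u ≠ 0 := by
      intro h6
      have := T.norm_GU w u
      rw [h6, hu, norm_zero] at this
      norm_num at this
    have h7 := volume_line (T.P m) _ h5
    have h8 : volume (T.GX w ⁻¹' {y | cr (T.P m - y) (T.GU w u) = 0}) = 0 :=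
      (T.measurePreserving_GX w).quasiMeasurePreserving.preimage_null h7
    exact le_antisymm ((Measure.restrict_apply_le _ _).trans h8.le) bot_le
  have h2 : ∀ᵐ p ∂((volume.restrict T.table).prod nu), p.1 ∈ T.table :=
    Measure.quasiMeasurePreserving_fst.ae (ae_restrict_mem T.isOpen_table.measurableSet)
  have h3 : ∀ᵐ p ∂((volume.restrict T.table).prod nu), ‖p.2‖ = 1 :=
    Measure.quasiMeasurePreserving_snd.ae ae_norm
  have h4 : ∀ᵐ p ∂((volume.restrict T.table).prod nu), ∀ w : List (Fin ns), ∀ m : Fin ns,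
      cr (T.P m - T.GX w p.1) (T.GU w p.2) ≠ 0 := by
    rw [ae_all_iff]
    intro w
    rw [ae_all_iff]
    exact h1 w
  filter_upwards [h2, h3, h4] with p h5 h6 h7 w hw
  by_contra hne
  rw [not_exists] at hne
  have ha : T.Adm (T.orb w (p.1, p.2)) := T.adm_orb (T.adm_of_mem_table h5) w hw
  have hn : ‖(T.orb w (p.1, p.2)).2‖ = 1 := T.norm_orb h6 w
  have hn0 : (T.orb w (p.1, p.2)).2 ≠ 0 := by
    intro h8; rw [h8, norm_zero] at hn; norm_num at hn
  obtain ⟨m, hm⟩ := T.exists_vertex ha hn0 hne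
  rw [T.cr_orb m w _ hw] at hm
  exact h7 w m hm

/-- almost every state is regular in both directions -/
lemma ae_reg : ∀ᵐ p ∂((volume.restrict T.table).prod nu),
    T.Reg (p.1, p.2) ∧ T.Reg (p.1, - p.2) := by
  have h1 : MeasurePreserving (fun p : ℂ × ℂ => (p.1, -p.2))
      ((volume.restrict T.table).prod nu) ((volume.restrict T.table).prod nu) :=
    (MeasurePreserving.id _).prod measurePreserving_neg'
  have h2 := h1.quasiMeasurePreserving.ae T.ae_reg_one
  filter_upwards [T.ae_reg_one, h2] with p h3 h4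
  exact ⟨h3, h4⟩

end ConvexPolygon

end Vale.Agent.P099C
end
end

section

section

open MeasureTheory Set Filter Topology

namespace Vale.Agent.P099C
open Vale.Agent.P099 (nu FlowErgodic FlowWeakMixing)

namespace ConvexPolygon

variable {ns : ℕ} [NeZero ns] (T : ConvexPolygon ns)

/-! ### no accumulation of collisions -/

lemma cr_self' (a : ℂ) : cr a a = 0 := by simp [cr]; ring

lemma cr_add_left' (a b c : ℂ) : cr (a + b) c = cr a c + cr b c := by simp [cr]; ring

lemma cr_sub_left' (a b c : ℂ) : cr (a - b) c = cr a c - cr b c := by simp [cr]; ring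

lemma cr_smul_left' (r : ℝ) (a b : ℂ) : cr (r • a) b = r * cr a b := by simp only [cr, Complex.real_smul, Complex.mul_re, Complex.ofReal_re, Complex.ofReal_im, zero_mul, sub_zero, Complex.mul_im, add_zero]; ring

lemma cr_neg_left' (a b : ℂ) : cr (-a) b = - cr a b := by simp only [cr, Complex.neg_re, neg_mul, Complex.neg_im, sub_neg_eq_add, neg_sub]; ring

lemma abs_cr_le' (a b : ℂ) : |cr a b| ≤ ‖a‖ * ‖b‖ := by
  have h : cr a b = ((starRingEnd ℂ) a * b).im := by simp [cr]; ring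
  rw [h]
  refine (Complex.abs_im_le_norm _).trans ?_
  rw [norm_mul, Complex.norm_conj]

lemma vertex_index {i c : Fin ns} (h : T.lam i (T.P c) = 0) : c = i ∨ c = i + 1 := by
  by_contra hn
  push Not at hn
  exact (T.lam_P_pos hn.1 hn.2).ne' h

/-- `cr (P c - x) u` only changes its sign at a collision with a side adjacent to `P c` -/
lemma cr_hit {i c : Fin ns} (hic : T.lam i (T.P c) = 0) {s : ℂ × ℂ} (hE : T.E i s) :
    cr (T.P c - (T.hit i s).1) (T.hit i s).2 = - cr (T.P c - s.1) s.2 := by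
  have h1 : T.lam i (T.hit i s).1 = 0 := T.lam_hit i hE
  have h2 : T.R i (T.hit i s).1 = (T.hit i s).1 := T.R_of_lam_eq_zero h1
  have h3 : T.R i (T.P c) = T.P c := T.R_of_lam_eq_zero hic
  have h4 : T.refl i (T.P c - (T.hit i s).1) = T.P c - (T.hit i s).1 := by
    have := T.R_add i (T.hit i s).1 (T.P c - (T.hit i s).1)
    rw [add_sub_cancel, h3, h2] at this
    rw [← sub_eq_iff_eq_add'] at this
    exact this.symm
  have h5 : (T.hit i s).2 = T.refl i s.2 := rfl
  have h6 : (T.hit i s).1 = s.1 + T.hitT i s • s.2 := rfl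
  rw [h5]
  conv_lhs => rw [← h4]
  rw [T.cr_refl, h6]
  rw [← sub_sub, cr_sub_left' _ (T.hitT i s • s.2), cr_smul_left', cr_self']
  ring

open Classical in
/-- the exit side -/
noncomputable def ex (s : ℂ × ℂ) : Fin ns := if h : ∃ i, T.E i s then h.choose else 0

/-- the state after `n` collisions -/
noncomputable def sq (s : ℂ × ℂ) : ℕ → ℂ × ℂ
  | 0 => s
  | n + 1 => T.hit (T.ex (sq s n)) (sq s n)

/-- the flight times -/
noncomputable def tau (s : ℂ × ℂ) (n : ℕ) : ℝ := T.hitT (T.ex (T.sq s n)) (T.sq s n)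

/-- the collision times -/
noncomputable def tt (s : ℂ × ℂ) (n : ℕ) : ℝ := ∑ m ∈ Finset.range n, T.tau s m

/-- good states -/
structure Good (s : ℂ × ℂ) : Prop where
  adm : T.Adm s
  reg : T.Reg s
  norm : ‖s.2‖ = 1

variable {T}

lemma Good.E {s : ℂ × ℂ} (h : T.Good s) : T.E (T.ex s) s := by
  have h1 : ∃ i, T.E i s := by
    simpa only [orb] using h.reg [] trivial
  rw [ex, dif_pos h1]
  exact h1.choose_spec

lemma Good.hit {s : ℂ × ℂ} (h : T.Good s) : T.Good (T.hit (T.ex s) s) :=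
  ⟨ConvexPolygon.E.adm_hit T h.E, ConvexPolygon.Reg.hit T h.reg h.E, by
    change ‖T.refl _ s.2‖ = 1
    rw [T.norm_refl, h.norm]⟩

lemma Good.sq {s : ℂ × ℂ} (h : T.Good s) (n : ℕ) : T.Good (T.sq s n) := by
  induction n with
  | zero => exact h
  | succ n ih => exact ih.hit

lemma Good.tau_pos {s : ℂ × ℂ} (h : T.Good s) (n : ℕ) : 0 < T.tau s n :=
  ConvexPolygon.E.hitT_pos T (h.sq n).adm (h.sq n).E

lemma Good.ex_succ_ne {s : ℂ × ℂ} (h : T.Good s) (n : ℕ) :
    T.ex (T.sq s (n + 1)) ≠ T.ex (T.sq s n) := by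
  intro he
  have h1 : 0 < T.lam (T.ex (T.sq s (n + 1))) (T.sq s (n + 1)).1 :=
    ConvexPolygon.E.lam_pos T (h.sq (n + 1)).adm (h.sq (n + 1)).E
  have h2 : T.lam (T.ex (T.sq s n)) (T.sq s (n + 1)).1 = 0 := T.lam_hit _ (h.sq n).E
  rw [he, h2] at h1
  exact lt_irrefl _ h1

lemma continuous_lamE (i : Fin ns) : Continuous (T.lam i) := by
  unfold lam cr
  (clear * -; fun_prop)

lemma tt_succ (s : ℂ × ℂ) (n : ℕ) : T.tt s (n + 1) = T.tt s n + T.tau s n := by
  rw [tt, tt, Finset.sum_range_succ]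

lemma sq_succ_fst (s : ℂ × ℂ) (n : ℕ) :
    (T.sq s (n + 1)).1 = (T.sq s n).1 + T.tau s n • (T.sq s n).2 := rfl

lemma sq_succ_snd (s : ℂ × ℂ) (n : ℕ) :
    (T.sq s (n + 1)).2 = T.refl (T.ex (T.sq s n)) (T.sq s n).2 := rfl

/-- collision times do not accumulate -/
lemma Good.not_summable {s : ℂ × ℂ} (h : T.Good s) : ¬ Summable (T.tau s) := by
  intro hsum
  -- the positions converge
  have hc : CauchySeq (fun n => (T.sq s n).1) := by
    apply cauchySeq_of_dist_le_of_summable (T.tau s) _ hsum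
    intro n
    rw [Nat.succ_eq_add_one, sq_succ_fst, dist_eq_norm, sub_add_cancel_left, norm_neg, norm_smul,
      (h.sq n).norm, mul_one, Real.norm_eq_abs, abs_of_pos (h.tau_pos n)]
  obtain ⟨x, hx⟩ := cauchySeq_tendsto_of_complete hc
  -- sides hit infinitely often
  have key : ∀ j, (∃ᶠ n in atTop, T.ex (T.sq s n) = j) → T.lam j x = 0 := by
    intro j hj
    have h1 : Tendsto (fun n => T.lam j (T.sq s (n + 1)).1) atTop (𝓝 (T.lam j x)) :=
      ((continuous_lamE j).tendsto x).comp (hx.comp (tendsto_add_atTop_nat 1))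
    by_contra hne
    have h2 : ∀ᶠ n in atTop, T.lam j (T.sq s (n + 1)).1 ≠ 0 := h1.eventually_ne hne
    obtain ⟨n, hn1, hn2⟩ := (hj.and_eventually h2).exists
    apply hn2
    rw [← hn1]
    exact T.lam_hit _ (h.sq n).E
  -- the limit is in the closed polygon
  have hxn : ∀ k, 0 ≤ T.lam k x := by
    intro k
    have h1 : Tendsto (fun n => T.lam k (T.sq s n).1) atTop (𝓝 (T.lam k x)) :=
      ((continuous_lamE k).tendsto x).comp hx
    exact ge_of_tendsto' h1 fun n => Adm.nonneg T (h.sq n).adm k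
  -- eventually only sides which are hit infinitely often
  have hev : ∀ᶠ n in atTop, T.lam (T.ex (T.sq s n)) x = 0 := by
    have h1 : ∀ j : Fin ns, ∀ᶠ n in atTop, T.ex (T.sq s n) = j → T.lam j x = 0 := by
      intro j
      by_cases hj : ∃ᶠ n in atTop, T.ex (T.sq s n) = j
      · exact Eventually.of_forall fun n _ => key j hj
      · rw [not_frequently] at hj
        filter_upwards [hj] with n hn h2
        exact absurd h2 hn
    have h2 := eventually_all.2 h1
    filter_upwards [h2] with n hn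
    exact hn _ rfl
  obtain ⟨n0, hn0⟩ := eventually_atTop.1 hev
  -- two different sides pass through the limit
  obtain ⟨c, hxc⟩ := T.vertex_of hxn (hn0 n0 le_rfl) (hn0 (n0 + 1) (by omega)) (h.ex_succ_ne n0)
  have hn0 : ∀ n, n0 ≤ n → T.lam (T.ex (T.sq s n)) (T.P c) = 0 := by
    intro n hn
    rw [← hxc]
    exact hn0 n hn
  -- the transversal distance to the vertex is eventually constant
  have hconst : ∀ n, n0 ≤ n → |cr (T.P c - (T.sq s n).1) (T.sq s n).2|
      = |cr (T.P c - (T.sq s n0).1) (T.sq s n0).2| := by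
    intro n hn
    induction n, hn using Nat.le_induction with
    | base => rfl
    | succ n hn ih =>
      have : cr (T.P c - (T.sq s (n + 1)).1) (T.sq s (n + 1)).2
          = - cr (T.P c - (T.sq s n).1) (T.sq s n).2 := T.cr_hit (hn0 n hn) (h.sq n).E
      rw [this, abs_neg, ih]
  have hlim : Tendsto (fun n => |cr (T.P c - (T.sq s n).1) (T.sq s n).2|) atTop (𝓝 0) := by
    have h6 : Tendsto (fun n => ‖T.P c - (T.sq s n).1‖) atTop (𝓝 0) := by
      have := (tendsto_const_nhds (x := T.P c)).sub hx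
      rw [hxc, sub_self] at this
      simpa only [norm_zero] using this.norm
    refine squeeze_zero (fun n => abs_nonneg _) (fun n => ?_) h6
    refine (abs_cr_le' _ _).trans ?_
    rw [(h.sq n).norm, mul_one]
  have hzero : |cr (T.P c - (T.sq s n0).1) (T.sq s n0).2| = 0 := by
    have h7 : Tendsto (fun n => |cr (T.P c - (T.sq s n).1) (T.sq s n).2|) atTop
        (𝓝 |cr (T.P c - (T.sq s n0).1) (T.sq s n0).2|) := by
      apply tendsto_const_nhds.congr'
      filter_upwards [eventually_ge_atTop n0] with n hn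
      exact (hconst n hn).symm
    exact tendsto_nhds_unique h7 hlim
  -- contradiction at the time n0 + 1
  set i := T.ex (T.sq s n0) with hi
  have hic : c = i ∨ c = i + 1 := T.vertex_index (hn0 n0 le_rfl)
  have h8 : cr (T.P c - (T.sq s (n0 + 1)).1) (T.sq s (n0 + 1)).2 = 0 := by
    rw [← abs_eq_zero, hconst (n0 + 1) (by omega), hzero]
  have h9 : T.lam i (T.sq s (n0 + 1)).1 = 0 := T.lam_hit _ (h.sq n0).E
  have h10 : 0 < T.ell i (T.sq s (n0 + 1)).2 := by
    rcases (h.sq (n0 + 1)).adm i with h11 | h11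
    · rw [h9] at h11; exact absurd h11 (lt_irrefl _)
    · exact h11.2
  have h12 : (T.sq s (n0 + 1)).1 ∈ T.side i := ConvexPolygon.E.hit_mem_side T (h.sq n0).E
  obtain ⟨a, b, ha, hb, hab, h13⟩ := h12
  have h14 : cr (T.d i) (T.sq s (n0 + 1)).2 = 0 := by
    rcases hic with h15 | h15
    · have h16 : T.P c - (T.sq s (n0 + 1)).1 = (-b) • T.d i := by
        rw [← h13, h15, d]
        have : a = 1 - b := by linarith only [hab]
        rw [this]
        module
      rw [h16, cr_smul_left'] at h8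
      rcases mul_eq_zero.1 h8 with h17 | h17
      · linarith only [hb, h17]
      · exact h17
    · have h16 : T.P c - (T.sq s (n0 + 1)).1 = a • T.d i := by
        rw [← h13, h15, d]
        have : b = 1 - a := by linarith only [hab]
        rw [this]
        module
      rw [h16, cr_smul_left'] at h8
      rcases mul_eq_zero.1 h8 with h17 | h17
      · linarith only [ha, h17]
      · exact h17
  rw [ell, h14, zero_div] at h10
  exact lt_irrefl _ h10

lemma Good.tt_tendsto {s : ℂ × ℂ} (h : T.Good s) : Tendsto (T.tt s) atTop atTop :=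
  (not_summable_iff_tendsto_nat_atTop_of_nonneg (fun n => (h.tau_pos n).le)).1 h.not_summable

lemma tt_zero (s : ℂ × ℂ) : T.tt s 0 = 0 := by simp [tt]

lemma Good.tt_strictMono {s : ℂ × ℂ} (h : T.Good s) : StrictMono (T.tt s) :=
  strictMono_nat_of_lt_succ fun n => by
    rw [tt_succ]; linarith [h.tau_pos n]

lemma Good.exists_idx {s : ℂ × ℂ} (h : T.Good s) (t : ℝ) : ∃ n, t < T.tt s (n + 1) :=
  (((tendsto_add_atTop_nat 1).eventually (h.tt_tendsto.eventually_gt_atTop t))).exists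

/-- number of collisions before time `t` -/
noncomputable def idx {ns : ℕ} [NeZero ns] (T : ConvexPolygon ns) (s : ℂ × ℂ) (t : ℝ) : ℕ := sInf {n | t < T.tt s (n + 1)}

lemma Good.idx_eq {s : ℂ × ℂ} (h : T.Good s) {n : ℕ} {t : ℝ} (h1 : T.tt s n ≤ t)
    (h2 : t < T.tt s (n + 1)) : T.idx s t = n := by
  apply le_antisymm
  · exact Nat.sInf_le h2
  · apply le_csInf ⟨n, h2⟩
    intro m hm
    by_contra hlt
    rw [not_le] at hlt
    have h3 : T.tt s (m + 1) ≤ T.tt s n := h.tt_strictMono.monotone (by omega)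
    have h4 : t < T.tt s (m + 1) := hm
    linarith only [h1, h3, h4]

lemma Good.exists_Ico {s : ℂ × ℂ} (h : T.Good s) {t : ℝ} (ht : 0 ≤ t) :
    ∃ n, T.tt s n ≤ t ∧ t < T.tt s (n + 1) := by
  classical
  have hex := h.exists_idx t
  refine ⟨Nat.find hex, ?_, Nat.find_spec hex⟩
  rcases Nat.eq_zero_or_pos (Nat.find hex) with h1 | h1
  · rw [h1, tt_zero]; exact ht
  · have := Nat.find_min hex (Nat.sub_lt h1 one_pos)
    rw [not_lt, show Nat.find hex - 1 + 1 = Nat.find hex by omega] at this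
    exact this

/-- forward motion -/
noncomputable def fw {ns : ℕ} [NeZero ns] (T : ConvexPolygon ns) (s : ℂ × ℂ) (t : ℝ) : ℂ × ℂ :=
  ((T.sq s (T.idx s t)).1 + (t - T.tt s (T.idx s t)) • (T.sq s (T.idx s t)).2,
    (T.sq s (T.idx s t)).2)

lemma Good.fw_eq {s : ℂ × ℂ} (h : T.Good s) {n : ℕ} {t : ℝ} (h1 : T.tt s n ≤ t)
    (h2 : t < T.tt s (n + 1)) :
    T.fw s t = ((T.sq s n).1 + (t - T.tt s n) • (T.sq s n).2, (T.sq s n).2) := by
  rw [fw, h.idx_eq h1 h2]

/-- the local condition in the definition of a trajectory -/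
def Loc {ns : ℕ} [NeZero ns] (T : ConvexPolygon ns) (γ : ℝ → ℂ × ℂ) (t : ℝ) : Prop :=
  ((γ t).1 ∈ T.table ∧ ∀ᶠ s in 𝓝 t, γ s = ((γ t).1 + (s - t) • (γ t).2, (γ t).2)) ∨
    ∃ i u, (γ t).1 ∈ T.side i ∧
      (∀ᶠ s in 𝓝[<] t, γ s = ((γ t).1 + (s - t) • u, u)) ∧
      (∀ᶠ s in 𝓝[>] t, γ s = ((γ t).1 + (s - t) • T.refl i u, T.refl i u))

lemma Loc.congr {γ γ' : ℝ → ℂ × ℂ} {t : ℝ} (h : T.Loc γ t) (h' : γ' =ᶠ[𝓝 t] γ) : T.Loc γ' t := by
  have e : γ' t = γ t := h'.eq_of_nhds
  rcases h with ⟨h1, h2⟩ | ⟨i, u, h1, h2, h3⟩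
  · refine Or.inl ⟨by rw [e]; exact h1, ?_⟩
    filter_upwards [h2, h'] with s hs hs'
    rw [hs', hs, e]
  · refine Or.inr ⟨i, u, by rw [e]; exact h1, ?_, ?_⟩
    · filter_upwards [h2, h'.filter_mono nhdsWithin_le_nhds] with s hs hs'
      rw [hs', hs, e]
    · filter_upwards [h3, h'.filter_mono nhdsWithin_le_nhds] with s hs hs'
      rw [hs', hs, e]

/-- reversal of the velocity -/
def flip (p : ℂ × ℂ) : ℂ × ℂ := (p.1, -p.2)

lemma Loc.reverse {γ : ℝ → ℂ × ℂ} {t : ℝ} (h : T.Loc γ t) :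
    T.Loc (fun r => flip (γ (-r))) (-t) := by
  rcases h with ⟨h1, h2⟩ | ⟨i, u, h1, h2, h3⟩
  · refine Or.inl ⟨by simpa [flip] using h1, ?_⟩
    have h4 : Tendsto (fun r : ℝ => -r) (𝓝 (-t)) (𝓝 t) := by
      have := (continuous_neg (G := ℝ)).tendsto (-t)
      rwa [neg_neg] at this
    filter_upwards [h4.eventually h2] with r hr
    simp only [flip, neg_neg, hr]
    ext1
    · simp only [smul_neg, ← neg_smul]
      congr 2
      ring
    · rfl
  · refine Or.inr ⟨i, -T.refl i u, by simpa [flip] using h1, ?_, ?_⟩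
    · have h4 : Tendsto (fun r : ℝ => -r) (𝓝[<] (-t)) (𝓝[>] t) := by
        have := tendsto_neg_nhdsLT (a := -t)
        rwa [neg_neg] at this
      filter_upwards [h4.eventually h3] with r hr
      simp only [flip, neg_neg, hr]
      ext1
      · simp only [smul_neg, ← neg_smul]
        congr 2
        ring
      · rfl
    · have h4 : Tendsto (fun r : ℝ => -r) (𝓝[>] (-t)) (𝓝[<] t) := by
        have := tendsto_neg_nhdsGT (a := -t)
        rwa [neg_neg] at this
      filter_upwards [h4.eventually h2] with r hr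
      simp only [flip, neg_neg, hr]
      ext1
      · simp only [T.refl_neg, T.refl_refl, smul_neg, ← neg_smul]
        congr 2
        ring
      · simp only [T.refl_neg, T.refl_refl]

lemma Good.loc_interior {s : ℂ × ℂ} (h : T.Good s) {n : ℕ} {t : ℝ} (h1 : T.tt s n < t)
    (h2 : t < T.tt s (n + 1)) : T.Loc (T.fw s) t := by
  left
  have h3 : T.tt s (n + 1) = T.tt s n + T.tau s n := tt_succ s n
  constructor
  · rw [h.fw_eq h1.le h2]
    exact ConvexPolygon.E.mem_table T (h.sq n).adm (h.sq n).E (by linarith only [h1])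
      (by change _ < T.tau s n; linarith only [h2, h3])
  · filter_upwards [Ioo_mem_nhds h1 h2] with r hr
    rw [h.fw_eq h1.le h2, h.fw_eq hr.1.le hr.2]
    ext1
    · simp only [add_assoc, ← add_smul]
      congr 2
      ring
    · rfl

lemma Good.loc_collision {s : ℂ × ℂ} (h : T.Good s) (n : ℕ) :
    T.Loc (T.fw s) (T.tt s (n + 1)) := by
  right
  have h3 : T.tt s (n + 1) = T.tt s n + T.tau s n := tt_succ s n
  have h4 : T.tt s n < T.tt s (n + 1) := h.tt_strictMono (Nat.lt_succ_self n)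
  have h5 : T.tt s (n + 1) < T.tt s (n + 1 + 1) := h.tt_strictMono (Nat.lt_succ_self _)
  have h6 : T.fw s (T.tt s (n + 1)) = ((T.sq s (n + 1)).1, (T.sq s (n + 1)).2) := by
    rw [h.fw_eq le_rfl h5]; simp
  refine ⟨T.ex (T.sq s n), (T.sq s n).2, ?_, ?_, ?_⟩
  · rw [h6]
    exact ConvexPolygon.E.hit_mem_side T (h.sq n).E
  · filter_upwards [Ioo_mem_nhdsLT h4] with r hr
    rw [h6, h.fw_eq hr.1.le hr.2]
    ext1
    · simp only [sq_succ_fst, add_assoc, ← add_smul]
      congr 2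
      rw [h3]
      ring
    · rfl
  · filter_upwards [Ioo_mem_nhdsGT h5] with r hr
    rw [h6, h.fw_eq hr.1.le hr.2]
    rfl

lemma Good.loc_fw {s : ℂ × ℂ} (h : T.Good s) {t : ℝ} (ht : 0 < t) : T.Loc (T.fw s) t := by
  obtain ⟨n, h1, h2⟩ := h.exists_Ico ht.le
  rcases h1.lt_or_eq with h3 | h3
  · exact h.loc_interior h3 h2
  · rcases n with _ | n
    · rw [tt_zero] at h3; exact absurd h3 ht.ne
    · rw [← h3]; exact h.loc_collision n

/-- the trajectory of a phase point -/
noncomputable def traj {ns : ℕ} [NeZero ns] (T : ConvexPolygon ns) (t : ℝ) (p : ℂ × ℂ) : ℂ × ℂ :=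
  if 0 ≤ t then T.fw p t else flip (T.fw (flip p) (-t))

lemma flip_flip (p : ℂ × ℂ) : flip (flip p) = p := by simp [flip]

lemma Good.fw_small {s : ℂ × ℂ} (h : T.Good s) {t : ℝ} (ht : 0 ≤ t) (ht' : t < T.tau s 0) :
    T.fw s t = (s.1 + t • s.2, s.2) := by
  have h1 : T.tt s (0 + 1) = T.tau s 0 := by rw [tt_succ, tt_zero, zero_add]
  rw [h.fw_eq (n := 0) (by rw [tt_zero]; exact ht) (by rw [h1]; exact ht'), tt_zero, sub_zero]
  rfl

lemma isTrajectory_traj {p : ℂ × ℂ} (hp : p.1 ∈ T.table) (h1 : T.Good p) (h2 : T.Good (flip p)) :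
    T.IsTrajectory (fun t => T.traj t p) := by
  have h0 : T.traj 0 p = p := by
    rw [traj, if_pos le_rfl, h1.fw_small le_rfl (h1.tau_pos 0)]; simp
  intro t
  change T.Loc (fun t => T.traj t p) t
  rcases lt_trichotomy t 0 with ht | ht | ht
  · have h3 : T.Loc (T.fw (flip p)) (-t) := h2.loc_fw (by linarith)
    have h4 := h3.reverse
    rw [neg_neg] at h4
    apply h4.congr
    filter_upwards [Iio_mem_nhds ht] with r hr
    rw [mem_Iio] at hr
    rw [traj, if_neg (by linarith)]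
  · rw [ht]
    left
    refine ⟨by simp only [h0]; exact hp, ?_⟩
    have h3 : 0 < T.tau p 0 := h1.tau_pos 0
    have h4 : 0 < T.tau (flip p) 0 := h2.tau_pos 0
    filter_upwards [Ioo_mem_nhds (neg_neg_of_pos h4) h3] with r hr
    simp only [h0]
    rw [traj]
    split_ifs with h5
    · rw [h1.fw_small h5 hr.2, sub_zero]
    · rw [h2.fw_small (by linarith) (by linarith [hr.1]), sub_zero]
      simp [flip]
  · apply (h1.loc_fw ht).congr
    filter_upwards [Ioi_mem_nhds ht] with r hr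
    rw [mem_Ioi] at hr
    rw [traj, if_pos (by linarith)]

variable (T)

lemma ae_good : ∀ᵐ p ∂((volume.restrict T.table).prod nu),
    p.1 ∈ T.table ∧ T.Good p ∧ T.Good (flip p) := by
  have h1 : ∀ᵐ p ∂((volume.restrict T.table).prod nu), p.1 ∈ T.table :=
    Measure.quasiMeasurePreserving_fst.ae (ae_restrict_mem T.isOpen_table.measurableSet)
  have h2 : ∀ᵐ p ∂((volume.restrict T.table).prod nu), ‖p.2‖ = 1 :=
    Measure.quasiMeasurePreserving_snd.ae ae_norm
  filter_upwards [h1, h2, T.ae_reg] with p h3 h4 h5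
  exact ⟨h3, ⟨T.adm_of_mem_table h3, h5.1, h4⟩, ⟨T.adm_of_mem_table h3, h5.2, by
    rw [flip, norm_neg, h4]⟩⟩

/-- Existence of the billiard flow. -/
theorem exists_flow' : ∃ Φ : ℝ → ℂ × ℂ → ℂ × ℂ, T.IsBilliardFlow Φ := by
  refine ⟨T.traj, ?_⟩
  have h1 : ∀ᵐ p ∂T.mu, p.1 ∈ T.table ∧ T.Good p ∧ T.Good (flip p) := by
    rw [mu, ProbabilityTheory.cond, Measure.prod_smul_left]
    exact Measure.ae_smul_measure T.ae_good _
  filter_upwards [h1] with p hp
  refine ⟨?_, isTrajectory_traj hp.1 hp.2.1 hp.2.2⟩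
  rw [traj, if_pos le_rfl, hp.2.1.fw_small le_rfl (hp.2.1.tau_pos 0)]; simp

end ConvexPolygon

end Vale.Agent.P099C
end
end

section

section

open MeasureTheory Set Filter Topology

namespace Vale.Agent.P099C
open Vale.Agent.P099 (nu FlowErgodic FlowWeakMixing)

variable {Ω : Type} [MeasurableSpace Ω]

/-- `Ψ` is a measurable flow preserving `m` (almost everywhere sense). -/
structure PFlow (m : Measure Ω) (Ψ : ℝ → Ω → Ω) : Prop where
  meas : Measurable (fun z : ℝ × Ω => Ψ z.1 z.2)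
  mp : ∀ t, MeasurePreserving (Ψ t) m m
  add : ∀ s t, ∀ᵐ q ∂m, Ψ (s + t) q = Ψ s (Ψ t q)
  zero : ∀ᵐ q ∂m, Ψ 0 q = q

/-- time average of `H` along the flow on the parameter space -/
noncomputable def Uav (Ψ : ℝ → Ω → Ω) (τ : ℝ) (H : ℂ → ℂ × Ω → ℝ) : ℂ → ℂ × Ω → ℝ :=
  fun x ω => τ⁻¹ * ∫ s in (0:ℝ)..τ, H x (ω.1, Ψ s ω.2)

/-- minus the derivative of `Uav` along the flow on the parameter space -/
noncomputable def Vav (Ψ : ℝ → Ω → Ω) (τ : ℝ) (H : ℂ → ℂ × Ω → ℝ) : ℂ → ℂ × Ω → ℝ :=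
  fun x ω => τ⁻¹ * (H x ω - H x (ω.1, Ψ τ ω.2))

namespace ConvexPolygon

variable {ns : ℕ} [NeZero ns] (T : ConvexPolygon ns)

/-- invariance of `H` under (billiard flow) x (`Ψ`), for free flights -/
def FreeInv (m : Measure Ω) (Ψ : ℝ → Ω → Ω) (H : ℂ → ℂ × Ω → ℝ) : Prop :=
  ∀ t : ℝ, 0 < t → ∀ᵐ p ∂((volume.restrict T.table).prod (nu.prod m)),
    p.1 + t • p.2.1 ∈ T.table → H (p.1 + t • p.2.1) (p.2.1, Ψ t p.2.2) = H p.1 p.2

/-- invariance of `H` under (billiard flow) x (`Ψ`), for motions with one collision -/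
def BounceInv (m : Measure Ω) (Ψ : ℝ → Ω → Ω) (H : ℂ → ℂ × Ω → ℝ) : Prop :=
  ∀ t : ℝ, 0 < t → ∀ i, ∀ᵐ p ∂((volume.restrict T.table).prod (nu.prod m)),
    T.E i (p.1, p.2.1) → T.hitT i (p.1, p.2.1) < t → T.R i (p.1 + t • p.2.1) ∈ T.table →
      H (T.R i (p.1 + t • p.2.1)) (T.refl i p.2.1, Ψ t p.2.2) = H p.1 p.2

end ConvexPolygon

end Vale.Agent.P099C
end
end

section

section

open MeasureTheory Set Filter Topology

namespace Vale.Agent.P099C
open Vale.Agent.P099 (nu FlowErgodic FlowWeakMixing)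

variable {Ω : Type} [MeasurableSpace Ω]

lemma PFlow.measurable_time {m : Measure Ω} {Ψ : ℝ → Ω → Ω} (hΨ : PFlow m Ψ) (t : ℝ) :
    Measurable (Ψ t) := (hΨ.mp t).measurable

lemma bdd_meas_comp {m : Measure Ω} {Ψ : ℝ → Ω → Ω} (hΨ : PFlow m Ψ) {H : ℂ → ℂ × Ω → ℝ}
    (hH : Bdd H) :
    Measurable (fun z : (ℂ × (ℂ × Ω)) × ℝ => H z.1.1 (z.1.2.1, Ψ z.2 z.1.2.2)) := by
  have h1 : Measurable (fun z : (ℂ × (ℂ × Ω)) × ℝ =>
      ((z.1.1, (z.1.2.1, Ψ z.2 z.1.2.2)) : ℂ × (ℂ × Ω))) := by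
    refine Measurable.prodMk (measurable_fst.comp measurable_fst) (Measurable.prodMk
      (measurable_fst.comp (measurable_snd.comp measurable_fst)) ?_)
    exact hΨ.meas.comp (Measurable.prodMk measurable_snd
      (measurable_snd.comp (measurable_snd.comp measurable_fst)))
  exact hH.1.comp h1

lemma bdd_meas_snd {H : ℂ → ℂ × Ω → ℝ} (hH : Bdd H) (y u : ℂ) :
    Measurable (fun q => H y (u, q)) := by
  have h1 : Measurable (fun q : Ω => ((y, (u, q)) : ℂ × (ℂ × Ω))) := by fun_prop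
  exact hH.1.comp h1

lemma bdd_Uav {m : Measure Ω} {Ψ : ℝ → Ω → Ω} (hΨ : PFlow m Ψ) {H : ℂ → ℂ × Ω → ℝ} (hH : Bdd H)
    {τ : ℝ} (hτ : 0 < τ) : Bdd (Uav Ψ τ H) := by
  constructor
  · have h1 : Measurable (fun p : ℂ × (ℂ × Ω) => ∫ s, H p.1 (p.2.1, Ψ s p.2.2)
        ∂((volume : Measure ℝ).restrict (Ioc 0 τ))) := by
      exact ((bdd_meas_comp hΨ hH).stronglyMeasurable.integral_prod_right'
        (ν := (volume : Measure ℝ).restrict (Ioc 0 τ))).measurable
    have h2 : (fun p : ℂ × (ℂ × Ω) => Uav Ψ τ H p.1 p.2) =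
        fun p : ℂ × (ℂ × Ω) => τ⁻¹ * ∫ s, H p.1 (p.2.1, Ψ s p.2.2)
        ∂((volume : Measure ℝ).restrict (Ioc 0 τ)) := by
      funext p
      simp only [Uav, intervalIntegral.integral_of_le hτ.le]
    rw [h2]
    exact h1.const_mul _
  · obtain ⟨C, hC⟩ := hH.2
    refine ⟨C, fun y ω => ?_⟩
    have h3 : ‖∫ s in (0:ℝ)..τ, H y (ω.1, Ψ s ω.2)‖ ≤ C * |τ - 0| := by
      apply intervalIntegral.norm_integral_le_of_norm_le_const
      intro s _
      exact hC _ _
    simp only [Real.norm_eq_abs, sub_zero, Uav, abs_mul, abs_inv] at h3 ⊢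
    have h4 : 0 < |τ| := abs_pos.mpr hτ.ne'
    rw [inv_mul_le_iff₀ h4]
    linarith

lemma bdd_Vav {m : Measure Ω} {Ψ : ℝ → Ω → Ω} (hΨ : PFlow m Ψ) {H : ℂ → ℂ × Ω → ℝ} (hH : Bdd H)
    {τ : ℝ} (hτ : 0 < τ) : Bdd (Vav Ψ τ H) := by
  constructor
  · have h1 : Measurable (fun p : ℂ × (ℂ × Ω) => H p.1 (p.2.1, Ψ τ p.2.2)) := by
      have h0 : Measurable (fun p : ℂ × (ℂ × Ω) => ((p, τ) : (ℂ × (ℂ × Ω)) × ℝ)) := by fun_prop
      exact (bdd_meas_comp hΨ hH).comp h0
    exact (hH.1.sub h1).const_mul _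
  · obtain ⟨C, hC⟩ := hH.2
    refine ⟨τ⁻¹ * (2 * C), fun y ω => ?_⟩
    simp only [Vav, abs_mul]
    rw [abs_of_pos (inv_pos.mpr hτ)]
    refine mul_le_mul_of_nonneg_left ?_ (inv_pos.mpr hτ).le
    have := abs_sub (H y ω) (H y (ω.1, Ψ τ ω.2))
    have := hC y ω
    have := hC y (ω.1, Ψ τ ω.2)
    (clear m hΨ hH hτ; linarith)

/-- correlations -/
lemma corr_shift {m : Measure Ω} [IsProbabilityMeasure m] {Ψ : ℝ → Ω → Ω} (hΨ : PFlow m Ψ)
    {h h' : Ω → ℝ} (hm : Measurable h) (hm' : Measurable h') (a b : ℝ) :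
    ∫ q, h (Ψ a q) * h' (Ψ b q) ∂m = ∫ q, h q * h' (Ψ (b - a) q) ∂m := by
  have h1 : ∀ᵐ q ∂m, Ψ b q = Ψ (b - a) (Ψ a q) := by
    have := hΨ.add (b - a) a
    simpa using this
  have h2 : ∫ q, h (Ψ a q) * h' (Ψ b q) ∂m = ∫ q, h (Ψ a q) * h' (Ψ (b - a) (Ψ a q)) ∂m := by
    apply integral_congr_ae
    filter_upwards [h1] with q hq
    rw [hq]
  rw [h2]
  have h3 := (hΨ.mp a).map_eq
  have h4 : ∫ q, h q * h' (Ψ (b - a) q) ∂m = ∫ q, h q * h' (Ψ (b - a) q) ∂(m.map (Ψ a)) := by
    rw [h3]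
  rw [h4, integral_map (hΨ.measurable_time a).aemeasurable]
  apply Measurable.aestronglyMeasurable
  exact hm.mul (hm'.comp (hΨ.measurable_time _))

/-- swapping the time average and the integral -/
lemma avg_swap {m : Measure Ω} [IsProbabilityMeasure m] {Ψ : ℝ → Ω → Ω} (hΨ : PFlow m Ψ)
    {g h : Ω → ℝ} (hg : Measurable g) (hm : Measurable h) (hb : ∃ C, ∀ q, |h q| ≤ C)
    (hgb : ∃ C, ∀ q, |g q| ≤ C)
    {τ : ℝ} (hτ : 0 < τ) :
    ∫ q, g q * (∫ s in (0:ℝ)..τ, h (Ψ s q)) ∂m = ∫ s in (0:ℝ)..τ, ∫ q, g q * h (Ψ s q) ∂m := by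
  obtain ⟨C, hC⟩ := hb
  obtain ⟨D, hD⟩ := hgb
  simp only [intervalIntegral.integral_of_le hτ.le]
  have h1 : ∀ q, g q * (∫ s in Ioc 0 τ, h (Ψ s q)) = ∫ s in Ioc 0 τ, g q * h (Ψ s q) := by
    intro q
    rw [integral_const_mul]
  simp only [h1]
  apply integral_integral_swap
  have hmeas : Measurable (fun z : Ω × ℝ => g z.1 * h (Ψ z.2 z.1)) := by
    refine (hg.comp measurable_fst).mul (hm.comp ?_)
    exact hΨ.meas.comp (Measurable.prodMk measurable_snd measurable_fst)
  refine Integrable.of_bound (C := D * C) hmeas.aestronglyMeasurable ?_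
  refine Filter.Eventually.of_forall (fun z => ?_)
  simp only [Function.uncurry, Real.norm_eq_abs, abs_mul]
  exact mul_le_mul (hD _) (hC _) (abs_nonneg _) (le_trans (abs_nonneg _) (hD z.1))

lemma skew_av {m : Measure Ω} [IsProbabilityMeasure m] {Ψ : ℝ → Ω → Ω} (hΨ : PFlow m Ψ)
    {H : ℂ → ℂ × Ω → ℝ} (hH : Bdd H) {τ : ℝ} (hτ : 0 < τ) :
    ∀ y y' u u', ∫ q, Vav Ψ τ H y (u, q) * Uav Ψ τ H y' (u', q) ∂m =
      - ∫ q, Uav Ψ τ H y (u, q) * Vav Ψ τ H y' (u', q) ∂m := by
  intro y y' u u'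
  obtain ⟨C, hC⟩ := hH.2
  set h : Ω → ℝ := fun q => H y (u, q) with hh
  set h' : Ω → ℝ := fun q => H y' (u', q) with hh'
  have hm : Measurable h := bdd_meas_snd hH y u
  have hm' : Measurable h' := bdd_meas_snd hH y' u'
  have hb : ∀ q, |h q| ≤ C := fun q => hC _ _
  have hb' : ∀ q, |h' q| ≤ C := fun q => hC _ _
  have key : ∀ g g' : Ω → ℝ, Measurable g → Measurable g' → (∀ q, |g q| ≤ C) → (∀ q, |g' q| ≤ C) →
      ∫ q, (g q - g (Ψ τ q)) * (∫ s in (0:ℝ)..τ, g' (Ψ s q)) ∂m =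
        (∫ s in (0:ℝ)..τ, ∫ q, g q * g' (Ψ s q) ∂m) -
        (∫ s in (0:ℝ)..τ, ∫ q, g q * g' (Ψ (s - τ) q) ∂m) := by
    intro g g' hg hg' hgb hgb'
    have e1 : Measurable (fun q => g (Ψ τ q)) := hg.comp (hΨ.measurable_time τ)
    have mI : Measurable (fun q => ∫ s in (0:ℝ)..τ, g' (Ψ s q)) := by
      simp only [intervalIntegral.integral_of_le hτ.le]
      have hmeas : Measurable (fun z : Ω × ℝ => g' (Ψ z.2 z.1)) :=
        hg'.comp (hΨ.meas.comp (Measurable.prodMk measurable_snd measurable_fst))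
      exact (hmeas.stronglyMeasurable.integral_prod_right'
        (ν := (volume : Measure ℝ).restrict (Ioc 0 τ))).measurable
    have bI : ∀ q, |∫ s in (0:ℝ)..τ, g' (Ψ s q)| ≤ C * τ := by
      intro q
      have := intervalIntegral.norm_integral_le_of_norm_le_const (a := 0) (b := τ) (C := C)
        (f := fun s => g' (Ψ s q)) (fun s _ => hgb' _)
      simpa only [ge_iff_le, Real.norm_eq_abs, sub_zero, abs_of_pos hτ] using this
    have hC0 : 0 ≤ C := by
      by_contra hneg
      have : Nonempty Ω := by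
        by_contra hne
        rw [not_nonempty_iff] at hne
        have h1 : m univ = 1 := measure_univ
        rw [Set.univ_eq_empty_iff.mpr hne, measure_empty] at h1
        exact zero_ne_one h1
      obtain ⟨q⟩ := this
      exact hneg (le_trans (abs_nonneg _) (hgb q))
    have i1 : Integrable (fun q => g q * (∫ s in (0:ℝ)..τ, g' (Ψ s q))) m := by
      refine Integrable.of_bound (C := C * (C * τ)) (hg.mul mI).aestronglyMeasurable ?_
      refine Filter.Eventually.of_forall (fun q => ?_)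
      rw [Real.norm_eq_abs, abs_mul]
      exact mul_le_mul (hgb _) (bI _) (abs_nonneg _) hC0
    have i2 : Integrable (fun q => g (Ψ τ q) * (∫ s in (0:ℝ)..τ, g' (Ψ s q))) m := by
      refine Integrable.of_bound (C := C * (C * τ)) (e1.mul mI).aestronglyMeasurable ?_
      refine Filter.Eventually.of_forall (fun q => ?_)
      rw [Real.norm_eq_abs, abs_mul]
      exact mul_le_mul (hgb _) (bI _) (abs_nonneg _) hC0
    simp only [sub_mul]
    rw [integral_sub i1 i2]
    congr 1
    · exact avg_swap hΨ hg hg' ⟨C, hgb'⟩ ⟨C, hgb⟩ hτ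
    · have := avg_swap (g := fun q => g (Ψ τ q)) hΨ e1 hg' ⟨C, hgb'⟩ ⟨C, fun q => hgb _⟩ hτ
      rw [this]
      apply intervalIntegral.integral_congr
      intro s _
      exact corr_shift hΨ hg hg' τ s
  have hL : ∫ q, Vav Ψ τ H y (u, q) * Uav Ψ τ H y' (u', q) ∂m =
      τ⁻¹ * τ⁻¹ * ∫ q, (h q - h (Ψ τ q)) * (∫ s in (0:ℝ)..τ, h' (Ψ s q)) ∂m := by
    rw [← integral_const_mul]
    apply integral_congr_ae
    refine Filter.Eventually.of_forall (fun q => ?_)
    simp only [Vav, Uav, hh, hh']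
    ring
  have hR : ∫ q, Uav Ψ τ H y (u, q) * Vav Ψ τ H y' (u', q) ∂m =
      τ⁻¹ * τ⁻¹ * ∫ q, (h' q - h' (Ψ τ q)) * (∫ s in (0:ℝ)..τ, h (Ψ s q)) ∂m := by
    rw [← integral_const_mul]
    apply integral_congr_ae
    refine Filter.Eventually.of_forall (fun q => ?_)
    simp only [Vav, Uav, hh, hh']
    ring
  rw [hL, hR, key h h' hm hm' hb hb', key h' h hm' hm hb' hb]
  set c : ℝ → ℝ := fun s => ∫ q, h q * h' (Ψ s q) ∂m with hc
  have c1 : ∀ s, ∫ q, h' q * h (Ψ s q) ∂m = c (- s) := by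
    intro s
    have h0 : ∫ q, h' q * h (Ψ s q) ∂m = ∫ q, h (Ψ s q) * h' (Ψ 0 q) ∂m := by
      apply integral_congr_ae
      filter_upwards [hΨ.zero] with q hq
      rw [hq, mul_comm]
    rw [h0, corr_shift hΨ hm hm' s 0]
    simp [hc]
  simp only [c1]
  have e1 : ∫ s in (0:ℝ)..τ, c (-(s - τ)) = ∫ s in (0:ℝ)..τ, c s := by
    have : ∫ s in (0:ℝ)..τ, c (τ - s) = ∫ s in (0:ℝ)..τ, c s := by
      rw [intervalIntegral.integral_comp_sub_left (fun s => c s) τ]
      simp
    rw [← this]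
    apply intervalIntegral.integral_congr
    intro s _
    simp only [neg_sub]
  have e2 : ∫ s in (0:ℝ)..τ, c (- s) = ∫ s in (0:ℝ)..τ, c (s - τ) := by
    rw [intervalIntegral.integral_comp_neg (fun s => c s),
      intervalIntegral.integral_comp_sub_right (fun s => c s) τ]
    simp
  have e3 : (fun s => ∫ q, h q * h' (Ψ s q) ∂m) = c := rfl
  have e4 : ∫ s in (0:ℝ)..τ, ∫ q, h q * h' (Ψ (s - τ) q) ∂m = ∫ s in (0:ℝ)..τ, c (s - τ) := rfl
  rw [e1, e2, e4]
  simp only [hc]
  ring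


/-- almost everywhere statements can be transported along the flow on the parameter space -/
lemma ae_param {ns : ℕ} [NeZero ns] {T : ConvexPolygon ns} {m : Measure Ω} [IsProbabilityMeasure m] {g : Ω → Ω}
    (hg : MeasurePreserving g m m) {P : ℂ × (ℂ × Ω) → Prop}
    (h : ∀ᵐ p ∂((volume.restrict T.table).prod (nu.prod m)), P p) :
    ∀ᵐ p ∂((volume.restrict T.table).prod (nu.prod m)), P (p.1, (p.2.1, g p.2.2)) := by
  have h1 : MeasurePreserving (Prod.map id (Prod.map id g))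
      ((volume.restrict T.table).prod (nu.prod m)) ((volume.restrict T.table).prod (nu.prod m)) :=
    (MeasurePreserving.id _).prod ((MeasurePreserving.id _).prod hg)
  exact h1.quasiMeasurePreserving.ae h

/-- almost everywhere statements on the parameter space -/
lemma ae_of_param {ns : ℕ} [NeZero ns] {T : ConvexPolygon ns} {m : Measure Ω} [IsProbabilityMeasure m] {P : Ω → Prop}
    (h : ∀ᵐ q ∂m, P q) :
    ∀ᵐ p ∂((volume.restrict T.table).prod (nu.prod m)), P p.2.2 := by
  have h1 : ∀ᵐ ω ∂(nu.prod m), P ω.2 := Measure.quasiMeasurePreserving_snd.ae h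
  exact Measure.quasiMeasurePreserving_snd.ae h1

lemma real_identity {h : ℝ → ℝ} (hh : ∀ a b : ℝ, IntervalIntegrable h volume a b) (τ t : ℝ) :
    (∫ s in (0:ℝ)..τ, h (s - t)) - (∫ s in (0:ℝ)..τ, h s) =
      ∫ s in (0:ℝ)..t, (h (- s) - h (τ - s)) := by
  have i1 : IntervalIntegrable (fun s => h (- s)) volume 0 t := by
    have := (hh 0 (-t)).comp_sub_left 0
    simpa only [zero_sub, sub_self, sub_neg_eq_add, zero_add] using this
  have i2 : IntervalIntegrable (fun s => h (τ - s)) volume 0 t := by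
    have := (hh τ (τ - t)).comp_sub_left τ
    simpa using this
  rw [intervalIntegral.integral_sub i1 i2,
    intervalIntegral.integral_comp_sub_right (fun s => h s) t,
    intervalIntegral.integral_comp_neg (fun s => h s),
    intervalIntegral.integral_comp_sub_left (fun s => h s) τ]
  have a1 := intervalIntegral.integral_add_adjacent_intervals (hh (-t) 0) (hh 0 (τ - t))
  have a2 := intervalIntegral.integral_add_adjacent_intervals (hh 0 (τ - t)) (hh (τ - t) τ)
  simp only [zero_sub, neg_zero, sub_zero]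
  linarith only [a1, a2]

namespace ConvexPolygon

variable {ns : ℕ} [NeZero ns] (T : ConvexPolygon ns)

/-- invariance, in the form adapted to the time averages -/
lemma freeInv_shift {m : Measure Ω} [IsProbabilityMeasure m] {Ψ : ℝ → Ω → Ω} (hΨ : PFlow m Ψ)
    {H : ℂ → ℂ × Ω → ℝ} (hF : T.FreeInv m Ψ H) {t : ℝ} (ht : 0 < t) (r : ℝ) :
    ∀ᵐ p ∂((volume.restrict T.table).prod (nu.prod m)),
      p.1 + t • p.2.1 ∈ T.table →
        H (p.1 + t • p.2.1) (p.2.1, Ψ r p.2.2) = H p.1 (p.2.1, Ψ (r - t) p.2.2) := by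
  have h1 := ae_param (hΨ.mp (r - t)) (hF t ht)
  have h2 : ∀ᵐ q ∂m, Ψ r q = Ψ t (Ψ (r - t) q) := by
    have := hΨ.add t (r - t)
    simpa using this
  filter_upwards [h1, ae_of_param (T := T) h2] with p hp hq hmem
  rw [hq]
  exact hp hmem

lemma bounceInv_shift {m : Measure Ω} [IsProbabilityMeasure m] {Ψ : ℝ → Ω → Ω} (hΨ : PFlow m Ψ)
    {H : ℂ → ℂ × Ω → ℝ} (hB : T.BounceInv m Ψ H) {t : ℝ} (ht : 0 < t) (i : Fin ns) (r : ℝ) :
    ∀ᵐ p ∂((volume.restrict T.table).prod (nu.prod m)),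
      T.E i (p.1, p.2.1) → T.hitT i (p.1, p.2.1) < t → T.R i (p.1 + t • p.2.1) ∈ T.table →
        H (T.R i (p.1 + t • p.2.1)) (T.refl i p.2.1, Ψ r p.2.2) =
          H p.1 (p.2.1, Ψ (r - t) p.2.2) := by
  have h1 := ae_param (hΨ.mp (r - t)) (hB t ht i)
  have h2 : ∀ᵐ q ∂m, Ψ r q = Ψ t (Ψ (r - t) q) := by
    have := hΨ.add t (r - t)
    simpa using this
  filter_upwards [h1, ae_of_param (T := T) h2] with p hp hq hE hlt hmem
  rw [hq]
  exact hp hE hlt hmem

/-- almost every point, almost every time -/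
lemma ae_ae_time {m : Measure Ω} [IsProbabilityMeasure m] {f g : (ℂ × (ℂ × Ω)) × ℝ → ℝ}
    {B : Set ((ℂ × (ℂ × Ω)) × ℝ)} (hB : MeasurableSet B)
    (hf : Measurable f) (hg : Measurable g)
    (h : ∀ s : ℝ, ∀ᵐ p ∂((volume.restrict T.table).prod (nu.prod m)), (p, s) ∈ B →
      f (p, s) = g (p, s)) :
    ∀ᵐ p ∂((volume.restrict T.table).prod (nu.prod m)), ∀ᵐ s : ℝ, (p, s) ∈ B →
      f (p, s) = g (p, s) := by
  have hS : MeasurableSet {z : (ℂ × (ℂ × Ω)) × ℝ | z ∈ B → f z = g z} := by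
    have h1 : MeasurableSet {z : (ℂ × (ℂ × Ω)) × ℝ | f z = g z} := measurableSet_eq_fun hf hg
    have h2 : {z : (ℂ × (ℂ × Ω)) × ℝ | z ∈ B → f z = g z} =
        Bᶜ ∪ {z : (ℂ × (ℂ × Ω)) × ℝ | f z = g z} := by
      ext z
      simp only [mem_ofPred_eq, mem_union, mem_compl_iff]
      (clear * -; tauto)
    rw [h2]
    exact hB.compl.union h1
  exact (Measure.ae_ae_comm hS).mpr (Filter.Eventually.of_forall (fun s => h s))

lemma wm_measurable_lam (i : Fin ns) : Measurable (T.lam i) := by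
  unfold lam cr
  fun_prop

lemma wm_measurable_ell (i : Fin ns) : Measurable (T.ell i) := by
  unfold ell cr
  fun_prop

lemma wm_measurable_hitT (i : Fin ns) : Measurable (T.hitT i) := by
  unfold hitT
  exact ((T.wm_measurable_lam i).comp measurable_fst).neg.div
    ((T.wm_measurable_ell i).comp measurable_snd)

lemma wm_measurableSet_E (i : Fin ns) : MeasurableSet {s : ℂ × ℂ | T.E i s} := by
  have h : {s : ℂ × ℂ | T.E i s} = {s : ℂ × ℂ | T.ell i s.2 < 0} ∩
      ⋂ j, {s : ℂ × ℂ | j ≠ i → 0 < T.lam j (s.1 + T.hitT i s • s.2)} := by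
    ext s
    simp only [E, ne_eq, Complex.real_smul, mem_ofPred_eq, mem_inter_iff, mem_iInter]
  rw [h]
  refine (measurableSet_lt ((T.wm_measurable_ell i).comp measurable_snd) measurable_const).inter ?_
  refine MeasurableSet.iInter (fun j => ?_)
  by_cases hj : j ≠ i
  · have : {s : ℂ × ℂ | j ≠ i → 0 < T.lam j (s.1 + T.hitT i s • s.2)} =
        {s : ℂ × ℂ | 0 < T.lam j (s.1 + T.hitT i s • s.2)} := by
      ext s
      simp only [ne_eq, hj, not_false_eq_true, Complex.real_smul, forall_const, mem_ofPred_eq]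
    rw [this]
    exact measurableSet_lt measurable_const ((T.wm_measurable_lam j).comp
      (measurable_fst.add ((T.wm_measurable_hitT i).smul measurable_snd)))
  · have : {s : ℂ × ℂ | j ≠ i → 0 < T.lam j (s.1 + T.hitT i s • s.2)} = univ := by
      ext s
      simp [hj]
    rw [this]
    exact MeasurableSet.univ

lemma locInt_of_bdd {h : ℝ → ℝ} (hm : Measurable h) {C : ℝ} (hC : ∀ s, |h s| ≤ C) (a b : ℝ) :
    IntervalIntegrable h volume a b := by
  have h1 : IntegrableOn h (uIoc a b) := by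
    have : Fact (volume (uIoc a b) < ⊤) := ⟨by rw [uIoc]; exact measure_Ioc_lt_top⟩
    refine Integrable.of_bound (C := C) hm.aestronglyMeasurable ?_
    exact Filter.Eventually.of_forall hC
  exact intervalIntegrable_iff.mpr h1

/-- the common computation for free flights and collisions -/
lemma der_common {m : Measure Ω} {Ψ : ℝ → Ω → Ω} (hΨ : PFlow m Ψ)
    {H : ℂ → ℂ × Ω → ℝ} (hH : Bdd H) {τ t : ℝ} (ht : 0 < t)
    {x u y v : ℂ} {q : Ω}
    {Z : ℝ → ℂ × ℂ}
    (h1 : ∀ᵐ s : ℝ, H y (v, Ψ s q) = H x (u, Ψ (s - t) q))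
    (h2 : ∀ᵐ s : ℝ, s ∈ Ioo 0 t → H (Z s).1 ((Z s).2, q) = H x (u, Ψ (- s) q))
    (h3 : ∀ᵐ s : ℝ, s ∈ Ioo 0 t → H (Z s).1 ((Z s).2, Ψ τ q) = H x (u, Ψ (τ - s) q)) :
    Uav Ψ τ H y (v, q) - Uav Ψ τ H x (u, q) =
      ∫ s in (0:ℝ)..t, Vav Ψ τ H (Z s).1 ((Z s).2, q) := by
  obtain ⟨C, hC⟩ := hH.2
  set h : ℝ → ℝ := fun s => H x (u, Ψ s q) with hh
  have hm : Measurable h := by
    have h0 : Measurable (fun s : ℝ => (((x, (u, q)), s) : (ℂ × (ℂ × Ω)) × ℝ)) := by fun_prop
    exact (bdd_meas_comp hΨ hH).comp h0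
  have hb : ∀ s, |h s| ≤ C := fun s => hC _ _
  have hi : ∀ a b : ℝ, IntervalIntegrable h volume a b := locInt_of_bdd hm hb
  have e1 : Uav Ψ τ H y (v, q) = τ⁻¹ * ∫ s in (0:ℝ)..τ, h (s - t) := by
    simp only [Uav]
    congr 1
    apply intervalIntegral.integral_congr_ae
    filter_upwards [h1] with s hs _
    exact hs
  have e2 : Uav Ψ τ H x (u, q) = τ⁻¹ * ∫ s in (0:ℝ)..τ, h s := rfl
  have e3 : ∫ s in (0:ℝ)..t, Vav Ψ τ H (Z s).1 ((Z s).2, q) =
      τ⁻¹ * ∫ s in (0:ℝ)..t, (h (- s) - h (τ - s)) := by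
    rw [← intervalIntegral.integral_const_mul]
    apply intervalIntegral.integral_congr_ae
    have h4 : ∀ᵐ s : ℝ, s ≠ t := by
      rw [ae_iff]
      simp
    filter_upwards [h2, h3, h4] with s hs2 hs3 hs4 hs
    rw [uIoc_of_le ht.le] at hs
    have hs' : s ∈ Ioo 0 t := ⟨hs.1, lt_of_le_of_ne hs.2 hs4⟩
    simp only [Vav, hh]
    rw [hs2 hs', hs3 hs']
  rw [e1, e2, e3, ← real_identity hi τ t]
  ring

lemma freeDer_av {m : Measure Ω} [IsProbabilityMeasure m] {Ψ : ℝ → Ω → Ω} (hΨ : PFlow m Ψ)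
    {H : ℂ → ℂ × Ω → ℝ} (hH : Bdd H) (hF : T.FreeInv m Ψ H) {τ : ℝ} :
    T.FreeDer m (Uav Ψ τ H) (Vav Ψ τ H) := by
  intro t ht
  -- first relation
  have a1 : ∀ᵐ p ∂((volume.restrict T.table).prod (nu.prod m)), ∀ᵐ s : ℝ,
      p.1 + t • p.2.1 ∈ T.table →
        H (p.1 + t • p.2.1) (p.2.1, Ψ s p.2.2) = H p.1 (p.2.1, Ψ (s - t) p.2.2) := by
    refine ae_ae_time T (B := {z | z.1.1 + t • z.1.2.1 ∈ T.table})
      (f := fun z => H (z.1.1 + t • z.1.2.1) (z.1.2.1, Ψ z.2 z.1.2.2))
      (g := fun z => H z.1.1 (z.1.2.1, Ψ (z.2 - t) z.1.2.2)) ?_ ?_ ?_ ?_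
    · exact T.isOpen_table.measurableSet.preimage (by fun_prop)
    · have h0 : Measurable (fun z : (ℂ × (ℂ × Ω)) × ℝ =>
        (((z.1.1 + t • z.1.2.1, (z.1.2.1, z.1.2.2)), z.2) : (ℂ × (ℂ × Ω)) × ℝ)) := by fun_prop
      exact (bdd_meas_comp hΨ hH).comp h0
    · have h0 : Measurable (fun z : (ℂ × (ℂ × Ω)) × ℝ =>
        (((z.1.1, (z.1.2.1, z.1.2.2)), z.2 - t) : (ℂ × (ℂ × Ω)) × ℝ)) := by fun_prop
      exact (bdd_meas_comp hΨ hH).comp h0
    · intro s
      exact T.freeInv_shift hΨ hF ht s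
  have a2 : ∀ c : ℝ, ∀ᵐ p ∂((volume.restrict T.table).prod (nu.prod m)), ∀ᵐ s : ℝ,
      (0 < s ∧ p.1 + s • p.2.1 ∈ T.table) →
        H (p.1 + s • p.2.1) (p.2.1, Ψ c p.2.2) = H p.1 (p.2.1, Ψ (c - s) p.2.2) := by
    intro c
    refine ae_ae_time T (B := {z | 0 < z.2 ∧ z.1.1 + z.2 • z.1.2.1 ∈ T.table})
      (f := fun z => H (z.1.1 + z.2 • z.1.2.1) (z.1.2.1, Ψ c z.1.2.2))
      (g := fun z => H z.1.1 (z.1.2.1, Ψ (c - z.2) z.1.2.2)) ?_ ?_ ?_ ?_
    · refine (measurableSet_lt measurable_const measurable_snd).inter ?_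
      exact T.isOpen_table.measurableSet.preimage (by fun_prop)
    · have h0 : Measurable (fun z : (ℂ × (ℂ × Ω)) × ℝ =>
        (((z.1.1 + z.2 • z.1.2.1, (z.1.2.1, z.1.2.2)), c) : (ℂ × (ℂ × Ω)) × ℝ)) := by fun_prop
      exact (bdd_meas_comp hΨ hH).comp h0
    · have h0 : Measurable (fun z : (ℂ × (ℂ × Ω)) × ℝ =>
        (((z.1.1, (z.1.2.1, z.1.2.2)), c - z.2) : (ℂ × (ℂ × Ω)) × ℝ)) := by fun_prop
      exact (bdd_meas_comp hΨ hH).comp h0
    · intro s
      by_cases hs : 0 < s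
      · filter_upwards [T.freeInv_shift hΨ hF hs c] with p hp hmem
        exact hp hmem.2
      · refine Filter.Eventually.of_forall (fun p hmem => ?_)
        exact absurd hmem.1 hs
  have hin : ∀ᵐ p ∂((volume.restrict T.table).prod (nu.prod m)), p.1 ∈ T.table :=
    Measure.quasiMeasurePreserving_fst.ae (ae_restrict_mem T.isOpen_table.measurableSet)
  filter_upwards [a1, a2 0, a2 τ, ae_of_param (T := T) hΨ.zero, hin] with p h1 h2 h3 h4 h5 hmem
  have hseg : ∀ s : ℝ, s ∈ Ioo 0 t → p.1 + s • p.2.1 ∈ T.table := by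
    intro s hs
    have := T.convex_table.add_smul_mem h5 (y := t • p.2.1) hmem (t := s / t)
      ⟨div_nonneg hs.1.le ht.le, (div_le_one ht).mpr hs.2.le⟩
    rwa [smul_smul, div_mul_cancel₀ _ ht.ne'] at this
  refine der_common hΨ hH ht (Z := fun s => (p.1 + s • p.2.1, p.2.1)) ?_ ?_ ?_
  · filter_upwards [h1] with s hs
    exact hs hmem
  · filter_upwards [h2] with s hs hs'
    have := hs ⟨hs'.1, hseg s hs'⟩
    rw [h4, zero_sub] at this
    exact this
  · filter_upwards [h3] with s hs hs'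
    exact hs ⟨hs'.1, hseg s hs'⟩

/-- after the collision the path stays in the table -/
lemma bounce_seg {x u : ℂ} {i : Fin ns} {t s : ℝ} (hE : T.E i (x, u)) (hs : T.hitT i (x, u) < s)
    (hst : s ≤ t) (hmem : T.R i (x + t • u) ∈ T.table) : T.R i (x + s • u) ∈ T.table := by
  set a := T.hitT i (x, u) with ha
  have h1 : T.lam i (x + a • u) = 0 := (T.lam_hit i hE :)
  have h2 : T.R i (x + a • u) = x + a • u := T.R_of_lam_eq_zero h1
  have hat : 0 < t - a := by linarith
  set c := (s - a) / (t - a) with hc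
  have hc0 : 0 < c := div_pos (by linarith only [hs]) hat
  have hc1 : c ≤ 1 := (div_le_one hat).mpr (by linarith only [hst])
  have h3 : T.R i (x + s • u) = (1 - c) • (x + a • u) + c • T.R i (x + t • u) := by
    have e1 : x + s • u = x + a • u + (s - a) • u := by
      rw [sub_smul]; ring
    have e2 : x + t • u = x + a • u + (t - a) • u := by
      rw [sub_smul]; ring
    rw [e1, e2, T.R_add i (x + a • u), T.R_add i (x + a • u), h2, T.refl_smul, T.refl_smul]
    have e3 : c * (t - a) = s - a := div_mul_cancel₀ _ hat.ne'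
    rw [smul_add c, smul_smul c, e3, sub_smul 1 c, one_smul]
    abel
  rw [T.mem_table_iff] at hmem ⊢
  intro j
  have hl : T.lam j (T.R i (x + s • u)) =
      (1 - c) * T.lam j (x + a • u) + c * T.lam j (T.R i (x + t • u)) := by
    rw [h3]
    have e4 : (1 - c) • (x + a • u) + c • T.R i (x + t • u) =
        (x + a • u) + c • (T.R i (x + t • u) - (x + a • u)) := by
      rw [sub_smul, one_smul, smul_sub]; abel
    have e5 : T.R i (x + t • u) = (x + a • u) + (T.R i (x + t • u) - (x + a • u)) := by abel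
    have e6 : T.lam j (T.R i (x + t • u)) = T.lam j (x + a • u) +
        T.ell j (T.R i (x + t • u) - (x + a • u)) := by
      rw [← T.lam_add, ← e5]
    rw [e4, T.lam_add_smul, e6]
    ring
  rw [hl]
  have hnn : 0 ≤ T.lam j (x + a • u) := by
    by_cases hj : j = i
    · rw [hj, h1]
    · exact (hE.2 j hj).le
  have := hmem j
  have h6 : 0 ≤ (1 - c) * T.lam j (x + a • u) := mul_nonneg (by linarith only [hc1]) hnn
  have h7 : 0 < c * T.lam j (T.R i (x + t • u)) := mul_pos hc0 this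
  linarith only [h6, h7]

open Classical in
lemma bounceDer_av {m : Measure Ω} [IsProbabilityMeasure m] {Ψ : ℝ → Ω → Ω} (hΨ : PFlow m Ψ)
    {H : ℂ → ℂ × Ω → ℝ} (hH : Bdd H) (hF : T.FreeInv m Ψ H) (hB : T.BounceInv m Ψ H)
    {τ : ℝ} (hτ : 0 < τ) :
    T.BounceDer m (Uav Ψ τ H) (Vav Ψ τ H) := by
  intro t ht i
  have mE : MeasurableSet {z : (ℂ × (ℂ × Ω)) × ℝ | T.E i (z.1.1, z.1.2.1)} := by
    exact (T.wm_measurableSet_E i).preimage (by fun_prop)
  have mh : Measurable (fun z : (ℂ × (ℂ × Ω)) × ℝ => T.hitT i (z.1.1, z.1.2.1)) :=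
    (T.wm_measurable_hitT i).comp (by fun_prop)
  have mR : ∀ g : (ℂ × (ℂ × Ω)) × ℝ → ℂ, Measurable g → Measurable (fun z => T.R i (g z)) :=
    fun g hg => (T.continuous_R i).measurable.comp hg
  have mr : Measurable (fun z : (ℂ × (ℂ × Ω)) × ℝ => T.refl i z.1.2.1) :=
    (T.continuous_refl i).measurable.comp (by fun_prop)
  -- first relation
  have a1 : ∀ᵐ p ∂((volume.restrict T.table).prod (nu.prod m)), ∀ᵐ s : ℝ,
      (T.E i (p.1, p.2.1) ∧ T.hitT i (p.1, p.2.1) < t ∧ T.R i (p.1 + t • p.2.1) ∈ T.table) →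
        H (T.R i (p.1 + t • p.2.1)) (T.refl i p.2.1, Ψ s p.2.2) =
          H p.1 (p.2.1, Ψ (s - t) p.2.2) := by
    refine ae_ae_time T (B := {z | T.E i (z.1.1, z.1.2.1) ∧ T.hitT i (z.1.1, z.1.2.1) < t ∧
        T.R i (z.1.1 + t • z.1.2.1) ∈ T.table})
      (f := fun z => H (T.R i (z.1.1 + t • z.1.2.1)) (T.refl i z.1.2.1, Ψ z.2 z.1.2.2))
      (g := fun z => H z.1.1 (z.1.2.1, Ψ (z.2 - t) z.1.2.2)) ?_ ?_ ?_ ?_
    · refine mE.inter ((measurableSet_lt mh measurable_const).inter ?_)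
      exact T.isOpen_table.measurableSet.preimage (mR _ (by (clear * -; fun_prop)))
    · have h0 : Measurable (fun z : (ℂ × (ℂ × Ω)) × ℝ =>
        (((T.R i (z.1.1 + t • z.1.2.1), (T.refl i z.1.2.1, z.1.2.2)), z.2) :
          (ℂ × (ℂ × Ω)) × ℝ)) := by
        refine Measurable.prodMk (Measurable.prodMk (mR _ (by fun_prop))
          (Measurable.prodMk mr (by fun_prop))) (by fun_prop)
      exact (bdd_meas_comp hΨ hH).comp h0
    · have h0 : Measurable (fun z : (ℂ × (ℂ × Ω)) × ℝ =>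
        (((z.1.1, (z.1.2.1, z.1.2.2)), z.2 - t) : (ℂ × (ℂ × Ω)) × ℝ)) := by fun_prop
      exact (bdd_meas_comp hΨ hH).comp h0
    · intro s
      filter_upwards [T.bounceInv_shift hΨ hB ht i s] with p hp hmem
      exact hp hmem.1 hmem.2.1 hmem.2.2
  have a2 : ∀ c : ℝ, ∀ᵐ p ∂((volume.restrict T.table).prod (nu.prod m)), ∀ᵐ s : ℝ,
      (0 < s ∧ p.1 + s • p.2.1 ∈ T.table) →
        H (p.1 + s • p.2.1) (p.2.1, Ψ c p.2.2) = H p.1 (p.2.1, Ψ (c - s) p.2.2) := by
    intro c
    refine ae_ae_time T (B := {z | 0 < z.2 ∧ z.1.1 + z.2 • z.1.2.1 ∈ T.table})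
      (f := fun z => H (z.1.1 + z.2 • z.1.2.1) (z.1.2.1, Ψ c z.1.2.2))
      (g := fun z => H z.1.1 (z.1.2.1, Ψ (c - z.2) z.1.2.2)) ?_ ?_ ?_ ?_
    · refine (measurableSet_lt measurable_const measurable_snd).inter ?_
      exact T.isOpen_table.measurableSet.preimage (by fun_prop)
    · have h0 : Measurable (fun z : (ℂ × (ℂ × Ω)) × ℝ =>
        (((z.1.1 + z.2 • z.1.2.1, (z.1.2.1, z.1.2.2)), c) : (ℂ × (ℂ × Ω)) × ℝ)) := by fun_prop
      exact (bdd_meas_comp hΨ hH).comp h0
    · have h0 : Measurable (fun z : (ℂ × (ℂ × Ω)) × ℝ =>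
        (((z.1.1, (z.1.2.1, z.1.2.2)), c - z.2) : (ℂ × (ℂ × Ω)) × ℝ)) := by fun_prop
      exact (bdd_meas_comp hΨ hH).comp h0
    · intro s
      by_cases hs : 0 < s
      · filter_upwards [T.freeInv_shift hΨ hF hs c] with p hp hmem
        exact hp hmem.2
      · refine Filter.Eventually.of_forall (fun p hmem => ?_)
        exact absurd hmem.1 hs
  have a3 : ∀ c : ℝ, ∀ᵐ p ∂((volume.restrict T.table).prod (nu.prod m)), ∀ᵐ s : ℝ,
      (0 < s ∧ T.E i (p.1, p.2.1) ∧ T.hitT i (p.1, p.2.1) < s ∧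
        T.R i (p.1 + s • p.2.1) ∈ T.table) →
        H (T.R i (p.1 + s • p.2.1)) (T.refl i p.2.1, Ψ c p.2.2) =
          H p.1 (p.2.1, Ψ (c - s) p.2.2) := by
    intro c
    refine ae_ae_time T (B := {z | 0 < z.2 ∧ T.E i (z.1.1, z.1.2.1) ∧
        T.hitT i (z.1.1, z.1.2.1) < z.2 ∧ T.R i (z.1.1 + z.2 • z.1.2.1) ∈ T.table})
      (f := fun z => H (T.R i (z.1.1 + z.2 • z.1.2.1)) (T.refl i z.1.2.1, Ψ c z.1.2.2))
      (g := fun z => H z.1.1 (z.1.2.1, Ψ (c - z.2) z.1.2.2)) ?_ ?_ ?_ ?_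
    · refine (measurableSet_lt measurable_const measurable_snd).inter (mE.inter
        ((measurableSet_lt mh measurable_snd).inter ?_))
      exact T.isOpen_table.measurableSet.preimage (mR _ (by fun_prop))
    · have h0 : Measurable (fun z : (ℂ × (ℂ × Ω)) × ℝ =>
        (((T.R i (z.1.1 + z.2 • z.1.2.1), (T.refl i z.1.2.1, z.1.2.2)), c) :
          (ℂ × (ℂ × Ω)) × ℝ)) := by
        refine Measurable.prodMk (Measurable.prodMk (mR _ (by fun_prop))
          (Measurable.prodMk mr (by fun_prop))) (by fun_prop)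
      exact (bdd_meas_comp hΨ hH).comp h0
    · have h0 : Measurable (fun z : (ℂ × (ℂ × Ω)) × ℝ =>
        (((z.1.1, (z.1.2.1, z.1.2.2)), c - z.2) : (ℂ × (ℂ × Ω)) × ℝ)) := by fun_prop
      exact (bdd_meas_comp hΨ hH).comp h0
    · intro s
      by_cases hs : 0 < s
      · filter_upwards [T.bounceInv_shift hΨ hB hs i c] with p hp hmem
        exact hp hmem.2.1 hmem.2.2.1 hmem.2.2.2
      · refine Filter.Eventually.of_forall (fun p hmem => ?_)
        exact absurd hmem.1 hs
  have hin : ∀ᵐ p ∂((volume.restrict T.table).prod (nu.prod m)), p.1 ∈ T.table :=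
    Measure.quasiMeasurePreserving_fst.ae (ae_restrict_mem T.isOpen_table.measurableSet)
  filter_upwards [a1, a2 0, a2 τ, a3 0, a3 τ, ae_of_param (T := T) hΨ.zero, hin] with
    p h1 h2 h3 h2' h3' h4 h5 hE hlt hmem
  set a := T.hitT i (p.1, p.2.1) with ha
  have ha0 : 0 < a := ConvexPolygon.E.hitT_pos T (T.adm_of_mem_table h5) hE
  have hseg : ∀ s : ℝ, 0 < s → s < a → p.1 + s • p.2.1 ∈ T.table := fun s hs hsa =>
    ConvexPolygon.E.mem_table T (T.adm_of_mem_table h5) hE hs hsa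
  have hseg' : ∀ s : ℝ, a < s → s ≤ t → T.R i (p.1 + s • p.2.1) ∈ T.table := fun s hs hst =>
    T.bounce_seg hE hs hst hmem
  set Z : ℝ → ℂ × ℂ := fun s => if s < a then (p.1 + s • p.2.1, p.2.1) else
    (T.R i (p.1 + s • p.2.1), T.refl i p.2.1) with hZ
  have hna : ∀ᵐ s : ℝ, s ≠ a := by
    rw [ae_iff]
    simp
  have key := der_common (τ := τ) hΨ hH ht (Z := Z) (x := p.1) (u := p.2.1) (q := p.2.2)
    (y := T.R i (p.1 + t • p.2.1)) (v := T.refl i p.2.1) ?_ ?_ ?_
  · have hbV := bdd_Vav hΨ hH hτ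
    have mZ : Measurable (fun s => Vav Ψ τ H (Z s).1 ((Z s).2, p.2.2)) := by
      have hZm : Measurable Z := by
        refine Measurable.ite (measurableSet_lt measurable_id measurable_const) ?_ ?_
        · fun_prop
        · exact Measurable.prodMk ((T.continuous_R i).measurable.comp (by fun_prop))
            measurable_const
      have h0 : Measurable (fun s => (((Z s).1, ((Z s).2, p.2.2)) : ℂ × (ℂ × Ω))) := by
        fun_prop
      exact hbV.1.comp h0
    obtain ⟨C, hC⟩ := hbV.2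
    have hi : ∀ a b : ℝ, IntervalIntegrable (fun s => Vav Ψ τ H (Z s).1 ((Z s).2, p.2.2))
        volume a b := locInt_of_bdd mZ (C := C) (fun s => hC _ _)
    rw [key, ← intervalIntegral.integral_add_adjacent_intervals (hi 0 a) (hi a t)]
    congr 1
    · apply intervalIntegral.integral_congr_ae
      filter_upwards [hna] with s hs1 hs
      rw [uIoc_of_le ha0.le] at hs
      have : s < a := lt_of_le_of_ne hs.2 hs1
      simp only [hZ, this, if_true]
    · apply intervalIntegral.integral_congr_ae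
      refine Filter.Eventually.of_forall (fun s hs => ?_)
      rw [uIoc_of_le hlt.le] at hs
      have : ¬ s < a := not_lt.mpr hs.1.le
      simp only [hZ, this, if_false]
  · filter_upwards [h1] with s hs
    exact hs ⟨hE, hlt, hmem⟩
  · filter_upwards [h2, h2', hna] with s hs hs2 hsa hs'
    by_cases hlt' : s < a
    · simp only [hZ, hlt', if_true]
      have := hs ⟨hs'.1, hseg s hs'.1 hlt'⟩
      rw [h4, zero_sub] at this
      exact this
    · simp only [hZ, hlt', if_false]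
      have hgt : a < s := lt_of_le_of_ne (not_lt.mp hlt') (Ne.symm hsa)
      have := hs2 ⟨hs'.1, hE, hgt, hseg' s hgt hs'.2.le⟩
      rw [h4, zero_sub] at this
      exact this
  · filter_upwards [h3, h3', hna] with s hs hs2 hsa hs'
    by_cases hlt' : s < a
    · simp only [hZ, hlt', if_true]
      exact hs ⟨hs'.1, hseg s hs'.1 hlt'⟩
    · simp only [hZ, hlt', if_false]
      have hgt : a < s := lt_of_le_of_ne (not_lt.mp hlt') (Ne.symm hsa)
      exact hs2 ⟨hs'.1, hE, hgt, hseg' s hgt hs'.2.le⟩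

end ConvexPolygon

end Vale.Agent.P099C
end
end

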