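import Vale.Agent.P099.MathlibUsed
import Vale.Agent.P099.H504.CPH
attribute [-instance] ProperSMul.toContinuousSMul IsTopologicalTorsor.toContinuousSMul IdemSemiring.toCanonicallyOrderedAdd IdemSemiring.toMulLeftMono IdemSemiring.toMulRightMono AddQuantale.instAddLeftMono AddQuantale.instAddRightMono Quantale.instMulLeftMono Quantale.instMulRightMono FiniteDimensional.rclike_to_real IsScalarTower.complexToReal FiniteDimensional.complexToReal

set_option linter.all false

section

section

open MeasureTheory Set Filter Topology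

namespace Vale.Agent.P099C
open Vale.Agent.P099 (nu FlowErgodic FlowWeakMixing)

namespace ConvexPolygon

variable {ns : ℕ} [NeZero ns] (T : ConvexPolygon ns)

/-- folding a point back along a word -/
noncomputable def fold : List (Fin ns) → ℂ → ℂ
  | [], x => x
  | i :: w, x => fold w (T.R i x)

/-- folding a direction back along a word -/
noncomputable def rfold : List (Fin ns) → ℂ → ℂ
  | [], x => x
  | i :: w, x => rfold w (T.refl i x)

lemma fold_cons (i : Fin ns) (w : List (Fin ns)) (x : ℂ) : T.fold (i :: w) x = T.fold w (T.R i x) :=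
  rfl

lemma fold_append (a b : List (Fin ns)) : ∀ x, T.fold (a ++ b) x = T.fold b (T.fold a x) := by
  induction a with
  | nil => intro x; rfl
  | cons i a ih => intro x; exact ih _

lemma fold_reverse (w : List (Fin ns)) : ∀ x, T.fold w.reverse (T.fold w x) = x := by
  induction w with
  | nil => intro x; rfl
  | cons i w ih =>
    intro x
    rw [List.reverse_cons, fold_append]
    have h : T.R i (T.fold w.reverse (T.fold w (T.R i x))) = x := by rw [ih, T.R_R]
    exact h

lemma fold_unf (w : List (Fin ns)) (k : Fin ns) : T.fold w (T.unf w k) = T.P k := by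
  induction w with
  | nil => rfl
  | cons i w ih =>
    rw [fold_cons, unf, T.R_R]
    exact ih

lemma an_fold (η : ℝ) (w : List (Fin ns)) : ∀ u a b,
    an η (T.rfold w u) (T.fold w a - T.fold w b) = an η u (a - b) := by
  induction w with
  | nil => intro u a b; rfl
  | cons i w ih =>
    intro u a b
    have h := ih (T.refl i u) (T.R i a) (T.R i b)
    rw [T.an_R] at h
    exact h

/-- crossing conditions with positivity of the source -/
def ChainP : List (Fin ns) → ℂ → ℂ → Prop
  | [], _, _ => True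
  | i :: w, x, z => 0 < T.lam i x ∧ T.Cross i x z ∧ ChainP w (T.R i x) (T.R i z)

/-- crossing conditions -/
def ChainC : List (Fin ns) → ℂ → ℂ → Prop
  | [], _, _ => True
  | i :: w, x, z => T.Cross i x z ∧ ChainC w (T.R i x) (T.R i z)

lemma pos_next' {i m : Fin ns} {x z : ℂ} (hx : 0 < T.lam i x) (hcr : T.Cross i x z)
    (hm : T.lam m (T.R i z) < 0) : 0 < T.lam m (T.R i x) := by
  obtain ⟨hz, hb⟩ := hcr
  have hmi : m ≠ i := by
    rintro rfl
    rw [T.lam_R] at hm
    linarith
  have h1 := T.bb_R i m x z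
  have h2 := hb m hmi
  simp only [bb] at h1
  rw [T.lam_R, T.lam_R] at h1
  by_contra h3
  rw [not_lt] at h3
  linarith only [mul_nonneg (sub_nonneg.2 h3) (le_of_lt (sub_pos.2 hz)), mul_pos (sub_pos.2 hx) (sub_pos.2 hm), h2, h1]

lemma chainP_of_vis (w : List (Fin ns)) : ∀ x z, T.Vis w x z →
    (∀ i, w.head? = some i → 0 < T.lam i x) → T.ChainP w x z := by
  induction w with
  | nil => intro x z _ _; trivial
  | cons i w ih =>
    intro x z hv hpos
    obtain ⟨hcr, hv1⟩ := hv
    have hx := hpos i rfl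
    refine ⟨hx, hcr, ih _ _ hv1 ?_⟩
    intro m hm
    cases w with
    | nil => simp at hm
    | cons m' w' =>
      simp only [List.head?_cons, Option.some.injEq] at hm
      subst hm
      exact T.pos_next' hx hcr hv1.1.1

lemma chainC_append (v : List (Fin ns)) (i : Fin ns) : ∀ p y, T.ChainC v p y →
    T.Cross i (T.fold v p) (T.fold v y) → T.ChainC (v ++ [i]) p y := by
  induction v with
  | nil => intro p y _ h; exact ⟨h, trivial⟩
  | cons j v ih =>
    intro p y h1 h2
    exact ⟨h1.1, ih _ _ h1.2 h2⟩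

lemma chainC_reverse (w : List (Fin ns)) : ∀ x z, T.ChainP w x z →
    T.ChainC w.reverse (T.fold w z) (T.fold w x) := by
  induction w with
  | nil => intro x z _; trivial
  | cons i w ih =>
    intro x z h
    obtain ⟨hx, hcr, hc⟩ := h
    rw [List.reverse_cons]
    apply T.chainC_append _ _ _ _ (ih _ _ hc)
    rw [fold_reverse, fold_reverse]
    refine (T.cross_iff _ _ _).2 ⟨?_, fun j hj => ?_⟩
    · rw [T.lam_R]; linarith
    · have h1 := T.bb_R i j z x
      have h2 := hcr.2 j hj
      simp only [bb] at h1 ⊢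
      linarith only [h1, h2]

/-- seen from the vertex `p` -/
def VisR (v : List (Fin ns)) (p y : ℂ) : Prop := T.ChainC v p y ∧ T.fold v y ∈ T.table

lemma visR_unique (v : List (Fin ns)) : ∀ (v' : List (Fin ns)) (p y : ℂ), T.VisR v p y →
    T.VisR v' p y → v = v' := by
  induction v with
  | nil =>
    intro v' p y h h'
    cases v' with
    | nil => rfl
    | cons i v' =>
      exfalso
      have h1 := (T.mem_table_iff y).1 h.2 i
      have h2 := h'.1.1.1
      linarith
  | cons i v ih =>
    intro v' p y h h'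
    cases v' with
    | nil =>
      exfalso
      have h1 := (T.mem_table_iff y).1 h'.2 i
      have h2 := h.1.1.1
      linarith
    | cons m v' =>
      have him : i = m := by
        by_contra hne
        have h1 := h.1.1.2 m (Ne.symm hne)
        have h2 := h'.1.1.2 i hne
        linarith
      subst him
      rw [ih v' (T.R i p) (T.R i y) ⟨h.1.2, h.2⟩ ⟨h'.1.2, h'.2⟩]

lemma measurableSet_chainC (w : List (Fin ns)) : ∀ p, MeasurableSet {y | T.ChainC w p y} := by
  induction w with
  | nil =>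
    intro p
    have : {y : ℂ | T.ChainC [] p y} = univ := by
      ext y
      simp only [ChainC, ofPred_true, mem_univ]
    rw [this]
    exact MeasurableSet.univ
  | cons i w ih =>
    intro p
    have h1 : {y | T.ChainC (i :: w) p y} =
        ({y | T.lam i y < 0} ∩ ⋂ j, ⋂ (_ : j ≠ i),
          {y | 0 < T.lam i p * T.lam j y - T.lam j p * T.lam i y}) ∩
        (T.R i) ⁻¹' {y | T.ChainC w (T.R i p) y} := by
      ext y
      simp only [ChainC, Cross, mem_ofPred_eq, mem_inter_iff, mem_iInter, mem_preimage]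
    rw [h1]
    apply MeasurableSet.inter
    · apply MeasurableSet.inter
      · exact (isOpen_lt (T.continuous_lam i) continuous_const).measurableSet
      · apply MeasurableSet.iInter
        intro j
        apply MeasurableSet.iInter
        intro _
        apply (isOpen_lt continuous_const _).measurableSet
        exact (continuous_const.mul (T.continuous_lam j)).sub
          (continuous_const.mul (T.continuous_lam i))
    · exact (T.continuous_R i).measurable (ih (T.R i p))

lemma continuous_fold (w : List (Fin ns)) : Continuous (T.fold w) := by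
  induction w with
  | nil => exact continuous_id
  | cons i w ih => exact ih.comp (T.continuous_R i)

lemma measurePreserving_fold (w : List (Fin ns)) :
    MeasurePreserving (fun q : ℂ × ℂ => (T.fold w q.1, T.rfold w q.2))
      (volume.prod nu) (volume.prod nu) := by
  induction w with
  | nil => exact MeasurePreserving.id _
  | cons i w ih =>
    exact ih.comp ((T.measurePreserving_R i).prod (T.measurePreserving_refl i))

/-- the region of the plane times directions close to the vertex -/
def nearV (η s : ℝ) (k : Fin ns) : Set (ℂ × ℂ) := {q | an η q.2 (T.P k - q.1) < s}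

lemma measurableSet_nearV (η s : ℝ) (k : Fin ns) : MeasurableSet (T.nearV η s k) :=
  measurableSet_lt (measurable_an η (T.P k)) measurable_const

lemma volume_slice {η s : ℝ} (hη : 0 < η) (hs : 0 < s) (c : ℂ) {u : ℂ} (hu : ‖u‖ = 1) :
    volume {y : ℂ | an η u (c - y) < s} ≤ ENNReal.ofReal (4 * s ^ 2) := by
  have hu' : (starRingEnd ℂ) u ∈ Submonoid.unitSphere ℂ := by
    rw [Submonoid.unitSphere]
    simp only [Submonoid.mem_mk, Subsemigroup.mem_mk, mem_sphere_iff_norm, sub_zero, RCLike.norm_conj, hu]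
  have hmp : MeasurePreserving (fun y : ℂ => (starRingEnd ℂ) u * (c - y)) volume volume :=
    (rotation (⟨(starRingEnd ℂ) u, hu'⟩ : Circle)).measurePreserving.comp
      (Measure.measurePreserving_sub_left volume c)
  have hbox : MeasurableSet ((Ioo (-(s / η)) (s / η)) ×ℂ (Ioo (-(s * η)) (s * η))) :=
    (Complex.measurable_re measurableSet_Ioo).inter (Complex.measurable_im measurableSet_Ioo)
  have hsub : {y : ℂ | an η u (c - y) < s} ⊆ (fun y : ℂ => (starRingEnd ℂ) u * (c - y)) ⁻¹'
      ((Ioo (-(s / η)) (s / η)) ×ℂ (Ioo (-(s * η)) (s * η))) := by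
    intro y hy
    have hy' : |cr (c - y) u| / η + η * |dt (c - y) u| < s := hy
    have h1 : |cr (c - y) u| / η < s := by
      have : 0 ≤ η * |dt (c - y) u| := by (clear * - hη; positivity)
      linarith
    have h2 : η * |dt (c - y) u| < s := by
      have : 0 ≤ |cr (c - y) u| / η := by (clear * - hη; positivity)
      linarith only [hy', this]
    rw [div_lt_iff₀ hη] at h1
    have h3 : |dt (c - y) u| < s / η := by
      rw [lt_div_iff₀ hη]; linarith only [h2]
    rw [abs_lt] at h1 h3
    rw [mem_preimage, Complex.mem_reProdIm]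
    have e1 : ((starRingEnd ℂ) u * (c - y)).re = dt (c - y) u := by
      simp only [dt, Complex.mul_re, Complex.conj_re, Complex.conj_im]
      ring
    have e2 : ((starRingEnd ℂ) u * (c - y)).im = - cr (c - y) u := by
      simp only [cr, Complex.mul_im, Complex.conj_re, Complex.conj_im]
      ring
    rw [e1, e2]
    refine ⟨⟨by linarith only [h3], h3.2⟩, ⟨by linarith only [h1], by linarith only [h1]⟩⟩
  calc volume {y : ℂ | an η u (c - y) < s}
      ≤ volume ((fun y : ℂ => (starRingEnd ℂ) u * (c - y)) ⁻¹'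
        ((Ioo (-(s / η)) (s / η)) ×ℂ (Ioo (-(s * η)) (s * η)))) := measure_mono hsub
    _ = volume ((Ioo (-(s / η)) (s / η)) ×ℂ (Ioo (-(s * η)) (s * η))) :=
        hmp.measure_preimage hbox.nullMeasurableSet
    _ = ENNReal.ofReal (4 * s ^ 2) := by
        have h := Complex.volume_preserving_equiv_real_prod.measure_preimage
          ((measurableSet_Ioo.prod measurableSet_Ioo).nullMeasurableSet (μ := volume)
            (s := (Ioo (-(s / η)) (s / η)) ×ˢ (Ioo (-(s * η)) (s * η))))
        have e : Complex.measurableEquivRealProd ⁻¹'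
            ((Ioo (-(s / η)) (s / η)) ×ˢ (Ioo (-(s * η)) (s * η))) =
            ((Ioo (-(s / η)) (s / η)) ×ℂ (Ioo (-(s * η)) (s * η))) := by
          ext z
          simp only [Complex.measurableEquivRealProd, Homeomorph.toMeasurableEquiv_coe, ContinuousLinearEquiv.coe_toHomeomorph, mem_preimage, Complex.equivRealProdCLM_apply, mem_prod, mem_Ioo, Complex.mem_reProdIm]
        rw [e] at h
        rw [h, Measure.volume_eq_prod, Measure.prod_prod, Real.volume_Ioo, Real.volume_Ioo,
          ← ENNReal.ofReal_mul (by have := div_pos hs hη; linarith only [this])]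
        congr 1
        field_simp
        ring

lemma measure_nearV {η s : ℝ} (hη : 0 < η) (hs : 0 < s) (k : Fin ns) :
    (volume.prod nu) (T.nearV η s k) ≤ ENNReal.ofReal (4 * s ^ 2) := by
  rw [Measure.prod_apply_symm (T.measurableSet_nearV η s k)]
  calc ∫⁻ u, volume ((fun x => (x, u)) ⁻¹' T.nearV η s k) ∂nu
      ≤ ∫⁻ _, ENNReal.ofReal (4 * s ^ 2) ∂nu := by
        apply lintegral_mono_ae
        filter_upwards [ae_norm] with u hu
        exact volume_slice hη hs (T.P k) hu
    _ = ENNReal.ofReal (4 * s ^ 2) := by simp only [Nat.ofNat_nonneg, ENNReal.ofReal_mul, ENNReal.ofReal_ofNat, lintegral_const, measure_univ, mul_one]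

/-- the pieces seen from the vertex -/
def pieceB (η s : ℝ) (k : Fin ns) (v : List (Fin ns)) : Set (ℂ × ℂ) :=
  {q | T.VisR v (T.P k) q.1} ∩ T.nearV η s k

lemma measurableSet_pieceB (η s : ℝ) (k : Fin ns) (v : List (Fin ns)) :
    MeasurableSet (T.pieceB η s k v) := by
  apply MeasurableSet.inter _ (T.measurableSet_nearV η s k)
  have h : MeasurableSet {y | T.VisR v (T.P k) y} :=
    (T.measurableSet_chainC v (T.P k)).inter
      ((T.continuous_fold v).measurable T.isOpen_table.measurableSet)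
  exact measurable_fst h

lemma disjoint_pieceB (η s : ℝ) (k : Fin ns) :
    Pairwise (Function.onFun Disjoint (T.pieceB η s k)) := by
  intro v v' hne
  rw [Function.onFun, Set.disjoint_left]
  intro q h1 h2
  exact hne (T.visR_unique v v' _ _ h1.1 h2.1)

/-- the pieces seen from the table -/
def pieceA (η s : ℝ) (k : Fin ns) (w : List (Fin ns)) : Set (ℂ × ℂ) :=
  {q | q.1 ∈ T.table ∧ T.Vis w q.1 (T.unf w k) ∧ an η q.2 (T.unf w k - q.1) < s}

lemma measure_pieceA_le (η s : ℝ) (k : Fin ns) (w : List (Fin ns)) :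
    (volume.prod nu) (T.pieceA η s k w) ≤ (volume.prod nu) (T.pieceB η s k w.reverse) := by
  rw [← (T.measurePreserving_fold w).measure_preimage
    (T.measurableSet_pieceB η s k w.reverse).nullMeasurableSet]
  apply measure_mono
  rintro ⟨x, u⟩ ⟨hx, hv, ha⟩
  have hx' := (T.mem_table_iff x).1 hx
  have h1 := T.chainC_reverse w x (T.unf w k) (T.chainP_of_vis w _ _ hv (fun i _ => hx' i))
  rw [fold_unf] at h1
  refine ⟨⟨h1, ?_⟩, ?_⟩
  · simp only [fold_reverse]
    exact hx
  · have h2 := T.an_fold η w u (T.unf w k) x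
    rw [fold_unf] at h2
    simp only [nearV, mem_ofPred_eq]
    rw [h2]
    exact ha

/-- (B4) any constant will do -/
lemma measure_D_lt : ∃ C : ℝ, 0 < C ∧ ∀ η : ℝ, 0 < η → ∀ s : ℝ, 0 < s →
    ((volume.restrict T.table).prod nu) {p | T.D η p < s} ≤ ENNReal.ofReal (C * s ^ 2) := by
  refine ⟨4 * ns, by have := NeZero.pos ns; positivity, fun η hη s hs => ?_⟩
  have hmeas : MeasurableSet {p : ℂ × ℂ | T.D η p < s} :=
    measurableSet_lt (T.measurable_D η) measurable_const
  have h1 : ((volume.restrict T.table).prod nu) {p | T.D η p < s} =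
      (volume.prod nu) ({p | T.D η p < s} ∩ T.table ×ˢ univ) := by
    conv_lhs => rw [← Measure.restrict_univ (μ := nu)]
    rw [Measure.prod_restrict, Measure.restrict_apply hmeas]
  have hsub : {p | T.D η p < s} ∩ T.table ×ˢ univ ⊆ ⋃ k, ⋃ w, T.pieceA η s k w := by
    rintro ⟨x, u⟩ ⟨hD, hx, -⟩
    obtain ⟨w, z, hv, hlt⟩ := T.exists_vis_of_D_lt (x, u) hD
    obtain ⟨k, rfl⟩ := T.exists_unf w _ _ hv
    simp only [mem_iUnion]
    exact ⟨k, w, hx, hv, hlt⟩
  have hk : ∀ k, (volume.prod nu) (⋃ w, T.pieceA η s k w) ≤ ENNReal.ofReal (4 * s ^ 2) := by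
    intro k
    calc (volume.prod nu) (⋃ w, T.pieceA η s k w)
        ≤ ∑' w, (volume.prod nu) (T.pieceA η s k w) := measure_iUnion_le _
      _ ≤ ∑' w, (volume.prod nu) (T.pieceB η s k w.reverse) :=
          ENNReal.tsum_le_tsum fun w => T.measure_pieceA_le η s k w
      _ = ∑' v, (volume.prod nu) (T.pieceB η s k v) :=
          (Function.Involutive.toPerm List.reverse List.reverse_involutive).tsum_eq
            (fun v => (volume.prod nu) (T.pieceB η s k v))
      _ = (volume.prod nu) (⋃ v, T.pieceB η s k v) :=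
          (measure_iUnion (T.disjoint_pieceB η s k) (T.measurableSet_pieceB η s k)).symm
      _ ≤ (volume.prod nu) (T.nearV η s k) := by
          apply measure_mono
          intro q hq
          obtain ⟨v, hv⟩ := mem_iUnion.1 hq
          exact hv.2
      _ ≤ ENNReal.ofReal (4 * s ^ 2) := T.measure_nearV hη hs k
  rw [h1]
  calc (volume.prod nu) ({p | T.D η p < s} ∩ T.table ×ˢ univ)
      ≤ (volume.prod nu) (⋃ k, ⋃ w, T.pieceA η s k w) := measure_mono hsub
    _ ≤ ∑' k, (volume.prod nu) (⋃ w, T.pieceA η s k w) := measure_iUnion_le _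
    _ ≤ ∑' _ : Fin ns, ENNReal.ofReal (4 * s ^ 2) := ENNReal.tsum_le_tsum hk
    _ = ENNReal.ofReal (4 * ns * s ^ 2) := by
        rw [tsum_fintype, Finset.sum_const, Finset.card_univ, Fintype.card_fin,
          ← ENNReal.ofReal_nsmul]
        congr 1
        rw [nsmul_eq_mul]
        ring

end ConvexPolygon

end Vale.Agent.P099C
end
end

section

section

open MeasureTheory Set Filter Topology

namespace Vale.Agent.P099C
open Vale.Agent.P099 (nu FlowErgodic FlowWeakMixing)

/-! ### scales and truncations -/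

/-- the scales -/
noncomputable def sj (δ : ℝ) (j : ℕ) : ℝ := δ * (1 / 8) ^ j

/-- truncation to `[0,1]` -/
noncomputable def cl (t : ℝ) : ℝ := max 0 (min 1 t)

/-- logarithmic cut-off profile -/
noncomputable def cN (N : ℕ) (δ r : ℝ) : ℝ := (∑ j ∈ Finset.range N, cl (r / sj δ j - 1)) / N

open Classical in
/-- the corresponding weight -/
noncomputable def wN (N : ℕ) (δ r : ℝ) : ℝ :=
  (∑ j ∈ Finset.range N, if sj δ j / 2 ≤ r ∧ r ≤ 3 * sj δ j then (sj δ j)⁻¹ else 0) / N

lemma sj_pos {δ : ℝ} (hδ : 0 < δ) (j : ℕ) : 0 < sj δ j := by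
  unfold sj; positivity

lemma sj_le {δ : ℝ} (hδ : 0 < δ) {i j : ℕ} (h : i ≤ j) : sj δ j ≤ sj δ i := by
  unfold sj
  apply mul_le_mul_of_nonneg_left _ hδ.le
  exact pow_le_pow_of_le_one (by norm_num) (by norm_num) h

lemma sj_lt {δ : ℝ} (hδ : 0 < δ) {i j : ℕ} (h : i < j) : 8 * sj δ j ≤ sj δ i := by
  have h1 : sj δ j ≤ sj δ (i + 1) := sj_le hδ h
  have h2 : 8 * sj δ (i + 1) = sj δ i := by
    unfold sj; rw [pow_succ]; ring
  linarith only [h1, h2]

lemma sj_zero (δ : ℝ) : sj δ 0 = δ := by simp [sj]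

lemma cl_nonneg (t : ℝ) : 0 ≤ cl t := le_max_left _ _

lemma cl_le_one (t : ℝ) : cl t ≤ 1 := max_le (by norm_num) (min_le_left _ _)

lemma cl_eq_one {t : ℝ} (h : 1 ≤ t) : cl t = 1 := by
  unfold cl; rw [min_eq_left h]; simp only [zero_le_one, sup_of_le_right]

lemma cl_eq_zero {t : ℝ} (h : t ≤ 0) : cl t = 0 := by
  unfold cl; exact max_eq_left ((min_le_right _ _).trans h)

lemma cl_lip (s t : ℝ) : |cl s - cl t| ≤ |s - t| := by
  unfold cl
  calc |max 0 (min 1 s) - max 0 (min 1 t)| ≤ max |(0:ℝ) - 0| |min 1 s - min 1 t| :=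
        abs_max_sub_max_le_max _ _ _ _
    _ ≤ |min 1 s - min 1 t| := by simp only [sub_self, abs_zero, abs_nonneg, sup_of_le_right, Std.le_refl]
    _ ≤ max |(1:ℝ) - 1| |s - t| := abs_min_sub_min_le_max _ _ _ _
    _ ≤ |s - t| := by simp only [sub_self, abs_zero, abs_nonneg, sup_of_le_right, Std.le_refl]

lemma continuous_cl : Continuous cl := by
  unfold cl; fun_prop

lemma cN_nonneg (N : ℕ) (δ r : ℝ) : 0 ≤ cN N δ r := by
  unfold cN
  exact div_nonneg (Finset.sum_nonneg fun j _ => cl_nonneg _) (Nat.cast_nonneg _)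

lemma cN_le_one (N : ℕ) (δ r : ℝ) : cN N δ r ≤ 1 := by
  unfold cN
  apply div_le_one_of_le₀ _ (Nat.cast_nonneg _)
  calc ∑ j ∈ Finset.range N, cl (r / sj δ j - 1) ≤ ∑ j ∈ Finset.range N, (1:ℝ) :=
        Finset.sum_le_sum fun j _ => cl_le_one _
    _ = N := by simp

lemma cN_eq_one {N : ℕ} (hN : 0 < N) {δ r : ℝ} (hδ : 0 < δ) (h : 2 * δ ≤ r) : cN N δ r = 1 := by
  unfold cN
  have : ∀ j ∈ Finset.range N, cl (r / sj δ j - 1) = 1 := by
    intro j _
    apply cl_eq_one
    have h1 := sj_pos hδ j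
    have h2 : sj δ j ≤ δ := by simpa [sj_zero] using sj_le hδ (Nat.zero_le j)
    have : 2 ≤ r / sj δ j := by
      rw [le_div_iff₀ h1]; linarith only [h, h2]
    linarith only [this]
  rw [Finset.sum_congr rfl this]
  have hN' : (N:ℝ) ≠ 0 := by exact_mod_cast hN.ne'
  simp only [Finset.sum_const, Finset.card_range, nsmul_eq_mul, mul_one, ne_eq, hN', not_false_eq_true, div_self]

lemma cN_eq_zero {N : ℕ} {δ r : ℝ} (hδ : 0 < δ) (h : r ≤ sj δ N) : cN N δ r = 0 := by
  unfold cN
  have : ∀ j ∈ Finset.range N, cl (r / sj δ j - 1) = 0 := by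
    intro j hj
    apply cl_eq_zero
    have h1 := sj_pos hδ j
    have h2 : sj δ N ≤ sj δ j := sj_le hδ (Finset.mem_range.1 hj).le
    have : r / sj δ j ≤ 1 := by
      rw [div_le_one h1]; linarith
    linarith only [this]
  rw [Finset.sum_congr rfl this]
  simp

lemma wN_nonneg {N : ℕ} {δ : ℝ} (hδ : 0 < δ) (r : ℝ) : 0 ≤ wN N δ r := by
  unfold wN
  refine div_nonneg (Finset.sum_nonneg fun j _ => ?_) (Nat.cast_nonneg _)
  split
  · exact inv_nonneg.2 (sj_pos hδ j).le
  · exact le_rfl

/-- the weight controls the increments of the profile -/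
lemma cN_lip {N : ℕ} {δ r r' : ℝ} (hδ : 0 < δ) (h : |r' - r| ≤ sj δ N / 2) :
    |cN N δ r' - cN N δ r| ≤ |r' - r| * wN N δ r := by
  unfold cN wN
  rw [← sub_div, abs_div, Nat.abs_cast, ← mul_div_assoc]
  apply div_le_div_of_nonneg_right _ (Nat.cast_nonneg _)
  rw [← Finset.sum_sub_distrib, Finset.mul_sum]
  apply (Finset.abs_sum_le_sum_abs _ _).trans
  apply Finset.sum_le_sum
  intro j hj
  have h1 := sj_pos hδ j
  have h2 : sj δ N ≤ sj δ j := sj_le hδ (Finset.mem_range.1 hj).le
  have h3 : |r' - r| ≤ sj δ j / 2 := by linarith only [h2, h]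
  rw [abs_le] at h3
  split
  · calc |cl (r' / sj δ j - 1) - cl (r / sj δ j - 1)| ≤ |(r' / sj δ j - 1) - (r / sj δ j - 1)| :=
          cl_lip _ _
      _ = |(r' - r) * (sj δ j)⁻¹| := by congr 1; field_simp; ring
      _ = |r' - r| * (sj δ j)⁻¹ := by rw [abs_mul, abs_of_pos (inv_pos.2 h1)]
  · rename_i hn
    rw [not_and_or, not_le, not_le] at hn
    rcases hn with hn | hn
    · rw [cl_eq_zero, cl_eq_zero]
      · simp
      · have : r / sj δ j ≤ 1 := by
          rw [div_le_one h1]; linarith only [hn, h1]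
        linarith only [this]
      · have : r' / sj δ j ≤ 1 := by
          rw [div_le_one h1]; linarith only [h3, hn]
        linarith only [this]
    · rw [cl_eq_one, cl_eq_one]
      · simp
      · have : 2 ≤ r / sj δ j := by
          rw [le_div_iff₀ h1]; linarith only [h1, hn]
        linarith only [this]
      · have : 2 ≤ r' / sj δ j := by
          rw [le_div_iff₀ h1]; linarith only [h3, hn]
        linarith only [this]

open Classical in
lemma wN_sq {N : ℕ} {δ : ℝ} (hδ : 0 < δ) (r : ℝ) :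
    wN N δ r ^ 2 ≤
      (∑ j ∈ Finset.range N, if r < 4 * sj δ j then ((sj δ j)⁻¹) ^ 2 else 0) / N ^ 2 := by
  unfold wN
  rw [div_pow]
  apply div_le_div_of_nonneg_right _ (by positivity)
  rw [sq, Finset.sum_mul_sum]
  apply Finset.sum_le_sum
  intro i hi
  have hi1 := sj_pos hδ i
  have : ∀ j ∈ Finset.range N, j ≠ i →
      (if sj δ i / 2 ≤ r ∧ r ≤ 3 * sj δ i then (sj δ i)⁻¹ else 0) *
      (if sj δ j / 2 ≤ r ∧ r ≤ 3 * sj δ j then (sj δ j)⁻¹ else 0) = 0 := by
    intro j hj hij
    have hj1 := sj_pos hδ j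
    by_cases h1 : sj δ i / 2 ≤ r ∧ r ≤ 3 * sj δ i
    · by_cases h2 : sj δ j / 2 ≤ r ∧ r ≤ 3 * sj δ j
      · exfalso
        rcases lt_or_gt_of_ne hij with h | h
        · have := sj_lt hδ h
          linarith only [hi1, h1, h2, this]
        · have := sj_lt hδ h
          linarith only [h2.2, h1.1, this, hj1]
      · rw [if_neg h2, mul_zero]
    · rw [if_neg h1, zero_mul]
  rw [Finset.sum_eq_single i this (fun h => absurd hi h)]
  by_cases h1 : sj δ i / 2 ≤ r ∧ r ≤ 3 * sj δ i
  · rw [if_pos h1, if_pos (by linarith only [hi1, h1]), sq]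
  · rw [if_neg h1]
    simp only [mul_zero, inv_pow, ge_iff_le]
    split <;> positivity

lemma wN_le {N : ℕ} {δ : ℝ} (hδ : 0 < δ) (r : ℝ) : wN N δ r ≤ (sj δ N)⁻¹ := by
  unfold wN
  rcases Nat.eq_zero_or_pos N with rfl | hN
  · simp only [Finset.range_zero, Finset.sum_empty, CharP.cast_eq_zero, div_zero, inv_nonneg]; exact (sj_pos hδ 0).le
  have hN' : (0:ℝ) < N := by exact_mod_cast hN
  rw [div_le_iff₀ hN']
  calc (∑ j ∈ Finset.range N, if sj δ j / 2 ≤ r ∧ r ≤ 3 * sj δ j then (sj δ j)⁻¹ else 0)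
      ≤ ∑ j ∈ Finset.range N, (sj δ N)⁻¹ := by
        apply Finset.sum_le_sum
        intro j hj
        have h1 := sj_pos hδ j
        have h2 := sj_pos hδ N
        have h3 : sj δ N ≤ sj δ j := sj_le hδ (Finset.mem_range.1 hj).le
        split
        · (clear * - h2 h3; gcongr)
        · positivity
    _ = (sj δ N)⁻¹ * N := by simp only [Finset.sum_const, Finset.card_range, nsmul_eq_mul]; ring

lemma measurable_cN (N : ℕ) (δ : ℝ) : Measurable (cN N δ) := by
  unfold cN
  apply Measurable.div_const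
  apply Finset.measurable_sum
  intro j _
  exact continuous_cl.measurable.comp (by fun_prop)

lemma measurable_wN (N : ℕ) (δ : ℝ) : Measurable (wN N δ) := by
  unfold wN
  apply Measurable.div_const
  apply Finset.measurable_sum
  intro j _
  apply Measurable.ite
  · exact (measurableSet_le measurable_const measurable_id).inter
      (measurableSet_le measurable_id measurable_const)
  · exact measurable_const
  · exact measurable_const

namespace ConvexPolygon

variable {ns : ℕ} [NeZero ns] (T : ConvexPolygon ns)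

/-- (B1), free flight -/
lemma D_free {η : ℝ} (hη : 0 < η) {x u : ℂ} (hu : ‖u‖ = 1) {t : ℝ} (hx : x ∈ T.table)
    (hxt : x + t • u ∈ T.table) : |T.D η (x + t • u, u) - T.D η (x, u)| ≤ η * |t| := by
  have := T.D_lip hη u hx hxt
  rwa [add_sub_cancel_left, an_self hu] at this

lemma cross_of_E {x u : ℂ} {t : ℝ} {i : Fin ns} (hx : x ∈ T.table)
    (hE : T.E i (x, u)) (ht : T.hitT i (x, u) < t) : T.Cross i x (x + t • u) := by
  obtain ⟨h1, h2⟩ := hE
  have h0 := (T.mem_table_iff x).1 hx
  simp only [hitT] at ht h2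
  have h1' : T.ell i u ≠ 0 := ne_of_lt h1
  have h3 : T.lam i x = - (-T.lam i x / T.ell i u) * T.ell i u := by
    (clear * - h1'; field_simp)
  set τ := -T.lam i x / T.ell i u with hτ
  have hτ0 : 0 < τ := by
    rw [hτ]; exact div_pos_of_neg_of_neg (by linarith only [h0 i]) h1
  have h4 : 0 < t := hτ0.trans ht
  simp only [lam_add_smul] at h2
  refine ⟨?_, ?_⟩
  · rw [lam_add_smul]
    linarith [mul_pos (sub_pos.2 h1) (sub_pos.2 ht), h3]
  · intro j hj
    have h5 := h2 j hj
    rw [lam_add_smul, lam_add_smul]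
    have h6 : T.lam i x * (T.lam j x + t * T.ell j u) - T.lam j x * (T.lam i x + t * T.ell i u) =
        t * (- T.ell i u) * (T.lam j x + τ * T.ell j u) := by
      have : T.lam i x * (T.lam j x + t * T.ell j u) - T.lam j x * (T.lam i x + t * T.ell i u) =
        t * (T.lam i x * T.ell j u - T.lam j x * T.ell i u) := by ring
      rw [this, h3]; ring
    rw [h6]
    exact mul_pos (mul_pos h4 (by linarith only [h1])) h5

/-- (B1), one collision -/
lemma D_bounce {η : ℝ} (hη : 0 < η) {x u : ℂ} (hu : ‖u‖ = 1) {t : ℝ} {i : Fin ns}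
    (hx : x ∈ T.table) (hE : T.E i (x, u)) (ht : T.hitT i (x, u) < t)
    (hxt : T.R i (x + t • u) ∈ T.table) :
    |T.D η (T.R i (x + t • u), T.refl i u) - T.D η (x, u)| ≤ η * |t| := by
  have h := T.cross_of_E hx hE ht
  have := T.D_cross hη u hx hxt (i := i) (by rwa [R_R])
  rwa [R_R, add_sub_cancel_left, an_self hu] at this

/-- the cut-off function -/
noncomputable def chi (N : ℕ) (δ η : ℝ) (p : ℂ × ℂ) : ℝ := cN N δ (T.D η p)

/-- its weight -/
noncomputable def wt (N : ℕ) (δ η : ℝ) (p : ℂ × ℂ) : ℝ := wN N δ (T.D η p)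

lemma measurable_chi (N : ℕ) (δ η : ℝ) : Measurable (T.chi N δ η) :=
  (measurable_cN N δ).comp (T.measurable_D η)

lemma measurable_wt (N : ℕ) (δ η : ℝ) : Measurable (T.wt N δ η) :=
  (measurable_wN N δ).comp (T.measurable_D η)

lemma chi_nonneg (N : ℕ) (δ η : ℝ) (p : ℂ × ℂ) : 0 ≤ T.chi N δ η p := cN_nonneg _ _ _

lemma chi_le_one (N : ℕ) (δ η : ℝ) (p : ℂ × ℂ) : T.chi N δ η p ≤ 1 := cN_le_one _ _ _

lemma wt_nonneg (N : ℕ) {δ : ℝ} (hδ : 0 < δ) (η : ℝ) (p : ℂ × ℂ) : 0 ≤ T.wt N δ η p :=
  wN_nonneg hδ _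

lemma wt_le (N : ℕ) {δ : ℝ} (hδ : 0 < δ) (η : ℝ) (p : ℂ × ℂ) : T.wt N δ η p ≤ (sj δ N)⁻¹ :=
  wN_le hδ _

/-- the cut-off vanishes near the vertices -/
lemma chi_eq_zero (N : ℕ) {δ η : ℝ} (hδ : 0 < δ) (hη : 0 < η) (hη1 : η ≤ 1) {x u : ℂ}
    (hu : ‖u‖ = 1) (k : Fin ns) (h : ‖x - T.P k‖ < sj δ N * η / 2) :
    T.chi N δ η (x, u) = 0 := by
  apply cN_eq_zero hδ
  have h1 := T.D_le hη (x, u) k
  have h2 := an_le hη hu (T.P k - x)
  have h3 : ‖T.P k - x‖ = ‖x - T.P k‖ := norm_sub_rev _ _
  simp only at h1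
  rw [h3] at h2
  have h4 : ‖x - T.P k‖ / η + η * ‖x - T.P k‖ ≤ 2 * (‖x - T.P k‖ / η) := by
    have h5 : η * ‖x - T.P k‖ ≤ ‖x - T.P k‖ / η := by
      rw [le_div_iff₀ hη]
      have h6 : η * η ≤ 1 := by nlinarith only [hη1, hη]
      linarith only [mul_le_mul_of_nonneg_left h6 (norm_nonneg (x - T.P k))]
    linarith only [h5]
  have h6 : 2 * (‖x - T.P k‖ / η) ≤ sj δ N := by
    rw [← mul_div_assoc, div_le_iff₀ hη]; linarith only [h]
  linarith only [h6, h4, h2, h1]

/-- the difference of the cut-off at two phase points -/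
lemma chi_sub_le (N : ℕ) {δ η r : ℝ} (hδ : 0 < δ) {p q : ℂ × ℂ} (h : |T.D η q - T.D η p| ≤ r)
    (hr : r ≤ sj δ N / 2) : |T.chi N δ η q - T.chi N δ η p| ≤ r * T.wt N δ η p :=
  (cN_lip hδ (h.trans hr)).trans (mul_le_mul_of_nonneg_right h (wN_nonneg hδ _))

/-- the measure of the set where the cut-off is active -/
lemma exists_chi_const : ∃ C : ℝ, 0 < C ∧ ∀ N : ℕ, 0 < N → ∀ δ : ℝ, 0 < δ → ∀ η : ℝ, 0 < η →
    (∫ p, T.wt N δ η p ^ 2 ∂((volume.restrict T.table).prod nu)) ≤ C / N ∧
    (((volume.restrict T.table).prod nu) {p | T.chi N δ η p < 1}).toReal ≤ C * δ ^ 2 := by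
  obtain ⟨C, hC, h⟩ := T.measure_D_lt
  refine ⟨16 * C, by positivity, ?_⟩
  intro N hN δ hδ η hη
  have hN' : (0:ℝ) < N := by exact_mod_cast hN
  have htop : ∀ s : Set (ℂ × ℂ), ((volume.restrict T.table).prod nu) s ≠ ⊤ := by
    intro s
    have : IsFiniteMeasure (volume.restrict T.table) :=
      ⟨by simpa only [MeasurableSet.univ, Measure.restrict_apply, univ_inter] using T.volume_table_lt_top⟩
    exact measure_ne_top _ _
  have hreal : ∀ s : ℝ, 0 < s → (((volume.restrict T.table).prod nu) {p | T.D η p < s}).toReal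
      ≤ C * s ^ 2 := by
    intro s hs
    exact ENNReal.toReal_le_of_le_ofReal (by positivity) (h η hη s hs)
  constructor
  · classical
    have : IsFiniteMeasure (volume.restrict T.table) :=
      ⟨by simpa only [MeasurableSet.univ, Measure.restrict_apply, univ_inter] using T.volume_table_lt_top⟩
    have hm : ∀ s : ℝ, MeasurableSet {p : ℂ × ℂ | T.D η p < s} := fun s =>
      measurableSet_lt (T.measurable_D η) measurable_const
    have hint : ∀ j, Integrable (fun p : ℂ × ℂ => if T.D η p < 4 * sj δ j then ((sj δ j)⁻¹) ^ 2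
        else 0) ((volume.restrict T.table).prod nu) := by
      intro j
      have : (fun p : ℂ × ℂ => if T.D η p < 4 * sj δ j then ((sj δ j)⁻¹) ^ 2 else 0) =
        {p : ℂ × ℂ | T.D η p < 4 * sj δ j}.indicator (fun _ => ((sj δ j)⁻¹) ^ 2) := by
        ext p; simp [indicator]
      rw [this]
      exact (integrable_const _).indicator (hm _)
    calc (∫ p, T.wt N δ η p ^ 2 ∂((volume.restrict T.table).prod nu))
        ≤ ∫ p, (∑ j ∈ Finset.range N, if T.D η p < 4 * sj δ j then ((sj δ j)⁻¹) ^ 2 else 0) / N ^ 2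
          ∂((volume.restrict T.table).prod nu) := by
          apply integral_mono_of_nonneg
          · exact Eventually.of_forall fun p => sq_nonneg _
          · apply Integrable.div_const
            exact integrable_finsetSum _ fun j _ => hint j
          · exact Eventually.of_forall fun p => wN_sq hδ _
      _ = (∑ j ∈ Finset.range N, ∫ p, (if T.D η p < 4 * sj δ j then ((sj δ j)⁻¹) ^ 2 else 0)
          ∂((volume.restrict T.table).prod nu)) / N ^ 2 := by
          rw [integral_div, integral_finsetSum _ fun j _ => hint j]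
      _ ≤ (∑ j ∈ Finset.range N, 16 * C) / N ^ 2 := by
          apply div_le_div_of_nonneg_right _ (by positivity)
          apply Finset.sum_le_sum
          intro j _
          have hs := sj_pos hδ j
          have : (fun p : ℂ × ℂ => if T.D η p < 4 * sj δ j then ((sj δ j)⁻¹) ^ 2 else 0) =
            {p : ℂ × ℂ | T.D η p < 4 * sj δ j}.indicator (fun _ => ((sj δ j)⁻¹) ^ 2) := by
            ext p; simp [indicator]
          rw [this, integral_indicator (hm _), setIntegral_const, smul_eq_mul]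
          have h1 := hreal (4 * sj δ j) (by positivity)
          calc _ ≤ (C * (4 * sj δ j) ^ 2) * ((sj δ j)⁻¹) ^ 2 := by
                apply mul_le_mul_of_nonneg_right h1 (by positivity)
            _ = 16 * C := by field_simp; ring
      _ = 16 * C / N := by
          simp only [Finset.sum_const, Finset.card_range, nsmul_eq_mul]
          field_simp
  · have h1 := hreal (2 * δ) (by positivity)
    calc _ ≤ (((volume.restrict T.table).prod nu) {p | T.D η p < 2 * δ}).toReal := by
          apply ENNReal.toReal_mono (htop _)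
          apply measure_mono
          intro p hp
          simp only [mem_ofPred_eq] at hp ⊢
          by_contra hcon
          rw [not_lt] at hcon
          have := cN_eq_one hN hδ hcon
          simp only [chi] at hp
          linarith only [hp, this]
      _ ≤ C * (2 * δ) ^ 2 := h1
      _ ≤ 16 * C * δ ^ 2 := by linarith only [mul_nonneg (sq_nonneg (2 * δ : ℝ)) (le_of_lt (sub_pos.2 hC))]

/-- the cut-off restricted to unit directions -/
noncomputable def chi' (N : ℕ) (δ η : ℝ) (p : ℂ × ℂ) : ℝ :=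
  {p : ℂ × ℂ | ‖p.2‖ = 1}.indicator (T.chi N δ η) p

lemma chi'_eq {N : ℕ} {δ η : ℝ} {x u : ℂ} (hu : ‖u‖ = 1) :
    T.chi' N δ η (x, u) = T.chi N δ η (x, u) := by
  apply indicator_of_mem
  exact hu

lemma measurable_chi' (N : ℕ) (δ η : ℝ) : Measurable (T.chi' N δ η) := by
  apply (T.measurable_chi N δ η).indicator
  exact measurableSet_eq_fun (by fun_prop) measurable_const

lemma chi'_nonneg (N : ℕ) (δ η : ℝ) (p : ℂ × ℂ) : 0 ≤ T.chi' N δ η p :=
  indicator_nonneg (fun p _ => T.chi_nonneg N δ η p) p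

lemma chi'_le_one (N : ℕ) (δ η : ℝ) (p : ℂ × ℂ) : T.chi' N δ η p ≤ 1 := by
  unfold chi'
  by_cases h : p ∈ {p : ℂ × ℂ | ‖p.2‖ = 1}
  · rw [indicator_of_mem h]; exact T.chi_le_one N δ η p
  · rw [indicator_of_notMem h]; exact zero_le_one

lemma chi'_eq_zero (N : ℕ) {δ η : ℝ} (hδ : 0 < δ) (hη : 0 < η) (hη1 : η ≤ 1) {x u : ℂ}
    (k : Fin ns) (h : ‖x - T.P k‖ < sj δ N * η / 2) :
    T.chi' N δ η (x, u) = 0 := by
  by_cases hu : ‖u‖ = 1
  · rw [T.chi'_eq hu]; exact T.chi_eq_zero N hδ hη hη1 hu k h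
  · apply indicator_of_notMem
    exact hu

/-- Lipschitz property inside the table, in the form used for the gradient estimate -/
lemma chi'_lip (N : ℕ) {δ η : ℝ} (hδ : 0 < δ) (hη : 0 < η) (hη1 : η ≤ 1) {x y u : ℂ}
    (hu : ‖u‖ = 1) (hx : x ∈ T.table) (hy : y ∈ T.table) {ε : ℝ} (hε : ‖y - x‖ ≤ ε)
    (hε' : 4 * ε ≤ η * sj δ N) :
    |T.chi' N δ η (y, u) - T.chi' N δ η (x, u)| ≤ 2 * ε / η * T.wt N δ η (x, u) := by
  rw [T.chi'_eq hu, T.chi'_eq hu]
  have hε0 : 0 ≤ ε := (norm_nonneg _).trans hε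
  apply T.chi_sub_le N hδ
  · apply (T.D_lip hη u hx hy).trans ((an_le hη hu _).trans _)
    have h1 : η * ‖y - x‖ ≤ ‖y - x‖ / η := by
      rw [le_div_iff₀ hη]
      have h6 : η * η ≤ 1 := by nlinarith only [hη1, hη]
      linarith only [mul_le_mul_of_nonneg_left h6 (norm_nonneg (y - x))]
    calc ‖y - x‖ / η + η * ‖y - x‖ ≤ ‖y - x‖ / η + ‖y - x‖ / η := by linarith
      _ = 2 * ‖y - x‖ / η := by ring
      _ ≤ 2 * ε / η := by (clear * - hε hη; gcongr)
  · rw [div_le_iff₀ hη]; linarith only [hε']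

end ConvexPolygon

end Vale.Agent.P099C
end
end

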