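import Vale.Agent.P099.MathlibUsed
import Vale.Agent.P099.H504.CPI
attribute [-instance] ProperSMul.toContinuousSMul IsTopologicalTorsor.toContinuousSMul IdemSemiring.toCanonicallyOrderedAdd IdemSemiring.toMulLeftMono IdemSemiring.toMulRightMono AddQuantale.instAddLeftMono AddQuantale.instAddRightMono Quantale.instMulLeftMono Quantale.instMulRightMono FiniteDimensional.rclike_to_real IsScalarTower.complexToReal FiniteDimensional.complexToReal

set_option linter.all false

section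

section

open MeasureTheory Set Filter Topology

namespace Vale.Agent.P099C
open Vale.Agent.P099 (nu FlowErgodic FlowWeakMixing)

/-! ### almost everywhere convergence of mollifications -/

lemma exists_rho_bound : ∃ M : ℝ, 0 < M ∧ ∀ ε : ℝ, 0 < ε → ∀ z, rho ε z ≤ M * ε⁻¹ ^ 2 := by
  obtain ⟨h1, h2, h3, h4, h5⟩ := exists_rho.choose_spec
  have hcs : HasCompactSupport rho1 := by
    apply HasCompactSupport.of_support_subset_isCompact (isCompact_closedBall (0 : ℂ) 1)
    intro z hz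
    rw [Metric.mem_closedBall, dist_zero_right]
    by_contra hlt
    exact hz (h3 z (le_of_lt (not_le.1 hlt)))
  obtain ⟨C, hC⟩ := hcs.exists_bound_of_continuous h1.continuous
  refine ⟨|C| + 1, by (clear * -; positivity), fun ε hε z => ?_⟩
  unfold rho
  rw [mul_comm]
  apply mul_le_mul_of_nonneg_right _ (by positivity)
  have := hC ((ε⁻¹ : ℝ) • z)
  rw [Real.norm_eq_abs] at this
  calc rho1 ((ε⁻¹ : ℝ) • z) ≤ |rho1 ((ε⁻¹ : ℝ) • z)| := le_abs_self _
    _ ≤ C := this
    _ ≤ |C| + 1 := by linarith only [le_abs_self C]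

lemma ae_tendsto_mol1 {g : ℂ → ℝ} (hg : LocallyIntegrable g) :
    ∀ᵐ x : ℂ, Tendsto (fun ε : ℝ => ∫ y, rho ε (x - y) * g y) (𝓝[>] 0) (𝓝 (g x)) := by
  obtain ⟨M, hM0, hM⟩ := exists_rho_bound
  filter_upwards [(Besicovitch.vitaliFamily (volume : Measure ℂ)).ae_tendsto_average_norm_sub hg]
    with x h0
  have hlim := h0.comp (Besicovitch.tendsto_filterAt (volume : Measure ℂ) x)
  have key := tendsto_integral_smul_of_tendsto_average_norm_sub
    (μ := (volume : Measure ℂ)) (a := fun ε : ℝ => Metric.closedBall x ε) (l := 𝓝[>] 0)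
    (f := g) (c := g x) (g := fun ε y => rho ε (x - y))
    (M * volume.real (Metric.ball (0 : ℂ) 1)) hlim ?_ ?_ ?_ ?_
  · simpa only [smul_eq_mul] using key
  · filter_upwards with ε using hg.integrableOn_isCompact (isCompact_closedBall _ _)
  · refine (tendsto_const_nhds (x := (1 : ℝ))).congr' ?_
    filter_upwards [self_mem_nhdsWithin] with ε hε
    have h1 := integral_sub_left_eq_self (fun z => rho ε z) (volume : Measure ℂ) x
    rw [h1, integral_rho hε]
  · filter_upwards [self_mem_nhdsWithin] with ε hε y hy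
    rw [Metric.mem_closedBall]
    by_contra hlt
    apply hy
    apply rho_eq_zero hε
    rw [not_le, dist_comm, dist_eq_norm] at hlt
    exact hlt.le
  · filter_upwards [self_mem_nhdsWithin] with ε hε y
    have hε' : (0 : ℝ) < ε := hε
    rw [abs_of_nonneg (rho_nonneg _ _), Measure.addHaar_real_closedBall _ _ hε'.le,
      Complex.finrank_real_complex]
    have hv : 0 < volume.real (Metric.ball (0 : ℂ) 1) :=
      ENNReal.toReal_pos (Metric.measure_ball_pos _ _ one_pos).ne' measure_ball_lt_top.ne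
    have h2 : M * volume.real (Metric.ball (0 : ℂ) 1) / (ε ^ 2 * volume.real (Metric.ball (0 : ℂ) 1))
        = M * ε⁻¹ ^ 2 := by
      (clear * - hv hε' hM0; field_simp)
    rw [h2]
    exact hM ε hε' _

end Vale.Agent.P099C
end
end

section

section

open MeasureTheory Set Filter Topology

namespace Vale.Agent.P099C
open Vale.Agent.P099 (nu FlowErgodic FlowWeakMixing)

variable {Ω : Type} [MeasurableSpace Ω]

namespace ConvexPolygon

variable {ns : ℕ} [NeZero ns] (T : ConvexPolygon ns)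

/-- the oscillation of the extended regular part at scale `ε` -/
lemma osc_est {Φ : ℂ → ℂ × Ω → ℝ} {CU L r : ℝ} (hΦ : ∀ x ω, |Φ x ω| ≤ CU)
    (hL : ∀ x y ω, |Φ x ω - Φ y ω| ≤ L * ‖x - y‖) (hL0 : 0 ≤ L)
    (hr : ∀ x ω, (∃ i, T.lam i x < r) → Φ x ω = 0)
    {N : ℕ} {δ η ε : ℝ} (hδ : 0 < δ) (hη : 0 < η) (hη1 : η ≤ 1) (hε : 0 < ε)
    (hε' : 4 * ε ≤ η * sj δ N) (hεr : T.Lp * ε < r) {x y : ℂ} (hx : x ∈ T.table)
    (hxy : ‖y - x‖ ≤ ε) {ω : ℂ × Ω} (hu : ‖ω.1‖ = 1) :
    |T.ext (fun x ω => T.chi' N δ η (x, ω.1) * Φ x ω) y ω -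
      T.ext (fun x ω => T.chi' N δ η (x, ω.1) * Φ x ω) x ω| ≤
      L * ε + CU * (2 * ε / η * T.wt N δ η (x, ω.1)) := by
  have hCU : 0 ≤ CU := (abs_nonneg _).trans (hΦ x ω)
  have hw := T.wt_nonneg N hδ η (x, ω.1)
  have hlam : ∀ i, |T.lam i y - T.lam i x| ≤ T.Lp * ε := fun i =>
    (T.abs_lam_sub_le i x y).trans (mul_le_mul_of_nonneg_left hxy T.Lp_pos.le)
  rw [T.ext_of_mem _ hx]
  by_cases hy : y ∈ T.table
  · rw [T.ext_of_mem _ hy]
    have h1 := T.chi'_lip N hδ hη hη1 hu hx hy hxy hε'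
    have h2 : T.chi' N δ η (y, ω.1) * Φ y ω - T.chi' N δ η (x, ω.1) * Φ x ω =
        T.chi' N δ η (y, ω.1) * (Φ y ω - Φ x ω) +
        (T.chi' N δ η (y, ω.1) - T.chi' N δ η (x, ω.1)) * Φ x ω := by ring
    rw [h2]
    apply (abs_add_le _ _).trans
    apply add_le_add
    · rw [abs_mul, abs_of_nonneg (T.chi'_nonneg _ _ _ _)]
      calc _ ≤ 1 * (L * ‖y - x‖) := mul_le_mul (T.chi'_le_one _ _ _ _) (hL _ _ _) (abs_nonneg _)
            zero_le_one
        _ ≤ L * ε := by rw [one_mul]; exact mul_le_mul_of_nonneg_left hxy hL0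
    · rw [abs_mul, mul_comm]
      exact mul_le_mul (hΦ _ _) h1 (abs_nonneg _) hCU
  · have h1 : Φ x ω = 0 := by
      apply hr
      rw [mem_table_iff] at hy
      push Not at hy
      obtain ⟨i, hi⟩ := hy
      refine ⟨i, ?_⟩
      have := abs_le.1 (hlam i)
      linarith only [hεr, hi, this]
    have h2 : T.ext (fun x ω => T.chi' N δ η (x, ω.1) * Φ x ω) y ω = 0 := by
      unfold ext
      rw [indicator_of_notMem hy, zero_add]
      apply Finset.sum_eq_zero
      intro i _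
      by_cases hi : y ∈ T.R i ⁻¹' T.table
      · rw [indicator_of_mem hi]
        have h3 : Φ (T.R i y) (T.refl i ω.1, ω.2) = 0 := by
          apply hr
          refine ⟨i, ?_⟩
          rw [lam_R]
          have := abs_le.1 (hlam i)
          have h4 := (T.mem_table_iff x).1 hx i
          linarith only [hεr, this, h4]
        simp only [h3, mul_zero]
      · exact indicator_of_notMem hi _
    rw [h1, h2]
    simp only [mul_zero, sub_zero, abs_zero]
    (clear * - hL0 hε hCU hη hw; positivity)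

/-- pointwise gradient estimate for the regular part -/
lemma grd_reg_est {K : ℝ} (hK : ∀ ε : ℝ, 0 < ε → ∫ z, ‖kap ε z‖ ≤ K / ε)
    {Φ : ℂ → ℂ × Ω → ℝ} (hΦb : Bdd Φ) {CU L r : ℝ} (hΦ : ∀ x ω, |Φ x ω| ≤ CU)
    (hL : ∀ x y ω, |Φ x ω - Φ y ω| ≤ L * ‖x - y‖) (hL0 : 0 ≤ L)
    (hr : ∀ x ω, (∃ i, T.lam i x < r) → Φ x ω = 0)
    {N : ℕ} {δ η ε : ℝ} (hδ : 0 < δ) (hη : 0 < η) (hη1 : η ≤ 1) (hε : 0 < ε)
    (hε' : 4 * ε ≤ η * sj δ N) (hεr : T.Lp * ε < r) {x : ℂ} (hx : x ∈ T.table)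
    {ω : ℂ × Ω} (hu : ‖ω.1‖ = 1) :
    ‖grd ε (T.ext (fun x ω => T.chi' N δ η (x, ω.1) * Φ x ω)) x ω‖ ≤
      K * L + 2 * K * CU / η * T.wt N δ η (x, ω.1) := by
  set f := T.ext (fun x ω => T.chi' N δ η (x, ω.1) * Φ x ω) with hf
  have hCU : 0 ≤ CU := (abs_nonneg _).trans (hΦ x ω)
  have hw := T.wt_nonneg N hδ η (x, ω.1)
  have hfb : BddSupp f := by
    apply T.bddSupp_ext
    apply Bdd.mul _ hΦb
    refine ⟨(T.measurable_chi' N δ η).comp (f := fun p : ℂ × (ℂ × Ω) => (p.1, p.2.1))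
        (by fun_prop), 1, ?_⟩
    intro y ω
    rw [abs_of_nonneg (T.chi'_nonneg _ _ _ _)]
    exact T.chi'_le_one _ _ _ _
  have hk : Integrable fun y => kap ε (x - y) := (integrable_kap hε).comp_sub_left x
  obtain ⟨C, hC⟩ := hfb.1.2
  have h1 : Integrable fun y => kap ε (x - y) * (f y ω : ℂ) :=
    hk.mul_bdd (c := C) (Complex.measurable_ofReal.comp (hfb.1.section ω)).aestronglyMeasurable
      (Eventually.of_forall fun y => by
        simp only [Complex.norm_real, Real.norm_eq_abs]; exact hC y ω)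
  have h0 : ∫ y, kap ε (x - y) = 0 := by
    rw [integral_sub_left_eq_self (fun z => kap ε z) volume x, integral_kap hε]
  have h2 : grd ε f x ω = ∫ y, kap ε (x - y) * ((f y ω - f x ω : ℝ) : ℂ) := by
    have : ∀ y, kap ε (x - y) * ((f y ω - f x ω : ℝ) : ℂ) =
        kap ε (x - y) * (f y ω : ℂ) - kap ε (x - y) * (f x ω : ℂ) := by
      intro y; push_cast; ring
    simp only [this]
    rw [integral_sub h1 (hk.mul_const _), integral_mul_const, h0, zero_mul, sub_zero]
    rfl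
  set B := L * ε + CU * (2 * ε / η * T.wt N δ η (x, ω.1)) with hB
  have hB0 : 0 ≤ B := by (clear * - hL0 hε hCU hη hw; (clear * - hL0 hε hCU hη hw; positivity))
  rw [h2]
  calc ‖∫ y, kap ε (x - y) * ((f y ω - f x ω : ℝ) : ℂ)‖
      ≤ ∫ y, ‖kap ε (x - y)‖ * B := by
        apply norm_integral_le_of_norm_le (hk.norm.mul_const B)
        refine Eventually.of_forall fun y => ?_
        rw [norm_mul, Complex.norm_real, Real.norm_eq_abs]
        by_cases hy : ‖x - y‖ < ε
        · apply mul_le_mul_of_nonneg_left _ (norm_nonneg _)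
          rw [norm_sub_rev] at hy
          exact T.osc_est hΦ hL hL0 hr hδ hη hη1 hε hε' hεr hx hy.le hu
        · rw [kap_eq_zero hε (not_lt.1 hy)]
          simp
    _ = (∫ z, ‖kap ε z‖) * B := by
        rw [integral_mul_const, integral_sub_left_eq_self (fun z => ‖kap ε z‖) volume x]
    _ ≤ (K / ε) * B := mul_le_mul_of_nonneg_right (hK ε hε) hB0
    _ = K * L + 2 * K * CU / η * T.wt N δ η (x, ω.1) := by
        rw [hB]; (clear * - hη hε; field_simp)

end ConvexPolygon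

end Vale.Agent.P099C
end
end

section

section

open MeasureTheory Set Filter Topology

set_option linter.unusedSectionVars false

namespace Vale.Agent.P099C
open Vale.Agent.P099 (nu FlowErgodic FlowWeakMixing)

variable {Ω : Type} [MeasurableSpace Ω]

lemma integral_comp_mp {X : Type} [MeasurableSpace X] {μ : Measure X} {φ : X → X}
    (hφ : MeasurePreserving φ μ μ) {g : X → ℝ} (hg : Measurable g) :
    ∫ x, g (φ x) ∂μ = ∫ x, g x ∂μ := by
  rw [← integral_map hφ.measurable.aemeasurable (hφ.map_eq.symm ▸ hg.aestronglyMeasurable),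
    hφ.map_eq]

lemma integrable_add4 {X : Type} [MeasurableSpace X] {μ : Measure X} {a b c d : X → ℝ}
    (ha : Integrable a μ) (hb : Integrable b μ) (hc : Integrable c μ) (hd : Integrable d μ) :
    Integrable (fun x => a x + b x + c x + d x) μ := ((ha.add hb).add hc).add hd

lemma integral_add4 {X : Type} [MeasurableSpace X] {μ : Measure X} {a b c d : X → ℝ}
    (ha : Integrable a μ) (hb : Integrable b μ) (hc : Integrable c μ) (hd : Integrable d μ) :
    ∫ x, (a x + b x + c x + d x) ∂μ = ∫ x, a x ∂μ + ∫ x, b x ∂μ + ∫ x, c x ∂μ + ∫ x, d x ∂μ := by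
  have h1 := integral_add ha hb
  have h2 := integral_add (ha.add hb) hc
  have h3 := integral_add ((ha.add hb).add hc) hd
  simp only [Pi.add_apply] at h1 h2 h3
  rw [h3, h2, h1]

lemma Bdd.sq {f : ℂ → ℂ × Ω → ℝ} (hf : Bdd f) : Bdd (fun x ω => f x ω ^ 2) := by
  obtain ⟨h1, C, hC⟩ := hf
  refine ⟨h1.pow_const 2, C ^ 2, fun y ω => ?_⟩
  rw [abs_pow]
  exact pow_le_pow_left₀ (abs_nonneg _) (hC y ω) 2

lemma BddSupp.sq {f : ℂ → ℂ × Ω → ℝ} (hf : BddSupp f) : BddSupp (fun x ω => f x ω ^ 2) := by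
  obtain ⟨h1, r, hr⟩ := hf
  refine ⟨h1.sq, r, fun y ω hy => ?_⟩
  change f y ω ^ 2 = 0
  rw [hr y ω hy]
  simp

namespace ConvexPolygon

variable {ns : ℕ} [NeZero ns] (T : ConvexPolygon ns) (m : Measure Ω)

/-- mollification does not increase the squared norm -/
lemma nrm_mol_le [IsProbabilityMeasure m] {ε : ℝ} (hε : 0 < ε) {f : ℂ → ℂ × Ω → ℝ}
    (hf : BddSupp f) :
    T.nrm m (fun x ω => (mol ε f x ω : ℂ)) ≤ ∫ ω, (∫ y, f y ω ^ 2) ∂(nu.prod m) := by
  have h1 := T.nrm_kcv_le m (κ := fun z => (rho ε z : ℂ))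
    (Complex.continuous_ofReal.comp (rho_contDiff ε).continuous)
    (((hasCompactSupport_rho hε).comp_left Complex.ofReal_zero :)) hf
  have h2 : ∫ z, ‖((rho ε z : ℝ) : ℂ)‖ = 1 := by
    rw [← integral_rho hε]
    refine integral_congr_ae (Eventually.of_forall fun z => ?_)
    simp only [Complex.norm_real, Real.norm_eq_abs]
    exact abs_of_nonneg (rho_nonneg ε z)
  rw [h2, one_pow, one_mul] at h1
  have h3 : (fun x (ω : ℂ × Ω) => ((mol ε f x ω : ℝ) : ℂ)) = kcv (fun z => (rho ε z : ℂ)) f := by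
    funext x ω
    exact mol_eq_kcv ε f x ω
  rw [h3]
  exact h1

/-- the constant for gradients of mollifications -/
lemma nrm_grd_le : ∃ C : ℝ, 0 < C ∧ ∀ (m : Measure Ω) [IsProbabilityMeasure m] (ε : ℝ), 0 < ε →
    ∀ f : ℂ → ℂ × Ω → ℝ, BddSupp f →
    T.nrm m (grd ε f) ≤ (C / ε) ^ 2 * ∫ ω, (∫ y, f y ω ^ 2) ∂(nu.prod m) := by
  obtain ⟨C, hC0, hC⟩ := exists_kap_bound
  refine ⟨C, hC0, fun m _ ε hε f hf => ?_⟩
  have h1 := T.nrm_kcv_le m (continuous_kap ε) (hasCompactSupport_kap hε) hf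
  rw [grd_eq_kcv]
  refine h1.trans ?_
  apply mul_le_mul_of_nonneg_right
  · exact pow_le_pow_left₀ (integral_nonneg fun z => norm_nonneg _) (hC ε hε) 2
  · exact integral_nonneg fun ω => integral_nonneg fun y => sq_nonneg _

lemma measurePreserving_reflProd [IsProbabilityMeasure m] (i : Fin ns) :
    MeasurePreserving (fun ω : ℂ × Ω => (T.refl i ω.1, ω.2)) (nu.prod m) (nu.prod m) :=
  (T.measurePreserving_refl i).prod (MeasurePreserving.id m)

/-- squares of sections of bounded functions, integrated over the table -/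
lemma measurable_tabInt [IsProbabilityMeasure m] {f : ℂ → ℂ × Ω → ℝ} (hf : Bdd f) :
    Measurable fun ω : ℂ × Ω => ∫ x in T.table, f x ω ^ 2 := by
  have h1 : StronglyMeasurable (Function.uncurry fun (ω : ℂ × Ω) (y : ℂ) => f y ω ^ 2) :=
    ((hf.1.comp (measurable_snd.prodMk measurable_fst)).pow_const 2).stronglyMeasurable
  exact h1.integral_prod_right.measurable

lemma integrableOn_sq {f : ℂ → ℂ × Ω → ℝ} (hf : Bdd f) (ω : ℂ × Ω) :
    IntegrableOn (fun x => f x ω ^ 2) T.table := by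
  obtain ⟨C, hC⟩ := hf.2
  refine Integrable.of_bound ((hf.section ω).pow_const 2).aestronglyMeasurable (C ^ 2)
    (Eventually.of_forall fun y => ?_)
  rw [Real.norm_eq_abs, abs_pow]
  exact pow_le_pow_left₀ (abs_nonneg _) (hC y ω) 2

lemma integrable_tabInt [IsProbabilityMeasure m] {f : ℂ → ℂ × Ω → ℝ} (hf : Bdd f) :
    Integrable (fun ω : ℂ × Ω => ∫ x in T.table, f x ω ^ 2) (nu.prod m) := by
  obtain ⟨C, hC⟩ := hf.2
  refine Integrable.of_bound (T.measurable_tabInt m hf).aestronglyMeasurable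
    (C ^ 2 * volume.real T.table) (Eventually.of_forall fun ω => ?_)
  rw [Real.norm_eq_abs, abs_of_nonneg (integral_nonneg fun y => sq_nonneg _)]
  have h1 : ∫ _x in T.table, C ^ 2 = C ^ 2 * volume.real T.table := by
    rw [setIntegral_const, smul_eq_mul, mul_comm]
  rw [← h1]
  refine setIntegral_mono (T.integrableOn_sq hf ω) (integrableOn_const
    T.volume_table_lt_top.ne (by simp)) fun y => ?_
  simp only
  rw [← sq_abs]
  exact pow_le_pow_left₀ (abs_nonneg _) (hC y ω) 2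

/-- the squared norm with the integrals interchanged -/
lemma nrm_eq_swap [IsProbabilityMeasure m] {f : ℂ → ℂ × Ω → ℝ} (hf : Bdd f) :
    T.nrm m (fun x ω => (f x ω : ℂ)) = ∫ ω, (∫ x in T.table, f x ω ^ 2) ∂(nu.prod m) := by
  obtain ⟨C, hC⟩ := hf.2
  have hm : Measurable fun p : ℂ × (ℂ × Ω) => (f p.1 p.2 : ℂ) :=
    Complex.measurable_ofReal.comp hf.1
  have hb : ∀ x ω, ‖(f x ω : ℂ)‖ ≤ C := by
    intro x ω
    rw [Complex.norm_real, Real.norm_eq_abs]
    exact hC x ω
  have hi := T.integrable_sq m (F := fun x ω => (f x ω : ℂ)) hm hb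
  rw [T.nrm_eq_prod m (F := fun x ω => (f x ω : ℂ)) hm hb]
  unfold muT at hi ⊢
  rw [integral_prod_symm _ hi]
  refine integral_congr_ae (Eventually.of_forall fun ω => ?_)
  simp only
  refine integral_congr_ae (Eventually.of_forall fun x => ?_)
  simp only [Complex.norm_real, Real.norm_eq_abs, sq_abs]

/-- the constant for the extension by reflections -/
noncomputable def kN (ns : ℕ) : ℝ := ((ns : ℝ) + 1) ^ 2

omit [NeZero ns] in
lemma kN_pos : 0 < kN ns := by
  unfold kN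
  positivity

omit [NeZero ns] in
lemma sq_add_sum_le (a : ℝ) (b : Fin ns → ℝ) :
    (a + ∑ i, b i) ^ 2 ≤ ((ns : ℝ) + 1) * (a ^ 2 + ∑ i, b i ^ 2) := by
  have h1 : (∑ i, b i) ^ 2 ≤ (ns : ℝ) * ∑ i, b i ^ 2 := by
    have := Finset.sum_mul_sq_le_sq_mul_sq (Finset.univ : Finset (Fin ns)) (fun _ => (1 : ℝ)) b
    simpa using this
  rcases Nat.eq_zero_or_pos ns with h0 | h0
  · subst h0
    simp
  have hn : (0 : ℝ) < ns := by exact_mod_cast h0
  set S := ∑ i, b i
  set Q := ∑ i, b i ^ 2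
  have h2 : 2 * a * S ≤ (ns : ℝ) * a ^ 2 + S ^ 2 / ns := by
    have h3 : (ns : ℝ) * a ^ 2 + S ^ 2 / ns - 2 * a * S = (ns * a - S) ^ 2 / ns := by
      field_simp
      ring
    have h4 : 0 ≤ (ns * a - S) ^ 2 / ns := by positivity
    linarith only [h3, h4]
  have h5 : S ^ 2 / ns ≤ Q := by
    rw [div_le_iff₀ hn]
    linarith only [h1]
  calc (a + S) ^ 2 = a ^ 2 + 2 * a * S + S ^ 2 := by ring
    _ ≤ a ^ 2 + ((ns : ℝ) * a ^ 2 + Q) + ns * Q := by linarith only [h2, h5, h1]
    _ = ((ns : ℝ) + 1) * (a ^ 2 + Q) := by ring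

/-- the extension by reflections is bounded in `L²` -/
lemma int_ext_sq_le [IsProbabilityMeasure m] {f : ℂ → ℂ × Ω → ℝ} (hf : Bdd f) :
    ∫ ω, (∫ y, T.ext f y ω ^ 2) ∂(nu.prod m) ≤ kN ns * T.nrm m (fun x ω => (f x ω : ℂ)) := by
  have hfr : ∀ i, Bdd (fun y (ω : ℂ × Ω) => f y (T.refl i ω.1, ω.2)) := by
    intro i
    obtain ⟨h1, C, hC⟩ := hf
    refine ⟨?_, C, fun y ω => hC _ _⟩
    exact h1.comp (measurable_fst.prodMk
      (((T.continuous_refl i).measurable.comp (measurable_fst.comp measurable_snd)).prodMk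
        (measurable_snd.comp measurable_snd)))
  -- the pieces
  have e0 : ∀ ω, ∫ y, T.table.indicator (fun y => f y ω) y ^ 2 = ∫ y in T.table, f y ω ^ 2 := by
    intro ω
    rw [← integral_indicator T.measurableSet_table]
    refine integral_congr_ae (Eventually.of_forall fun y => ?_)
    by_cases hy : y ∈ T.table
    · simp only [indicator_of_mem hy]
    · simp only [indicator_of_notMem hy]
      simp
  have ei : ∀ (i : Fin ns) (ω : ℂ × Ω), ∫ y, (T.R i ⁻¹' T.table).indicator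
      (fun y => f (T.R i y) (T.refl i ω.1, ω.2)) y ^ 2 =
      ∫ y in T.table, f y (T.refl i ω.1, ω.2) ^ 2 := by
    intro i ω
    rw [← e0 (T.refl i ω.1, ω.2)]
    rw [← integral_comp_mp (T.measurePreserving_R i) (g := fun y =>
      T.table.indicator (fun y => f y (T.refl i ω.1, ω.2)) y ^ 2)
      (((hf.section _).indicator T.measurableSet_table).pow_const 2)]
    rfl
  have si : ∀ i : Fin ns, ∫ ω : ℂ × Ω, (∫ y in T.table, f y (T.refl i ω.1, ω.2) ^ 2) ∂(nu.prod m) =
      T.nrm m (fun x ω => (f x ω : ℂ)) := by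
    intro i
    rw [T.nrm_eq_swap m hf]
    exact integral_comp_mp (T.measurePreserving_reflProd m i) (g := fun ω : ℂ × Ω =>
      ∫ x in T.table, f x ω ^ 2) (T.measurable_tabInt m hf)
  have s0 : ∫ ω, (∫ y in T.table, f y ω ^ 2) ∂(nu.prod m) =
      T.nrm m (fun x ω => (f x ω : ℂ)) := (T.nrm_eq_swap m hf).symm
  -- integrability of the pieces
  have b0 := hf.bddSupp_indicator T.measurableSet_table T.isBounded_table
  have bi : ∀ i, BddSupp (fun y (ω : ℂ × Ω) => (T.R i ⁻¹' T.table).indicator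
      (fun y => f (T.R i y) (T.refl i ω.1, ω.2)) y) := fun i =>
    (T.bdd_refl hf i).bddSupp_indicator (T.measurableSet_R_table i) (T.isBounded_R_table i)
  have q0 := fun ω => (b0.sq).integrable ω
  have qi := fun i ω => ((bi i).sq).integrable ω
  have hpt : ∀ ω : ℂ × Ω, ∫ y, T.ext f y ω ^ 2 ≤ ((ns : ℝ) + 1) * ((∫ y in T.table, f y ω ^ 2) +
      ∑ i, (∫ y in T.table, f y (T.refl i ω.1, ω.2) ^ 2)) := by
    intro ω
    rw [← e0 ω]
    simp_rw [← fun i => ei i ω]
    rw [← integral_finsetSum _ (fun i _ => qi i ω),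
      ← integral_add (q0 ω) (integrable_finsetSum _ (fun i _ => qi i ω)), ← integral_const_mul]
    refine integral_mono ((hf.ext T).sq.integrable ω)
      (((q0 ω).add (integrable_finsetSum _ (fun i _ => qi i ω))).const_mul _) fun y => ?_
    simp only
    rw [T.ext_eq]
    exact sq_add_sum_le _ _
  have r0 := T.integrable_tabInt m hf
  have ri := fun i => T.integrable_tabInt m (hfr i)
  calc ∫ ω, (∫ y, T.ext f y ω ^ 2) ∂(nu.prod m) ≤
      ∫ ω : ℂ × Ω, ((ns : ℝ) + 1) * ((∫ y in T.table, f y ω ^ 2) +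
      ∑ i, (∫ y in T.table, f y (T.refl i ω.1, ω.2) ^ 2)) ∂(nu.prod m) := by
        refine integral_mono_of_nonneg (Eventually.of_forall fun ω =>
          integral_nonneg fun y => sq_nonneg _)
          ((r0.add (integrable_finsetSum _ (fun i _ => ri i))).const_mul _)
          (Eventually.of_forall hpt)
    _ = kN ns * T.nrm m (fun x ω => (f x ω : ℂ)) := by
        rw [integral_const_mul, integral_add r0 (integrable_finsetSum _ (fun i _ => ri i)),
          integral_finsetSum _ (fun i _ => ri i), s0]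
        simp_rw [si]
        rw [Finset.sum_const, Finset.card_univ, Fintype.card_fin, nsmul_eq_mul]
        unfold kN
        ring

end ConvexPolygon

end Vale.Agent.P099C
end
end

section

section

open MeasureTheory Set Filter Topology

set_option linter.unusedSectionVars false

namespace Vale.Agent.P099C
open Vale.Agent.P099 (nu FlowErgodic FlowWeakMixing)

variable {Ω : Type} [MeasurableSpace Ω]

namespace ConvexPolygon

variable {ns : ℕ} [NeZero ns] (T : ConvexPolygon ns) (m : Measure Ω)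

lemma nrm_neg (F : ℂ → ℂ × Ω → ℂ) : T.nrm m (fun x ω => - F x ω) = T.nrm m F := by
  unfold nrm
  simp only [norm_neg]

lemma nrm_const_mul (c : ℂ) (F : ℂ → ℂ × Ω → ℂ) :
    T.nrm m (fun x ω => c * F x ω) = ‖c‖ ^ 2 * T.nrm m F := by
  unfold nrm
  simp only [norm_mul, mul_pow, integral_const_mul]

/-- mollifications converge in `L²` over the table -/
lemma tendsto_nrm_mol [IsProbabilityMeasure m] {f : ℂ → ℂ × Ω → ℝ} (hf : Bdd f) :
    Tendsto (fun ε : ℝ => T.nrm m (fun x ω => ((mol ε f x ω - f x ω : ℝ) : ℂ))) (𝓝[>] 0)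
      (𝓝 0) := by
  obtain ⟨C, hC⟩ := hf.2
  have hC0 : ∀ x ω, 0 ≤ C := fun x ω => (abs_nonneg _).trans (hC x ω)
  have hsub : ∀ ε : ℝ, 0 < ε → Bdd (fun x (ω : ℂ × Ω) => mol ε f x ω - f x ω) := fun ε hε =>
    (hf.mol hε).sub hf
  have hb : ∀ ε : ℝ, 0 < ε → ∀ x ω, (mol ε f x ω - f x ω) ^ 2 ≤ (2 * C) ^ 2 := by
    intro ε hε x ω
    rw [← sq_abs]
    refine pow_le_pow_left₀ (abs_nonneg _) ?_ 2
    calc |mol ε f x ω - f x ω| ≤ |mol ε f x ω| + |f x ω| := abs_sub _ _
      _ ≤ C + C := add_le_add (abs_mol_le hε hC x ω) (hC x ω)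
      _ = 2 * C := by ring
  have h1 : Tendsto (fun ε : ℝ => ∫ ω, (∫ x in T.table, (mol ε f x ω - f x ω) ^ 2) ∂(nu.prod m))
      (𝓝[>] 0) (𝓝 (∫ _ω : ℂ × Ω, (0 : ℝ) ∂(nu.prod m))) := by
    refine tendsto_integral_filter_of_dominated_convergence
      (fun _ => (2 * C) ^ 2 * volume.real T.table) ?_ ?_ (integrable_const _) ?_
    · filter_upwards [self_mem_nhdsWithin] with ε hε
      exact (T.measurable_tabInt m (hsub ε hε)).aestronglyMeasurable
    · filter_upwards [self_mem_nhdsWithin] with ε hε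
      refine Eventually.of_forall fun ω => ?_
      rw [Real.norm_eq_abs, abs_of_nonneg (integral_nonneg fun y => sq_nonneg _)]
      have h1 : ∫ _x in T.table, (2 * C) ^ 2 = (2 * C) ^ 2 * volume.real T.table := by
        rw [setIntegral_const, smul_eq_mul, mul_comm]
      rw [← h1]
      exact setIntegral_mono (T.integrableOn_sq (hsub ε hε) ω) (integrable_const _)
        fun y => hb ε hε y ω
    · refine Eventually.of_forall fun ω => ?_
      have h2 : Tendsto (fun ε : ℝ => ∫ x in T.table, (mol ε f x ω - f x ω) ^ 2)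
          (𝓝[>] 0) (𝓝 (∫ _x in T.table, (0 : ℝ))) := by
        refine tendsto_integral_filter_of_dominated_convergence
          (fun _ => (2 * C) ^ 2) ?_ ?_ (integrable_const _) ?_
        · filter_upwards [self_mem_nhdsWithin] with ε hε
          exact (((hsub ε hε).section ω).pow_const 2).aestronglyMeasurable
        · filter_upwards [self_mem_nhdsWithin] with ε hε
          refine Eventually.of_forall fun x => ?_
          rw [Real.norm_eq_abs, abs_of_nonneg (sq_nonneg _)]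
          exact hb ε hε x ω
        · have h3 := ae_tendsto_mol1 (hf.locallyIntegrable ω)
          filter_upwards [ae_restrict_of_ae h3] with x hx
          have h4 : Tendsto (fun ε : ℝ => mol ε f x ω - f x ω) (𝓝[>] 0) (𝓝 (f x ω - f x ω)) :=
            hx.sub_const _
          rw [sub_self] at h4
          have h5 := h4.pow 2
          simpa only [ne_eq, OfNat.ofNat_ne_zero, not_false_eq_true, zero_pow] using h5
      simpa only [integral_zero] using h2
  rw [integral_zero] at h1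
  refine h1.congr' ?_
  filter_upwards [self_mem_nhdsWithin] with ε hε
  exact (T.nrm_eq_swap m (hsub ε hε)).symm

/-- mollifications of the extension converge in `L²` over the table -/
lemma tendsto_nrm_mol_ext [IsProbabilityMeasure m] {f : ℂ → ℂ × Ω → ℝ} (hf : Bdd f) :
    Tendsto (fun ε : ℝ => T.nrm m (fun x ω => ((mol ε (T.ext f) x ω - f x ω : ℝ) : ℂ)))
      (𝓝[>] 0) (𝓝 0) := by
  refine (T.tendsto_nrm_mol m (hf.ext T).1).congr fun ε => ?_
  refine T.nrm_congr m fun x hx ω => ?_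
  rw [T.ext_of_mem_table f hx]

/-- the part of the table away from the boundary -/
def core (r : ℝ) : Set ℂ := {x | ∀ i, r ≤ T.lam i x}

lemma continuous_lamY (i : Fin ns) : Continuous (T.lam i) := by
  have h : T.lam i = fun x => T.lam i 0 + T.ell i x := by
    funext x
    rw [← T.lam_add, zero_add]
  rw [h]
  unfold ell cr
  fun_prop

lemma measurableSet_core (r : ℝ) : MeasurableSet (T.core r) := by
  have h : T.core r = ⋂ i, (T.lam i) ⁻¹' (Ici r) := by
    ext x
    simp only [core, mem_ofPred_eq, mem_iInter, mem_preimage, mem_Ici]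
  rw [h]
  exact MeasurableSet.iInter fun i => (T.continuous_lamY i).measurable measurableSet_Ici

lemma core_subset {r : ℝ} (hr : 0 < r) : T.core r ⊆ T.table := fun x hx =>
  (T.mem_table_iff x).2 fun i => hr.trans_le (hx i)

/-- the complement of the core is small -/
lemma exists_core {δ : ℝ} (hδ : 0 < δ) : ∃ r : ℝ, 0 < r ∧ volume.real (T.table \ T.core r) ≤ δ := by
  have h1 : Tendsto (fun n : ℕ => volume (T.table \ T.core (1 / ((n : ℝ) + 1)))) atTop
      (𝓝 (volume (⋂ n : ℕ, (T.table \ T.core (1 / ((n : ℝ) + 1)))))) := by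
    apply tendsto_measure_iInter_atTop
    · intro n
      exact (T.measurableSet_table.diff (T.measurableSet_core _)).nullMeasurableSet
    · intro a b hab x hx
      refine ⟨hx.1, fun h => hx.2 fun i => ?_⟩
      refine le_trans ?_ (h i)
      apply one_div_le_one_div_of_le (by positivity)
      have : (a : ℝ) ≤ b := by exact_mod_cast hab
      linarith only [this]
    · exact ⟨0, ne_top_of_le_ne_top T.volume_table_lt_top.ne (measure_mono sdiff_subset)⟩
  have h2 : (⋂ n : ℕ, (T.table \ T.core (1 / ((n : ℝ) + 1)))) = ∅ := by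
    apply Set.eq_empty_iff_forall_notMem.2
    intro x hx
    rw [mem_iInter] at hx
    have hxt := (hx 0).1
    have hpos := (T.mem_table_iff x).1 hxt
    choose nn hnn using fun i => exists_nat_one_div_lt (hpos i)
    apply (hx (Finset.univ.sup nn)).2
    intro i
    refine le_trans ?_ (hnn i).le
    apply one_div_le_one_div_of_le (by (clear * -; positivity))
    have h5 : nn i ≤ Finset.univ.sup nn := Finset.le_sup (Finset.mem_univ i)
    have : (nn i : ℝ) ≤ ((Finset.univ.sup nn : ℕ) : ℝ) := by exact_mod_cast h5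
    linarith only [this]
  rw [h2, measure_empty] at h1
  have h3 : ∀ᶠ n : ℕ in atTop, volume (T.table \ T.core (1 / ((n : ℝ) + 1))) < ENNReal.ofReal δ :=
    h1.eventually (gt_mem_nhds (ENNReal.ofReal_pos.2 hδ))
  obtain ⟨n, hn⟩ := h3.exists
  refine ⟨1 / ((n : ℝ) + 1), by (clear * -; positivity), ?_⟩
  have h4 := ENNReal.toReal_mono ENNReal.ofReal_ne_top hn.le
  rwa [ENNReal.toReal_ofReal hδ.le] at h4

end ConvexPolygon

/-- mollifications of bounded functions with bounded support are Lipschitz -/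
lemma mol_lip {ε : ℝ} (hε : 0 < ε) {f : ℂ → ℂ × Ω → ℝ} (hf : BddSupp f) :
    ∃ L : ℝ, 0 < L ∧ ∀ x y ω, |mol ε f x ω - mol ε f y ω| ≤ L * ‖x - y‖ := by
  obtain ⟨hb, r, hr⟩ := hf
  obtain ⟨C, hC⟩ := hb.2
  obtain ⟨K, hK⟩ := (rho_contDiff ε).lipschitzWith_of_hasCompactSupport
    (hasCompactSupport_rho hε) (by simp)
  have hfb : IsFiniteMeasure (volume.restrict (Metric.closedBall (0 : ℂ) r)) :=
    ⟨by rw [Measure.restrict_apply_univ]; exact measure_closedBall_lt_top⟩
  have hk : ∀ x : ℂ, Integrable fun y => rho ε (x - y) := fun x =>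
    (((rho_contDiff ε).continuous.integrable_of_hasCompactSupport
      (hasCompactSupport_rho hε))).comp_sub_left x
  refine ⟨K * |C| * volume.real (Metric.closedBall (0 : ℂ) r) + 1, by (clear * -; positivity),
    fun x y ω => ?_⟩
  have hi : ∀ x : ℂ, Integrable fun z => rho ε (x - z) * f z ω := fun x =>
    (hk x).mul_bdd (c := C) (hb.section ω).aestronglyMeasurable
      (Eventually.of_forall fun y => hC y ω)
  have h1 : mol ε f x ω - mol ε f y ω = ∫ z, (rho ε (x - z) - rho ε (y - z)) * f z ω := by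
    unfold mol
    rw [← integral_sub (hi x) (hi y)]
    refine integral_congr_ae (Eventually.of_forall fun z => ?_)
    simp only
    ring
  have h2 : ∫ z, (rho ε (x - z) - rho ε (y - z)) * f z ω =
      ∫ z in Metric.closedBall (0 : ℂ) r, (rho ε (x - z) - rho ε (y - z)) * f z ω := by
    rw [setIntegral_eq_integral_of_forall_compl_eq_zero]
    intro z hz
    rw [Metric.mem_closedBall, dist_zero_right, not_le] at hz
    rw [hr z ω hz.le, mul_zero]
  have h3 : ∀ z, ‖(rho ε (x - z) - rho ε (y - z)) * f z ω‖ ≤ K * ‖x - y‖ * |C| := by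
    intro z
    rw [norm_mul]
    apply mul_le_mul _ ((hC z ω).trans (le_abs_self _)) (abs_nonneg _) (by (clear * -; positivity))
    have h4 := hK.dist_le_mul (x - z) (y - z)
    rw [dist_eq_norm, dist_eq_norm, sub_sub_sub_cancel_right] at h4
    exact h4
  have h5 : |mol ε f x ω - mol ε f y ω| ≤
      K * ‖x - y‖ * |C| * volume.real (Metric.closedBall (0 : ℂ) r) := by
    rw [h1, h2, ← Real.norm_eq_abs]
    exact norm_setIntegral_le_of_norm_le_const measure_closedBall_lt_top fun z _ => h3 z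
  refine h5.trans ?_
  linarith only [norm_nonneg (x - y)]

namespace ConvexPolygon

variable {ns : ℕ} [NeZero ns] (T : ConvexPolygon ns) (m : Measure Ω)

/-- approximation by functions which are Lipschitz in the position and vanish near the boundary -/
lemma exists_lip [IsProbabilityMeasure m] {U : ℂ → ℂ × Ω → ℝ} (hU : Bdd U) {C : ℝ}
    (hC : ∀ x ω, |U x ω| ≤ C) {τ : ℝ} (hτ : 0 < τ) :
    ∃ Φ : ℂ → ℂ × Ω → ℝ, BddSupp Φ ∧ (∀ x ω, |Φ x ω| ≤ C) ∧
      (∃ L : ℝ, 0 < L ∧ ∀ x y ω, |Φ x ω - Φ y ω| ≤ L * ‖x - y‖) ∧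
      (∃ r : ℝ, 0 < r ∧ ∀ x ω i, T.lam i x ≤ r → Φ x ω = 0) ∧
      T.nrm m (fun x ω => ((U x ω - Φ x ω : ℝ) : ℂ)) ≤ τ := by
  by_cases hne : Nonempty Ω
  swap
  · have hemp : IsEmpty Ω := not_nonempty_iff.1 hne
    exfalso
    have h1 : m univ = 0 := by
      rw [Set.univ_eq_empty_iff.2 hemp, measure_empty]
    rw [measure_univ] at h1
    exact one_ne_zero h1
  have hC0 : 0 ≤ C := (abs_nonneg _).trans (hC 0 (0, hne.some))
  -- choose the core
  obtain ⟨s, hs0, hs⟩ := T.exists_core (δ := τ / (4 * (C ^ 2 + 1))) (by positivity)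
  set K := T.core s with hK
  have hKt : K ⊆ T.table := T.core_subset hs0
  set f : ℂ → ℂ × Ω → ℝ := fun x ω => K.indicator (fun y => U y ω) x with hf
  have hfb : BddSupp f := hU.bddSupp_indicator (T.measurableSet_core s)
    (T.isBounded_table.subset hKt)
  have hfC : ∀ x ω, |f x ω| ≤ C := by
    intro x ω
    simp only [hf]
    by_cases hx : x ∈ K
    · rw [indicator_of_mem hx]
      exact hC x ω
    · rw [indicator_of_notMem hx, abs_zero]
      exact hC0
  -- first term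
  have hd1 : Bdd (fun x (ω : ℂ × Ω) => U x ω - f x ω) := hU.sub hfb.1
  have t1 : T.nrm m (fun x ω => ((U x ω - f x ω : ℝ) : ℂ)) ≤ τ / 4 := by
    rw [T.nrm_eq_swap m hd1]
    have h1 : ∀ ω, ∫ x in T.table, (U x ω - f x ω) ^ 2 ≤ C ^ 2 * volume.real (T.table \ K) := by
      intro ω
      have h2 : ∫ x in T.table, (U x ω - f x ω) ^ 2 =
          ∫ x in T.table \ K, (U x ω - f x ω) ^ 2 := by
        rw [← integral_indicator T.measurableSet_table,
          ← integral_indicator (T.measurableSet_table.diff (T.measurableSet_core s))]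
        refine integral_congr_ae (Eventually.of_forall fun x => ?_)
        by_cases hx : x ∈ T.table
        · by_cases hxK : x ∈ K
          · rw [indicator_of_mem hx, indicator_of_notMem (fun h => h.2 hxK)]
            simp only [hf]
            rw [indicator_of_mem hxK]
            simp
          · rw [indicator_of_mem hx, indicator_of_mem (show x ∈ T.table \ K from ⟨hx, hxK⟩)]
        · rw [indicator_of_notMem hx, indicator_of_notMem (fun h => hx h.1)]
      rw [h2]
      have h3 : ∫ x in T.table \ K, (U x ω - f x ω) ^ 2 ≤ ∫ _x in T.table \ K, C ^ 2 := by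
        refine setIntegral_mono_on ((T.integrableOn_sq hd1 ω).mono_set sdiff_subset)
          (integrableOn_const ?_ (by simp)) (T.measurableSet_table.diff (T.measurableSet_core s)) ?_
        · exact ne_top_of_le_ne_top T.volume_table_lt_top.ne (measure_mono sdiff_subset)
        · intro x hx
          simp only [hf]
          rw [indicator_of_notMem hx.2, sub_zero, ← sq_abs]
          exact pow_le_pow_left₀ (abs_nonneg _) (hC x ω) 2
      refine h3.trans ?_
      rw [setIntegral_const, smul_eq_mul, mul_comm]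
    have h4 : ∫ ω, (∫ x in T.table, (U x ω - f x ω) ^ 2) ∂(nu.prod m) ≤
        ∫ _ω : ℂ × Ω, C ^ 2 * volume.real (T.table \ K) ∂(nu.prod m) :=
      integral_mono (T.integrable_tabInt m hd1) (integrable_const _) h1
    refine h4.trans ?_
    rw [integral_const, smul_eq_mul, probReal_univ, one_mul]
    calc C ^ 2 * volume.real (T.table \ K) ≤ C ^ 2 * (τ / (4 * (C ^ 2 + 1))) := by (clear * - hs; gcongr)
      _ ≤ τ / 4 := by
          rw [mul_div_assoc', div_le_div_iff₀ (by (clear * -; positivity)) (by norm_num)]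
          linarith only [hτ]
  -- second term
  have h2 := T.tendsto_nrm_mol m hfb.1
  have h3 : ∀ᶠ ε : ℝ in 𝓝[>] 0,
      T.nrm m (fun x ω => ((mol ε f x ω - f x ω : ℝ) : ℂ)) < τ / 4 :=
    h2.eventually (gt_mem_nhds (by positivity))
  have hLp := T.Lp_pos
  have h4 : ∀ᶠ ε : ℝ in 𝓝[>] 0, ε < s / (2 * T.Lp) := by
    apply mem_nhdsWithin_of_mem_nhds
    exact gt_mem_nhds (by (clear * - hs0 hLp; positivity))
  obtain ⟨δ, ⟨hδ1, hδ2⟩, hδ0⟩ := ((h3.and h4).and self_mem_nhdsWithin).exists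
  have hδ0 : 0 < δ := hδ0
  refine ⟨mol δ f, hfb.mol hδ0, fun x ω => abs_mol_le hδ0 hfC x ω, mol_lip hδ0 hfb,
    ⟨s / 2, by positivity, fun x ω i hx => ?_⟩, ?_⟩
  · unfold mol
    have h5 : ∀ y, rho δ (x - y) * f y ω = 0 := by
      intro y
      by_cases hy : y ∈ K
      · rw [rho_eq_zero hδ0, zero_mul]
        by_contra hlt
        rw [not_le] at hlt
        have h6 : T.lam i y = T.lam i x + T.ell i (y - x) := by
          rw [← T.lam_add, add_sub_cancel]
        have h7 := T.abs_ell_le i (y - x)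
        rw [norm_sub_rev] at h7
        have h8 : T.Lp * ‖x - y‖ < s / 2 := by
          calc T.Lp * ‖x - y‖ < T.Lp * δ := by (clear * - hlt hLp; gcongr)
            _ < T.Lp * (s / (2 * T.Lp)) := by (clear * - hδ2 hLp; gcongr)
            _ = s / 2 := by (clear * - hLp hs0; field_simp)
        have h9 : s ≤ T.lam i y := hy i
        have h10 := le_abs_self (T.ell i (y - x))
        linarith only [hx, h6, h7, h8, h9, h10]
      · simp only [hf]
        rw [indicator_of_notMem hy, mul_zero]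
    simp only [h5, integral_zero]
  · have hd2 : Bdd (fun x (ω : ℂ × Ω) => mol δ f x ω - f x ω) := (hfb.1.mol hδ0).sub hfb.1
    obtain ⟨m1, C1, hC1⟩ := hd1
    obtain ⟨m2, C2, hC2⟩ := hd2
    have h5 := T.nrm_add_le m (F := fun x ω => ((U x ω - f x ω : ℝ) : ℂ))
      (G := fun x ω => - ((mol δ f x ω - f x ω : ℝ) : ℂ))
      (Complex.measurable_ofReal.comp m1) (Complex.measurable_ofReal.comp m2).neg
      (C := C1) (D := C2)
      (fun x ω => by rw [Complex.norm_real, Real.norm_eq_abs]; exact hC1 x ω)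
      (fun x ω => by rw [norm_neg, Complex.norm_real, Real.norm_eq_abs]; exact hC2 x ω)
    rw [T.nrm_neg] at h5
    have h6 : (fun x (ω : ℂ × Ω) => ((U x ω - f x ω : ℝ) : ℂ) +
        - ((mol δ f x ω - f x ω : ℝ) : ℂ)) =
        fun x (ω : ℂ × Ω) => ((U x ω - mol δ f x ω : ℝ) : ℂ) := by
      funext x ω
      push_cast
      ring
    rw [h6] at h5
    linarith only [h5, hδ1, t1]

/-- the phase space without parameter -/
lemma measurePreserving_muT [IsProbabilityMeasure m] :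
    MeasurePreserving (fun p : ℂ × (ℂ × Ω) => (p.1, p.2.1)) (T.muT m)
      ((volume.restrict T.table).prod nu) := by
  unfold muT
  exact (MeasurePreserving.id _).prod measurePreserving_fst

/-- the effect of a cut-off -/
lemma nrm_cut_le [IsProbabilityMeasure m] {χ : ℂ × ℂ → ℝ} (hχ : Measurable χ)
    (hχ1 : ∀ p, 0 ≤ χ p ∧ χ p ≤ 1) {U : ℂ → ℂ × Ω → ℝ} (hU : Bdd U) {C : ℝ}
    (hC : ∀ x ω, |U x ω| ≤ C) {S : Set (ℂ × ℂ)} (hS : MeasurableSet S)
    (hχS : ∀ p, p ∉ S → χ p = 1) :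
    T.nrm m (fun x ω => ((χ (x, ω.1) * U x ω - U x ω : ℝ) : ℂ)) ≤
      C ^ 2 * ((volume.restrict T.table).prod nu).real S := by
  have hχm : Measurable (fun p : ℂ × (ℂ × Ω) => χ (p.1, p.2.1)) :=
    hχ.comp (measurable_fst.prodMk (measurable_fst.comp measurable_snd))
  have hm : Measurable (fun p : ℂ × (ℂ × Ω) => ((χ (p.1, p.2.1) * U p.1 p.2 - U p.1 p.2 : ℝ) : ℂ)) :=
    Complex.measurable_ofReal.comp ((hχm.mul hU.1).sub hU.1)
  have hpt : ∀ x (ω : ℂ × Ω), |χ (x, ω.1) * U x ω - U x ω| ≤ |U x ω| := by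
    intro x ω
    have h1 : χ (x, ω.1) * U x ω - U x ω = (χ (x, ω.1) - 1) * U x ω := by ring
    rw [h1, abs_mul]
    obtain ⟨h2, h3⟩ := hχ1 (x, ω.1)
    have h4 : |χ (x, ω.1) - 1| ≤ 1 := by
      rw [abs_le]
      constructor <;> linarith
    calc |χ (x, ω.1) - 1| * |U x ω| ≤ 1 * |U x ω| := by (clear * - h4; gcongr)
      _ = |U x ω| := one_mul _
  have hb : ∀ x (ω : ℂ × Ω), ‖((χ (x, ω.1) * U x ω - U x ω : ℝ) : ℂ)‖ ≤ C := by
    intro x ω
    rw [Complex.norm_real, Real.norm_eq_abs]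
    exact (hpt x ω).trans (hC x ω)
  rw [T.nrm_eq_prod m (F := fun x ω => ((χ (x, ω.1) * U x ω - U x ω : ℝ) : ℂ)) hm hb]
  have h5 : ((volume.restrict T.table).prod nu).real S =
      (T.muT m).real ((fun p : ℂ × (ℂ × Ω) => (p.1, p.2.1)) ⁻¹' S) := by
    unfold Measure.real
    rw [(T.measurePreserving_muT m).measure_preimage hS.nullMeasurableSet]
  set S' := (fun p : ℂ × (ℂ × Ω) => (p.1, p.2.1)) ⁻¹' S with hS'
  have hS'm : MeasurableSet S' := (T.measurePreserving_muT m).measurable hS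
  rw [h5]
  have h6 : ∫ p, S'.indicator (fun _ => C ^ 2) p ∂(T.muT m) = C ^ 2 * (T.muT m).real S' := by
    rw [integral_indicator_const _ hS'm, smul_eq_mul, mul_comm]
  rw [← h6]
  refine integral_mono (T.integrable_sq m (F := fun x ω =>
    ((χ (x, ω.1) * U x ω - U x ω : ℝ) : ℂ)) hm hb)
    ((integrable_const _).indicator hS'm) fun p => ?_
  simp only
  by_cases hp : p ∈ S'
  · rw [indicator_of_mem hp]
    exact pow_le_pow_left₀ (norm_nonneg _) (hb p.1 p.2) 2
  · rw [indicator_of_notMem hp, hχS (p.1, p.2.1) hp]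
    simp

end ConvexPolygon

end Vale.Agent.P099C
end
end

section

section

open MeasureTheory Set Filter Topology

namespace Vale.Agent.P099C
open Vale.Agent.P099 (nu FlowErgodic FlowWeakMixing)

variable {Ω : Type} [MeasurableSpace Ω]

namespace ConvexPolygon

variable {ns : ℕ} [NeZero ns] (T : ConvexPolygon ns) (m : Measure Ω)

lemma bdd_chi' (N : ℕ) (δ η : ℝ) {U : ℂ → ℂ × Ω → ℝ} (hU : Bdd U) :
    Bdd (fun x (ω : ℂ × Ω) => T.chi' N δ η (x, ω.1) * U x ω) := by
  apply Bdd.mul _ hU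
  refine ⟨(T.measurable_chi' N δ η).comp (f := fun p : ℂ × (ℂ × Ω) => (p.1, p.2.1))
      (by fun_prop), 1, ?_⟩
  intro y ω
  rw [abs_of_nonneg (T.chi'_nonneg _ _ _ _)]
  exact T.chi'_le_one _ _ _ _

lemma bdd_wt (N : ℕ) {δ : ℝ} (hδ : 0 < δ) (η : ℝ) :
    Bdd (fun x (ω : ℂ × Ω) => T.wt N δ η (x, ω.1)) := by
  refine ⟨(T.measurable_wt N δ η).comp (f := fun p : ℂ × (ℂ × Ω) => (p.1, p.2.1))
      (by fun_prop), (sj δ N)⁻¹, ?_⟩
  intro y ω
  rw [abs_of_nonneg (T.wt_nonneg N hδ η _)]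
  exact T.wt_le N hδ η _

/-- the norm of a function of position and direction -/
lemma nrm_eq_nu [IsProbabilityMeasure m] {w : ℂ × ℂ → ℝ} (hw : Measurable w) {C : ℝ}
    (hC : ∀ p, |w p| ≤ C) :
    T.nrm m (fun x ω => ((w (x, ω.1) : ℝ) : ℂ)) =
      ∫ p, w p ^ 2 ∂((volume.restrict T.table).prod nu) := by
  rw [T.nrm_eq_prod m (F := fun x ω => ((w (x, ω.1) : ℝ) : ℂ)) (C := C)
    (Complex.measurable_ofReal.comp (hw.comp (f := fun p : ℂ × (ℂ × Ω) => (p.1, p.2.1))
      (by fun_prop))) (fun x ω => by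
        rw [Complex.norm_real, Real.norm_eq_abs]; exact hC _)]
  have h := (T.measurePreserving_muT m)
  rw [← h.map_eq, integral_map h.measurable.aemeasurable
    (hw.pow_const 2).aestronglyMeasurable]
  apply integral_congr_ae
  refine Eventually.of_forall fun p => ?_
  simp only [Complex.norm_real, Real.norm_eq_abs, sq_abs]

lemma nrm_const [IsProbabilityMeasure m] (c : ℝ) :
    T.nrm m (fun _ _ => (c : ℂ)) = c ^ 2 * volume.real T.table := by
  unfold nrm
  simp [Complex.norm_real, mul_comm]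

lemma ae_muT_norm [IsProbabilityMeasure m] : ∀ᵐ p ∂(T.muT m), ‖p.2.1‖ = 1 := by
  have h1 : ∀ᵐ q ∂((volume.restrict T.table).prod nu), ‖q.2‖ = 1 :=
    Measure.quasiMeasurePreserving_snd.ae ae_norm
  exact (T.measurePreserving_muT m).quasiMeasurePreserving.ae h1

lemma ae_muT_table : ∀ᵐ p ∂(T.muT m), p.1 ∈ T.table := by
  unfold muT
  exact Measure.quasiMeasurePreserving_fst.ae (ae_restrict_mem T.measurableSet_table)

/-- the weight in norm -/
lemma nrm_wt_le [IsProbabilityMeasure m] (N : ℕ) {δ : ℝ} (hδ : 0 < δ) (η : ℝ) {B : ℝ}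
    (hB : (∫ p, T.wt N δ η p ^ 2 ∂((volume.restrict T.table).prod nu)) ≤ B) :
    T.nrm m (fun x ω => ((T.wt N δ η (x, ω.1) : ℝ) : ℂ)) ≤ B := by
  rw [T.nrm_eq_nu m (T.measurable_wt N δ η) (C := (sj δ N)⁻¹) (fun p => by
    rw [abs_of_nonneg (T.wt_nonneg N hδ η _)]
    exact T.wt_le N hδ η _)]
  exact hB

/-- the regular part -/
lemma nrm_grd_reg [IsProbabilityMeasure m] {K : ℝ}
    (hK : ∀ ε : ℝ, 0 < ε → ∫ z, ‖kap ε z‖ ≤ K / ε)
    {Φ : ℂ → ℂ × Ω → ℝ} (hΦb : Bdd Φ) {CU L r : ℝ} (hΦ : ∀ x ω, |Φ x ω| ≤ CU)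
    (hL : ∀ x y ω, |Φ x ω - Φ y ω| ≤ L * ‖x - y‖) (hL0 : 0 ≤ L)
    (hr : ∀ x ω, (∃ i, T.lam i x < r) → Φ x ω = 0)
    {N : ℕ} {δ η ε B : ℝ} (hδ : 0 < δ) (hη : 0 < η) (hη1 : η ≤ 1) (hε : 0 < ε)
    (hε' : 4 * ε ≤ η * sj δ N) (hεr : T.Lp * ε < r)
    (hB : (∫ p, T.wt N δ η p ^ 2 ∂((volume.restrict T.table).prod nu)) ≤ B) :
    T.nrm m (grd ε (T.ext (fun x ω => T.chi' N δ η (x, ω.1) * Φ x ω))) ≤
      2 * (K * L) ^ 2 * volume.real T.table + 8 * K ^ 2 * CU ^ 2 / η ^ 2 * B := by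
  have hfb := T.bdd_chi' N δ η hΦb
  have hfe := T.bddSupp_ext hfb
  obtain ⟨C, hC⟩ := exists_norm_grd_le hε hfe.1
  have hm := measurable_grd ε hfe.1
  have hw := T.bdd_wt (Ω := Ω) N hδ η
  obtain ⟨D, hD⟩ := hw.2
  have hmono : T.nrm m (grd ε (T.ext (fun x ω => T.chi' N δ η (x, ω.1) * Φ x ω))) ≤
      T.nrm m (fun x ω => ((K * L : ℝ) : ℂ) +
        ((2 * K * CU / η : ℝ) : ℂ) * ((T.wt N δ η (x, ω.1) : ℝ) : ℂ)) := by
    refine T.nrm_mono m hm ?_ hC (D := |K * L| + |2 * K * CU / η| * D) ?_ ?_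
    · exact measurable_const.add (measurable_const.mul (Complex.measurable_ofReal.comp hw.1))
    · intro x ω
      refine (norm_add_le _ _).trans ?_
      rw [norm_mul, Complex.norm_real, Complex.norm_real, Complex.norm_real, Real.norm_eq_abs,
        Real.norm_eq_abs, Real.norm_eq_abs]
      gcongr
      exact hD x ω
    · filter_upwards [T.ae_muT_norm m, T.ae_muT_table m] with p hp1 hp2
      refine (T.grd_reg_est hK hΦb hΦ hL hL0 hr hδ hη hη1 hε hε' hεr hp2 hp1).trans ?_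
      rw [← Complex.ofReal_mul, ← Complex.ofReal_add, Complex.norm_real, Real.norm_eq_abs]
      exact le_abs_self _
  refine hmono.trans ?_
  refine (T.nrm_add_le m (F := fun _ _ => ((K * L : ℝ) : ℂ))
    (G := fun x ω => ((2 * K * CU / η : ℝ) : ℂ) * ((T.wt N δ η (x, ω.1) : ℝ) : ℂ))
    measurable_const (measurable_const.mul (Complex.measurable_ofReal.comp hw.1))
    (C := |K * L|) (D := |2 * K * CU / η| * D) (fun x ω => by
      rw [Complex.norm_real, Real.norm_eq_abs]) (fun x ω => by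
      rw [norm_mul, Complex.norm_real, Complex.norm_real, Real.norm_eq_abs, Real.norm_eq_abs]
      gcongr
      exact hD x ω)).trans ?_
  rw [T.nrm_const_mul m, T.nrm_const m, Complex.norm_real, Real.norm_eq_abs, sq_abs]
  have h1 := T.nrm_wt_le m N hδ η hB
  have h2 : (2 * K * CU / η) ^ 2 * T.nrm m (fun x ω => ((T.wt N δ η (x, ω.1) : ℝ) : ℂ)) ≤
      (2 * K * CU / η) ^ 2 * B := mul_le_mul_of_nonneg_left h1 (sq_nonneg _)
  have h3 : 2 * ((2 * K * CU / η) ^ 2 * B) = 8 * K ^ 2 * CU ^ 2 / η ^ 2 * B := by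
    field_simp; ring
  linarith only [h2, h3]

/-- the gradient of the mollified cut-off function, in norm -/
lemma nrm_grd_est [IsProbabilityMeasure m] {K : ℝ}
    (hK : ∀ ε : ℝ, 0 < ε → ∫ z, ‖kap ε z‖ ≤ K / ε) {K2 : ℝ}
    (hK2 : ∀ (ε : ℝ), 0 < ε → ∀ f : ℂ → ℂ × Ω → ℝ, BddSupp f →
      T.nrm m (grd ε f) ≤ (K2 / ε) ^ 2 * ∫ ω, (∫ y, f y ω ^ 2) ∂(nu.prod m))
    {U : ℂ → ℂ × Ω → ℝ} (hU : Bdd U)
    {Φ : ℂ → ℂ × Ω → ℝ} (hΦb : Bdd Φ) {CU L r τ : ℝ} (hΦ : ∀ x ω, |Φ x ω| ≤ CU)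
    (hL : ∀ x y ω, |Φ x ω - Φ y ω| ≤ L * ‖x - y‖) (hL0 : 0 ≤ L)
    (hr : ∀ x ω, (∃ i, T.lam i x < r) → Φ x ω = 0)
    (hτ : T.nrm m (fun x ω => ((U x ω - Φ x ω : ℝ) : ℂ)) ≤ τ)
    {N : ℕ} {δ η ε B : ℝ} (hδ : 0 < δ) (hη : 0 < η) (hη1 : η ≤ 1) (hε : 0 < ε)
    (hε' : 4 * ε ≤ η * sj δ N) (hεr : T.Lp * ε < r)
    (hB : (∫ p, T.wt N δ η p ^ 2 ∂((volume.restrict T.table).prod nu)) ≤ B) :
    T.nrm m (grd ε (T.ext (fun x ω => T.chi' N δ η (x, ω.1) * U x ω))) ≤
      4 * (K * L) ^ 2 * volume.real T.table + 16 * K ^ 2 * CU ^ 2 / η ^ 2 * B +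
        2 * kN ns * (K2 / ε) ^ 2 * τ := by
  have hR : Bdd (fun x ω => U x ω - Φ x ω) := hU.sub hΦb
  have f1 := T.bddSupp_ext (T.bdd_chi' N δ η hU)
  have f2 := T.bddSupp_ext (T.bdd_chi' N δ η hΦb)
  have f3 := T.bddSupp_ext (T.bdd_chi' N δ η hR)
  have e1 : T.ext (fun x ω => T.chi' N δ η (x, ω.1) * (U x ω - Φ x ω)) =
      fun x ω => T.ext (fun x ω => T.chi' N δ η (x, ω.1) * U x ω) x ω -
        T.ext (fun x ω => T.chi' N δ η (x, ω.1) * Φ x ω) x ω := by
    have h := T.ext_sub (fun x (ω : ℂ × Ω) => T.chi' N δ η (x, ω.1) * U x ω)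
      (fun x (ω : ℂ × Ω) => T.chi' N δ η (x, ω.1) * Φ x ω)
    rw [← h]
    congr 1
    funext x ω
    ring
  have e2 : grd ε (T.ext (fun x ω => T.chi' N δ η (x, ω.1) * U x ω)) =
      fun x ω => grd ε (T.ext (fun x ω => T.chi' N δ η (x, ω.1) * Φ x ω)) x ω +
        grd ε (T.ext (fun x ω => T.chi' N δ η (x, ω.1) * (U x ω - Φ x ω))) x ω := by
    funext x ω
    rw [e1, grd_sub hε f1.1 f2.1]
    ring
  rw [e2]
  obtain ⟨C2, hC2⟩ := exists_norm_grd_le hε f2.1
  obtain ⟨C3, hC3⟩ := exists_norm_grd_le hε f3.1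
  refine (T.nrm_add_le m (measurable_grd ε f2.1) (measurable_grd ε f3.1) hC2 hC3).trans ?_
  have b1 := T.nrm_grd_reg m hK hΦb hΦ hL hL0 hr hδ hη hη1 hε hε' hεr hB
  have b2 : T.nrm m (grd ε (T.ext (fun x ω => T.chi' N δ η (x, ω.1) * (U x ω - Φ x ω)))) ≤
      (K2 / ε) ^ 2 * (kN ns * τ) := by
    refine (hK2 ε hε _ f3).trans ?_
    apply mul_le_mul_of_nonneg_left _ (sq_nonneg _)
    refine (T.int_ext_sq_le m (T.bdd_chi' N δ η hR)).trans ?_
    apply mul_le_mul_of_nonneg_left _ kN_pos.le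
    refine le_trans ?_ hτ
    obtain ⟨C4, hC4⟩ := hR.2
    obtain ⟨C5, hC5⟩ := (T.bdd_chi' N δ η hR).2
    refine T.nrm_mono m (Complex.measurable_ofReal.comp (T.bdd_chi' N δ η hR).1)
      (Complex.measurable_ofReal.comp hR.1) (C := C5) (D := C4) ?_ ?_ ?_
    · intro x ω; rw [Complex.norm_real, Real.norm_eq_abs]; exact hC5 x ω
    · intro x ω; rw [Complex.norm_real, Real.norm_eq_abs]; exact hC4 x ω
    · refine Eventually.of_forall fun p => ?_
      rw [Complex.norm_real, Complex.norm_real, Real.norm_eq_abs, Real.norm_eq_abs, abs_mul,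
        abs_of_nonneg (T.chi'_nonneg _ _ _ _)]
      calc _ ≤ 1 * |U p.1 p.2 - Φ p.1 p.2| :=
            mul_le_mul_of_nonneg_right (T.chi'_le_one _ _ _ _) (abs_nonneg _)
        _ = _ := one_mul _
  have e3 : 2 * (8 * K ^ 2 * CU ^ 2 / η ^ 2 * B) = 16 * K ^ 2 * CU ^ 2 / η ^ 2 * B := by ring
  linarith

end ConvexPolygon

end Vale.Agent.P099C
end
end

section

section

open MeasureTheory Set Filter Topology

namespace Vale.Agent.P099C
open Vale.Agent.P099 (nu FlowErgodic FlowWeakMixing)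

variable {Ω : Type} [MeasurableSpace Ω]

namespace ConvexPolygon

variable {ns : ℕ} [NeZero ns] (T : ConvexPolygon ns) (m : Measure Ω)

/-- the mollified cut-off function is close to the function -/
lemma nrm_app_est [IsProbabilityMeasure m] {U : ℂ → ℂ × Ω → ℝ} (hU : Bdd U) {CU : ℝ}
    (hCU : ∀ x ω, |U x ω| ≤ CU) {N : ℕ} {δ η ε B τ : ℝ} (hε : 0 < ε)
    (hB : (((volume.restrict T.table).prod nu) {p | T.chi N δ η p < 1}).toReal ≤ B)
    (hτ : T.nrm m (fun x ω => ((mol ε (T.ext U) x ω - U x ω : ℝ) : ℂ)) ≤ τ) :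
    T.nrm m (fun x ω =>
      ((mol ε (T.ext (fun x ω => T.chi' N δ η (x, ω.1) * U x ω)) x ω - U x ω : ℝ) : ℂ)) ≤
      2 * kN ns * CU ^ 2 * B + 2 * τ := by
  have f1 := T.bdd_chi' N δ η hU
  have f2 : Bdd (fun x (ω : ℂ × Ω) => T.chi' N δ η (x, ω.1) * U x ω - U x ω) := f1.sub hU
  have g1 := T.bddSupp_ext f1
  have g2 := T.bddSupp_ext f2
  have g3 := T.bddSupp_ext hU
  have m2 := g2.1.mol hε
  have m3 := (g3.1.mol hε).sub hU
  obtain ⟨C2, hC2⟩ := m2.2
  obtain ⟨C3, hC3⟩ := m3.2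
  have e1 : T.ext (fun x ω => T.chi' N δ η (x, ω.1) * U x ω - U x ω) =
      fun x ω => T.ext (fun x ω => T.chi' N δ η (x, ω.1) * U x ω) x ω - T.ext U x ω :=
    T.ext_sub (fun x (ω : ℂ × Ω) => T.chi' N δ η (x, ω.1) * U x ω) U
  have e2 : (fun x ω =>
      ((mol ε (T.ext (fun x ω => T.chi' N δ η (x, ω.1) * U x ω)) x ω - U x ω : ℝ) : ℂ)) =
      fun x ω =>
        ((mol ε (T.ext (fun x ω => T.chi' N δ η (x, ω.1) * U x ω - U x ω)) x ω : ℝ) : ℂ) +
        ((mol ε (T.ext U) x ω - U x ω : ℝ) : ℂ) := by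
    funext x ω
    rw [e1, mol_sub hε g1.1 g3.1]
    push_cast
    ring
  rw [e2]
  refine (T.nrm_add_le m (Complex.measurable_ofReal.comp m2.1)
    (Complex.measurable_ofReal.comp m3.1) (C := C2) (D := C3) (fun x ω => by
      rw [Complex.norm_real, Real.norm_eq_abs]; exact hC2 x ω) (fun x ω => by
      rw [Complex.norm_real, Real.norm_eq_abs]; exact hC3 x ω)).trans ?_
  have b1 : T.nrm m (fun x ω =>
      ((mol ε (T.ext (fun x ω => T.chi' N δ η (x, ω.1) * U x ω - U x ω)) x ω : ℝ) : ℂ)) ≤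
      kN ns * (CU ^ 2 * B) := by
    refine (T.nrm_mol_le m hε g2).trans ?_
    refine (T.int_ext_sq_le m f2).trans ?_
    apply mul_le_mul_of_nonneg_left _ kN_pos.le
    refine (T.nrm_cut_le m (T.measurable_chi' N δ η)
      (fun p => ⟨T.chi'_nonneg _ _ _ _, T.chi'_le_one _ _ _ _⟩) hU hCU
      (S := {p | T.chi' N δ η p < 1})
      (measurableSet_lt (T.measurable_chi' N δ η) measurable_const) ?_).trans ?_
    · intro p hp
      exact le_antisymm (T.chi'_le_one _ _ _ _) (not_lt.1 hp)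
    · apply mul_le_mul_of_nonneg_left _ (sq_nonneg _)
      refine le_trans ?_ hB
      rw [measureReal_def]
      apply ENNReal.toReal_mono (measure_ne_top _ _)
      apply measure_mono_ae
      have h1 : ∀ᵐ q ∂((volume.restrict T.table).prod nu), ‖q.2‖ = 1 :=
        Measure.quasiMeasurePreserving_snd.ae ae_norm
      filter_upwards [h1] with p hp hpS
      have : T.chi' N δ η p < 1 := hpS
      rw [show p = (p.1, p.2) from rfl, T.chi'_eq hp] at this
      exact this
  linarith only [hτ, b1]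

/-- from the pointwise estimate of the derivative along the motion to the norm -/
lemma nrm_Xd_est [IsProbabilityMeasure m] {U V : ℂ → ℂ × Ω → ℝ} (hU : Bdd U) (hV : Bdd V)
    {CU : ℝ} {N : ℕ} {δ η ε B : ℝ} (hδ : 0 < δ) (hε : 0 < ε)
    (hB : (∫ p, T.wt N δ η p ^ 2 ∂((volume.restrict T.table).prod nu)) ≤ B)
    (h : ∀ᵐ ω ∂(nu.prod m), ∀ x ∈ T.table,
      |Xd ε (T.ext (fun x ω => T.chi' N δ η (x, ω.1) * U x ω)) x ω -
        mol ε (T.ext (fun x ω => T.chi' N δ η (x, ω.1) * V x ω)) x ω| ≤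
      η * CU * mol ε (T.ext (fun x ω => T.wt N δ η (x, ω.1))) x ω) :
    T.nrm m (fun x ω => ((Xd ε (T.ext (fun x ω => T.chi' N δ η (x, ω.1) * U x ω)) x ω -
          mol ε (T.ext (fun x ω => T.chi' N δ η (x, ω.1) * V x ω)) x ω : ℝ) : ℂ)) ≤
      kN ns * (η * CU) ^ 2 * B := by
  set f := T.ext (fun x (ω : ℂ × Ω) => T.chi' N δ η (x, ω.1) * U x ω) with hf
  set g := T.ext (fun x (ω : ℂ × Ω) => T.chi' N δ η (x, ω.1) * V x ω) with hg
  set w := T.ext (fun x (ω : ℂ × Ω) => T.wt N δ η (x, ω.1)) with hw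
  have f1 : BddSupp f := T.bddSupp_ext (T.bdd_chi' N δ η hU)
  have g1 : BddSupp g := T.bddSupp_ext (T.bdd_chi' N δ η hV)
  have w0 := T.bdd_wt (Ω := Ω) N hδ η
  have w1 : BddSupp w := T.bddSupp_ext w0
  obtain ⟨C1, hC1⟩ := exists_norm_grd_le hε f1.1
  obtain ⟨C2, hC2⟩ := (g1.1.mol hε).2
  obtain ⟨C3, hC3⟩ := (w1.1.mol hε).2
  have hae : ∀ᵐ ω : ℂ × Ω ∂(nu.prod m), ‖ω.1‖ = 1 :=
    Measure.quasiMeasurePreserving_fst.ae ae_norm
  have hS : MeasurableSet {ω : ℂ × Ω | ‖ω.1‖ = 1} :=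
    measurableSet_eq_fun (measurable_fst.norm) measurable_const
  set F : ℂ → ℂ × Ω → ℂ := fun x ω => ((Xd ε f x ω - mol ε g x ω : ℝ) : ℂ) with hF
  set F' : ℂ → ℂ × Ω → ℂ := fun x ω => {ω : ℂ × Ω | ‖ω.1‖ = 1}.indicator (F x) ω with hF'
  have e1 : T.nrm m F = T.nrm m F' := by
    unfold nrm
    congr 1
    funext x
    apply integral_congr_ae
    filter_upwards [hae] with ω hω
    rw [hF']
    simp only
    rw [indicator_of_mem (by exact hω)]
  have hFm : Measurable fun p : ℂ × (ℂ × Ω) => F p.1 p.2 := by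
    rw [hF]
    apply Complex.measurable_ofReal.comp
    apply Measurable.sub _ (g1.1.mol hε).1
    unfold Xd
    exact (Complex.measurable_re.comp ((measurable_fst.comp measurable_snd).mul
      (measurable_grd ε f1.1))).const_mul 2
  have hFm' : Measurable fun p : ℂ × (ℂ × Ω) => F' p.1 p.2 := by
    have : (fun p : ℂ × (ℂ × Ω) => F' p.1 p.2) =
        (Prod.snd ⁻¹' {ω : ℂ × Ω | ‖ω.1‖ = 1}).indicator (fun p : ℂ × (ℂ × Ω) => F p.1 p.2) := by
      funext p
      simp only [hF', indicator, mem_preimage]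
    rw [this]
    exact hFm.indicator (measurable_snd hS)
  have e2 : T.nrm m F' ≤ T.nrm m (fun x ω => ((η * CU : ℝ) : ℂ) * ((mol ε w x ω : ℝ) : ℂ)) := by
    refine T.nrm_mono m hFm' (measurable_const.mul
      (Complex.measurable_ofReal.comp (w1.1.mol hε).1)) (C := 2 * |C1| + |C2|)
      (D := |η * CU| * |C3|) ?_ ?_ ?_
    · intro x ω
      by_cases hω : ‖ω.1‖ = 1
      · simp only [hF']
        rw [indicator_of_mem (by exact hω)]
        simp only [hF]
        rw [Complex.norm_real, Real.norm_eq_abs]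
        refine (abs_sub _ _).trans ?_
        apply add_le_add
        · unfold Xd
          rw [abs_mul, abs_two]
          apply mul_le_mul_of_nonneg_left _ (by norm_num)
          refine (Complex.abs_re_le_norm _).trans ?_
          rw [norm_mul, hω, one_mul]
          exact (hC1 x ω).trans (le_abs_self _)
        · exact (hC2 x ω).trans (le_abs_self _)
      · simp only [hF']
        rw [indicator_of_notMem (by exact hω), norm_zero]
        (clear * -; positivity)
    · intro x ω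
      rw [norm_mul, Complex.norm_real, Complex.norm_real, Real.norm_eq_abs, Real.norm_eq_abs]
      apply mul_le_mul_of_nonneg_left _ (abs_nonneg _)
      exact (hC3 x ω).trans (le_abs_self _)
    · have h2 : ∀ᵐ p ∂(T.muT m), ∀ x ∈ T.table, |Xd ε f x p.2 - mol ε g x p.2| ≤
          η * CU * mol ε w x p.2 := by
        unfold muT
        exact Measure.quasiMeasurePreserving_snd.ae h
      filter_upwards [h2, T.ae_muT_table m, T.ae_muT_norm m] with p hp hp2 hp3
      simp only [hF']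
      rw [indicator_of_mem (by exact hp3)]
      simp only [hF]
      rw [Complex.norm_real, Real.norm_eq_abs, ← Complex.ofReal_mul, Complex.norm_real,
        Real.norm_eq_abs]
      exact (hp p.1 hp2).trans (le_abs_self _)
  rw [e1]
  refine e2.trans ?_
  rw [T.nrm_const_mul m, Complex.norm_real, Real.norm_eq_abs, sq_abs]
  have e3 : T.nrm m (fun x ω => ((mol ε w x ω : ℝ) : ℂ)) ≤ kN ns * B := by
    refine (T.nrm_mol_le m hε w1).trans ?_
    refine (T.int_ext_sq_le m w0).trans ?_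
    apply mul_le_mul_of_nonneg_left _ kN_pos.le
    exact T.nrm_wt_le m N hδ η hB
  calc (η * CU) ^ 2 * T.nrm m (fun x ω => ((mol ε w x ω : ℝ) : ℂ))
      ≤ (η * CU) ^ 2 * (kN ns * B) := mul_le_mul_of_nonneg_left e3 (sq_nonneg _)
    _ = kN ns * (η * CU) ^ 2 * B := by ring

end ConvexPolygon

end Vale.Agent.P099C
end
end

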