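import Vale.Agent.P099.MathlibUsed
import Vale.Agent.P099.H504.CPJ
attribute [-instance] ProperSMul.toContinuousSMul IsTopologicalTorsor.toContinuousSMul IdemSemiring.toCanonicallyOrderedAdd IdemSemiring.toMulLeftMono IdemSemiring.toMulRightMono AddQuantale.instAddLeftMono AddQuantale.instAddRightMono Quantale.instMulLeftMono Quantale.instMulRightMono FiniteDimensional.rclike_to_real IsScalarTower.complexToReal FiniteDimensional.complexToReal

set_option linter.all false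

section

section

open MeasureTheory Set Filter Topology

namespace Vale.Agent.P099C
open Vale.Agent.P099 (nu FlowErgodic FlowWeakMixing)

set_option linter.unusedSectionVars false

variable {Ω : Type} [MeasurableSpace Ω]

namespace ConvexPolygon

variable {ns : ℕ} [NeZero ns] (T : ConvexPolygon ns) (m : Measure Ω)

/-- properties of a cut-off function which are used in the estimates -/
structure IsCut (η σ r0 : ℝ) (χ M : ℂ × ℂ → ℝ) : Prop where
  meas : Measurable χ
  measM : Measurable M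
  nonneg : ∀ s, 0 ≤ χ s
  le_one : ∀ s, χ s ≤ 1
  nonnegM : ∀ s, 0 ≤ M s
  bddM : ∃ C, ∀ s, M s ≤ C
  lip : ∀ x ∈ T.table, ∀ y ∈ T.table, ∀ u, ‖u‖ = 1 → an η u (y - x) ≤ σ →
    |χ (y, u) - χ (x, u)| ≤ an η u (y - x) * M (x, u)
  cross : ∀ i, ∀ x ∈ T.table, ∀ y ∈ T.table, ∀ u, ‖u‖ = 1 → T.Cross i x (T.R i y) →
    an η u (T.R i y - x) ≤ σ →
    |χ (y, T.refl i u) - χ (x, u)| ≤ an η u (T.R i y - x) * M (x, u)
  near : ∀ k, ∀ x ∈ T.table, ‖x - T.P k‖ < r0 → ∀ u, χ (x, u) = 0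

/-! ### almost everywhere statements -/

lemma ae_table_to_global [SFinite m] {P : ℂ × (ℂ × Ω) → Prop}
    (h : ∀ᵐ p ∂((volume.restrict T.table).prod (nu.prod m)), P p) :
    ∀ᵐ p ∂((volume : Measure ℂ).prod (nu.prod m)), p.1 ∈ T.table → P p := by
  have h1 : (volume.restrict T.table).prod (nu.prod m) =
      ((volume : Measure ℂ).prod (nu.prod m)).restrict (T.table ×ˢ univ) := by
    rw [← Measure.prod_restrict, Measure.restrict_univ]
  rw [h1, ae_restrict_iff' (T.isOpen_table.measurableSet.prod MeasurableSet.univ)] at h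
  filter_upwards [h] with p hp hp1
  exact hp ⟨hp1, mem_univ _⟩

lemma measurePreserving_refl_prod [SFinite m] (i : Fin ns) :
    MeasurePreserving (fun p : ℂ × (ℂ × Ω) => (T.R i p.1, (T.refl i p.2.1, p.2.2)))
      ((volume : Measure ℂ).prod (nu.prod m)) ((volume : Measure ℂ).prod (nu.prod m)) :=
  (T.measurePreserving_R i).prod ((T.measurePreserving_refl i).prod (MeasurePreserving.id m))

lemma ae_reflect [SFinite m] (i : Fin ns) {P : ℂ × (ℂ × Ω) → Prop}
    (h : ∀ᵐ p ∂((volume : Measure ℂ).prod (nu.prod m)), P p) :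
    ∀ᵐ p ∂((volume : Measure ℂ).prod (nu.prod m)), P (T.R i p.1, (T.refl i p.2.1, p.2.2)) :=
  (T.measurePreserving_refl_prod m i).quasiMeasurePreserving.ae h

lemma ae_fiber [SFinite m] {P : ℂ × (ℂ × Ω) → Prop}
    (h : ∀ᵐ p ∂((volume : Measure ℂ).prod (nu.prod m)), P p) :
    ∀ᵐ ω ∂(nu.prod m), ∀ᵐ y ∂(volume : Measure ℂ), P (y, ω) := by
  have h1 : ∀ᵐ p ∂((nu.prod m).prod (volume : Measure ℂ)), P p.swap :=
    Measure.measurePreserving_swap.quasiMeasurePreserving.ae h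
  exact (Measure.ae_ae_of_ae_prod h1 :)

lemma volume_lam_eq_zero (i : Fin ns) : volume {y : ℂ | T.lam i y = 0} = 0 := by
  let L : ℂ →ₗ[ℝ] ℝ :=
    { toFun := T.ell i
      map_add' := T.ell_add i
      map_smul' := fun r u => by simpa only [Complex.real_smul, Real.ringHom_apply, smul_eq_mul] using T.ell_smul i r u }
  have hker : LinearMap.ker L ≠ ⊤ := by
    intro htop
    have h1 : L (T.P (i + 1 + 1) - T.P i) = 0 := by
      rw [← LinearMap.mem_ker, htop]
      exact Submodule.mem_top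
    have h2 := T.lam_add i (T.P i) (T.P (i + 1 + 1) - T.P i)
    rw [add_sub_cancel, T.lam_P_self] at h2
    have h4 := T.lam_P_pos (T.add_two_ne i) (T.add_one_ne (i + 1))
    have h3 : L (T.P (i + 1 + 1) - T.P i) = T.ell i (T.P (i + 1 + 1) - T.P i) := rfl
    rw [h3] at h1
    linarith only [h1, h2, h4]
  have h1 : volume (LinearMap.ker L : Set ℂ) = 0 := Measure.addHaar_submodule _ _ hker
  have h2 : {y : ℂ | T.lam i y = 0} = (fun y => y + (- T.P i)) ⁻¹' (LinearMap.ker L : Set ℂ) := by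
    ext y
    simp only [mem_ofPred_eq, mem_preimage, SetLike.mem_coe, LinearMap.mem_ker]
    have h3 := T.lam_add i (T.P i) (y - T.P i)
    rw [add_sub_cancel, T.lam_P_self, zero_add] at h3
    rw [h3]
    rfl
  rw [h2, measure_preimage_add_right]
  exact h1

lemma ae_lam_ne (i : Fin ns) (v : ℂ) : ∀ᵐ y ∂(volume : Measure ℂ), T.lam i (y + v) ≠ 0 := by
  rw [ae_iff]
  simp only [ne_eq, not_not]
  have : {a : ℂ | T.lam i (a + v) = 0} = (fun y => y + v) ⁻¹' {y : ℂ | T.lam i y = 0} := rfl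
  rw [this, measure_preimage_add_right]
  exact T.volume_lam_eq_zero i

/-! ### the extension along short straight segments -/

variable {T} {m}

lemma LocAt.ext_mul {f g : ℂ → ℂ × Ω → ℝ} {i : Fin ns} {y : ℂ} (h : T.LocAt i y) (ω : ℂ × Ω) :
    T.ext (fun x ω => f x ω * g x ω) y ω = T.ext f y ω * T.ext g y ω := by
  rcases lt_trichotomy (T.lam i y) 0 with h0 | h0 | h0
  · rw [h.ext_of_neg h0, h.ext_of_neg h0, h.ext_of_neg h0]
  · rw [h.ext_of_zero h0, h.ext_of_zero h0, zero_mul]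
  · rw [ext_of_pos (h.mem_table h0), ext_of_pos (h.mem_table h0), ext_of_pos (h.mem_table h0)]

/-- the hitting time of the line of side `i` -/
lemma lam_add_smul_eq {i : Fin ns} {y u : ℂ} (hu : T.ell i u ≠ 0) (s : ℝ) :
    T.lam i (y + s • u) = (s - T.hitT i (y, u)) * T.ell i u := by
  rw [T.lam_add_smul]
  unfold hitT
  field_simp
  ring

/-- crossing from inside to outside: all the facts -/
lemma cross_facts {i : Fin ns} {y u : ℂ} {t : ℝ} (ht : 0 < t)
    (hloc : ∀ s ∈ Icc (0:ℝ) t, T.LocAt i (y + s • u)) (h0 : 0 < T.lam i y)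
    (h1 : T.lam i (y + t • u) < 0) :
    T.ell i u < 0 ∧ 0 < T.hitT i (y, u) ∧ T.hitT i (y, u) < t ∧ T.E i (y, u) := by
  have he : T.ell i u < 0 := by
    rw [T.lam_add_smul] at h1
    by_contra hcon
    push Not at hcon
    have := mul_nonneg ht.le hcon
    linarith only [h0, h1, this]
  have hpos : 0 < T.hitT i (y, u) := by
    unfold hitT
    exact div_pos_of_neg_of_neg (by linarith only [h0]) he
  have hlt : T.hitT i (y, u) < t := by
    rw [lam_add_smul_eq he.ne] at h1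
    by_contra hcon
    push Not at hcon
    have : 0 ≤ (t - T.hitT i (y, u)) * T.ell i u :=
      mul_nonneg_of_nonpos_of_nonpos (by linarith) he.le
    linarith
  exact ⟨he, hpos, hlt, he, fun j hj => (hloc _ ⟨hpos.le, hlt.le⟩).1 j hj⟩


variable (T)

/-- free-flight identity at the state `p` -/
def FreeAt (U V : ℂ → ℂ × Ω → ℝ) (t : ℝ) (p : ℂ × (ℂ × Ω)) : Prop :=
  p.1 + t • p.2.1 ∈ T.table →
    U (p.1 + t • p.2.1) p.2 - U p.1 p.2 = ∫ s in (0:ℝ)..t, V (p.1 + s • p.2.1) p.2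

/-- one-collision identity at the state `p` -/
def BounceAt (U V : ℂ → ℂ × Ω → ℝ) (t : ℝ) (i : Fin ns) (p : ℂ × (ℂ × Ω)) : Prop :=
  T.E i (p.1, p.2.1) → T.hitT i (p.1, p.2.1) < t → T.R i (p.1 + t • p.2.1) ∈ T.table →
      U (T.R i (p.1 + t • p.2.1)) (T.refl i p.2.1, p.2.2) - U p.1 p.2 =
        (∫ s in (0:ℝ)..(T.hitT i (p.1, p.2.1)), V (p.1 + s • p.2.1) p.2) +
        ∫ s in (T.hitT i (p.1, p.2.1))..t, V (T.R i (p.1 + s • p.2.1)) (T.refl i p.2.1, p.2.2)

variable {T}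

lemma Bdd.intervalIntegrable {V : ℂ → ℂ × Ω → ℝ} (hV : Bdd V) (y v : ℂ) (ω : ℂ × Ω) (a b : ℝ) :
    IntervalIntegrable (fun s : ℝ => V (y + s • v) ω) volume a b := by
  obtain ⟨hm, C, hC⟩ := hV
  have h1 : Measurable (fun s : ℝ => V (y + s • v) ω) := by
    have : Measurable (fun s : ℝ => ((y + s • v, ω) : ℂ × (ℂ × Ω))) := by
      apply Measurable.prodMk _ measurable_const
      fun_prop
    exact hm.comp this
  rw [intervalIntegrable_iff]
  exact Measure.integrableOn_of_bounded (M := C) (by simp only [Real.volume_uIoc, ne_eq, ENNReal.ofReal_ne_top, not_false_eq_true]) h1.aestronglyMeasurable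
    (ae_of_all _ fun s => by simpa only [Complex.real_smul, Real.norm_eq_abs] using hC _ _)

lemma lam_pos_of_ends {i : Fin ns} {y u : ℂ} {t s : ℝ} (hs : s ∈ Icc (0:ℝ) t)
    (h0 : 0 < T.lam i y) (h1 : 0 < T.lam i (y + t • u)) : 0 < T.lam i (y + s • u) := by
  rw [T.lam_add_smul] at h1 ⊢
  rcases le_or_gt 0 (T.ell i u) with h | h
  · have := mul_nonneg hs.1 h
    linarith only [h0, this]
  · have : t * T.ell i u ≤ s * T.ell i u := mul_le_mul_of_nonpos_right hs.2 h.le
    linarith only [h1, this]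

lemma lam_neg_of_ends {i : Fin ns} {y u : ℂ} {t s : ℝ} (hs : s ∈ Icc (0:ℝ) t)
    (h0 : T.lam i y < 0) (h1 : T.lam i (y + t • u) < 0) : T.lam i (y + s • u) < 0 := by
  rw [T.lam_add_smul] at h1 ⊢
  rcases le_or_gt 0 (T.ell i u) with h | h
  · have : s * T.ell i u ≤ t * T.ell i u := mul_le_mul_of_nonneg_right hs.2 h
    linarith only [h1, this]
  · have := mul_nonneg hs.1 (neg_nonneg.mpr h.le)
    linarith only [h0, this]

lemma R_add_smul (i : Fin ns) (y u : ℂ) (s : ℝ) :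
    T.R i (y + s • u) = T.R i y + s • T.refl i u := by
  rw [T.R_add, T.refl_smul]

/-- the derivative of the extension along straight segments near one side -/
lemma ext_der_of {U V : ℂ → ℂ × Ω → ℝ} (hV : Bdd V) {t : ℝ} (ht : 0 < t) {y : ℂ} {ω : ℂ × Ω}
    {i : Fin ns}
    (hF : y ∈ T.table → T.FreeAt U V t (y, ω) ∧ T.BounceAt U V t i (y, ω))
    (hR : T.R i y ∈ T.table → T.FreeAt U V t (T.R i y, (T.refl i ω.1, ω.2)) ∧
      T.BounceAt U V t i (T.R i y, (T.refl i ω.1, ω.2)))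
    (h0 : T.lam i y ≠ 0) (h1 : T.lam i (y + t • ω.1) ≠ 0)
    (hloc : ∀ s ∈ Icc (0:ℝ) t, T.LocAt i (y + s • ω.1)) :
    T.ext U (y + t • ω.1) ω - T.ext U y ω = ∫ s in (0:ℝ)..t, T.ext V (y + s • ω.1) ω := by
  obtain ⟨u, q⟩ := ω
  simp only at *
  have hl0 : T.LocAt i y := by simpa only [zero_smul, add_zero] using hloc 0 ⟨le_rfl, ht.le⟩
  have hlt : T.LocAt i (y + t • u) := hloc t ⟨ht.le, le_rfl⟩
  have hVe : ∀ a b, IntervalIntegrable (fun s : ℝ => T.ext V (y + s • u) (u, q)) volume a b :=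
    fun a b => Bdd.intervalIntegrable (T.bddSupp_ext hV).1 y u (u, q) a b
  rcases lt_or_gt_of_ne h0 with h0 | h0
  · -- starts outside
    have hy' := hl0.R_mem_table h0
    obtain ⟨hF', hB'⟩ := hR hy'
    rw [hl0.ext_of_neg h0]
    rcases lt_or_gt_of_ne h1 with h1 | h1
    · -- stays outside
      rw [hlt.ext_of_neg h1]
      have h2 := hF' (by
        show T.R i y + t • T.refl i u ∈ T.table
        rw [← R_add_smul]
        exact hlt.R_mem_table h1)
      simp only at h2 ⊢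
      rw [R_add_smul, h2]
      apply intervalIntegral.integral_congr
      intro s hs
      rw [uIcc_of_le ht.le] at hs
      simp only
      rw [(hloc s hs).ext_of_neg (lam_neg_of_ends hs h0 h1)]
      simp only
      rw [R_add_smul]
    · -- enters
      rw [ext_of_pos (hlt.mem_table h1)]
      have he : 0 < T.ell i u := by
        rw [T.lam_add_smul] at h1
        by_contra hcon
        push Not at hcon
        have := mul_nonneg ht.le (neg_nonneg.mpr hcon)
        linarith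
      set h := T.hitT i (y, u) with hh
      have hpos : 0 < h := by
        rw [hh]; unfold hitT
        simp only
        apply div_pos (by linarith) he
      have hlth : h < t := by
        rw [lam_add_smul_eq he.ne'] at h1
        by_contra hcon
        push Not at hcon
        have : (t - h) * T.ell i u ≤ 0 :=
          mul_nonpos_of_nonpos_of_nonneg (by linarith) he.le
        linarith
      have hh' : T.hitT i (T.R i y, T.refl i u) = h := by
        rw [hh]
        unfold hitT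
        simp only
        rw [T.lam_R, T.ell_refl, neg_div_neg_eq]
      have hz : T.lam i (y + h • u) = 0 := by
        rw [lam_add_smul_eq he.ne', sub_self, zero_mul]
      have hR2 : ∀ s : ℝ, T.R i (T.R i y + s • T.refl i u) = y + s • u := by
        intro s
        rw [← R_add_smul, T.R_R]
      have hE : T.E i (T.R i y, T.refl i u) := by
        refine ⟨by simp only; rw [T.ell_refl]; linarith, fun j hj => ?_⟩
        rw [hh']
        simp only
        rw [← R_add_smul, T.R_of_lam_eq_zero hz]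
        exact (hloc h ⟨hpos.le, hlth.le⟩).1 j hj
      have h2 := hB' hE (by simpa only [hh'] using hlth) (by
        simp only
        rw [hR2]
        exact hlt.mem_table h1)
      simp only [hR2, T.refl_refl, hh'] at h2
      rw [h2, ← intervalIntegral.integral_add_adjacent_intervals (hVe 0 h) (hVe h t)]
      congr 1
      · apply intervalIntegral.integral_congr_ae
        have h3 : ∀ᵐ s : ℝ, s ≠ h := by
          rw [ae_iff]; simp
        filter_upwards [h3] with s hs hs2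
        rw [uIoc_of_le hpos.le] at hs2
        have hs3 : s < h := lt_of_le_of_ne hs2.2 hs
        have h4 : T.lam i (y + s • u) < 0 := by
          rw [lam_add_smul_eq he.ne']
          exact mul_neg_of_neg_of_pos (by linarith only [hs3]) he
        rw [(hloc s ⟨hs2.1.le, by linarith⟩).ext_of_neg h4]
        simp only
        rw [R_add_smul]
      · apply intervalIntegral.integral_congr_ae
        refine ae_of_all _ fun s hs => ?_
        rw [uIoc_of_le hlth.le] at hs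
        have h4 : 0 < T.lam i (y + s • u) := by
          rw [lam_add_smul_eq he.ne']
          exact mul_pos (by linarith [hs.1]) he
        rw [ext_of_pos ((hloc s ⟨by linarith only [hpos, hs.1], hs.2⟩).mem_table h4)]
  · -- starts inside
    have hy := hl0.mem_table h0
    obtain ⟨hF', hB'⟩ := hF hy
    rw [ext_of_pos hy]
    rcases lt_or_gt_of_ne h1 with h1 | h1
    · -- leaves
      obtain ⟨he, hpos, hlth, hE⟩ := cross_facts ht hloc h0 h1
      rw [hlt.ext_of_neg h1]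
      have h2 := hB' hE hlth (hlt.R_mem_table h1)
      simp only at h2 ⊢
      set h := T.hitT i (y, u) with hh
      rw [h2, ← intervalIntegral.integral_add_adjacent_intervals (hVe 0 h) (hVe h t)]
      congr 1
      · apply intervalIntegral.integral_congr_ae
        have h3 : ∀ᵐ s : ℝ, s ≠ h := by
          rw [ae_iff]; simp
        filter_upwards [h3] with s hs hs2
        rw [uIoc_of_le hpos.le] at hs2
        have hs3 : s < h := lt_of_le_of_ne hs2.2 hs
        have h4 : 0 < T.lam i (y + s • u) := by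
          rw [lam_add_smul_eq he.ne]
          exact mul_pos_of_neg_of_neg (by linarith only [hs3]) he
        rw [ext_of_pos ((hloc s ⟨hs2.1.le, by linarith⟩).mem_table h4)]
      · apply intervalIntegral.integral_congr_ae
        refine ae_of_all _ fun s hs => ?_
        rw [uIoc_of_le hlth.le] at hs
        have h4 : T.lam i (y + s • u) < 0 := by
          rw [lam_add_smul_eq he.ne]
          exact mul_neg_of_pos_of_neg (by linarith [hs.1]) he
        rw [(hloc s ⟨by linarith [hs.1], hs.2⟩).ext_of_neg h4]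
    · -- stays inside
      rw [ext_of_pos (hlt.mem_table h1)]
      have h2 := hF' (hlt.mem_table h1)
      simp only at h2
      rw [h2]
      apply intervalIntegral.integral_congr
      intro s hs
      rw [uIcc_of_le ht.le] at hs
      simp only
      rw [ext_of_pos ((hloc s hs).mem_table (lam_pos_of_ends hs h0 h1))]

/-! ### the extended cut-off along short straight segments -/

/-- a ray which leaves through side `i` before time `t` crosses side `i` -/
lemma cross_of_exit {i : Fin ns} {a v : ℂ} {t : ℝ} (hE : T.E i (a, v)) (ht : 0 < t)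
    (hh : T.hitT i (a, v) < t) : T.Cross i a (a + t • v) := by
  obtain ⟨he, hj⟩ := hE
  simp only at he hj
  refine ⟨?_, fun j hji => ?_⟩
  · rw [lam_add_smul_eq he.ne]
    exact mul_neg_of_pos_of_neg (by linarith only [hh]) he
  · have h1 := hj j hji
    have h2 : T.lam i a = - T.hitT i (a, v) * T.ell i v := by
      have := lam_add_smul_eq (T := T) (y := a) he.ne 0
      simpa only [neg_mul, zero_smul, add_zero, zero_sub] using this
    rw [T.lam_add_smul] at h1
    have h3 : T.lam i a * T.lam j (a + t • v) - T.lam j a * T.lam i (a + t • v) =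
        (- T.ell i v) * t * (T.lam j a + T.hitT i (a, v) * T.ell j v) := by
      rw [T.lam_add_smul, T.lam_add_smul, h2]
      ring
    rw [h3]
    exact mul_pos (mul_pos (by linarith only [he]) ht) h1

/-- crossing from outside to inside: all the facts -/
lemma enter_facts {i : Fin ns} {y u : ℂ} {t : ℝ} (ht : 0 < t)
    (hloc : ∀ s ∈ Icc (0:ℝ) t, T.LocAt i (y + s • u)) (h0 : T.lam i y < 0)
    (h1 : 0 < T.lam i (y + t • u)) :
    0 < T.ell i u ∧ 0 < T.hitT i (y, u) ∧ T.hitT i (y, u) < t ∧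
      T.hitT i (T.R i y, T.refl i u) = T.hitT i (y, u) ∧ T.E i (T.R i y, T.refl i u) := by
  have he : 0 < T.ell i u := by
    rw [T.lam_add_smul] at h1
    by_contra hcon
    push Not at hcon
    have := mul_nonneg ht.le (neg_nonneg.mpr hcon)
    linarith
  have hpos : 0 < T.hitT i (y, u) := by
    unfold hitT
    simp only
    apply div_pos (by linarith) he
  have hlth : T.hitT i (y, u) < t := by
    rw [lam_add_smul_eq he.ne'] at h1
    by_contra hcon
    push Not at hcon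
    have : (t - T.hitT i (y, u)) * T.ell i u ≤ 0 :=
      mul_nonpos_of_nonpos_of_nonneg (by linarith only [hcon]) he.le
    linarith
  have hh' : T.hitT i (T.R i y, T.refl i u) = T.hitT i (y, u) := by
    unfold hitT
    simp only
    rw [T.lam_R, T.ell_refl, neg_div_neg_eq]
  have hz : T.lam i (y + T.hitT i (y, u) • u) = 0 := by
    rw [lam_add_smul_eq he.ne', sub_self, zero_mul]
  refine ⟨he, hpos, hlth, hh', by simp only; rw [T.ell_refl]; linarith, fun j hj => ?_⟩
  rw [hh']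
  simp only
  rw [← R_add_smul, T.R_of_lam_eq_zero hz]
  exact (hloc _ ⟨hpos.le, hlth.le⟩).1 j hj

/-- the extended cut-off is Lipschitz along straight segments near one side -/
lemma IsCut.ext_lip {η σ r0 : ℝ} {χ M : ℂ × ℂ → ℝ} (h : T.IsCut η σ r0 χ M) {t : ℝ}
    (ht : 0 < t) (hts : η * t ≤ σ) {y : ℂ} {ω : ℂ × Ω} (hω : ‖ω.1‖ = 1) {i : Fin ns}
    (h0 : T.lam i y ≠ 0) (h1 : T.lam i (y + t • ω.1) ≠ 0)
    (hloc : ∀ s ∈ Icc (0:ℝ) t, T.LocAt i (y + s • ω.1)) :
    |T.ext (fun x (ω : ℂ × Ω) => χ (x, ω.1)) (y + t • ω.1) ω -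
        T.ext (fun x (ω : ℂ × Ω) => χ (x, ω.1)) y ω| ≤
      η * t * T.ext (fun x (ω : ℂ × Ω) => M (x, ω.1)) y ω := by
  obtain ⟨u, q⟩ := ω
  simp only at *
  have hl0 : T.LocAt i y := by simpa using hloc 0 ⟨le_rfl, ht.le⟩
  have hlt : T.LocAt i (y + t • u) := hloc t ⟨ht.le, le_rfl⟩
  have hu' : ‖T.refl i u‖ = 1 := by rw [T.norm_refl]; exact hω
  have ha1 : an η u (t • u) = η * t := by rw [an_self hω, abs_of_pos ht]
  have ha2 : an η (T.refl i u) (t • T.refl i u) = η * t := by rw [an_self hu', abs_of_pos ht]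
  rcases lt_or_gt_of_ne h0 with h0 | h0
  · have hy' := hl0.R_mem_table h0
    rw [hl0.ext_of_neg h0, hl0.ext_of_neg h0]
    simp only
    rcases lt_or_gt_of_ne h1 with h1 | h1
    · -- stays outside
      have hz := hlt.R_mem_table h1
      rw [hlt.ext_of_neg h1]
      simp only
      have h2 := h.lip (T.R i y) hy' (T.R i (y + t • u)) hz (T.refl i u) hu'
      rw [R_add_smul, add_sub_cancel_left, ha2] at h2
      rw [R_add_smul]
      exact h2 hts
    · -- enters
      obtain ⟨he, hpos, hlth, hh', hE⟩ := enter_facts ht hloc h0 h1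
      have hz := hlt.mem_table h1
      rw [ext_of_pos hz]
      simp only
      have hRz : T.R i (y + t • u) = T.R i y + t • T.refl i u := R_add_smul i y u t
      have hc : T.Cross i (T.R i y) (T.R i (y + t • u)) := by
        rw [hRz]
        exact cross_of_exit hE ht (by rw [hh']; exact hlth)
      have h2 := h.cross i (T.R i y) hy' (y + t • u) hz (T.refl i u) hu' hc
      rw [hRz, add_sub_cancel_left, ha2, T.refl_refl] at h2
      exact h2 hts
  · have hy := hl0.mem_table h0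
    rw [ext_of_pos hy, ext_of_pos hy]
    simp only
    rcases lt_or_gt_of_ne h1 with h1 | h1
    · -- leaves
      obtain ⟨he, hpos, hlth, hE⟩ := cross_facts ht hloc h0 h1
      have hz := hlt.R_mem_table h1
      rw [hlt.ext_of_neg h1]
      simp only
      have hc : T.Cross i y (T.R i (T.R i (y + t • u))) := by
        rw [T.R_R]
        exact cross_of_exit hE ht hlth
      have h2 := h.cross i y hy (T.R i (y + t • u)) hz u hω hc
      rw [T.R_R, add_sub_cancel_left, ha1] at h2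
      exact h2 hts
    · -- stays inside
      have hz := hlt.mem_table h1
      rw [ext_of_pos hz]
      simp only
      have h2 := h.lip y hy (y + t • u) hz u hω
      rw [add_sub_cancel_left, ha1] at h2
      exact h2 hts

/-- calculus lemma -/
lemma prod_increment {c w : ℝ → ℝ} {U0 U1 A CU CV t : ℝ} (ht : 0 < t) (hA : 0 ≤ A)
    (hw : IntervalIntegrable w volume 0 t)
    (hcw : IntervalIntegrable (fun s => c s * w s) volume 0 t)
    (hU : U1 - U0 = ∫ s in (0:ℝ)..t, w s) (hc : ∀ᵐ s : ℝ, s ∈ Ioc 0 t → |c s - c 0| ≤ A)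
    (hct : |c t - c 0| ≤ A) (hwb : ∀ s, |w s| ≤ CV) (hU1 : |U1| ≤ CU) :
    |c t * U1 - c 0 * U0 - ∫ s in (0:ℝ)..t, c s * w s| ≤ A * CU + A * CV * t := by
  have h1 : c t * U1 - c 0 * U0 - ∫ s in (0:ℝ)..t, c s * w s =
      (c t - c 0) * U1 - ∫ s in (0:ℝ)..t, (c s - c 0) * w s := by
    have h2 : ∫ s in (0:ℝ)..t, (c s - c 0) * w s =
        (∫ s in (0:ℝ)..t, c s * w s) - c 0 * ∫ s in (0:ℝ)..t, w s := by
      rw [← intervalIntegral.integral_const_mul, ← intervalIntegral.integral_sub hcw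
        (hw.const_mul _)]
      apply intervalIntegral.integral_congr
      intro s _
      simp only
      ring
    rw [h2, ← hU]
    ring
  rw [h1]
  have hCU : 0 ≤ CU := (abs_nonneg _).trans hU1
  have hCV : 0 ≤ CV := (abs_nonneg _).trans (hwb 0)
  have h3 : |(c t - c 0) * U1| ≤ A * CU := by
    rw [abs_mul]
    (clear * - hct hU1 hA; gcongr)
  have h4 : |∫ s in (0:ℝ)..t, (c s - c 0) * w s| ≤ A * CV * t := by
    have := intervalIntegral.norm_integral_le_of_norm_le_const_ae (a := 0) (b := t) (C := A * CV)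
      (f := fun s => (c s - c 0) * w s) (by
        filter_upwards [hc] with s hs hs2
        rw [uIoc_of_le ht.le] at hs2
        rw [norm_mul, Real.norm_eq_abs, Real.norm_eq_abs]
        have := hs hs2
        have := hwb s
        (clear U0 U1 CU ht hw hcw hU hc hct hU1 h1 hCU hCV h3; gcongr))
    rw [sub_zero, abs_of_pos ht] at this
    exact this
  calc _ ≤ |(c t - c 0) * U1| + |∫ s in (0:ℝ)..t, (c s - c 0) * w s| := abs_sub _ _
    _ ≤ _ := by linarith only [h3, h4]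

lemma IsCut.nonneg_extM {η σ r0 : ℝ} {χ M : ℂ × ℂ → ℝ} (h : T.IsCut η σ r0 χ M) (y : ℂ)
    (ω : ℂ × Ω) : 0 ≤ T.ext (fun x (ω : ℂ × Ω) => M (x, ω.1)) y ω := by
  unfold ext
  apply add_nonneg
  · exact indicator_nonneg (fun z _ => h.nonnegM _) y
  · exact Finset.sum_nonneg fun i _ => indicator_nonneg (fun z _ => h.nonnegM _) y

lemma IsCut.bdd_chi {η σ r0 : ℝ} {χ M : ℂ × ℂ → ℝ} (h : T.IsCut η σ r0 χ M) :
    Bdd (fun x (ω : ℂ × Ω) => χ (x, ω.1)) := by
  refine ⟨h.meas.comp (measurable_fst.prodMk (measurable_fst.comp measurable_snd)), 1,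
    fun y ω => ?_⟩
  rw [abs_of_nonneg (h.nonneg _)]
  exact h.le_one _

lemma IsCut.bdd_M {η σ r0 : ℝ} {χ M : ℂ × ℂ → ℝ} (h : T.IsCut η σ r0 χ M) :
    Bdd (fun x (ω : ℂ × Ω) => M (x, ω.1)) := by
  obtain ⟨C, hC⟩ := h.bddM
  refine ⟨h.measM.comp (measurable_fst.prodMk (measurable_fst.comp measurable_snd)), C,
    fun y ω => ?_⟩
  rw [abs_of_nonneg (h.nonnegM _)]
  exact hC _

/-- pointwise estimate -/
lemma IsCut.ext_incr {η σ r0 : ℝ} {χ M : ℂ × ℂ → ℝ} (h : T.IsCut η σ r0 χ M) (hη : 0 < η)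
    {U V : ℂ → ℂ × Ω → ℝ} (hV : Bdd V) {CU CV : ℝ}
    (hCU : ∀ y ω, |T.ext U y ω| ≤ CU) (hCV : ∀ y ω, |T.ext V y ω| ≤ CV) {t : ℝ} (ht : 0 < t)
    (hts : η * t ≤ σ) {y : ℂ} {ω : ℂ × Ω} (hω : ‖ω.1‖ = 1) {i : Fin ns}
    (hF : y ∈ T.table → T.FreeAt U V t (y, ω) ∧ T.BounceAt U V t i (y, ω))
    (hR : T.R i y ∈ T.table → T.FreeAt U V t (T.R i y, (T.refl i ω.1, ω.2)) ∧
      T.BounceAt U V t i (T.R i y, (T.refl i ω.1, ω.2)))
    (h0 : T.lam i y ≠ 0) (h1 : T.lam i (y + t • ω.1) ≠ 0)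
    (hloc : ∀ s ∈ Icc (0:ℝ) t, T.LocAt i (y + s • ω.1)) :
    |T.ext (fun x ω => χ (x, ω.1) * U x ω) (y + t • ω.1) ω -
        T.ext (fun x ω => χ (x, ω.1) * U x ω) y ω -
        ∫ s in (0:ℝ)..t, T.ext (fun x ω => χ (x, ω.1) * V x ω) (y + s • ω.1) ω| ≤
      η * t * (CU + CV * t) * T.ext (fun x (ω : ℂ × Ω) => M (x, ω.1)) y ω := by
  set cc : ℝ → ℝ := fun s => T.ext (fun x (ω : ℂ × Ω) => χ (x, ω.1)) (y + s • ω.1) ω with hcc
  set w : ℝ → ℝ := fun s => T.ext V (y + s • ω.1) ω with hw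
  have hl0 : T.LocAt i y := by simpa using hloc 0 ⟨le_rfl, ht.le⟩
  have hlt : T.LocAt i (y + t • ω.1) := hloc t ⟨ht.le, le_rfl⟩
  have e1 : T.ext (fun x ω => χ (x, ω.1) * U x ω) (y + t • ω.1) ω =
      cc t * T.ext U (y + t • ω.1) ω := hlt.ext_mul ω
  have e2 : T.ext (fun x ω => χ (x, ω.1) * U x ω) y ω = cc 0 * T.ext U y ω := by
    rw [hl0.ext_mul ω, hcc]
    simp
  have e3 : ∫ s in (0:ℝ)..t, T.ext (fun x ω => χ (x, ω.1) * V x ω) (y + s • ω.1) ω =
      ∫ s in (0:ℝ)..t, cc s * w s := by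
    apply intervalIntegral.integral_congr
    intro s hs
    rw [uIcc_of_le ht.le] at hs
    exact (hloc s hs).ext_mul ω
  have hder := ext_der_of hV ht hF hR h0 h1 hloc
  have hbχ : Bdd (fun x (ω : ℂ × Ω) => χ (x, ω.1)) := h.bdd_chi
  have hMnn := h.nonneg_extM y ω
  have hA : 0 ≤ η * t * T.ext (fun x (ω : ℂ × Ω) => M (x, ω.1)) y ω := by (clear * - hη ht hMnn; positivity)
  have key := prod_increment (c := cc) (w := w) (U0 := T.ext U y ω)
    (U1 := T.ext U (y + t • ω.1) ω)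
    (A := η * t * T.ext (fun x (ω : ℂ × Ω) => M (x, ω.1)) y ω) (CU := CU) (CV := CV) ht hA
    (Bdd.intervalIntegrable (T.bddSupp_ext hV).1 y ω.1 ω 0 t)
    (by
      have h5 : Bdd (fun x ω => T.ext (fun x (ω : ℂ × Ω) => χ (x, ω.1)) x ω * T.ext V x ω) :=
        (T.bddSupp_ext hbχ).1.mul (T.bddSupp_ext hV).1
      exact Bdd.intervalIntegrable h5 y ω.1 ω 0 t)
    hder ?_ ?_ (fun s => hCV _ _) (hCU _ _)
  · rw [e1, e2, e3]
    refine key.trans (le_of_eq (by ring))
  · -- a.e. bound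
    have h6 : ∀ᵐ s : ℝ, T.lam i (y + s • ω.1) ≠ 0 := by
      by_cases he : T.ell i ω.1 = 0
      · refine ae_of_all _ fun s => ?_
        rw [T.lam_add_smul, he, mul_zero, add_zero]
        exact h0
      · have h7 : ∀ᵐ s : ℝ, s ≠ T.hitT i (y, ω.1) := by
          rw [ae_iff]; simp
        filter_upwards [h7] with s hs
        rw [lam_add_smul_eq he]
        exact mul_ne_zero (sub_ne_zero.mpr hs) he
    filter_upwards [h6] with s hs hs2
    have h8 := h.ext_lip hs2.1 (le_trans (by gcongr; exact hs2.2) hts) hω h0 hs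
      (fun s' hs' => hloc s' ⟨hs'.1, hs'.2.trans hs2.2⟩)
    rw [hcc]
    simp only [zero_smul, add_zero]
    refine h8.trans ?_
    gcongr
    exact hs2.2
  · have h8 := h.ext_lip ht hts hω h0 h1 hloc
    rw [hcc]
    simp only [zero_smul, add_zero]
    exact h8

/-! ### integration -/

variable (T)

/-- the geometric input: local structure at scale `ε` -/
def LocScale (ε r0 : ℝ) : Prop :=
  ∀ x, (∀ i, 0 ≤ T.lam i x) →
    (∃ k, ∀ y, ‖y - x‖ < 2 * ε → ‖y - T.P k‖ < r0) ∨ (∃ i, ∀ y, ‖y - x‖ < 2 * ε → T.LocAt i y)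

variable {T}

/-- for almost every parameter the pointwise estimate holds at almost all positions near the
table -/
lemma IsCut.ae_incr [SFinite m] {η σ r0 : ℝ} {χ M : ℂ × ℂ → ℝ} (h : T.IsCut η σ r0 χ M)
    (hη : 0 < η) {U V : ℂ → ℂ × Ω → ℝ} (hV : Bdd V) {CU CV : ℝ}
    (hCU : ∀ y ω, |T.ext U y ω| ≤ CU) (hCV : ∀ y ω, |T.ext V y ω| ≤ CV)
    (hF : T.FreeDer m U V) (hB : T.BounceDer m U V) {ε t : ℝ} (ht : 0 < t)
    (htε : t ≤ ε) (hts : η * t ≤ σ) (hr : T.Lp * r0 ≤ 1) (hloc : T.LocScale ε r0) :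
    ∀ᵐ ω ∂(nu.prod m), ∀ᵐ y ∂(volume : Measure ℂ), (∃ x ∈ T.table, ‖y - x‖ < ε) →
      |T.ext (fun x ω => χ (x, ω.1) * U x ω) (y + t • ω.1) ω -
        T.ext (fun x ω => χ (x, ω.1) * U x ω) y ω -
        ∫ s in (0:ℝ)..t, T.ext (fun x ω => χ (x, ω.1) * V x ω) (y + s • ω.1) ω| ≤
      η * t * (CU + CV * t) * T.ext (fun x (ω : ℂ × Ω) => M (x, ω.1)) y ω := by
  have a1 : ∀ᵐ p ∂((volume : Measure ℂ).prod (nu.prod m)), p.1 ∈ T.table → T.FreeAt U V t p :=
    T.ae_table_to_global m (hF t ht)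
  have a2 : ∀ i, ∀ᵐ p ∂((volume : Measure ℂ).prod (nu.prod m)),
      p.1 ∈ T.table → T.BounceAt U V t i p := fun i => T.ae_table_to_global m (hB t ht i)
  have b1 := ae_fiber m a1
  have b2 := fun i => ae_fiber m (a2 i)
  have b3 := fun i => ae_fiber m (T.ae_reflect m i a1)
  have b4 := fun i => ae_fiber m (T.ae_reflect m i (a2 i))
  rw [← ae_all_iff] at b2 b3 b4
  have b5 : ∀ᵐ ω ∂(nu.prod m), ‖ω.1‖ = 1 :=
    Measure.quasiMeasurePreserving_fst.ae ae_norm
  filter_upwards [b1, b2, b3, b4, b5] with ω c1 c2 c3 c4 c5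
  rw [← ae_all_iff] at c2 c3 c4
  have c6 : ∀ᵐ y ∂(volume : Measure ℂ), ∀ i, T.lam i (y + (0:ℝ) • ω.1) ≠ 0 :=
    ae_all_iff.mpr fun i => T.ae_lam_ne i _
  have c7 : ∀ᵐ y ∂(volume : Measure ℂ), ∀ i, T.lam i (y + t • ω.1) ≠ 0 :=
    ae_all_iff.mpr fun i => T.ae_lam_ne i _
  filter_upwards [c1, c2, c3, c4, c6, c7] with y d1 d2 d3 d4 d6 d7
  rintro ⟨x, hx, hyx⟩
  have hM := h.nonneg_extM y ω
  have hCU0 : 0 ≤ CU := (abs_nonneg _).trans (hCU y ω)
  have hCV0 : 0 ≤ CV := (abs_nonneg _).trans (hCV y ω)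
  have hseg : ∀ s ∈ Icc (0:ℝ) t, ‖y + s • ω.1 - x‖ < 2 * ε := by
    intro s hs
    calc ‖y + s • ω.1 - x‖ = ‖(y - x) + s • ω.1‖ := by congr 1; ring
      _ ≤ ‖y - x‖ + ‖s • ω.1‖ := norm_add_le _ _
      _ = ‖y - x‖ + s := by rw [norm_smul, c5, mul_one, Real.norm_of_nonneg hs.1]
      _ < 2 * ε := by linarith only [htε, hyx, hs.2]
  rcases hloc x (fun i => ((T.mem_table_iff x).mp hx i).le) with ⟨k, hk⟩ | ⟨i, hi⟩
  · have hz : ∀ (W : ℂ → ℂ × Ω → ℝ), ∀ s ∈ Icc (0:ℝ) t,
        T.ext (fun x ω => χ (x, ω.1) * W x ω) (y + s • ω.1) ω = 0 := by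
      intro W s hs
      apply T.ext_eq_zero_near hr _ (hk _ (hseg s hs))
      intro k' z hz hzk ω'
      rw [h.near k' z hz hzk, zero_mul]
    have e0 := hz U 0 ⟨le_rfl, ht.le⟩
    rw [zero_smul, add_zero] at e0
    rw [hz U t ⟨ht.le, le_rfl⟩, e0]
    have e1 : ∫ s in (0:ℝ)..t, T.ext (fun x ω => χ (x, ω.1) * V x ω) (y + s • ω.1) ω = 0 := by
      rw [intervalIntegral.integral_congr (g := fun _ => (0:ℝ))]
      · simp
      · intro s hs
        rw [uIcc_of_le ht.le] at hs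
        exact hz V s hs
    rw [e1]
    simp only [sub_self, abs_zero]
    (clear * - hη ht hCU0 hCV0 hM; positivity)
  · apply h.ext_incr hη hV hCU hCV ht hts c5 (i := i)
    · intro hy
      exact ⟨d1 hy, d2 i hy⟩
    · intro hy
      exact ⟨d3 i hy, d4 i hy⟩
    · simpa using d6 i
    · exact d7 i
    · intro s hs
      exact hi _ (hseg s hs)

lemma mol_shift {ε : ℝ} (f : ℂ → ℂ × Ω → ℝ) (x v : ℂ) (ω : ℂ × Ω) :
    mol ε f (x + v) ω = ∫ y, rho ε (x - y) * f (y + v) ω := by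
  unfold mol
  rw [← integral_add_right_eq_self _ v]
  congr 1
  funext y
  congr 2
  ring

lemma integrable_rho_mul {ε : ℝ} (hε : 0 < ε) {f : ℂ → ℂ × Ω → ℝ} (hf : Bdd f) (x v : ℂ)
    (ω : ℂ × Ω) : Integrable fun y => rho ε (x - y) * f (y + v) ω := by
  obtain ⟨hm, C, hC⟩ := hf
  have h1 : Integrable fun y => rho ε (x - y) :=
    ((rho_contDiff ε).continuous.integrable_of_hasCompactSupport
      (hasCompactSupport_rho hε)).comp_sub_left x
  have h2 : Measurable fun y => f (y + v) ω :=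
    hm.comp ((measurable_id.add_const v).prodMk measurable_const)
  exact h1.mul_bdd (c := C) h2.aestronglyMeasurable (ae_of_all _ fun y => by simpa using hC _ _)

lemma hasDerivAt_mol {ε : ℝ} (hε : 0 < ε) {f : ℂ → ℂ × Ω → ℝ} (hf : Bdd f) (x : ℂ) (ω : ℂ × Ω) :
    HasDerivAt (fun s : ℝ => mol ε f (x + s • ω.1) ω) (Xd ε f x ω) 0 := by
  set g : ℂ → ℂ := fun y => (f y ω : ℂ) with hg
  have hgl : LocallyIntegrable g := by
    have h1 := Bdd.locallyIntegrable hf ω
    rw [locallyIntegrable_iff] at h1 ⊢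
    intro K hK
    exact (h1 K hK).ofReal
  have h2 : HasFDerivAt (conv (fun z => (rho ε z : ℂ)) g)
      (fderiv ℝ (conv (fun z => (rho ε z : ℂ)) g) x) x :=
    (((contDiff_conv hε hgl).differentiable (by simp)).differentiableAt).hasFDerivAt
  have h3 : HasDerivAt (fun s : ℝ => x + s • ω.1) ω.1 0 := by
    have := ((hasDerivAt_id (0:ℝ)).smul_const ω.1).const_add x
    simpa using this
  have h4 : HasDerivAt (fun s : ℝ => conv (fun z => (rho ε z : ℂ)) g (x + s • ω.1))
      (fderiv ℝ (conv (fun z => (rho ε z : ℂ)) g) x ω.1) 0 := by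
    have h5 : HasFDerivAt (conv (fun z => (rho ε z : ℂ)) g)
      (fderiv ℝ (conv (fun z => (rho ε z : ℂ)) g) x) ((fun s : ℝ => x + s • ω.1) 0) := by
      simpa using h2
    exact h5.comp_hasDerivAt 0 h3
  have h6 := Complex.reCLM.hasFDerivAt.comp_hasDerivAt (0:ℝ) h4
  have h7 : (Complex.reCLM ∘ fun s : ℝ => conv (fun z => (rho ε z : ℂ)) g (x + s • ω.1)) =
      fun s : ℝ => mol ε f (x + s • ω.1) ω := by
    funext s
    have h8 := mol_eq_kcv ε f (x + s • ω.1) ω
    have h9 : kcv (fun z => (rho ε z : ℂ)) f (x + s • ω.1) ω =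
        conv (fun z => (rho ε z : ℂ)) g (x + s • ω.1) := rfl
    rw [h9] at h8
    simp only [Function.comp_apply]
    rw [← h8]
    simp
  rw [h7] at h6
  have h10 : Complex.reCLM (fderiv ℝ (conv (fun z => (rho ε z : ℂ)) g) x ω.1) = Xd ε f x ω := by
    rw [fderiv_conv hε hgl]
    have h11 : conv (fun z => (starRingEnd ℂ) (kap ε z)) g x = (starRingEnd ℂ) (conv (kap ε) g x) := by
      unfold conv
      rw [← integral_conj]
      congr 1
      funext y
      rw [map_mul, hg]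
      simp
    rw [h11, ← map_mul, Complex.add_conj]
    unfold Xd grd conv
    simp only [hg, Complex.mul_re, Complex.ofReal_mul, Complex.ofReal_ofNat, Complex.ofReal_sub, Complex.reCLM_apply, Complex.re_ofNat, Complex.sub_re, Complex.ofReal_re, Complex.ofReal_im, mul_zero, sub_zero, Complex.im_ofNat, Complex.sub_im, Complex.mul_im, zero_mul, add_zero, sub_self]
  rw [h10] at h6
  exact h6

lemma continuous_mol {ε : ℝ} (hε : 0 < ε) {f : ℂ → ℂ × Ω → ℝ} (hf : Bdd f) (ω : ℂ × Ω) :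
    Continuous (fun x => mol ε f x ω) := by
  set g : ℂ → ℂ := fun y => (f y ω : ℂ) with hg
  have hgl : LocallyIntegrable g := by
    have h1 := Bdd.locallyIntegrable hf ω
    rw [locallyIntegrable_iff] at h1 ⊢
    intro K hK
    exact (h1 K hK).ofReal
  have h2 := Complex.continuous_re.comp (contDiff_conv hε hgl).continuous
  have h3 : (Complex.re ∘ conv (fun z => (rho ε z : ℂ)) g) = fun x => mol ε f x ω := by
    funext x
    have h8 := mol_eq_kcv ε f x ω
    have h9 : kcv (fun z => (rho ε z : ℂ)) f x ω = conv (fun z => (rho ε z : ℂ)) g x := rfl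
    rw [h9] at h8
    simp only [Function.comp_apply]
    rw [← h8, Complex.ofReal_re]
  rw [h3] at h2
  exact h2

lemma integral_mol_segment {ε : ℝ} (hε : 0 < ε) {f : ℂ → ℂ × Ω → ℝ} (hf : Bdd f) (x v : ℂ)
    (ω : ℂ × Ω) {t : ℝ} (ht : 0 < t) :
    ∫ s in (0:ℝ)..t, mol ε f (x + s • v) ω =
      ∫ y, rho ε (x - y) * ∫ s in (0:ℝ)..t, f (y + s • v) ω := by
  obtain ⟨hm, C, hC⟩ := id hf
  have h1 : ∀ s : ℝ, mol ε f (x + s • v) ω = ∫ y, rho ε (x - y) * f (y + s • v) ω :=
    fun s => mol_shift f x (s • v) ω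
  simp only [h1]
  have hρ : Integrable fun y => rho ε (x - y) :=
    ((rho_contDiff ε).continuous.integrable_of_hasCompactSupport
      (hasCompactSupport_rho hε)).comp_sub_left x
  have hmeas : Measurable fun p : ℝ × ℂ => f (p.2 + p.1 • v) ω := by
    have : Measurable fun p : ℝ × ℂ => ((p.2 + p.1 • v, ω) : ℂ × (ℂ × Ω)) := by
      apply Measurable.prodMk _ measurable_const
      fun_prop
    exact hm.comp this
  rw [intervalIntegral_integral_swap]
  · congr 1
    funext y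
    rw [intervalIntegral.integral_const_mul]
  · have hfin : IsFiniteMeasure (volume.restrict (uIoc 0 t)) := by
      rw [uIoc_of_le ht.le]
      exact ⟨by rw [Measure.restrict_apply_univ]; simp only [Real.volume_Ioc, sub_zero, ENNReal.ofReal_lt_top]⟩
    have h2 : Integrable (fun p : ℝ × ℂ => (1:ℝ) * rho ε (x - p.2))
        ((volume.restrict (uIoc 0 t)).prod volume) :=
      Integrable.mul_prod (integrable_const (1:ℝ)) hρ
    have h3 : Integrable (fun p : ℝ × ℂ => ((1:ℝ) * rho ε (x - p.2)) * f (p.2 + p.1 • v) ω)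
        ((volume.restrict (uIoc 0 t)).prod volume) :=
      h2.mul_bdd (c := C) hmeas.aestronglyMeasurable (ae_of_all _ fun y => by simpa only [Complex.real_smul, Real.norm_eq_abs] using hC _ _)
    simp only [one_mul] at h3
    exact h3

/-- The estimate for the derivative of the mollification along the direction of motion. -/
theorem IsCut.Xd_est [SFinite m] {η σ r0 : ℝ} {χ M : ℂ × ℂ → ℝ} (h : T.IsCut η σ r0 χ M)
    (hη : 0 < η) (hσ : 0 < σ) {U V : ℂ → ℂ × Ω → ℝ} (hU : Bdd U) (hV : Bdd V) {CU : ℝ}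
    (hCU : ∀ y ω, |T.ext U y ω| ≤ CU) (hF : T.FreeDer m U V) (hB : T.BounceDer m U V) {ε : ℝ}
    (hε : 0 < ε) (hr : T.Lp * r0 ≤ 1) (hloc : T.LocScale ε r0) :
    ∀ᵐ ω ∂(nu.prod m), ∀ x ∈ T.table,
      |Xd ε (T.ext (fun x ω => χ (x, ω.1) * U x ω)) x ω -
        mol ε (T.ext (fun x ω => χ (x, ω.1) * V x ω)) x ω| ≤
      η * CU * mol ε (T.ext (fun x (ω : ℂ × Ω) => M (x, ω.1))) x ω := by
  obtain ⟨CV, hCV⟩ := (T.bddSupp_ext hV).1.2
  set t0 : ℝ := min ε (σ / η) with ht0
  have ht0p : 0 < t0 := by (clear * - hε hσ hη; positivity)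
  set tn : ℕ → ℝ := fun n => t0 / (n + 1) with htn
  have htnp : ∀ n, 0 < tn n := fun n => by rw [htn]; (clear * - hε hσ hη; positivity)
  have htn0 : ∀ n, tn n ≤ t0 := fun n => by
    rw [htn]
    apply div_le_self ht0p.le
    have : (0:ℝ) ≤ n := Nat.cast_nonneg n
    linarith only []
  have htnlim : Tendsto tn atTop (𝓝 0) := by
    rw [htn]
    have := tendsto_one_div_add_atTop_nhds_zero_nat (𝕜 := ℝ)
    have h2 := this.const_mul t0
    rw [mul_zero] at h2
    refine h2.congr fun n => ?_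
    ring
  have hae : ∀ᵐ ω ∂(nu.prod m), ∀ n : ℕ, ∀ᵐ y ∂(volume : Measure ℂ),
      (∃ x ∈ T.table, ‖y - x‖ < ε) →
      |T.ext (fun x ω => χ (x, ω.1) * U x ω) (y + tn n • ω.1) ω -
        T.ext (fun x ω => χ (x, ω.1) * U x ω) y ω -
        ∫ s in (0:ℝ)..(tn n), T.ext (fun x ω => χ (x, ω.1) * V x ω) (y + s • ω.1) ω| ≤
      η * tn n * (CU + CV * tn n) * T.ext (fun x (ω : ℂ × Ω) => M (x, ω.1)) y ω := by
    rw [ae_all_iff]
    intro n
    apply h.ae_incr hη hV hCU hCV hF hB (htnp n) ((htn0 n).trans (min_le_left _ _)) _ hr hloc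
    have h1 : tn n ≤ σ / η := (htn0 n).trans (min_le_right _ _)
    rw [le_div_iff₀ hη] at h1
    linarith only [h1]
  filter_upwards [hae] with ω hω x hx
  have hχ : Bdd (fun x (ω : ℂ × Ω) => χ (x, ω.1)) := h.bdd_chi
  have hH : Bdd (T.ext (fun x ω => χ (x, ω.1) * U x ω)) := (T.bddSupp_ext (hχ.mul hU)).1
  have hK : Bdd (T.ext (fun x ω => χ (x, ω.1) * V x ω)) := (T.bddSupp_ext (hχ.mul hV)).1
  have hE : Bdd (T.ext (fun x (ω : ℂ × Ω) => M (x, ω.1))) := (T.bddSupp_ext h.bdd_M).1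
  set H := T.ext (fun x ω => χ (x, ω.1) * U x ω) with hHdef
  set K := T.ext (fun x ω => χ (x, ω.1) * V x ω) with hKdef
  set E := T.ext (fun x (ω : ℂ × Ω) => M (x, ω.1)) with hEdef
  -- finite differences
  have step1 : ∀ n, |mol ε H (x + tn n • ω.1) ω - mol ε H x ω -
      ∫ s in (0:ℝ)..(tn n), mol ε K (x + s • ω.1) ω| ≤
        η * tn n * (CU + CV * tn n) * mol ε E x ω := by
    intro n
    set t := tn n with ht
    have htp : 0 < t := htnp n
    have i1 : Integrable fun y => rho ε (x - y) * H (y + t • ω.1) ω :=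
      integrable_rho_mul hε hH x _ ω
    have i2 : Integrable fun y => rho ε (x - y) * H y ω := by
      simpa only [add_zero] using integrable_rho_mul hε hH x 0 ω
    have hIK : Bdd (fun y ω => ∫ s in (0:ℝ)..t, K (y + s • ω.1) ω) := by
      obtain ⟨hKm, CK, hCK⟩ := id hK
      refine ⟨?_, CK * t, fun y ω => ?_⟩
      · have h1 : StronglyMeasurable (Function.uncurry fun (p : ℂ × (ℂ × Ω)) (s : ℝ) =>
            K (p.1 + s • p.2.1) p.2) := by
          apply Measurable.stronglyMeasurable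
          have h2 : Measurable fun q : (ℂ × (ℂ × Ω)) × ℝ =>
              ((q.1.1 + q.2 • q.1.2.1, q.1.2) : ℂ × (ℂ × Ω)) := by
            apply Measurable.prodMk
            · fun_prop
            · fun_prop
          exact (hKm.comp h2 :)
        have h3 := (h1.integral_prod_right (ν := volume.restrict (Ioc 0 t))).measurable
        simp only [intervalIntegral.integral_of_le htp.le]
        exact h3
      · have := intervalIntegral.norm_integral_le_of_norm_le_const (a := 0) (b := t) (C := CK)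
          (f := fun s => K (y + s • ω.1) ω) (fun s _ => by simpa only [Complex.real_smul, Real.norm_eq_abs] using hCK _ _)
        rw [sub_zero, abs_of_pos htp] at this
        exact this
    have i12 : Integrable fun y => rho ε (x - y) * H (y + t • ω.1) ω - rho ε (x - y) * H y ω :=
      i1.sub i2
    have i3 : Integrable fun y => rho ε (x - y) * ∫ s in (0:ℝ)..t, K (y + s • ω.1) ω := by
      simpa only [Complex.real_smul, add_zero] using integrable_rho_mul hε hIK x 0 ω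
    have i4 : Integrable fun y => rho ε (x - y) * E y ω := by
      simpa only [add_zero] using integrable_rho_mul hε hE x 0 ω
    rw [mol_shift, integral_mol_segment hε hK x ω.1 ω htp]
    have e1 : mol ε H x ω = ∫ y, rho ε (x - y) * H y ω := rfl
    have e2 : mol ε E x ω = ∫ y, rho ε (x - y) * E y ω := rfl
    rw [e1, e2, ← integral_sub i1 i2, ← integral_sub i12 i3, ← integral_const_mul]
    rw [← Real.norm_eq_abs]
    apply norm_integral_le_of_norm_le (i4.const_mul _)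
    filter_upwards [hω n] with y hy
    by_cases hyx : ‖y - x‖ < ε
    · have h2 := hy ⟨x, hx, hyx⟩
      have h3 : rho ε (x - y) * H (y + t • ω.1) ω - rho ε (x - y) * H y ω -
          rho ε (x - y) * ∫ s in (0:ℝ)..t, K (y + s • ω.1) ω =
          rho ε (x - y) * (H (y + t • ω.1) ω - H y ω - ∫ s in (0:ℝ)..t, K (y + s • ω.1) ω) := by
        ring
      rw [h3, norm_mul, Real.norm_eq_abs, Real.norm_eq_abs, abs_of_nonneg (rho_nonneg _ _)]
      calc rho ε (x - y) * |H (y + t • ω.1) ω - H y ω - ∫ s in (0:ℝ)..t, K (y + s • ω.1) ω|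
          ≤ rho ε (x - y) * (η * t * (CU + CV * t) * E y ω) := by
            apply mul_le_mul_of_nonneg_left h2 (rho_nonneg _ _)
        _ = η * t * (CU + CV * t) * (rho ε (x - y) * E y ω) := by ring
    · push Not at hyx
      rw [norm_sub_rev] at hyx
      rw [rho_eq_zero hε hyx]
      simp
  -- the limit
  set F : ℝ → ℝ := fun s => mol ε H (x + s • ω.1) ω - mol ε H x ω -
      ∫ r in (0:ℝ)..s, mol ε K (x + r • ω.1) ω with hFdef
  have hF0 : F 0 = 0 := by
    rw [hFdef]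
    simp
  have hcont : Continuous (fun r : ℝ => mol ε K (x + r • ω.1) ω) :=
    (continuous_mol hε hK ω).comp (by fun_prop)
  have hFd : HasDerivAt F (Xd ε H x ω - mol ε K x ω) 0 := by
    have h1 := (hasDerivAt_mol hε hH x ω).sub_const (mol ε H x ω)
    have h2 := (hcont.integral_hasStrictDerivAt 0 0).hasDerivAt
    rw [zero_smul, add_zero] at h2
    exact h1.sub h2
  have hlim : Tendsto (fun n => (tn n)⁻¹ • (F (0 + tn n) - F 0)) atTop
      (𝓝 (Xd ε H x ω - mol ε K x ω)) := by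
    have h1 := hasDerivAt_iff_tendsto_slope_zero.mp hFd
    apply h1.comp
    rw [tendsto_nhdsWithin_iff]
    exact ⟨htnlim, Eventually.of_forall fun n => (htnp n).ne'⟩
  have hlim2 : Tendsto (fun n => η * (CU + CV * tn n) * mol ε E x ω) atTop
      (𝓝 (η * CU * mol ε E x ω)) := by
    have h1 : Tendsto (fun n => η * (CU + CV * tn n) * mol ε E x ω) atTop
        (𝓝 (η * (CU + CV * 0) * mol ε E x ω)) :=
      ((htnlim.const_mul CV).const_add CU |>.const_mul η).mul_const _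
    simpa only [mul_zero, add_zero] using h1
  refine le_of_tendsto_of_tendsto' hlim.abs hlim2 fun n => ?_
  rw [hF0, zero_add, sub_zero, smul_eq_mul, abs_mul, abs_of_pos (inv_pos.mpr (htnp n)),
    inv_mul_le_iff₀ (htnp n)]
  refine (step1 n).trans (le_of_eq (by ring))

/-! ### the concrete cut-off -/

open Classical in
/-- the cut-off, restricted to unit directions -/
noncomputable def chi1 {ns : ℕ} [NeZero ns] (T : ConvexPolygon ns) (N : ℕ) (δ η : ℝ) (p : ℂ × ℂ) : ℝ :=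
  if ‖p.2‖ = 1 then T.chi N δ η p else 0

lemma chi1_of_unit {ns : ℕ} [NeZero ns] (T : ConvexPolygon ns) (N : ℕ) (δ η : ℝ) {x u : ℂ} (hu : ‖u‖ = 1) :
    T.chi1 N δ η (x, u) = T.chi N δ η (x, u) := if_pos hu

lemma isCut_chi1 {ns : ℕ} [NeZero ns] (T : ConvexPolygon ns) (N : ℕ) {δ η : ℝ} (hδ : 0 < δ) (hη : 0 < η) (hη1 : η ≤ 1) :
    T.IsCut η (sj δ N / 2) (sj δ N * η / 2) (T.chi1 N δ η) (T.wt N δ η) where
  meas := by
    unfold chi1
    exact Measurable.ite (measurableSet_eq_fun measurable_snd.norm measurable_const)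
      (T.measurable_chi N δ η) measurable_const
  measM := T.measurable_wt N δ η
  nonneg := fun s => by
    unfold chi1
    split_ifs
    · exact T.chi_nonneg _ _ _ _
    · exact le_rfl
  le_one := fun s => by
    unfold chi1
    split_ifs
    · exact T.chi_le_one _ _ _ _
    · exact zero_le_one
  nonnegM := fun s => T.wt_nonneg N hδ η s
  bddM := ⟨_, fun s => T.wt_le N hδ η s⟩
  lip := fun x hx y hy u hu ha => by
    rw [chi1_of_unit _ _ _ _ hu, chi1_of_unit _ _ _ _ hu]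
    exact T.chi_sub_le N hδ (T.D_lip hη u hx hy) ha
  cross := fun i x hx y hy u hu hc ha => by
    rw [chi1_of_unit _ _ _ _ hu, chi1_of_unit _ _ _ _ (by rw [T.norm_refl]; exact hu)]
    exact T.chi_sub_le N hδ (T.D_cross hη u hx hy hc) ha
  near := fun k x _ hk u => by
    by_cases hu : ‖u‖ = 1
    · rw [chi1_of_unit _ _ _ _ hu]
      exact T.chi_eq_zero N hδ hη hη1 hu k hk
    · unfold chi1
      rw [if_neg hu]

/-- Existence of the scales: all the local geometric input in one statement. -/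
lemma exists_locScale {ns : ℕ} [NeZero ns] (T : ConvexPolygon ns) : ∃ κ : ℝ, 0 < κ ∧ κ ≤ 1 / 4 ∧
    ∀ r0 : ℝ, 0 < r0 → ∀ ε : ℝ, 0 < ε → ε ≤ κ * r0 → T.LocScale ε r0 := by
  obtain ⟨κ1, hκ1, hloc⟩ := T.exists_locAt
  refine ⟨min (1 / 4) κ1, by positivity, min_le_left _ _, ?_⟩
  intro r0 hr0 ε hε hεκ x hx
  have h1 : ε ≤ κ1 * r0 := by
    refine hεκ.trans ?_
    gcongr
    exact min_le_right _ _
  have h2 : ε ≤ 1 / 4 * r0 := by
    refine hεκ.trans ?_
    gcongr
    exact min_le_left _ _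
  by_cases hm : ∀ m, r0 / 2 ≤ ‖x - T.P m‖
  · exact Or.inr (hloc r0 hr0 ε hε h1 x hx hm)
  · push Not at hm
    obtain ⟨k, hk⟩ := hm
    refine Or.inl ⟨k, fun y hy => ?_⟩
    calc ‖y - T.P k‖ = ‖(y - x) + (x - T.P k)‖ := by congr 1; ring
      _ ≤ ‖y - x‖ + ‖x - T.P k‖ := norm_add_le _ _
      _ < r0 := by linarith only [hy, hk, h2]

end ConvexPolygon

end Vale.Agent.P099C
end
end

section

section

open MeasureTheory Set Filter Topology

namespace Vale.Agent.P099C
open Vale.Agent.P099 (nu FlowErgodic FlowWeakMixing)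

variable {Ω : Type} [MeasurableSpace Ω]

namespace ConvexPolygon

variable {ns : ℕ} [NeZero ns] (T : ConvexPolygon ns) (m : Measure Ω)

lemma chi1_eq_chi' (N : ℕ) (δ η : ℝ) : T.chi1 N δ η = T.chi' N δ η := by
  classical
  funext s
  unfold chi1 chi'
  by_cases h : ‖s.2‖ = 1
  · rw [if_pos h, indicator_of_mem (by exact h)]
  · rw [if_neg h, indicator_of_notMem (by exact h)]

/-- The approximation theorem. -/
theorem approx [IsProbabilityMeasure m] (U V : ℂ → ℂ × Ω → ℝ) (hU : Bdd U) (hV : Bdd V)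
    (h1 : T.FreeDer m U V) (h2 : T.BounceDer m U V) (tol : ℝ) (htol : 0 < tol) :
    ∃ ε : ℝ, 0 < ε ∧ ∃ χ : ℂ × ℂ → ℝ, Measurable χ ∧ (∀ p, 0 ≤ χ p ∧ χ p ≤ 1) ∧
      BddSupp (T.ext (fun x ω => χ (x, ω.1) * U x ω)) ∧
      BddSupp (T.ext (fun x ω => χ (x, ω.1) * V x ω)) ∧
      T.Sym ε (T.ext (fun x ω => χ (x, ω.1) * U x ω)) ∧
      T.Sym ε (T.ext (fun x ω => χ (x, ω.1) * V x ω)) ∧
      T.nrm m (fun x ω =>
        ((mol ε (T.ext (fun x ω => χ (x, ω.1) * U x ω)) x ω - U x ω : ℝ) : ℂ)) ≤ tol ∧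
      T.nrm m (fun x ω =>
        ((mol ε (T.ext (fun x ω => χ (x, ω.1) * V x ω)) x ω - V x ω : ℝ) : ℂ)) ≤ tol ∧
      ∃ a e : ℝ, 0 ≤ a ∧ 0 ≤ e ∧ e ≤ tol ∧ e * a ≤ tol ∧
        T.nrm m (grd ε (T.ext (fun x ω => χ (x, ω.1) * U x ω))) ≤ a ^ 2 ∧
        T.nrm m (fun x ω => ((Xd ε (T.ext (fun x ω => χ (x, ω.1) * U x ω)) x ω -
          mol ε (T.ext (fun x ω => χ (x, ω.1) * V x ω)) x ω : ℝ) : ℂ)) ≤ e ^ 2 := by
  obtain ⟨CU0, hCU0⟩ := hU.2
  obtain ⟨CV0, hCV0⟩ := hV.2
  obtain ⟨CE0, hCE0⟩ := (T.bddSupp_ext hU).1.2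
  obtain ⟨M, hM0, hMU, hMV, hME⟩ : ∃ M : ℝ, 0 < M ∧ (∀ x ω, |U x ω| ≤ M) ∧
      (∀ x ω, |V x ω| ≤ M) ∧ (∀ x ω, |T.ext U x ω| ≤ M) := by
    refine ⟨|CU0| + |CV0| + |CE0| + 1, by (clear * -; positivity), fun x ω => ?_, fun x ω => ?_,
      fun x ω => ?_⟩
    · have := (hCU0 x ω).trans (le_abs_self CU0)
      linarith [abs_nonneg CV0, abs_nonneg CE0]
    · have := (hCV0 x ω).trans (le_abs_self CV0)
      linarith [abs_nonneg CU0, abs_nonneg CE0]
    · have := (hCE0 x ω).trans (le_abs_self CE0)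
      linarith [abs_nonneg CU0, abs_nonneg CV0]
  obtain ⟨κ, r1, hκ, hκ4, hr1, hl1, hsym, hloc⟩ := T.exists_loc (Ω := Ω)
  obtain ⟨K1, hK1, hK1'⟩ := exists_kap_bound
  obtain ⟨K2, hK2, hK2'⟩ := T.nrm_grd_le (Ω := Ω)
  obtain ⟨C, hC, hCC⟩ := T.exists_chi_const
  have hA : 0 ≤ volume.real T.table := measureReal_nonneg
  obtain ⟨Q, hQdef, hQ⟩ : ∃ Q : ℝ, Q = kN ns ∧ 0 < Q := ⟨_, rfl, kN_pos⟩
  set A := volume.real T.table with hAdef
  -- choice of N
  obtain ⟨N, hN, hN2⟩ : ∃ N : ℕ, 0 < N ∧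
      Q * M ^ 2 * (C / N) * (16 * K1 ^ 2 * M ^ 2 * (C / N)) ≤ tol ^ 2 / 3 := by
    obtain ⟨n, hn⟩ := exists_nat_gt (48 * Q * M ^ 4 * K1 ^ 2 * C ^ 2 / tol ^ 2)
    have hn0 : (0:ℝ) < n := lt_of_le_of_lt (by (clear * - hM0 hK1 hC htol hQ; positivity)) hn
    have hn1 : 0 < n := by exact_mod_cast hn0
    have hn2 : (1:ℝ) ≤ n := by exact_mod_cast hn1
    refine ⟨n, hn1, ?_⟩
    rw [div_lt_iff₀ (by positivity)] at hn
    have e : Q * M ^ 2 * (C / n) * (16 * K1 ^ 2 * M ^ 2 * (C / n)) =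
        16 * Q * M ^ 4 * K1 ^ 2 * C ^ 2 / (n * n) := by
      field_simp
    rw [e, div_le_iff₀ (by (clear * - hn1; positivity))]
    have : (n:ℝ) * tol ^ 2 ≤ n * n * tol ^ 2 := by
      apply mul_le_mul_of_nonneg_right _ (by positivity)
      nlinarith only [hn2]
    linarith only [this, hn]
  have hN' : (0:ℝ) < N := by exact_mod_cast hN
  -- choice of δ
  obtain ⟨δ, hδ, hδ2⟩ : ∃ δ : ℝ, 0 < δ ∧ 2 * Q * M ^ 2 * (C * δ ^ 2) ≤ tol / 2 := by
    refine ⟨min 1 (tol / (4 * Q * M ^ 2 * C)), by (clear * - htol hM0 hC hQ; positivity), ?_⟩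
    set δ := min 1 (tol / (4 * Q * M ^ 2 * C)) with hδ
    have h0 : 0 < δ := by positivity
    have h1 : δ ≤ 1 := min_le_left _ _
    have h2 : δ ≤ tol / (4 * Q * M ^ 2 * C) := min_le_right _ _
    rw [le_div_iff₀ (by (clear * - hM0 hC hQ; positivity))] at h2
    have h3 : δ ^ 2 ≤ δ := by nlinarith only [h0, h1]
    have h4 : 2 * Q * M ^ 2 * (C * δ ^ 2) ≤ 2 * Q * M ^ 2 * (C * δ) := by (clear * - h3 hC hM0 hQ; gcongr)
    linarith only [h4, h2]
  have hσ := sj_pos hδ N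
  set σ := sj δ N with hσdef
  -- choice of τ
  set c3 : ℝ := Q * M ^ 2 * (C / N) * (2 * Q * K2 ^ 2 * (2 / (κ * σ)) ^ 2) with hc3
  have hc3' : 0 ≤ c3 := by (clear * - hM0 hC hN hK2 hκ hσ hQ; positivity)
  obtain ⟨τ, hτ, hτ2⟩ : ∃ τ : ℝ, 0 < τ ∧ c3 * τ ≤ tol ^ 2 / 3 := by
    refine ⟨tol ^ 2 / 3 / (c3 + 1), by (clear * - htol hM0 hC hN hK2 hκ hσ hQ; positivity), ?_⟩
    rw [mul_div_assoc', div_le_iff₀ (by (clear * - hM0 hC hN hK2 hκ hσ hQ; positivity))]
    nlinarith only []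
  obtain ⟨Φ, hΦs, hΦM, ⟨L, hL, hL'⟩, ⟨r, hr, hr'⟩, hΦτ⟩ := T.exists_lip m hU hMU hτ
  -- choice of η
  have hη_ev : ∀ᶠ η in 𝓝[>] (0:ℝ), (0 < η ∧ η ≤ 1 ∧ σ * η / 2 < r1 ∧
      T.Lp * (κ * (σ * η / 2)) < r ∧ T.Lp * (σ * η / 2) < 1 ∧
      Q * M ^ 2 * (C / N) * (4 * (K1 * L) ^ 2 * A) * η ^ 2 ≤ tol ^ 2 / 3 ∧
      Q * (η * M) ^ 2 * (C / N) ≤ tol ^ 2) ∧
      T.nrm m (fun x ω => ((mol (κ * (σ * η / 2)) (T.ext U) x ω - U x ω : ℝ) : ℂ)) ≤ tol / 4 ∧
      T.nrm m (fun x ω => ((mol (κ * (σ * η / 2)) (T.ext V) x ω - V x ω : ℝ) : ℂ)) ≤ tol / 4 := by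
    have small : ∀ (φ : ℝ → ℝ), Continuous φ → φ 0 = 0 → ∀ b : ℝ, 0 < b →
        ∀ᶠ η in 𝓝[>] (0:ℝ), φ η < b := by
      intro φ hφ h0 b hb
      have : Tendsto φ (𝓝[>] 0) (𝓝 (φ 0)) :=
        (hφ.continuousAt (x := 0)).tendsto.mono_left nhdsWithin_le_nhds
      rw [h0] at this
      exact this.eventually_lt_const hb
    have hlim : Tendsto (fun η : ℝ => κ * (σ * η / 2)) (𝓝[>] 0) (𝓝[>] 0) := by
      apply tendsto_nhdsWithin_of_tendsto_nhds_of_eventually_within
      · have : Continuous fun η : ℝ => κ * (σ * η / 2) := by fun_prop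
        have h0 := this.continuousAt (x := 0).tendsto
        simp only [mul_zero, zero_div] at h0
        exact h0.mono_left nhdsWithin_le_nhds
      · filter_upwards [self_mem_nhdsWithin] with η hη
        have hη' : 0 < η := hη
        simp only [mem_Ioi]
        (clear * - hκ hσ hη'; positivity)
    have t1 := ((T.tendsto_nrm_mol_ext m hU).comp hlim).eventually_lt_const
      (show (0:ℝ) < tol / 4 by positivity)
    have t2 := ((T.tendsto_nrm_mol_ext m hV).comp hlim).eventually_lt_const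
      (show (0:ℝ) < tol / 4 by positivity)
    filter_upwards [self_mem_nhdsWithin, small (fun η => η) (by fun_prop) rfl 1 one_pos,
      small (fun η => σ * η / 2) (by fun_prop) (by simp) r1 hr1,
      small (fun η => T.Lp * (κ * (σ * η / 2))) (by fun_prop) (by simp) r hr,
      small (fun η => T.Lp * (σ * η / 2)) (by fun_prop) (by simp) 1 one_pos,
      small (fun η => Q * M ^ 2 * (C / N) * (4 * (K1 * L) ^ 2 * A) * η ^ 2) (by fun_prop)
        (by simp) (tol ^ 2 / 3) (by positivity),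
      small (fun η => Q * (η * M) ^ 2 * (C / N)) (by fun_prop) (by simp) (tol ^ 2)
        (by positivity), t1, t2] with η h1 h2 h3 h4 h4' h5 h6 h7 h8
    exact ⟨⟨h1, h2.le, h3, h4, h4', h5.le, h6.le⟩, h7.le, h8.le⟩
  obtain ⟨η, ⟨hη, hη1, hηr1, hηr, hηL, hη5, hη6⟩, hη7, hη8⟩ := hη_ev.exists
  set ε := κ * (σ * η / 2) with hε
  have hε0 : 0 < ε := by (clear * - hκ hσ hη; positivity)
  have hr0 : 0 < σ * η / 2 := by (clear * - hσ hη; positivity)
  have hε4 : 4 * ε ≤ η * σ := by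
    rw [hε]
    have : κ * (σ * η / 2) ≤ 1 / 4 * (σ * η / 2) := by (clear * - hκ4 hσ hη; gcongr)
    have : 0 < σ * η := by (clear * - hσ hη; positivity)
    nlinarith
  obtain ⟨hB1, hB2⟩ := hCC N hN δ hδ η hη
  have hzero : ∀ W : ℂ → ℂ × Ω → ℝ, ∀ x (ω : ℂ × Ω), x ∈ T.table →
      (∃ k, ‖x - T.P k‖ < σ * η / 2) → T.chi' N δ η (x, ω.1) * W x ω = 0 := by
    intro W x ω _ ⟨k, hk⟩
    rw [T.chi'_eq_zero N hδ hη hη1 k hk, zero_mul]
  have hcut := isCut_chi1 T N hδ hη hη1
  rw [T.chi1_eq_chi'] at hcut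
  have hXd := hcut.Xd_est (m := m) hη (by (clear * - hσ; positivity)) hU hV hME h1 h2 hε0 hηL.le
    (fun x hx => hloc _ ε hr0 hηr1 hε0 le_rfl x hx)
  refine ⟨ε, hε0, T.chi' N δ η, T.measurable_chi' N δ η,
    fun p => ⟨T.chi'_nonneg _ _ _ _, T.chi'_le_one _ _ _ _⟩,
    T.bddSupp_ext (T.bdd_chi' N δ η hU), T.bddSupp_ext (T.bdd_chi' N δ η hV),
    hsym _ _ ε hr0 hηr1 hε0 le_rfl (hzero U), hsym _ _ ε hr0 hηr1 hε0 le_rfl (hzero V),
    ?_, ?_, ?_⟩
  · have := T.nrm_app_est m hU hMU hε0 hB2 hη7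
    rw [← hQdef] at this
    linarith only [this, hδ2]
  · have := T.nrm_app_est m hV hMV hε0 hB2 hη8
    rw [← hQdef] at this
    linarith only [hδ2, this]
  · set A2 := 4 * (K1 * L) ^ 2 * A + 16 * K1 ^ 2 * M ^ 2 / η ^ 2 * (C / N) +
        2 * Q * (K2 / ε) ^ 2 * τ with hA2
    set E2 := Q * (η * M) ^ 2 * (C / N) with hE2
    have hA20 : 0 ≤ A2 := by (clear * - hK1 hL hM0 hη hC hN hK2 hκ hσ hτ hQ hA; positivity)
    have hE20 : 0 ≤ E2 := by (clear * - hη hM0 hC hN hQ; positivity)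
    refine ⟨√A2, √E2, Real.sqrt_nonneg _, Real.sqrt_nonneg _, ?_, ?_, ?_, ?_⟩
    · exact (Real.sqrt_le_sqrt hη6).trans (by rw [Real.sqrt_sq htol.le])
    · rw [← Real.sqrt_mul hE20]
      refine (Real.sqrt_le_sqrt (y := tol ^ 2) ?_).trans (by rw [Real.sqrt_sq htol.le])
      have e : E2 * A2 = Q * M ^ 2 * (C / N) * (4 * (K1 * L) ^ 2 * A) * η ^ 2 +
          Q * M ^ 2 * (C / N) * (16 * K1 ^ 2 * M ^ 2 * (C / N)) + c3 * τ := by
        rw [hE2, hA2, hc3, hε]
        (clear * - hN hη hσ hκ hK1 hL hA hM0 hC hK2 hτ hQ; field_simp)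
      rw [e]
      linarith only [hN2, hτ2, hη5]
    · rw [Real.sq_sqrt hA20, hA2, hQdef]
      exact T.nrm_grd_est m hK1' (fun ε hε f hf => hK2' m ε hε f hf) hU hΦs.1 hΦM hL' hL.le
        (fun x ω ⟨i, hi⟩ => hr' x ω i hi.le) hΦτ hδ hη hη1 hε0 hε4 hηr hB1
    · rw [Real.sq_sqrt hE20, hE2, hQdef]
      exact T.nrm_Xd_est m hU hV hδ hε0 hB1 hXd

end ConvexPolygon

end Vale.Agent.P099C
end
end

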