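import Vale.Agent.P099.MathlibUsed
import Vale.Agent.P099.H504.CPK
attribute [-instance] ProperSMul.toContinuousSMul IsTopologicalTorsor.toContinuousSMul IdemSemiring.toCanonicallyOrderedAdd IdemSemiring.toMulLeftMono IdemSemiring.toMulRightMono AddQuantale.instAddLeftMono AddQuantale.instAddRightMono Quantale.instMulLeftMono Quantale.instMulRightMono FiniteDimensional.rclike_to_real IsScalarTower.complexToReal FiniteDimensional.complexToReal

set_option linter.all false

section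

section

open MeasureTheory Set Filter Topology

namespace Vale.Agent.P099C
open Vale.Agent.P099 (nu FlowErgodic FlowWeakMixing)

variable {Ω : Type} [MeasurableSpace Ω]

namespace Rig

variable {A : Set ℂ} {m : Measure Ω}

lemma md_add {F G : ℂ → ℂ × Ω → ℂ} (hF : BC F) (hG : BC G) (k : ℤ) (x : ℂ) (q : Ω) :
    md k (fun x ω => F x ω + G x ω) x q = md k F x q + md k G x q := by
  obtain ⟨C, hC0, hC⟩ := hF.2
  obtain ⟨C', hC0', hC'⟩ := hG.2
  unfold md
  rw [← integral_add]
  · simp only [add_mul]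
  · refine int_bdd ((meas_slice hF.1 x q).mul (meas_zpow _)) (C := C) ?_
    filter_upwards [norm_zpow_ae (-k)] with u hz
    rw [norm_mul, hz, mul_one]; exact hC _ _
  · refine int_bdd ((meas_slice hG.1 x q).mul (meas_zpow _)) (C := C') ?_
    filter_upwards [norm_zpow_ae (-k)] with u hz
    rw [norm_mul, hz, mul_one]; exact hC' _ _

lemma N2_md_add_le [IsFiniteMeasure (volume.restrict A)] [IsProbabilityMeasure m]
    {F G : ℂ → ℂ × Ω → ℂ} (hF : BC F) (hG : BC G) (k : ℤ) :
    N2 A m (md k (fun x ω => F x ω + G x ω)) ≤ 2 * N2 A (nu.prod m) F + 2 * N2 A m (md k G) := by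
  have e : md k (fun x ω => F x ω + G x ω) = fun x q => md k F x q + md k G x q := by
    funext x q; exact md_add hF hG k x q
  rw [e]
  have h1 := N2_add_le (A := A) (κ := m) (hF.md k) (hG.md k)
  have h2 := N2_md_le (A := A) (m := m) hF k
  linarith only [h1, h2]

section skew

set_option linter.unusedSectionVars false

variable {ns : ℕ} [NeZero ns] (T : ConvexPolygon ns)

open Classical in
noncomputable def cc (χ : ℂ × ℂ → ℝ) : Option (Fin ns) → ℂ → ℂ → ℝ
  | none, y, u => if y ∈ T.table then χ (y, u) else 0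
  | some i, y, u => if T.R i y ∈ T.table then χ (T.R i y, T.refl i u) else 0

noncomputable def yy : Option (Fin ns) → ℂ → ℂ
  | none, y => y
  | some i, y => T.R i y

noncomputable def ww : Option (Fin ns) → ℂ → ℂ
  | none, u => u
  | some i, u => T.refl i u

lemma ext_eq_sum (χ : ℂ × ℂ → ℝ) (F : ℂ → ℂ × Ω → ℝ) (y u : ℂ) (q : Ω) :
    T.ext (fun x ω => χ (x, ω.1) * F x ω) y (u, q) =
      ∑ j, cc T χ j y u * F (yy T j y) (ww T j u, q) := by
  classical
  rw [Fintype.sum_option]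
  unfold ConvexPolygon.ext
  congr 1
  · unfold cc yy ww
    by_cases h : y ∈ T.table
    · simp [h]
    · simp [h]
  · refine Finset.sum_congr rfl fun i _ => ?_
    unfold cc yy ww
    by_cases h : T.R i y ∈ T.table
    · have h' : y ∈ T.R i ⁻¹' T.table := h
      simp [h, h']
    · have h' : y ∉ T.R i ⁻¹' T.table := h
      simp [h, h']

lemma int_sec [IsProbabilityMeasure m] {F G : ℂ → ℂ × Ω → ℝ} (hF : Bdd F) (hG : Bdd G)
    (y y' u u' : ℂ) : Integrable (fun q => F y (u, q) * G y' (u', q)) m := by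
  obtain ⟨hm, C, hC⟩ := hF
  obtain ⟨hm', C', hC'⟩ := hG
  have h1 : Measurable (fun q => F y (u, q)) :=
    hm.comp (Measurable.prodMk measurable_const (Measurable.prodMk measurable_const measurable_id))
  have h2 : Measurable (fun q => G y' (u', q)) :=
    hm'.comp (Measurable.prodMk measurable_const (Measurable.prodMk measurable_const measurable_id))
  refine int_bdd (h1.mul h2) (C := C * C') (Eventually.of_forall fun q => ?_)
  rw [norm_mul]
  exact mul_le_mul (hC _ _) (hC' _ _) (norm_nonneg _) ((abs_nonneg _).trans (hC y (u, q)))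

lemma int_ext_mul [IsProbabilityMeasure m] (χ : ℂ × ℂ → ℝ) {F G : ℂ → ℂ × Ω → ℝ} (hF : Bdd F)
    (hG : Bdd G) (y y' u u' : ℂ) :
    ∫ q, T.ext (fun x ω => χ (x, ω.1) * F x ω) y (u, q) *
        T.ext (fun x ω => χ (x, ω.1) * G x ω) y' (u', q) ∂m =
      ∑ j, ∑ l, cc T χ j y u * cc T χ l y' u' *
        ∫ q, F (yy T j y) (ww T j u, q) * G (yy T l y') (ww T l u', q) ∂m := by
  simp only [ext_eq_sum, Finset.sum_mul_sum]
  rw [integral_finsetSum]
  · refine Finset.sum_congr rfl fun j _ => ?_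
    rw [integral_finsetSum]
    · refine Finset.sum_congr rfl fun l _ => ?_
      rw [← integral_const_mul]
      congr 1
      funext q
      ring
    · intro l _
      have := (int_sec (m := m) hF hG (yy T j y) (yy T l y') (ww T j u) (ww T l u')).const_mul
        (cc T χ j y u * cc T χ l y' u')
      refine this.congr (Eventually.of_forall fun q => ?_)
      show _ = _
      ring
  · intro j _
    refine integrable_finsetSum _ fun l _ => ?_
    have := (int_sec (m := m) hF hG (yy T j y) (yy T l y') (ww T j u) (ww T l u')).const_mul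
      (cc T χ j y u * cc T χ l y' u')
    refine this.congr (Eventually.of_forall fun q => ?_)
    show _ = _
    ring

lemma ext_skew [IsProbabilityMeasure m] (χ : ℂ × ℂ → ℝ) {U V : ℂ → ℂ × Ω → ℝ} (hU : Bdd U)
    (hV : Bdd V) (hskew : ∀ y y' u u', ∫ q, V y (u, q) * U y' (u', q) ∂m =
      - ∫ q, U y (u, q) * V y' (u', q) ∂m) (y y' u u' : ℂ) :
    ∫ q, T.ext (fun x ω => χ (x, ω.1) * V x ω) y (u, q) *
        T.ext (fun x ω => χ (x, ω.1) * U x ω) y' (u', q) ∂m =
    - ∫ q, T.ext (fun x ω => χ (x, ω.1) * U x ω) y (u, q) *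
        T.ext (fun x ω => χ (x, ω.1) * V x ω) y' (u', q) ∂m := by
  rw [int_ext_mul T χ hV hU, int_ext_mul T χ hU hV, ← Finset.sum_neg_distrib]
  refine Finset.sum_congr rfl fun j _ => ?_
  rw [← Finset.sum_neg_distrib]
  refine Finset.sum_congr rfl fun l _ => ?_
  rw [hskew]
  ring

end skew

lemma le_of_affine {S B M : ℝ} (hM : 0 ≤ M) (h : ∀ t : ℝ, 0 < t → t ≤ 1 → S ≤ B + M * t) :
    S ≤ B := by
  by_contra hcon
  push Not at hcon
  have h1 := h (min 1 ((S - B) / (2 * (M + 1)))) (by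
    apply lt_min one_pos
    apply div_pos (by linarith only [hcon]) (by positivity)) (min_le_left _ _)
  have h2 : M * min 1 ((S - B) / (2 * (M + 1))) ≤ M * ((S - B) / (2 * (M + 1))) := by
    gcongr; exact min_le_right _ _
  have h3 : M * ((S - B) / (2 * (M + 1))) ≤ (S - B) / 2 := by
    rw [← mul_div_assoc, div_le_div_iff₀ (by positivity) (by positivity)]
    nlinarith only [hcon]
  linarith

end Rig

open Rig

namespace ConvexPolygon

variable {ns : ℕ} [NeZero ns] (T : ConvexPolygon ns) (m : Measure Ω)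

/-- The rigidity theorem: `U` does not vary in the direction orthogonal to the motion. -/
theorem rigid [IsProbabilityMeasure m] (U V : ℂ → ℂ × Ω → ℝ) (hU : Bdd U) (hV : Bdd V)
    (h1 : T.FreeDer m U V) (h2 : T.BounceDer m U V)
    (hskew : ∀ y y' u u', ∫ q, V y (u, q) * U y' (u', q) ∂m =
      - ∫ q, U y (u, q) * V y' (u', q) ∂m)
    (φ : ℂ → ℝ) (hφ : ContDiff ℝ (⊤ : ℕ∞) φ) (hφc : HasCompactSupport φ) (hφs : tsupport φ ⊆ T.table) :
    ∀ᵐ ω ∂(nu.prod m), ∫ x in T.table, U x ω * fderiv ℝ φ x (Complex.I * ω.1) = 0 := by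
  have hfin : IsFiniteMeasure (volume.restrict T.table) :=
    ⟨by rw [Measure.restrict_apply_univ]; exact T.volume_table_lt_top⟩
  obtain ⟨K, hK⟩ := (hφc.fderiv (𝕜 := ℝ)).exists_bound_of_continuous
    (hφ.continuous_fderiv (by simp))
  obtain ⟨CU, hCU⟩ := hU.2
  obtain ⟨CV, hCV⟩ := hV.2
  have hcU : BC (fun x ω => (U x ω : ℂ)) := BC.of_real hU.1 hCU
  have hcV : BC (fun x ω => (V x ω : ℂ)) := BC.of_real hV.1 hCV
  obtain ⟨c1, hc1⟩ : ∃ c1, c1 = K ^ 2 * (volume T.table).toReal := ⟨_, rfl⟩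
  have hc10 : 0 ≤ c1 := by rw [hc1]; (clear * -; positivity)
  obtain ⟨c2, hc2⟩ : ∃ c2, c2 = ∫ x in T.table, ‖(φ x : ℂ)‖ ^ 2 := ⟨_, rfl⟩
  have hc20 : 0 ≤ c2 := by rw [hc2]; exact integral_nonneg fun x => by (clear * -; positivity)
  obtain ⟨v, hv⟩ : ∃ v, v = Real.sqrt (2 * N2 T.table (nu.prod m) (fun x ω => (V x ω : ℂ)) + 2) :=
    ⟨_, rfl⟩
  have hv0 : 0 ≤ v := by rw [hv]; exact Real.sqrt_nonneg _
  have hv2 : v ^ 2 = 2 * N2 T.table (nu.prod m) (fun x ω => (V x ω : ℂ)) + 2 := by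
    rw [hv]
    exact Real.sq_sqrt (by have := N2_nonneg T.table (nu.prod m) (fun x ω => (V x ω : ℂ)); linarith only [this])
  have main : ∀ (k : ℤ) (n : ℕ), |k| ≤ n → ∀ tol : ℝ, 0 < tol → tol ≤ 1 →
      ∫ q, ‖mL T.table φ k (fun x ω => (U x ω : ℂ)) q‖ ^ 2 ∂m ≤
        4 * c2 * (N2 T.table m (md (n + 1) (fun x ω => (V x ω : ℂ))) +
          N2 T.table m (md (-n - 1) (fun x ω => (V x ω : ℂ)))) +
        (2 * c1 + 2 * c2 * (4 + 100 * (n + 1) * (2 + v))) * tol := by
    intro k n hkn tol htol htol1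
    obtain ⟨ε, hε, χ, hχm, hχ, hf, hh, hfs, hhs, hnU, hnV, a, e, ha, he, het, hea, hA, hE⟩ :=
      T.approx m U V hU hV h1 h2 tol htol
    obtain ⟨f, hfdef⟩ : ∃ f, f = T.ext (fun x ω => χ (x, ω.1) * U x ω) := ⟨_, rfl⟩
    obtain ⟨h, hhdef⟩ : ∃ h, h = T.ext (fun x ω => χ (x, ω.1) * V x ω) := ⟨_, rfl⟩
    have hsk := ext_skew (m := m) T χ hU hV hskew
    rw [← hfdef, ← hhdef] at hsk
    rw [← hfdef] at hf hfs hnU hA hE
    rw [← hhdef] at hh hhs hnV hE
    have hG : BC (fun x ω => ((mol ε f x ω : ℝ) : ℂ)) := BC_mol hε hf.1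
    have hH : BC (fun x ω => ((mol ε h x ω : ℝ) : ℂ)) := BC_mol hε hh.1
    -- the approximation of `V`
    have eV : (fun x ω => ((mol ε h x ω : ℝ) : ℂ)) =
        fun x ω => (((mol ε h x ω : ℝ) : ℂ) - (V x ω : ℂ)) + (V x ω : ℂ) := by
      funext x ω; ring
    have nV : N2 T.table (nu.prod m) (fun x ω => ((mol ε h x ω : ℝ) : ℂ) - (V x ω : ℂ)) ≤ tol := by
      refine le_trans (le_of_eq ?_) hnV
      unfold N2 nrm
      simp only [Complex.ofReal_sub]
    have nH : T.nrm m (fun x ω => (mol ε h x ω : ℂ)) ≤ v ^ 2 := by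
      have h3 := N2_add_le (A := T.table) (κ := nu.prod m) (hH.sub hcV) hcV
      rw [hv2]
      calc T.nrm m (fun x ω => (mol ε h x ω : ℂ)) =
          N2 T.table (nu.prod m) (fun x ω =>
            (((mol ε h x ω : ℝ) : ℂ) - (V x ω : ℂ)) + (V x ω : ℂ)) := by
            rw [← eV]; rfl
        _ ≤ _ := by linarith only [htol1, nV, h3]
    have hen := T.energy m hε f h hf hh hfs hhs hsk a v e ha hv0 he hA nH hE k n hkn
    have mdV : ∀ j : ℤ, T.nrmq m (md j (fun x ω => (mol ε h x ω : ℂ))) ≤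
        2 * tol + 2 * N2 T.table m (md j (fun x ω => (V x ω : ℂ))) := by
      intro j
      have h3 := N2_md_add_le (A := T.table) (m := m) (hH.sub hcV) hcV j
      calc T.nrmq m (md j (fun x ω => (mol ε h x ω : ℂ))) =
          N2 T.table m (md j (fun x ω =>
            (((mol ε h x ω : ℝ) : ℂ) - (V x ω : ℂ)) + (V x ω : ℂ))) := by
            rw [← eV]; rfl
        _ ≤ _ := by linarith only [nV, h3]
    -- the two parts of `U`
    have eU : (fun x ω => (U x ω : ℂ)) =
        fun x ω => ((U x ω : ℂ) - ((mol ε f x ω : ℝ) : ℂ)) + ((mol ε f x ω : ℝ) : ℂ) := by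
      funext x ω; ring
    have nU : N2 T.table (nu.prod m) (fun x ω => (U x ω : ℂ) - ((mol ε f x ω : ℝ) : ℂ)) ≤ tol := by
      refine le_trans (le_of_eq ?_) hnU
      unfold N2 nrm
      simp only [Complex.ofReal_sub]
      congr 1
      funext x
      congr 1
      funext ω
      rw [norm_sub_rev]
    have s1 := S_add_le (A := T.table) (m := m) hφ hK (hcU.sub hG) hG k
    have s2 := S_le (A := T.table) (m := m) hφ hK (hcU.sub hG) k
    have s3 := S_mol_le (A := T.table) (m := m) hε hf.1 hφ hφc hφs k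
    rw [← hc1] at s2
    rw [← hc2] at s3
    have s4 : N2 T.table m (Ek ε f k) ≤
        T.nrmq m (md (n + 1) (fun x ω => (mol ε h x ω : ℂ))) +
        T.nrmq m (md (-n - 1) (fun x ω => (mol ε h x ω : ℂ))) +
        100 * (n + 1) * (e * a + e * v + e ^ 2) := hen
    have m1 := mdV (n + 1)
    have m2 := mdV (-n - 1)
    have s5 : e * a + e * v + e ^ 2 ≤ tol * (2 + v) := by nlinarith only [hea, hv0, het, htol1, he]
    have s6 : N2 T.table m (Ek ε f k) ≤
        2 * N2 T.table m (md (n + 1) (fun x ω => (V x ω : ℂ))) +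
        2 * N2 T.table m (md (-n - 1) (fun x ω => (V x ω : ℂ))) +
        (4 + 100 * (n + 1) * (2 + v)) * tol := by
      have h7 : 100 * ((n : ℝ) + 1) * (e * a + e * v + e ^ 2) ≤
          100 * ((n : ℝ) + 1) * (tol * (2 + v)) := by
        (clear * - s5; gcongr)
      linarith only [s4, m1, m2, h7]
    rw [← eU] at s1
    have s7 : N2 T.table (nu.prod m) (fun x ω => (U x ω : ℂ) - ((mol ε f x ω : ℝ) : ℂ)) * c1 ≤
        tol * c1 := mul_le_mul_of_nonneg_right nU hc10
    have s8 : c2 * N2 T.table m (Ek ε f k) ≤ c2 * (2 * N2 T.table m (md (n + 1) (fun x ω => (V x ω : ℂ))) +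
        2 * N2 T.table m (md (-n - 1) (fun x ω => (V x ω : ℂ))) +
        (4 + 100 * (n + 1) * (2 + v)) * tol) := mul_le_mul_of_nonneg_left s6 hc20
    linarith only [s1, s2, s3, s7, s8]
  -- the limit `tol → 0`
  have main2 : ∀ (k : ℤ) (n : ℕ), |k| ≤ n →
      ∫ q, ‖mL T.table φ k (fun x ω => (U x ω : ℂ)) q‖ ^ 2 ∂m ≤
        4 * c2 * (N2 T.table m (md (n + 1) (fun x ω => (V x ω : ℂ))) +
          N2 T.table m (md (-n - 1) (fun x ω => (V x ω : ℂ)))) := fun k n hkn =>
    le_of_affine (by (clear * - hc10 hc20 hv0; positivity)) (main k n hkn)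
  have hS : ∀ k : ℤ, ∫ q, ‖mL T.table φ k (fun x ω => (U x ω : ℂ)) q‖ ^ 2 ∂m = 0 := by
    intro k
    refine le_antisymm ?_ (integral_nonneg fun q => by (clear * -; positivity))
    have t0 := tendsto_N2_md (A := T.table) (m := m) hcV
    have t1 : Tendsto (fun n : ℕ => N2 T.table m (md ((n : ℤ) + 1) (fun x ω => (V x ω : ℂ))))
        atTop (𝓝 0) := by
      rw [← Nat.cofinite_eq_atTop]
      exact t0.comp (Function.Injective.tendsto_cofinite (f := fun n : ℕ => (n : ℤ) + 1)
        (fun a b hab => by simpa using hab))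
    have t2 : Tendsto (fun n : ℕ => N2 T.table m (md (-(n : ℤ) - 1) (fun x ω => (V x ω : ℂ))))
        atTop (𝓝 0) := by
      rw [← Nat.cofinite_eq_atTop]
      exact t0.comp (Function.Injective.tendsto_cofinite (f := fun n : ℕ => -(n : ℤ) - 1)
        (fun a b hab => by simpa using hab))
    have t3 := (t1.add t2).const_mul (4 * c2)
    rw [add_zero, mul_zero] at t3
    refine ge_of_tendsto t3 ?_
    filter_upwards [eventually_ge_atTop k.natAbs] with n hn
    exact main2 k n (by rw [Int.abs_eq_natAbs]; exact_mod_cast hn)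
  have hall : ∀ᵐ q ∂m, ∀ k : ℤ, mL T.table φ k (fun x ω => (U x ω : ℂ)) q = 0 := by
    rw [ae_all_iff]
    intro k
    have h3 := (integral_eq_zero_iff_of_nonneg (fun q => by (clear * -; positivity))
      (mL_int_sq (A := T.table) (m := m) hφ hK hcU k)).mp (hS k)
    filter_upwards [h3] with q hq
    have hq' : ‖mL T.table φ k (fun x ω => (U x ω : ℂ)) q‖ ^ 2 = 0 := hq
    exact norm_eq_zero.mp (pow_eq_zero_iff (by norm_num) |>.mp hq')
  obtain ⟨B, hB⟩ := Lam_bdd (A := T.table) hφ hK hcU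
  have hLm := Lam_meas (A := T.table) hφ hcU
  have hae : ∀ᵐ q ∂m, ∀ᵐ u ∂nu, Lam T.table φ (fun x ω => (U x ω : ℂ)) (u, q) = 0 := by
    filter_upwards [hall] with q hq
    exact ae_zero_of_mode _ (memLp_of_bdd (slice_meas hLm q) (C := B)
      (by filter_upwards [ae_norm] with u hu; exact hB (u, q) hu)) hq
  have hms : MeasurableSet {z : Ω × ℂ | Lam T.table φ (fun x ω => (U x ω : ℂ)) (z.2, z.1) = 0} :=
    (hLm.comp measurable_swap) (measurableSet_singleton 0)
  have hprod : ∀ᵐ z ∂(m.prod nu), Lam T.table φ (fun x ω => (U x ω : ℂ)) (z.2, z.1) = 0 :=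
    (Measure.ae_prod_iff_ae_ae hms).mpr hae
  have hfinal : ∀ᵐ z ∂(nu.prod m), Lam T.table φ (fun x ω => (U x ω : ℂ)) z = 0 := by
    have hsw : MeasurePreserving Prod.swap (nu.prod m) (m.prod nu) := Measure.measurePreserving_swap
    have := hsw.quasiMeasurePreserving.ae hprod
    simpa only [Prod.snd_swap, Prod.fst_swap, Prod.mk.eta] using this
  filter_upwards [hfinal] with ω hω
  have h3 : Lam T.table φ (fun x ω => (U x ω : ℂ)) ω =
      ((∫ x in T.table, U x ω * fderiv ℝ φ x (Complex.I * ω.1) : ℝ) : ℂ) := by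
    unfold Lam
    rw [← integral_complex_ofReal]
    push_cast
    rfl
  rw [h3] at hω
  exact_mod_cast hω

end ConvexPolygon

end Vale.Agent.P099C
end
end

section

section

open MeasureTheory Set Filter Topology

namespace Vale.Agent.P099C
open Vale.Agent.P099 (nu FlowErgodic FlowWeakMixing)

variable {Ω : Type} [MeasurableSpace Ω]

namespace ConvexPolygon

variable {ns : ℕ} [NeZero ns] (T : ConvexPolygon ns)

lemma wm_measurable_K {φ : ℂ → ℝ} (hφ : ContDiff ℝ (⊤ : ℕ∞) φ) :
    Measurable (fun z : ℂ × ℂ => fderiv ℝ φ z.1 (Complex.I * z.2)) := by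
  have h1 : Continuous (fun x => fderiv ℝ φ x) := hφ.continuous_fderiv (by simp)
  have h2 : Continuous (fun z : ℂ × ℂ => fderiv ℝ φ z.1 (Complex.I * z.2)) :=
    (h1.comp continuous_fst).clm_apply (by fun_prop)
  exact h2.measurable

lemma wm_bound_K {φ : ℂ → ℝ} (hφ : ContDiff ℝ (⊤ : ℕ∞) φ) (hφc : HasCompactSupport φ) :
    ∃ D : ℝ, 0 ≤ D ∧ ∀ x u, |fderiv ℝ φ x (Complex.I * u)| ≤ D * ‖u‖ := by
  have h1 : Continuous (fun x => fderiv ℝ φ x) := hφ.continuous_fderiv (by simp)
  obtain ⟨D, hD⟩ := h1.bounded_above_of_compact_support (hφc.fderiv ℝ)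
  refine ⟨D, le_trans (norm_nonneg _) (hD 0), fun x u => ?_⟩
  have := (fderiv ℝ φ x).le_opNorm (Complex.I * u)
  rw [Real.norm_eq_abs, norm_mul, Complex.norm_I, one_mul] at this
  exact this.trans (mul_le_mul_of_nonneg_right (hD x) (norm_nonneg _))

/-- the derivative of `H` orthogonally to the motion vanishes -/
theorem weakY {m : Measure Ω} [IsProbabilityMeasure m] {Ψ : ℝ → Ω → Ω} (hΨ : PFlow m Ψ)
    {H : ℂ → ℂ × Ω → ℝ} (hH : Bdd H) (hF : T.FreeInv m Ψ H) (hB : T.BounceInv m Ψ H)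
    (φ : ℂ → ℝ) (hφ : ContDiff ℝ (⊤ : ℕ∞) φ) (hφc : HasCompactSupport φ)
    (hφs : tsupport φ ⊆ T.table) :
    ∀ᵐ ω ∂(nu.prod m), ∫ x in T.table, H x ω * fderiv ℝ φ x (Complex.I * ω.1) = 0 := by
  obtain ⟨C, hC⟩ := hH.2
  obtain ⟨D, hD0, hD⟩ := wm_bound_K hφ hφc
  have hfin : Fact (volume T.table < ⊤) := ⟨T.volume_table_lt_top⟩
  set g : ℂ × Ω → ℝ := fun ω => ∫ x in T.table, H x ω * fderiv ℝ φ x (Complex.I * ω.1) with hg
  have mg : Measurable g := by
    have h1 : Measurable (fun z : (ℂ × Ω) × ℂ => H z.2 z.1 * fderiv ℝ φ z.2 (Complex.I * z.1.1)) := by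
      have h0 : Measurable (fun z : (ℂ × Ω) × ℂ => ((z.2, z.1) : ℂ × (ℂ × Ω))) := by fun_prop
      have h0' : Measurable (fun z : (ℂ × Ω) × ℂ => ((z.2, z.1.1) : ℂ × ℂ)) := by fun_prop
      exact (hH.1.comp h0).mul ((wm_measurable_K hφ).comp h0')
    exact (h1.stronglyMeasurable.integral_prod_right'
      (ν := (volume : Measure ℂ).restrict T.table)).measurable
  have key : ∀ ω : ℂ × Ω, ∀ τ : ℝ, 0 < τ →
      ∫ x in T.table, Uav Ψ τ H x ω * fderiv ℝ φ x (Complex.I * ω.1) =
        τ⁻¹ * ∫ s in (0:ℝ)..τ, g (ω.1, Ψ s ω.2) := by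
    intro ω τ hτ
    rw [intervalIntegral.integral_of_le hτ.le]
    simp only [hg]
    have hsw : ∫ s in Ioc 0 τ, ∫ x in T.table,
        H x (ω.1, Ψ s ω.2) * fderiv ℝ φ x (Complex.I * ω.1) =
        ∫ x in T.table, ∫ s in Ioc 0 τ,
        H x (ω.1, Ψ s ω.2) * fderiv ℝ φ x (Complex.I * ω.1) := by
      apply integral_integral_swap
      have h1 : Measurable (fun z : ℝ × ℂ => H z.2 (ω.1, Ψ z.1 ω.2) *
          fderiv ℝ φ z.2 (Complex.I * ω.1)) := by
        have h0 : Measurable (fun z : ℝ × ℂ => (((z.2, (ω.1, ω.2)), z.1) :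
          (ℂ × (ℂ × Ω)) × ℝ)) := by fun_prop
        have h0' : Measurable (fun z : ℝ × ℂ => ((z.2, ω.1) : ℂ × ℂ)) := by fun_prop
        exact ((bdd_meas_comp hΨ hH).comp h0).mul ((wm_measurable_K hφ).comp h0')
      refine Integrable.of_bound (C := C * (D * ‖ω.1‖)) h1.aestronglyMeasurable ?_
      refine Filter.Eventually.of_forall (fun z => ?_)
      simp only [Function.uncurry, Real.norm_eq_abs, abs_mul]
      exact mul_le_mul (hC _ _) (hD _ _) (abs_nonneg _) (le_trans (abs_nonneg _) (hC z.2 ω))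
    rw [hsw, ← integral_const_mul]
    apply integral_congr_ae
    refine Filter.Eventually.of_forall (fun x => ?_)
    simp only [Uav, intervalIntegral.integral_of_le hτ.le]
    rw [integral_mul_const]
    ring
  -- vanishing of the averages for all times
  have h1 : ∀ᵐ ω ∂(nu.prod m), ∀ τ : ℚ, 0 < (τ : ℝ) → ∫ s in (0:ℝ)..τ, g (ω.1, Ψ s ω.2) = 0 := by
    rw [ae_all_iff]
    intro τ
    by_cases hτ : 0 < (τ : ℝ)
    · have hr := T.rigid m (Uav Ψ τ H) (Vav Ψ τ H) (bdd_Uav hΨ hH hτ) (bdd_Vav hΨ hH hτ)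
        (T.freeDer_av hΨ hH hF) (T.bounceDer_av hΨ hH hF hB hτ) (skew_av hΨ hH hτ) φ hφ hφc hφs
      filter_upwards [hr] with ω hω _
      rw [key ω τ hτ] at hω
      rcases mul_eq_zero.mp hω with h | h
      · exact absurd h (inv_ne_zero hτ.ne')
      · exact h
    · exact Filter.Eventually.of_forall (fun ω h => absurd h hτ)
  have mgΨ : Measurable (fun z : (ℂ × Ω) × ℝ => g (z.1.1, Ψ z.2 z.1.2)) := by
    refine mg.comp (Measurable.prodMk (by fun_prop) ?_)
    exact hΨ.meas.comp (Measurable.prodMk measurable_snd (measurable_snd.comp measurable_fst))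
  have gb : ∀ ω, |g ω| ≤ C * (D * ‖ω.1‖) * (volume.real T.table) := by
    intro ω
    have := norm_setIntegral_le_of_norm_le_const (μ := volume) (s := T.table)
      (f := fun x => H x ω * fderiv ℝ φ x (Complex.I * ω.1)) (C := C * (D * ‖ω.1‖))
      T.volume_table_lt_top (fun x _ => by
        rw [Real.norm_eq_abs, abs_mul]
        exact mul_le_mul (hC _ _) (hD _ _) (abs_nonneg _) (le_trans (abs_nonneg _) (hC x ω)))
    exact this
  have h2 : ∀ᵐ ω ∂(nu.prod m), ∀ᵐ s : ℝ, 0 < s → g (ω.1, Ψ s ω.2) = 0 := by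
    filter_upwards [h1] with ω hω
    set f : ℝ → ℝ := fun s => g (ω.1, Ψ s ω.2) with hf
    have mf : Measurable f := by
      have h0 : Measurable (fun s : ℝ => ((ω, s) : (ℂ × Ω) × ℝ)) := by fun_prop
      exact mgΨ.comp h0
    have bf : ∀ s, |f s| ≤ C * (D * ‖ω.1‖) * (volume.real T.table) := fun s => gb _
    have hi : ∀ a b : ℝ, IntervalIntegrable f volume a b := locInt_of_bdd mf bf
    have hcont : Continuous (fun τ : ℝ => ∫ s in (0:ℝ)..τ, f s) :=
      intervalIntegral.continuous_primitive hi 0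
    have hzero : ∀ τ : ℝ, 0 < τ → ∫ s in (0:ℝ)..τ, f s = 0 := by
      intro τ hτ
      have hcl : IsClosed {τ : ℝ | ∫ s in (0:ℝ)..τ, f s = 0} :=
        isClosed_eq hcont continuous_const
      have hmem : τ ∈ closure {τ : ℝ | 0 < τ ∧ ∃ r : ℚ, (r : ℝ) = τ} := by
        rw [Metric.mem_closure_iff]
        intro ε hε
        obtain ⟨r, hr1, hr2⟩ := exists_rat_btwn (show τ < τ + ε by linarith only [hε])
        refine ⟨r, ⟨lt_trans hτ hr1, r, rfl⟩, ?_⟩
        rw [Real.dist_eq, abs_sub_comm, abs_of_pos (by linarith)]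
        linarith
      have hsub : {τ : ℝ | 0 < τ ∧ ∃ r : ℚ, (r : ℝ) = τ} ⊆ {τ : ℝ | ∫ s in (0:ℝ)..τ, f s = 0} := by
        rintro _ ⟨h0, r, rfl⟩
        exact hω r h0
      exact (closure_minimal hsub hcl) hmem
    have hloc : LocallyIntegrable f volume := by
      intro x
      refine ⟨Ioo (x - 1) (x + 1), Ioo_mem_nhds (by linarith) (by linarith), ?_⟩
      have : Fact (volume (Ioo (x - 1) (x + 1)) < ⊤) := ⟨measure_Ioo_lt_top⟩
      exact Integrable.of_bound mf.aestronglyMeasurable _ (Filter.Eventually.of_forall bf)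
    filter_upwards [LocallyIntegrable.ae_hasDerivAt_integral hloc] with s hs hpos
    have hd := hs 0
    have hd0 : HasDerivAt (fun τ : ℝ => ∫ t in (0:ℝ)..τ, f t) 0 s := by
      have heq : (fun τ : ℝ => ∫ t in (0:ℝ)..τ, f t) =ᶠ[𝓝 s] fun _ => 0 := by
        filter_upwards [lt_mem_nhds hpos] with τ hτ
        exact hzero τ hτ
      exact (hasDerivAt_const s (0:ℝ)).congr_of_eventuallyEq heq
    exact hd.unique hd0
  have hS : MeasurableSet {z : (ℂ × Ω) × ℝ | 0 < z.2 → g (z.1.1, Ψ z.2 z.1.2) = 0} := by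
    have e : {z : (ℂ × Ω) × ℝ | 0 < z.2 → g (z.1.1, Ψ z.2 z.1.2) = 0} =
        {z | 0 < z.2}ᶜ ∪ {z | g (z.1.1, Ψ z.2 z.1.2) = 0} := by
      ext z
      simp only [mem_ofPred_eq, mem_union, mem_compl_iff]
      (clear * -; tauto)
    rw [e]
    exact (measurableSet_lt measurable_const measurable_snd).compl.union
      (measurableSet_eq_fun mgΨ measurable_const)
  have h3 : ∀ᵐ s : ℝ, ∀ᵐ ω ∂(nu.prod m), 0 < s → g (ω.1, Ψ s ω.2) = 0 :=
    (Measure.ae_ae_comm (p := fun (ω : ℂ × Ω) (s : ℝ) => 0 < s → g (ω.1, Ψ s ω.2) = 0) hS).mp h2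
  obtain ⟨s, hs0, hs⟩ : ∃ s : ℝ, 0 < s ∧ ∀ᵐ ω ∂(nu.prod m), g (ω.1, Ψ s ω.2) = 0 := by
    by_contra hcon
    rw [not_exists] at hcon
    have hsub : Ioi (0:ℝ) ⊆ {s : ℝ | ¬ ∀ᵐ ω ∂(nu.prod m), 0 < s → g (ω.1, Ψ s ω.2) = 0} := by
      intro s hs hh
      apply hcon s
      refine ⟨hs, ?_⟩
      filter_upwards [hh] with ω hω
      exact hω hs
    have := measure_mono_null hsub (ae_iff.mp h3)
    simp at this
  have hmp : MeasurePreserving (Prod.map id (Ψ s)) (nu.prod m) (nu.prod m) :=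
    (MeasurePreserving.id _).prod (hΨ.mp s)
  have h4 : ∀ᵐ ω ∂((nu.prod m).map (Prod.map id (Ψ s))), g ω = 0 := by
    rw [ae_map_iff hmp.measurable.aemeasurable (measurableSet_eq_fun mg measurable_const)]
    exact hs
  rwa [hmp.map_eq] at h4

end ConvexPolygon

end Vale.Agent.P099C
end
end

section

section

open MeasureTheory Set Filter Topology

namespace Vale.Agent.P099C
open Vale.Agent.P099 (nu FlowErgodic FlowWeakMixing)

variable {Ω : Type} [MeasurableSpace Ω]

namespace WM3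

/-- mollification of a function of the position -/
noncomputable def mo (ε : ℝ) (g : ℂ → ℝ) (z : ℂ) : ℝ := ∫ y, rho ε (z - y) * g y

lemma mo_eq_convolution (ε : ℝ) (g : ℂ → ℝ) :
    mo ε g = convolution g (rho ε) (ContinuousLinearMap.mul ℝ ℝ) volume := by
  funext x
  simp only [mo, convolution_def, ContinuousLinearMap.mul_apply', mul_comm]

lemma contDiff_mo {ε : ℝ} (hε : 0 < ε) {g : ℂ → ℝ} (hg : LocallyIntegrable g) :
    ContDiff ℝ (⊤ : ℕ∞) (mo ε g) := by
  rw [mo_eq_convolution]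
  exact (hasCompactSupport_rho hε).contDiff_convolution_right _ hg (rho_contDiff ε)

lemma fderiv_mo {ε : ℝ} (hε : 0 < ε) {g : ℂ → ℝ} (hg : LocallyIntegrable g) (z v : ℂ) :
    fderiv ℝ (mo ε g) z v = ∫ y, g y * fderiv ℝ (rho ε) (z - y) v := by
  rw [mo_eq_convolution]
  rw [((hasCompactSupport_rho hε).hasFDerivAt_convolution_right (ContinuousLinearMap.mul ℝ ℝ) hg
    ((rho_contDiff ε).of_le (by exact_mod_cast le_top)) z).fderiv]
  rw [convolution_precompR_apply (ContinuousLinearMap.mul ℝ ℝ) hg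
    ((hasCompactSupport_rho hε).fderiv ℝ)
    ((rho_contDiff ε).continuous_fderiv (by simp))]
  simp only [convolution_def, ContinuousLinearMap.mul_apply']

lemma continuous_fderiv_mo {ε : ℝ} (hε : 0 < ε) {g : ℂ → ℝ} (hg : LocallyIntegrable g) (v : ℂ) :
    Continuous fun z => fderiv ℝ (mo ε g) z v :=
  ((contDiff_mo hε hg).continuous_fderiv (by simp)).clm_apply continuous_const

/-- integrate the derivative along a segment -/
lemma mo_eq_of_segment {ε : ℝ} (hε : 0 < ε) {g : ℂ → ℝ} (hg : LocallyIntegrable g) {x y : ℂ}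
    (h : ∀ z ∈ segment ℝ x y, fderiv ℝ (mo ε g) z (y - x) = 0) : mo ε g y = mo ε g x := by
  have hd : ∀ t : ℝ, HasDerivAt (fun t : ℝ => mo ε g (x + t • (y - x)))
      (fderiv ℝ (mo ε g) (x + t • (y - x)) (y - x)) t := by
    intro t
    have h1 : HasFDerivAt (mo ε g) (fderiv ℝ (mo ε g) (x + t • (y - x))) (x + t • (y - x)) :=
      (((contDiff_mo hε hg).differentiable (by simp)).differentiableAt).hasFDerivAt
    have h2 : HasDerivAt (fun t : ℝ => x + t • (y - x)) (y - x) t := by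
      simpa using ((hasDerivAt_id t).smul_const (y - x)).const_add x
    exact h1.comp_hasDerivAt t h2
  have key := constant_of_has_deriv_right_zero (a := (0 : ℝ)) (b := 1)
    (f := fun t : ℝ => mo ε g (x + t • (y - x)))
    (fun t _ => (hd t).continuousAt.continuousWithinAt)
    (fun t ht => by
      have h3 := (hd t).hasDerivWithinAt (s := Ici t)
      rwa [h _ ⟨1 - t, t, by linarith [ht.2], ht.1, by ring, by
        simp only [Complex.real_smul]; push_cast; ring⟩] at h3)
    1 (by simp only [mem_Icc, zero_le_one, Std.le_refl, and_self])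
  simpa using key

/-- for points of an open convex set the mollifications eventually agree -/
lemma eventually_mo_eq {Q : Set ℂ} (hQo : IsOpen Q) (hQc : Convex ℝ Q) {g : ℂ → ℝ}
    (hg : LocallyIntegrable g) {x y : ℂ} (hx : x ∈ Q) (hy : y ∈ Q)
    (h : ∀ n : ℕ, ∀ z, Metric.closedBall z (1 / ((n : ℝ) + 1)) ⊆ Q →
      fderiv ℝ (mo (1 / ((n : ℝ) + 1)) g) z (y - x) = 0) :
    ∀ᶠ n : ℕ in atTop, mo (1 / ((n : ℝ) + 1)) g y = mo (1 / ((n : ℝ) + 1)) g x := by
  have hK : IsCompact (segment ℝ x y) := by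
    rw [segment_eq_image_lineMap]
    exact isCompact_Icc.image AffineMap.lineMap_continuous
  obtain ⟨δ, hδ, hsub⟩ := hK.exists_cthickening_subset_open hQo (hQc.segment_subset hx hy)
  have h1 : Tendsto (fun n : ℕ => 1 / ((n : ℝ) + 1)) atTop (𝓝 0) :=
    tendsto_one_div_add_atTop_nhds_zero_nat
  filter_upwards [h1.eventually (ge_mem_nhds hδ)] with n hn
  refine mo_eq_of_segment Nat.one_div_pos_of_nat hg fun z hz => ?_
  refine h n z (Subset.trans ?_ hsub)
  exact (Metric.closedBall_subset_cthickening hz _).trans (Metric.cthickening_mono hn _)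

lemma ae_tendsto_mo {g : ℂ → ℝ} (hg : LocallyIntegrable g) :
    ∀ᵐ x : ℂ, Tendsto (fun n : ℕ => mo (1 / ((n : ℝ) + 1)) g x) atTop (𝓝 (g x)) := by
  filter_upwards [ae_tendsto_mol1 hg] with x hx
  refine hx.comp ?_
  rw [tendsto_nhdsWithin_iff]
  exact ⟨tendsto_one_div_add_atTop_nhds_zero_nat,
    Eventually.of_forall fun n => mem_Ioi.2 (Nat.one_div_pos_of_nat (α := ℝ))⟩

lemma isOpen_inner {Q : Set ℂ} (hQo : IsOpen Q) (ε : ℝ) :
    IsOpen {z | Metric.closedBall z ε ⊆ Q} := by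
  rw [Metric.isOpen_iff]
  intro z hz
  obtain ⟨δ, hδ, hsub⟩ := (isCompact_closedBall z ε).exists_cthickening_subset_open hQo hz
  refine ⟨δ, hδ, fun z' hz' w hw => hsub ?_⟩
  refine Metric.mem_cthickening_of_dist_le w (w - z' + z) δ _ ?_ ?_
  · rw [Metric.mem_closedBall, dist_eq_norm] at hw ⊢
    simpa only [add_sub_cancel_right] using hw
  · rw [Metric.mem_ball, dist_eq_norm] at hz'
    rw [dist_eq_norm]
    have : w - (w - z' + z) = z' - z := by ring
    rw [this]
    exact hz'.le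

/-- the weak derivative gives the derivative of the mollification -/
lemma fderiv_mo_of_weak {Q : Set ℂ} {g : ℂ → ℝ} (hg : LocallyIntegrable g) {ε : ℝ} (hε : 0 < ε)
    {z v : ℂ} (hz : Metric.closedBall z ε ⊆ Q)
    (h : ∫ x in Q, g x * fderiv ℝ (fun y => rho ε (z - y)) x v = 0) :
    fderiv ℝ (mo ε g) z v = 0 := by
  have h1 : ∀ x, fderiv ℝ (fun y => rho ε (z - y)) x v = - fderiv ℝ (rho ε) (z - x) v := by
    intro x
    have h2 : HasFDerivAt (rho ε) (fderiv ℝ (rho ε) (z - x)) (z - x) :=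
      (((rho_contDiff ε).differentiable (by simp)).differentiableAt).hasFDerivAt
    have h3 : HasFDerivAt (fun y : ℂ => z - y) (-(ContinuousLinearMap.id ℝ ℂ)) x :=
      (hasFDerivAt_id x).const_sub z
    have h4 := h2.comp x h3
    have h5 : (rho ε ∘ fun y : ℂ => z - y) = fun y => rho ε (z - y) := rfl
    rw [h5] at h4
    rw [h4.fderiv]
    simp only [ContinuousLinearMap.comp_neg, ContinuousLinearMap.comp_id, neg_apply]
  simp only [h1] at h
  rw [fderiv_mo hε hg]
  have h6 : ∫ x in Q, g x * -(fderiv ℝ (rho ε) (z - x) v) =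
      ∫ x, g x * -(fderiv ℝ (rho ε) (z - x) v) := by
    refine setIntegral_eq_integral_of_forall_compl_eq_zero fun x hx => ?_
    have : ε ≤ ‖z - x‖ := by
      by_contra hlt
      apply hx
      apply hz
      rw [Metric.mem_closedBall, dist_comm, dist_eq_norm]
      exact (not_le.1 hlt).le
    rw [fderiv_rho_eq_zero hε this]
    simp
  rw [h6] at h
  simp only [mul_neg, integral_neg, neg_eq_zero] at h
  exact h

lemma tsupport_rho_sub {ε : ℝ} (hε : 0 < ε) (z : ℂ) :
    tsupport (fun y => rho ε (z - y)) ⊆ Metric.closedBall z ε := by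
  refine closure_minimal ?_ Metric.isClosed_closedBall
  intro y hy
  rw [Metric.mem_closedBall]
  by_contra hlt
  apply hy
  apply rho_eq_zero hε
  rw [not_le, dist_comm, dist_eq_norm] at hlt
  exact hlt.le

lemma hasCompactSupport_rho_sub {ε : ℝ} (hε : 0 < ε) (z : ℂ) :
    HasCompactSupport (fun y => rho ε (z - y)) :=
  (isCompact_closedBall z ε).of_isClosed_subset (isClosed_tsupport _) (tsupport_rho_sub hε z)

/-- invariance under small translations gives the vanishing of the derivative -/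
lemma fderiv_mo_of_transl {Q : Set ℂ} (hQo : IsOpen Q) {g : ℂ → ℝ} (hg : LocallyIntegrable g)
    {ε : ℝ} (hε : 0 < ε) {z v : ℂ} (hz : Metric.closedBall z ε ⊆ Q)
    (h : ∀ n : ℕ, ∀ᵐ x ∂(volume.restrict Q), x + (1 / ((n : ℝ) + 1)) • v ∈ Q →
      g (x + (1 / ((n : ℝ) + 1)) • v) = g x) :
    fderiv ℝ (mo ε g) z v = 0 := by
  obtain ⟨δ, hδ, hsub⟩ := (isCompact_closedBall z ε).exists_cthickening_subset_open hQo hz
  have ht : Tendsto (fun n : ℕ => 1 / ((n : ℝ) + 1)) atTop (𝓝 0) :=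
    tendsto_one_div_add_atTop_nhds_zero_nat
  -- the difference quotients vanish
  have h1 : ∀ᶠ n : ℕ in atTop, mo ε g (z + (1 / ((n : ℝ) + 1)) • v) = mo ε g z := by
    have ht2 : Tendsto (fun n : ℕ => 1 / ((n : ℝ) + 1) * ‖v‖) atTop (𝓝 0) := by
      simpa only [one_div, zero_mul] using ht.mul_const ‖v‖
    filter_upwards [ht2.eventually (ge_mem_nhds hδ)] with n hn
    have e1 : mo ε g (z + (1 / ((n : ℝ) + 1)) • v) =
        ∫ y, rho ε (z - y) * g (y + (1 / ((n : ℝ) + 1)) • v) := by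
      unfold mo
      rw [← integral_add_right_eq_self (fun y => rho ε (z + (1 / ((n : ℝ) + 1)) • v - y) * g y)
        ((1 / ((n : ℝ) + 1)) • v)]
      refine integral_congr_ae (Eventually.of_forall fun y => ?_)
      simp only
      congr 2
      ring
    rw [e1]
    unfold mo
    have hn' := h n
    rw [ae_restrict_iff' hQo.measurableSet] at hn'
    refine integral_congr_ae ?_
    filter_upwards [hn'] with y hy
    rcases le_or_gt ε ‖z - y‖ with h2 | h2
    · simp only [rho_eq_zero hε h2, zero_mul]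
    · have hyB : y ∈ Metric.closedBall z ε := by
        rw [Metric.mem_closedBall, dist_comm, dist_eq_norm]; exact h2.le
      have hy2 : y + (1 / ((n : ℝ) + 1)) • v ∈ Q := by
        apply hsub
        refine Metric.mem_cthickening_of_dist_le _ y δ _ hyB ?_
        rw [dist_eq_norm, add_sub_cancel_left, norm_smul, Real.norm_of_nonneg
          (Nat.one_div_pos_of_nat (α := ℝ)).le]
        exact hn
      simp only [hy (hz hyB) hy2]
  have h2 : HasDerivAt (fun t : ℝ => mo ε g (z + t • v)) (fderiv ℝ (mo ε g) z v) 0 := by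
    have h3 : HasFDerivAt (mo ε g) (fderiv ℝ (mo ε g) z) (z + (0 : ℝ) • v) := by
      rw [zero_smul, add_zero]
      exact (((contDiff_mo hε hg).differentiable (by simp)).differentiableAt).hasFDerivAt
    have h4 : HasDerivAt (fun t : ℝ => z + t • v) v 0 := by
      simpa using ((hasDerivAt_id (0 : ℝ)).smul_const v).const_add z
    exact h3.comp_hasDerivAt 0 h4
  have h5 := h2.tendsto_slope_zero
  have h6 : Tendsto (fun n : ℕ => 1 / ((n : ℝ) + 1)) atTop (𝓝[≠] 0) := by
    rw [tendsto_nhdsWithin_iff]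
    exact ⟨ht, Eventually.of_forall fun n => (Nat.one_div_pos_of_nat (α := ℝ)).ne'⟩
  have h7 := h5.comp h6
  refine tendsto_nhds_unique h7 ?_
  refine tendsto_const_nhds.congr' ?_
  filter_upwards [h1] with n hn
  simp only [Function.comp, zero_add, zero_smul, add_zero]
  rw [hn, sub_self, smul_zero]

/-- a function on a convex open set all of whose mollifications have derivative zero -/
lemma ae_const {Q : Set ℂ} (hQo : IsOpen Q) (hQc : Convex ℝ Q) {g : ℂ → ℝ}
    (hg : LocallyIntegrable g)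
    (h : ∀ n : ℕ, ∀ z, Metric.closedBall z (1 / ((n : ℝ) + 1)) ⊆ Q → ∀ v,
      fderiv ℝ (mo (1 / ((n : ℝ) + 1)) g) z v = 0) :
    ∃ c, ∀ᵐ x ∂(volume.restrict Q), g x = c := by
  rcases Q.eq_empty_or_nonempty with hQ | hQ
  · subst hQ
    exact ⟨0, by simp only [Measure.restrict_empty, ae_zero, eventually_bot]⟩
  have hpos : (volume.restrict Q) ≠ 0 := by
    rw [Ne, Measure.restrict_eq_zero]
    exact (hQo.measure_pos _ hQ).ne'
  have : NeZero (volume.restrict Q) := ⟨hpos⟩
  have h1 : ∀ᵐ x ∂(volume.restrict Q), x ∈ Q ∧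
      Tendsto (fun n : ℕ => mo (1 / ((n : ℝ) + 1)) g x) atTop (𝓝 (g x)) :=
    (ae_restrict_mem hQo.measurableSet).and (ae_restrict_of_ae (ae_tendsto_mo hg))
  obtain ⟨x0, hx0, hl0⟩ := h1.exists
  refine ⟨g x0, ?_⟩
  filter_upwards [h1] with x hx
  refine tendsto_nhds_unique hx.2 (hl0.congr' ?_)
  filter_upwards [eventually_mo_eq hQo hQc hg hx.1 hx0 fun n z hz => h n z hz _] with n hn using hn

lemma vec_eq {u : ℂ} (hu : ‖u‖ = 1) (v : ℂ) :
    v = ((starRingEnd ℂ) u * v).re • u + ((starRingEnd ℂ) u * v).im • (Complex.I * u) := by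
  have h1 : (starRingEnd ℂ) u * u = 1 := by
    rw [Complex.conj_mul', hu]; simp
  have h2 : v = ((starRingEnd ℂ) u * v) * u := by
    linear_combination (-v) * h1
  conv_lhs => rw [h2, ← Complex.re_add_im ((starRingEnd ℂ) u * v)]
  simp only [Complex.real_smul]
  ring

end WM3

namespace ConvexPolygon

variable {ns : ℕ} [NeZero ns] (T : ConvexPolygon ns)

open WM3

/-- translation invariance orthogonally to the motion -/
theorem transY {m : Measure Ω} [IsProbabilityMeasure m]
    {H : ℂ → ℂ × Ω → ℝ} (hH : Bdd H)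
    (hY : ∀ φ : ℂ → ℝ, ContDiff ℝ (⊤ : ℕ∞) φ → HasCompactSupport φ → tsupport φ ⊆ T.table →
      ∀ᵐ ω ∂(nu.prod m), ∫ x in T.table, H x ω * fderiv ℝ φ x (Complex.I * ω.1) = 0) (b : ℝ) :
    ∀ᵐ p ∂((volume.restrict T.table).prod (nu.prod m)),
      p.1 + b • (Complex.I * p.2.1) ∈ T.table →
        H (p.1 + b • (Complex.I * p.2.1)) p.2 = H p.1 p.2 := by
  have hg := fun ω => hH.locallyIntegrable ω
  have h1 : ∀ᵐ ω ∂(nu.prod m), ∀ n k : ℕ,
      Metric.closedBall (TopologicalSpace.denseSeq ℂ k) (1 / ((n : ℝ) + 1)) ⊆ T.table →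
      fderiv ℝ (mo (1 / ((n : ℝ) + 1)) (fun y => H y ω)) (TopologicalSpace.denseSeq ℂ k)
        (Complex.I * ω.1) = 0 := by
    rw [ae_all_iff]; intro n
    rw [ae_all_iff]; intro k
    by_cases hk : Metric.closedBall (TopologicalSpace.denseSeq ℂ k) (1 / ((n : ℝ) + 1)) ⊆ T.table
    · have hε : (0 : ℝ) < 1 / ((n : ℝ) + 1) := Nat.one_div_pos_of_nat
      filter_upwards [hY (fun y => rho (1 / ((n : ℝ) + 1)) (TopologicalSpace.denseSeq ℂ k - y))
        ((rho_contDiff _).comp (contDiff_const.sub contDiff_id)) (hasCompactSupport_rho_sub hε _)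
        ((tsupport_rho_sub hε _).trans hk)] with ω hω _
      exact fderiv_mo_of_weak (hg ω) hε hk hω
    · exact Eventually.of_forall fun ω h => absurd h hk
  have h2 : ∀ᵐ ω ∂(nu.prod m), ∀ n : ℕ, ∀ z,
      Metric.closedBall z (1 / ((n : ℝ) + 1)) ⊆ T.table →
      fderiv ℝ (mo (1 / ((n : ℝ) + 1)) (fun y => H y ω)) z (Complex.I * ω.1) = 0 := by
    filter_upwards [h1] with ω hω n z hz
    have hε : (0 : ℝ) < 1 / ((n : ℝ) + 1) := Nat.one_div_pos_of_nat
    have hcl : IsClosed {z | fderiv ℝ (mo (1 / ((n : ℝ) + 1)) (fun y => H y ω)) z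
        (Complex.I * ω.1) = 0} :=
      isClosed_eq (continuous_fderiv_mo hε (hg ω) _) continuous_const
    have hsub : {z | Metric.closedBall z (1 / ((n : ℝ) + 1)) ⊆ T.table} ∩
        range (TopologicalSpace.denseSeq ℂ) ⊆ {z | fderiv ℝ (mo (1 / ((n : ℝ) + 1))
          (fun y => H y ω)) z (Complex.I * ω.1) = 0} := by
      rintro _ ⟨h3, k, rfl⟩
      exact hω n k h3
    exact closure_minimal hsub hcl
      ((TopologicalSpace.denseRange_denseSeq ℂ).open_subset_closure_inter
        (isOpen_inner T.isOpen_table _) hz)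
  have hmeas : MeasurableSet {p : ℂ × (ℂ × Ω) | p.1 + b • (Complex.I * p.2.1) ∈ T.table →
        H (p.1 + b • (Complex.I * p.2.1)) p.2 = H p.1 p.2} := by
    have hm : Measurable fun p : ℂ × (ℂ × Ω) => p.1 + b • (Complex.I * p.2.1) := by (clear * -; fun_prop)
    simp only [imp_iff_not_or]
    exact (hm T.measurableSet_table).compl.union
      (measurableSet_eq_fun (hH.1.comp (hm.prodMk measurable_snd)) hH.1)
  rw [Measure.ae_prod_iff_ae_ae hmeas, Measure.ae_ae_comm hmeas]
  filter_upwards [h2] with ω hω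
  have h3 := ae_tendsto_mo (hg ω)
  have h4 := (measurePreserving_add_right (volume : Measure ℂ)
    (b • (Complex.I * ω.1))).quasiMeasurePreserving.ae h3
  filter_upwards [ae_restrict_mem T.measurableSet_table, ae_restrict_of_ae h3,
    ae_restrict_of_ae h4] with x hx h5 h6 hy
  refine tendsto_nhds_unique h6 (h5.congr' ?_)
  have h7 : ∀ n : ℕ, ∀ z, Metric.closedBall z (1 / ((n : ℝ) + 1)) ⊆ T.table →
      fderiv ℝ (mo (1 / ((n : ℝ) + 1)) (fun y => H y ω)) z
        (x + b • (Complex.I * ω.1) - x) = 0 := by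
    intro n z hz
    rw [add_sub_cancel_left, map_smul, hω n z hz, smul_zero]
  filter_upwards [eventually_mo_eq T.isOpen_table T.convex_table (hg ω) hx hy h7] with n hn
    using hn.symm

/-- local translation invariance of the straightened function implies that it does not depend on
the position -/
theorem locconst {m : Measure Ω} [IsProbabilityMeasure m]
    {h : ℂ → ℂ × Ω → ℝ} (hh : Bdd h)
    (h1 : ∀ t : ℝ, ∀ᵐ p ∂((volume.restrict T.table).prod (nu.prod m)),
      p.1 + t • p.2.1 ∈ T.table → h (p.1 + t • p.2.1) p.2 = h p.1 p.2)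
    (h2 : ∀ t : ℝ, ∀ᵐ p ∂((volume.restrict T.table).prod (nu.prod m)),
      p.1 + t • (Complex.I * p.2.1) ∈ T.table → h (p.1 + t • (Complex.I * p.2.1)) p.2 = h p.1 p.2) :
    ∃ F : ℂ × Ω → ℝ, Measurable F ∧ (∃ C, ∀ ω, |F ω| ≤ C) ∧
      ∀ᵐ p ∂((volume.restrict T.table).prod (nu.prod m)), h p.1 p.2 = F p.2 := by
  have hg := fun ω => hh.locallyIntegrable ω
  have key : ∀ (V : ℂ × Ω → ℂ) (_ : Measurable V)
      (_ : ∀ t : ℝ, ∀ᵐ p ∂((volume.restrict T.table).prod (nu.prod m)),
        p.1 + t • V p.2 ∈ T.table → h (p.1 + t • V p.2) p.2 = h p.1 p.2),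
      ∀ᵐ ω ∂(nu.prod m), ∀ n : ℕ, ∀ᵐ x ∂(volume.restrict T.table),
        x + (1 / ((n : ℝ) + 1)) • V ω ∈ T.table → h (x + (1 / ((n : ℝ) + 1)) • V ω) ω = h x ω := by
    intro V hV hp
    rw [ae_all_iff]; intro n
    have hmeas : MeasurableSet {p : ℂ × (ℂ × Ω) | p.1 + (1 / ((n : ℝ) + 1)) • V p.2 ∈ T.table →
        h (p.1 + (1 / ((n : ℝ) + 1)) • V p.2) p.2 = h p.1 p.2} := by
      have hm0 : Measurable fun p : ℂ × (ℂ × Ω) => V p.2 := hV.comp measurable_snd
      have hm : Measurable fun p : ℂ × (ℂ × Ω) => p.1 + (1 / ((n : ℝ) + 1)) • V p.2 :=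
        measurable_fst.add (hm0.const_smul (1 / ((n : ℝ) + 1)))
      simp only [imp_iff_not_or]
      exact (hm T.measurableSet_table).compl.union
        (measurableSet_eq_fun (hh.1.comp (hm.prodMk measurable_snd)) hh.1)
    have h3 := hp (1 / ((n : ℝ) + 1))
    rw [Measure.ae_prod_iff_ae_ae hmeas, Measure.ae_ae_comm hmeas] at h3
    exact h3
  have k1 := key (fun ω => ω.1) measurable_fst h1
  have k2 := key (fun ω => Complex.I * ω.1) (measurable_fst.const_mul _) h2
  have k3 : ∀ᵐ ω ∂(nu.prod m), ‖ω.1‖ = 1 := by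
    have := (Measure.quasiMeasurePreserving_fst (μ := nu) (ν := m)).ae ae_norm
    exact this
  have k4 : ∀ᵐ ω ∂(nu.prod m), ∃ c, ∀ᵐ x ∂(volume.restrict T.table), h x ω = c := by
    filter_upwards [k1, k2, k3] with ω a1 a2 a3
    refine ae_const T.isOpen_table T.convex_table (hg ω) fun n z hz v => ?_
    have hε : (0 : ℝ) < 1 / ((n : ℝ) + 1) := Nat.one_div_pos_of_nat
    have e1 := fderiv_mo_of_transl T.isOpen_table (hg ω) hε hz a1
    have e2 := fderiv_mo_of_transl T.isOpen_table (hg ω) hε hz a2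
    rw [vec_eq a3 v, map_add, map_smul, map_smul, e1, e2]
    simp only [Complex.mul_re, Complex.conj_re, Complex.conj_im, neg_mul, sub_neg_eq_add, smul_eq_mul, mul_zero, Complex.mul_im, add_zero]
  have hfin : IsFiniteMeasure (volume.restrict T.table) :=
    ⟨by rw [Measure.restrict_apply_univ]; exact T.volume_table_lt_top⟩
  have hpos : 0 < volume.real T.table :=
    ENNReal.toReal_pos T.volume_table_pos.ne' T.volume_table_lt_top.ne
  obtain ⟨C, hC⟩ := hh.2
  have hFm : Measurable fun ω => (volume.real T.table)⁻¹ * ∫ x in T.table, h x ω := by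
    have := hh.1.stronglyMeasurable.integral_prod_left' (μ := volume.restrict T.table)
    exact this.measurable.const_mul _
  refine ⟨fun ω => (volume.real T.table)⁻¹ * ∫ x in T.table, h x ω, hFm, ⟨C, fun ω => ?_⟩, ?_⟩
  · rw [abs_mul, abs_of_pos (inv_pos.2 hpos)]
    have h5 : ‖∫ x in T.table, h x ω‖ ≤ C * (volume.restrict T.table).real univ :=
      norm_integral_le_of_norm_le_const (Eventually.of_forall fun x => hC x ω)
    rw [measureReal_restrict_apply_univ, Real.norm_eq_abs] at h5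
    rw [inv_mul_le_iff₀ hpos]
    linarith
  · have hmeas : MeasurableSet {p : ℂ × (ℂ × Ω) | h p.1 p.2 =
        (volume.real T.table)⁻¹ * ∫ x in T.table, h x p.2} :=
      measurableSet_eq_fun hh.1 (hFm.comp measurable_snd)
    rw [Measure.ae_prod_iff_ae_ae hmeas, Measure.ae_ae_comm hmeas]
    filter_upwards [k4] with ω hω
    obtain ⟨c, hc⟩ := hω
    have h6 : ∫ x in T.table, h x ω = volume.real T.table * c := by
      rw [integral_congr_ae hc, integral_const, measureReal_restrict_apply_univ, smul_eq_mul]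
    filter_upwards [hc] with x hx
    rw [h6, hx]
    (clear * - hpos; field_simp)

/-- structure of the invariant function -/
theorem exists_F {m : Measure Ω} [IsProbabilityMeasure m] {Ψ : ℝ → Ω → Ω} (hΨ : PFlow m Ψ)
    {H : ℂ → ℂ × Ω → ℝ} (hH : Bdd H) (hF : T.FreeInv m Ψ H)
    (hY : ∀ φ : ℂ → ℝ, ContDiff ℝ (⊤ : ℕ∞) φ → HasCompactSupport φ → tsupport φ ⊆ T.table →
      ∀ᵐ ω ∂(nu.prod m), ∫ x in T.table, H x ω * fderiv ℝ φ x (Complex.I * ω.1) = 0) (O : ℂ) :
    ∃ F : ℂ × Ω → ℝ, Measurable F ∧ (∃ C, ∀ ω, |F ω| ≤ C) ∧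
      ∀ᵐ p ∂((volume.restrict T.table).prod (nu.prod m)),
        H p.1 (p.2.1, Ψ (dt (p.1 - O) p.2.1) p.2.2) = F p.2 := by
  have hdt : Measurable fun p : ℂ × (ℂ × Ω) => dt (p.1 - O) p.2.1 := by
    unfold dt
    have h1 : Measurable fun p : ℂ × (ℂ × Ω) => p.1 - O := measurable_fst.sub_const _
    have h2 : Measurable fun p : ℂ × (ℂ × Ω) => p.2.1 := measurable_fst.comp measurable_snd
    exact ((Complex.measurable_re.comp h1).mul (Complex.measurable_re.comp h2)).add
      ((Complex.measurable_im.comp h1).mul (Complex.measurable_im.comp h2))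
  have hh : Bdd (fun x (ω : ℂ × Ω) => H x (ω.1, Ψ (dt (x - O) ω.1) ω.2)) := by
    obtain ⟨hm, C, hC⟩ := hH
    refine ⟨?_, C, fun y ω => hC _ _⟩
    exact hm.comp (measurable_fst.prodMk ((measurable_fst.comp measurable_snd).prodMk
      (hΨ.meas.comp (hdt.prodMk (measurable_snd.comp measurable_snd)))))
  -- transfer of an almost everywhere statement to the product
  have hmeas : ∀ (V : ℂ → ℂ) (_ : Measurable V) (t : ℝ),
      MeasurableSet {p : ℂ × (ℂ × Ω) | p.1 + t • V p.2.1 ∈ T.table →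
        H (p.1 + t • V p.2.1) (p.2.1, Ψ (dt (p.1 + t • V p.2.1 - O) p.2.1) p.2.2) =
          H p.1 (p.2.1, Ψ (dt (p.1 - O) p.2.1) p.2.2)} := by
    intro V hV t
    have hm0 : Measurable fun p : ℂ × (ℂ × Ω) => V p.2.1 :=
      hV.comp (measurable_fst.comp measurable_snd)
    have hm : Measurable fun p : ℂ × (ℂ × Ω) => p.1 + t • V p.2.1 :=
      measurable_fst.add (hm0.const_smul t)
    simp only [imp_iff_not_or]
    exact (hm T.measurableSet_table).compl.union
      (measurableSet_eq_fun (hh.1.comp (hm.prodMk measurable_snd)) hh.1)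
  have htr : ∀ (V : ℂ → ℂ) (_ : Measurable V) (t : ℝ),
      (∀ᵐ x ∂(volume.restrict T.table), ∀ᵐ u ∂nu, ∀ᵐ q ∂m, x + t • V u ∈ T.table →
        H (x + t • V u) (u, Ψ (dt (x + t • V u - O) u) q) = H x (u, Ψ (dt (x - O) u) q)) →
      ∀ᵐ p ∂((volume.restrict T.table).prod (nu.prod m)), p.1 + t • V p.2.1 ∈ T.table →
        H (p.1 + t • V p.2.1) (p.2.1, Ψ (dt (p.1 + t • V p.2.1 - O) p.2.1) p.2.2) =
          H p.1 (p.2.1, Ψ (dt (p.1 - O) p.2.1) p.2.2) := by
    intro V hV t h
    rw [Measure.ae_prod_iff_ae_ae (hmeas V hV t)]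
    filter_upwards [h] with x hx
    have hm2 : MeasurableSet {ω : ℂ × Ω | x + t • V ω.1 ∈ T.table →
        H (x + t • V ω.1) (ω.1, Ψ (dt (x + t • V ω.1 - O) ω.1) ω.2) =
          H x (ω.1, Ψ (dt (x - O) ω.1) ω.2)} :=
      (measurable_const.prodMk measurable_id : Measurable fun ω : ℂ × Ω => (x, ω))
        (hmeas V hV t)
    exact (Measure.ae_prod_iff_ae_ae hm2).2 hx
  have hpos : ∀ t : ℝ, 0 < t → ∀ᵐ p ∂((volume.restrict T.table).prod (nu.prod m)),
      p.1 + t • p.2.1 ∈ T.table →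
        H (p.1 + t • p.2.1) (p.2.1, Ψ (dt (p.1 + t • p.2.1 - O) p.2.1) p.2.2) =
          H p.1 (p.2.1, Ψ (dt (p.1 - O) p.2.1) p.2.2) := by
    intro t ht
    refine htr (fun u => u) measurable_id t ?_
    have h1 := hF t ht
    filter_upwards [Measure.ae_ae_of_ae_prod h1] with x hx
    filter_upwards [Measure.ae_ae_of_ae_prod hx, ae_norm] with u hu hn
    filter_upwards [(hΨ.mp (dt (x - O) u)).quasiMeasurePreserving.ae hu,
      hΨ.add t (dt (x - O) u)] with q h2 h3 h4
    have e1 : dt (x + t • u - O) u = t + dt (x - O) u := by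
      have h5 : u.re * u.re + u.im * u.im = 1 := by
        have := Complex.sq_norm u
        rw [hn, Complex.normSq_apply] at this
        linarith only [this]
      simp only [dt, Complex.sub_re, Complex.add_re, Complex.sub_im, Complex.add_im,
        Complex.smul_re, Complex.smul_im, smul_eq_mul]
      linear_combination t * h5
    rw [e1, h3]
    exact h2 h4
  have hall : ∀ t : ℝ, ∀ᵐ p ∂((volume.restrict T.table).prod (nu.prod m)),
      p.1 + t • p.2.1 ∈ T.table →
        H (p.1 + t • p.2.1) (p.2.1, Ψ (dt (p.1 + t • p.2.1 - O) p.2.1) p.2.2) =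
          H p.1 (p.2.1, Ψ (dt (p.1 - O) p.2.1) p.2.2) := by
    intro t
    rcases lt_trichotomy t 0 with ht | ht | ht
    · have h1 := hpos (-t) (by linarith only [ht])
      have hmm := hmeas (fun u => u) measurable_id (-t)
      rw [Measure.ae_prod_iff_ae_ae hmm, Measure.ae_ae_comm hmm] at h1
      have hmm2 := hmeas (fun u => u) measurable_id t
      rw [Measure.ae_prod_iff_ae_ae hmm2, Measure.ae_ae_comm hmm2]
      filter_upwards [h1] with ω hω
      rw [ae_restrict_iff' T.measurableSet_table] at hω ⊢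
      have h2 := (measurePreserving_add_right (volume : Measure ℂ)
        (t • ω.1)).quasiMeasurePreserving.ae hω
      filter_upwards [h2] with x hx h3 h4
      have h5 : x + t • ω.1 + (-t) • ω.1 = x := by
        rw [neg_smul, add_neg_cancel_right]
      simp only [h5] at hx
      exact (hx h4 h3).symm
    · subst ht
      refine Eventually.of_forall fun p _ => ?_
      simp
    · exact hpos t ht
  refine T.locconst hh hall fun t => ?_
  have h2 := T.transY hH hY t
  refine htr (fun u => Complex.I * u) (measurable_id.const_mul _) t ?_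
  filter_upwards [Measure.ae_ae_of_ae_prod h2] with x hx
  filter_upwards [Measure.ae_ae_of_ae_prod hx] with u hu
  filter_upwards [(hΨ.mp (dt (x - O) u)).quasiMeasurePreserving.ae hu] with q h3 h4
  have e1 : dt (x + t • (Complex.I * u) - O) u = dt (x - O) u := by
    simp only [dt, Complex.sub_re, Complex.add_re, Complex.sub_im, Complex.add_im,
      Complex.smul_re, Complex.smul_im, smul_eq_mul, Complex.mul_re, Complex.mul_im,
      Complex.I_re, Complex.I_im]
    ring
  rw [e1]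
  exact h3 h4

end ConvexPolygon

end Vale.Agent.P099C
end
end

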