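import Vale.Agent.P099.MathlibUsed
import Vale.Agent.P099.H504.CPL
attribute [-instance] ProperSMul.toContinuousSMul IsTopologicalTorsor.toContinuousSMul IdemSemiring.toCanonicallyOrderedAdd IdemSemiring.toMulLeftMono IdemSemiring.toMulRightMono AddQuantale.instAddLeftMono AddQuantale.instAddRightMono Quantale.instMulLeftMono Quantale.instMulRightMono FiniteDimensional.rclike_to_real IsScalarTower.complexToReal FiniteDimensional.complexToReal

set_option linter.all false

section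

section

open MeasureTheory Set Filter Topology

namespace Vale.Agent.P099C
open Vale.Agent.P099 (nu FlowErgodic FlowWeakMixing)

variable {Ω : Type} [MeasurableSpace Ω]

namespace WM4

lemma nu_singleton (z : ℂ) : nu {z} = 0 := by
  rw [nu, Measure.map_apply measurable_expI (measurableSet_singleton z), ProbabilityTheory.cond,
    Measure.smul_apply, Measure.restrict_apply (measurable_expI (measurableSet_singleton z))]
  have h : volume ((fun θ : ℝ => Complex.exp (θ * Complex.I)) ⁻¹' {z} ∩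
      Ioc (-Real.pi) Real.pi) = 0 := by
    refine measure_mono_null (t := {z.arg}) ?_ Real.volume_singleton
    rintro θ ⟨h1, h2⟩
    simp only [mem_preimage, mem_singleton_iff] at h1 ⊢
    rw [← h1, Complex.exp_mul_I, Complex.arg_cos_add_sin_mul_I h2]
  rw [h, smul_zero]

lemma continuous_ell {ns : ℕ} [NeZero ns] (T : ConvexPolygon ns) (i : Fin ns) : Continuous (T.ell i) := by
  unfold ConvexPolygon.ell cr
  fun_prop

lemma continuous_lam {ns : ℕ} [NeZero ns] (T : ConvexPolygon ns) (i : Fin ns) : Continuous (T.lam i) := by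
  unfold ConvexPolygon.lam cr
  fun_prop

lemma ae_ell_ne {ns : ℕ} [NeZero ns] (T : ConvexPolygon ns) (i : Fin ns) : ∀ᵐ u ∂nu, T.ell i u ≠ 0 := by
  have hd : 0 < ‖T.d i‖ := norm_pos_iff.2 (T.d_ne i)
  set w : ℂ := T.d i / (‖T.d i‖ : ℂ) with hw
  have hdc : (‖T.d i‖ : ℂ) ≠ 0 := by exact_mod_cast hd.ne'
  have h1 : ∀ᵐ u ∂nu, u ≠ w := by
    rw [ae_iff]; simpa only [ne_eq, Decidable.not_not, ofPred_eq_eq_singleton] using nu_singleton w
  have h2 : ∀ᵐ u ∂nu, u ≠ -w := by
    rw [ae_iff]; simpa only [ne_eq, Decidable.not_not, ofPred_eq_eq_singleton] using nu_singleton (-w)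
  filter_upwards [ae_norm, h1, h2] with u hu hu1 hu2 h0
  unfold ConvexPolygon.ell at h0
  rw [div_eq_zero_iff, or_iff_left T.Del_ne, ConvexPolygon.cr_eq_im] at h0
  have h3 := Complex.conj_eq_iff_im.2 h0
  rw [map_mul, Complex.conj_conj] at h3
  -- d * conj u = conj d * u, so (u / w) ^ 2 = 1
  have hcu : (starRingEnd ℂ) u * u = 1 := by
    rw [mul_comm, Complex.mul_conj, Complex.normSq_eq_norm_sq, hu]; simp
  have hcd : T.d i * (starRingEnd ℂ) (T.d i) = (‖T.d i‖ : ℂ) ^ 2 := by
    rw [Complex.mul_conj, Complex.normSq_eq_norm_sq]; push_cast; rfl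
  have h4 : T.d i ^ 2 = (‖T.d i‖ : ℂ) ^ 2 * u ^ 2 := by
    calc T.d i ^ 2 = T.d i * (T.d i * ((starRingEnd ℂ) u * u)) := by rw [hcu]; ring
      _ = T.d i * (starRingEnd ℂ (T.d i) * u) * u := by rw [← h3]; ring
      _ = _ := by rw [show T.d i * (starRingEnd ℂ (T.d i) * u) * u =
          (T.d i * starRingEnd ℂ (T.d i)) * u ^ 2 by ring, hcd]
  have h5 : (u - w) * (u + w) = 0 := by
    rw [hw]
    field_simp
    linear_combination -h4
  rcases mul_eq_zero.1 h5 with h | h
  · exact hu1 (sub_eq_zero.1 h)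
  · exact hu2 (eq_neg_of_add_eq_zero_left h)

lemma measurable_dt : Measurable (fun p : ℂ × ℂ => dt p.1 p.2) := by
  unfold dt
  fun_prop

/-- swap of the order of almost everywhere quantifiers, no measurability needed -/
lemma ae_swap {α β : Type*} [MeasurableSpace α] [MeasurableSpace β] {μ : Measure α}
    {κ : Measure β} [SFinite μ] [SFinite κ] {P : α × β → Prop} (h : ∀ᵐ p ∂(μ.prod κ), P p) :
    ∀ᵐ y ∂κ, ∀ᵐ x ∂μ, P (x, y) := by
  have h1 : ∀ᵐ p ∂(κ.prod μ), P p.swap :=
    Measure.measurePreserving_swap.quasiMeasurePreserving.ae h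
  exact (Measure.ae_ae_of_ae_prod h1 :)

/-- the shear `(u, q) ↦ (u, Ψ (a u) q)` -/
lemma mp_shear {m : Measure Ω} [IsProbabilityMeasure m] {Ψ : ℝ → Ω → Ω} (hΨ : PFlow m Ψ)
    {α β : Type*} [MeasurableSpace α] [MeasurableSpace β] {μ : Measure α} {κ : Measure β}
    [SFinite μ] {f : α → β} (hf : MeasurePreserving f μ κ)
    {a : α → ℝ} (ha : Measurable a) :
    MeasurePreserving (fun p : α × Ω => (f p.1, Ψ (a p.1) p.2)) (μ.prod m) (κ.prod m) := by
  refine MeasurePreserving.skew_product (g := fun x q => Ψ (a x) q) hf ?_ ?_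
  · exact hΨ.meas.comp ((ha.comp measurable_fst).prodMk measurable_snd)
  · exact ae_of_all _ fun x => (hΨ.mp (a x)).map_eq

end WM4

open WM4

namespace ConvexPolygon

variable {ns : ℕ} [NeZero ns] (T : ConvexPolygon ns)

/-- there are many states with a collision on side `i` -/
lemma exists_time (i : Fin ns) : ∃ t : ℝ, 0 < t ∧ ∀ u : ℂ, ‖u‖ = 1 → T.ell i u < 0 →
    ∃ U : Set ℂ, IsOpen U ∧ U.Nonempty ∧ U ⊆ T.table ∧ ∀ x ∈ U,
      T.E i (x, u) ∧ T.hitT i (x, u) < t ∧ T.R i (x + t • u) ∈ T.table := by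
  have hL := T.Lp_pos
  have hc0 := T.c0_pos
  obtain ⟨ε, hε0, hε⟩ : ∃ ε : ℝ, 0 < ε ∧ ε * T.Lp < 1 / 4 := by
    refine ⟨1 / (8 * T.Lp), by positivity, ?_⟩
    rw [div_mul_eq_mul_div, div_lt_iff₀ (by positivity)]
    linarith
  refine ⟨2 * ε, by positivity, fun u hu hell => ?_⟩
  have hell' : T.ell i u ≠ 0 := hell.ne
  -- base point: midpoint of the side
  set M : ℂ := (1 / 2 : ℝ) • T.P i + (1 / 2 : ℝ) • T.P (i + 1) with hM
  have hlamMi : T.lam i M = 0 := ((T.mem_side_iff' i _).1 (T.mid_mem_side i)).1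
  have hlamMj : ∀ j, j ≠ i → T.c0 / 2 ≤ T.lam j M := by
    intro j hj
    rw [hM, T.lam_comb j (by norm_num)]
    have g1 := T.lam_P_nonneg j i
    have g2 := T.lam_P_nonneg j (i + 1)
    by_cases h1 : i = j + 1
    · have h2 : i + 1 ≠ j := by
        intro h3
        rw [h1] at h3
        exact T.add_two_ne j h3
      have h3 : i + 1 ≠ j + 1 := fun h => hj (add_right_cancel h).symm
      have := T.c0_le h2 h3
      linarith only [g1, this]
    · have := T.c0_le hj.symm h1
      linarith only [g2, this]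
  have hbd : ∀ (j : Fin ns) (v : ℂ), ‖v‖ = 1 → |ε * T.ell j v| < T.c0 / 4 := by
    intro j v hv
    have := T.abs_ell_le' j v
    rw [hv, mul_one] at this
    rw [abs_mul, abs_of_pos hε0]
    refine (mul_le_mul_of_nonneg_left this hε0.le).trans_lt ?_
    have h2 : T.c0 * (ε * T.Lp) < T.c0 * (1 / 4) := mul_lt_mul_of_pos_left hε hc0
    linarith only [h2]
  refine ⟨{x | x ∈ T.table ∧ (∀ j, j ≠ i → 0 < T.lam j (x + T.hitT i (x, u) • u)) ∧
    T.hitT i (x, u) < 2 * ε ∧ T.R i (x + (2 * ε) • u) ∈ T.table}, ?_, ?_, ?_, ?_⟩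
  · have hc : Continuous fun x => T.hitT i (x, u) := by
      show Continuous fun x => - T.lam i x / T.ell i u
      exact (continuous_lam T i).neg.div_const _
    refine T.isOpen_table.inter (IsOpen.inter ?_ (IsOpen.inter ?_ ?_))
    · have : {x | ∀ j, j ≠ i → 0 < T.lam j (x + T.hitT i (x, u) • u)} =
          ⋂ j, {x | j ≠ i → 0 < T.lam j (x + T.hitT i (x, u) • u)} := by
        ext x; simp only [ne_eq, Complex.real_smul, mem_ofPred_eq, mem_iInter]
      rw [show (fun x => ∀ j, j ≠ i → 0 < T.lam j (x + T.hitT i (x, u) • u)) =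
        {x | ∀ j, j ≠ i → 0 < T.lam j (x + T.hitT i (x, u) • u)} from rfl, this]
      refine isOpen_iInter_of_finite fun j => ?_
      by_cases hj : j = i
      · have : {x : ℂ | j ≠ i → 0 < T.lam j (x + T.hitT i (x, u) • u)} = univ := by
          ext x; simp [hj]
        rw [this]; exact isOpen_univ
      · have : {x : ℂ | j ≠ i → 0 < T.lam j (x + T.hitT i (x, u) • u)} =
            {x | 0 < T.lam j (x + T.hitT i (x, u) • u)} := by
          ext x; simp only [ne_eq, hj, not_false_eq_true, Complex.real_smul, forall_const, mem_ofPred_eq]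
        rw [this]
        exact isOpen_lt continuous_const
          ((continuous_lam T j).comp (continuous_id.add (hc.smul continuous_const)))
    · exact isOpen_lt hc continuous_const
    · exact T.isOpen_table.preimage ((T.continuous_R i).comp (continuous_id.add continuous_const))
  · have hx0 : T.hitT i (M + (-ε) • u, u) = ε := by
      unfold hitT
      rw [T.lam_add_smul, hlamMi]
      field_simp
      ring
    refine ⟨M + (-ε) • u, ?_, ?_, ?_, ?_⟩
    · rw [T.mem_table_iff]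
      intro j
      rw [T.lam_add_smul]
      by_cases hj : j = i
      · rw [hj, hlamMi]
        have : 0 < -ε * T.ell i u := mul_pos_of_neg_of_neg (by linarith only [hε0]) hell
        linarith only [this]
      · have h5 := hlamMj j hj
        have := abs_lt.1 (hbd j u hu)
        linarith only [this, h5, hc0]
    · intro j hj
      rw [hx0]
      have : M + (-ε) • u + ε • u = M := by module
      rw [this]
      have h5 := hlamMj j hj
      linarith only [h5, hc0]
    · rw [hx0]; linarith only [hε0]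
    · have e1 : M + (-ε) • u + (2 * ε) • u = M + ε • u := by module
      rw [e1, T.R_add, T.R_of_lam_eq_zero hlamMi, T.refl_smul, T.mem_table_iff]
      intro j
      rw [T.lam_add_smul]
      by_cases hj : j = i
      · rw [hj, hlamMi, T.ell_refl]
        have : 0 < ε * -T.ell i u := mul_pos hε0 (by linarith only [hell])
        linarith only [this]
      · have h5 := hlamMj j hj
        have := abs_lt.1 (hbd j (T.refl i u) (by rw [T.norm_refl, hu]))
        linarith only [this, h5, hc0]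
  · intro x hx; exact hx.1
  · rintro x ⟨h1, h2, h3, h4⟩
    exact ⟨⟨hell, h2⟩, h3, h4⟩

lemma refl_R_sub (i : Fin ns) (a b : ℂ) : T.R i a - T.R i b = T.refl i (a - b) := by
  unfold R
  rw [add_sub_add_left_eq_sub, ← T.refl_sub]
  congr 1; ring

/-- the key computation of times -/
lemma time_eq (i : Fin ns) (O x u : ℂ) (hu : ‖u‖ = 1) (t : ℝ) :
    dt (T.R i (x + t • u) - O) (T.refl i u) + dt (T.R i O - O) u = t + dt (x - O) u := by
  have h1 : T.R i (x + t • u) - O = T.refl i (x + t • u - T.R i O) := by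
    rw [← T.refl_R_sub, T.R_R]
  rw [h1, T.dt_refl]
  have h2 : dt u u = 1 := by
    unfold dt
    have := Complex.normSq_eq_norm_sq u
    rw [hu, Complex.normSq_apply] at this
    linarith
  have h3 : dt (x + t • u - T.R i O) u = dt (x - O) u + t * dt u u - dt (T.R i O - O) u := by
    unfold dt
    simp only [Complex.add_re, Complex.add_im, Complex.sub_re, Complex.sub_im, Complex.real_smul,
      Complex.re_ofReal_mul, Complex.im_ofReal_mul]
    ring
  rw [h3, h2]; ring

/-- the reflected time shift -/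
lemma shift_refl (i : Fin ns) (O u : ℂ) :
    dt (T.R i O - O) (T.refl i u) = - dt (T.R i O - O) u := by
  have h1 : T.R i O - O = T.refl i (O - T.R i O) := by
    rw [← T.refl_R_sub, T.R_R]
  conv_lhs => rw [h1]
  rw [T.dt_refl]
  unfold dt
  simp only [Complex.sub_re, Complex.sub_im]
  ring

/-- the reflection relation for directions pointing to the side -/
theorem F_refl_neg {m : Measure Ω} [IsProbabilityMeasure m] {Ψ : ℝ → Ω → Ω} (hΨ : PFlow m Ψ)
    {H : ℂ → ℂ × Ω → ℝ} (hH : Bdd H) (hB : T.BounceInv m Ψ H) (O : ℂ)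
    {F : ℂ × Ω → ℝ}
    (hF : ∀ᵐ p ∂((volume.restrict T.table).prod (nu.prod m)),
        H p.1 (p.2.1, Ψ (dt (p.1 - O) p.2.1) p.2.2) = F p.2) (i : Fin ns) :
    ∀ᵐ ω ∂(nu.prod m), T.ell i ω.1 < 0 →
      F (T.refl i ω.1, Ψ (dt (T.R i O - O) ω.1) ω.2) = F ω := by
  obtain ⟨t, ht0, ht⟩ := T.exists_time i
  have hHm := hH.1
  -- measurability of shifts
  have mdt : ∀ w : ℂ, Measurable fun u : ℂ => dt w u := fun w =>
    measurable_dt.comp (measurable_const.prodMk measurable_id)
  have hJ : MeasurePreserving (fun ω : ℂ × Ω => (T.refl i ω.1, Ψ (dt (T.R i O - O) ω.1) ω.2))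
      (nu.prod m) (nu.prod m) :=
    mp_shear hΨ (T.measurePreserving_refl i) (mdt _)
  -- (a)
  have a1 := hJ.quasiMeasurePreserving.ae (ae_swap hF)
  have a2 : ∀ᵐ ω ∂(nu.prod m), ∀ᵐ y ∂(volume : Measure ℂ), T.R i (y + t • ω.1) ∈ T.table →
      H (T.R i (y + t • ω.1)) (T.refl i ω.1,
        Ψ (dt (T.R i (y + t • ω.1) - O) (T.refl i ω.1)) (Ψ (dt (T.R i O - O) ω.1) ω.2)) =
        F (T.refl i ω.1, Ψ (dt (T.R i O - O) ω.1) ω.2) := by
    filter_upwards [a1] with ω h1
    rw [ae_restrict_iff' T.isOpen_table.measurableSet] at h1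
    have hq : MeasurePreserving (fun y : ℂ => T.R i (y + t • ω.1)) volume volume :=
      (T.measurePreserving_R i).comp (measurePreserving_add_right volume _)
    exact hq.quasiMeasurePreserving.ae h1
  -- (b), (c)
  have hSh : MeasurePreserving (fun p : ℂ × (ℂ × Ω) =>
      (p.1, (p.2.1, Ψ (dt (p.1 - O) p.2.1) p.2.2)))
      ((volume.restrict T.table).prod (nu.prod m)) ((volume.restrict T.table).prod (nu.prod m)) := by
    refine MeasurePreserving.skew_product
      (g := fun x (ω : ℂ × Ω) => (ω.1, Ψ (dt (x - O) ω.1) ω.2)) (MeasurePreserving.id _) ?_ ?_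
    · have h1 : Measurable fun p : ℂ × (ℂ × Ω) => dt (p.1 - O) p.2.1 :=
        measurable_dt.comp ((measurable_fst.sub_const O).prodMk (measurable_fst.comp measurable_snd))
      exact (measurable_fst.comp measurable_snd).prodMk
        (hΨ.meas.comp (h1.prodMk (measurable_snd.comp measurable_snd)))
    · exact ae_of_all _ fun x => (mp_shear hΨ (MeasurePreserving.id nu) (mdt (x - O))).map_eq
  have b1 := hSh.quasiMeasurePreserving.ae (hB t ht0 i)
  have c1 : ∀ᵐ ω ∂(nu.prod m), ∀ᵐ x ∂(volume.restrict T.table),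
      T.E i (x, ω.1) → T.hitT i (x, ω.1) < t → T.R i (x + t • ω.1) ∈ T.table →
      H (T.R i (x + t • ω.1)) (T.refl i ω.1, Ψ t (Ψ (dt (x - O) ω.1) ω.2)) = F ω := by
    have h := ae_swap (hF.and b1)
    filter_upwards [h] with ω h1
    filter_upwards [h1] with x h2 h3 h4 h5
    have h6 := h2.2 h3 h4 h5
    rw [← h2.1]
    exact h6
  -- (d)
  have d1 : ∀ᵐ ω ∂(nu.prod m), ∀ᵐ x ∂(volume.restrict T.table),
      H (T.R i (x + t • ω.1)) (T.refl i ω.1, Ψ t (Ψ (dt (x - O) ω.1) ω.2)) =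
      H (T.R i (x + t • ω.1)) (T.refl i ω.1,
        Ψ (dt (T.R i (x + t • ω.1) - O) (T.refl i ω.1)) (Ψ (dt (T.R i O - O) ω.1) ω.2)) := by
    have hmR : Measurable fun p : ℂ × (ℂ × Ω) => T.R i (p.1 + t • p.2.1) :=
      (T.continuous_R i).measurable.comp
        (measurable_fst.add ((measurable_fst.comp measurable_snd).const_smul t))
    have hmr : Measurable fun p : ℂ × (ℂ × Ω) => T.refl i p.2.1 :=
      (T.continuous_refl i).measurable.comp (measurable_fst.comp measurable_snd)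
    have hmd : Measurable fun p : ℂ × (ℂ × Ω) => dt (p.1 - O) p.2.1 :=
      measurable_dt.comp ((measurable_fst.sub_const O).prodMk (measurable_fst.comp measurable_snd))
    have hme : Measurable fun p : ℂ × (ℂ × Ω) => dt (T.R i (p.1 + t • p.2.1) - O) (T.refl i p.2.1) :=
      measurable_dt.comp ((hmR.sub_const O).prodMk hmr)
    have hmf : Measurable fun p : ℂ × (ℂ × Ω) => dt (T.R i O - O) p.2.1 :=
      (mdt _).comp (measurable_fst.comp measurable_snd)
    have hm1 : Measurable fun p : ℂ × (ℂ × Ω) => H (T.R i (p.1 + t • p.2.1))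
        (T.refl i p.2.1, Ψ t (Ψ (dt (p.1 - O) p.2.1) p.2.2)) :=
      hHm.comp (hmR.prodMk (hmr.prodMk (hΨ.meas.comp (measurable_const.prodMk
        (hΨ.meas.comp (hmd.prodMk (measurable_snd.comp measurable_snd)))))))
    have hm2 : Measurable fun p : ℂ × (ℂ × Ω) => H (T.R i (p.1 + t • p.2.1))
        (T.refl i p.2.1, Ψ (dt (T.R i (p.1 + t • p.2.1) - O) (T.refl i p.2.1))
          (Ψ (dt (T.R i O - O) p.2.1) p.2.2)) :=
      hHm.comp (hmR.prodMk (hmr.prodMk (hΨ.meas.comp (hme.prodMk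
        (hΨ.meas.comp (hmf.prodMk (measurable_snd.comp measurable_snd)))))))
    have hms := measurableSet_eq_fun hm1 hm2
    have hall : ∀ᵐ p ∂((volume.restrict T.table).prod (nu.prod m)),
        p ∈ {p : ℂ × (ℂ × Ω) | H (T.R i (p.1 + t • p.2.1))
        (T.refl i p.2.1, Ψ t (Ψ (dt (p.1 - O) p.2.1) p.2.2)) =
        H (T.R i (p.1 + t • p.2.1))
        (T.refl i p.2.1, Ψ (dt (T.R i (p.1 + t • p.2.1) - O) (T.refl i p.2.1))
          (Ψ (dt (T.R i O - O) p.2.1) p.2.2))} := by
      rw [Measure.ae_prod_mem_iff_ae_ae_mem hms]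
      refine ae_of_all _ fun x => ?_
      have hms' : MeasurableSet {ω : ℂ × Ω | (x, ω) ∈ {p : ℂ × (ℂ × Ω) | H (T.R i (p.1 + t • p.2.1))
        (T.refl i p.2.1, Ψ t (Ψ (dt (p.1 - O) p.2.1) p.2.2)) =
        H (T.R i (p.1 + t • p.2.1))
        (T.refl i p.2.1, Ψ (dt (T.R i (p.1 + t • p.2.1) - O) (T.refl i p.2.1))
          (Ψ (dt (T.R i O - O) p.2.1) p.2.2))}} := measurable_prodMk_left hms
      refine (Measure.ae_prod_mem_iff_ae_ae_mem hms').2 ?_
      filter_upwards [ae_norm] with u hu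
      filter_upwards [hΨ.add t (dt (x - O) u), hΨ.add (dt (T.R i (x + t • u) - O) (T.refl i u))
        (dt (T.R i O - O) u)] with q h1 h2
      show H (T.R i (x + t • u)) (T.refl i u, Ψ t (Ψ (dt (x - O) u) q)) =
        H (T.R i (x + t • u)) (T.refl i u, Ψ (dt (T.R i (x + t • u) - O) (T.refl i u))
          (Ψ (dt (T.R i O - O) u) q))
      rw [← h1, ← h2, T.time_eq i O x u hu t]
    exact (ae_swap hall :)
  -- conclusion
  have hn : ∀ᵐ ω ∂(nu.prod m), ‖ω.1‖ = 1 := Measure.quasiMeasurePreserving_fst.ae ae_norm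
  filter_upwards [a2, c1, d1, hn] with ω ha hc hd hω hell
  obtain ⟨U, hUo, hUne, hUT, hU⟩ := ht ω.1 hω hell
  have hpos : volume U ≠ 0 := (hUo.measure_pos _ hUne).ne'
  have hne : (ae (volume.restrict U)).NeBot := by
    rw [ae_neBot]
    intro h
    exact hpos (Measure.restrict_eq_zero.1 h)
  have ha' : ∀ᵐ y ∂(volume.restrict U), T.R i (y + t • ω.1) ∈ T.table →
      H (T.R i (y + t • ω.1)) (T.refl i ω.1,
        Ψ (dt (T.R i (y + t • ω.1) - O) (T.refl i ω.1)) (Ψ (dt (T.R i O - O) ω.1) ω.2)) =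
        F (T.refl i ω.1, Ψ (dt (T.R i O - O) ω.1) ω.2) := ae_restrict_of_ae ha
  have hc' := ae_restrict_of_ae_restrict_of_subset hUT hc
  have hd' := ae_restrict_of_ae_restrict_of_subset hUT hd
  obtain ⟨x, h1, h2, h3, h4⟩ := (ha'.and (hc'.and (hd'.and
    (ae_restrict_mem hUo.measurableSet)))).exists
  obtain ⟨g1, g2, g3⟩ := hU x h4
  rw [← h1 g3, ← h3, h2 g1 g2 g3]

/-- the reflection relations -/
theorem F_refl {m : Measure Ω} [IsProbabilityMeasure m] {Ψ : ℝ → Ω → Ω} (hΨ : PFlow m Ψ)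
    {H : ℂ → ℂ × Ω → ℝ} (hH : Bdd H) (hB : T.BounceInv m Ψ H) (O : ℂ)
    {F : ℂ × Ω → ℝ} (hFm : Measurable F)
    (hF : ∀ᵐ p ∂((volume.restrict T.table).prod (nu.prod m)),
        H p.1 (p.2.1, Ψ (dt (p.1 - O) p.2.1) p.2.2) = F p.2) (i : Fin ns) :
    ∀ᵐ ω ∂(nu.prod m), F (T.refl i ω.1, Ψ (dt (T.R i O - O) ω.1) ω.2) = F ω := by
  have mdt : ∀ w : ℂ, Measurable fun u : ℂ => dt w u := fun w =>
    measurable_dt.comp (measurable_const.prodMk measurable_id)
  have hJ : MeasurePreserving (fun ω : ℂ × Ω => (T.refl i ω.1, Ψ (dt (T.R i O - O) ω.1) ω.2))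
      (nu.prod m) (nu.prod m) :=
    mp_shear hΨ (T.measurePreserving_refl i) (mdt _)
  have h1 := T.F_refl_neg hΨ hH hB O hF i
  have h2 := hJ.quasiMeasurePreserving.ae h1
  have h3 : ∀ᵐ ω ∂(nu.prod m), T.ell i ω.1 ≠ 0 :=
    Measure.quasiMeasurePreserving_fst.ae (ae_ell_ne T i)
  -- going back
  have h4 : ∀ᵐ ω ∂(nu.prod m),
      F (ω.1, Ψ (-dt (T.R i O - O) ω.1) (Ψ (dt (T.R i O - O) ω.1) ω.2)) = F ω := by
    have hmf : Measurable fun p : ℂ × Ω => dt (T.R i O - O) p.1 := (mdt _).comp measurable_fst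
    have hm1 : Measurable fun ω : ℂ × Ω =>
        F (ω.1, Ψ (-dt (T.R i O - O) ω.1) (Ψ (dt (T.R i O - O) ω.1) ω.2)) :=
      hFm.comp (measurable_fst.prodMk (hΨ.meas.comp (hmf.neg.prodMk
        (hΨ.meas.comp (hmf.prodMk measurable_snd)))))
    have hms := measurableSet_eq_fun hm1 hFm
    refine (Measure.ae_prod_mem_iff_ae_ae_mem hms).2 ?_
    refine ae_of_all _ fun u => ?_
    filter_upwards [hΨ.add (-dt (T.R i O - O) u) (dt (T.R i O - O) u), hΨ.zero] with q h5 h6
    show F (u, Ψ (-dt (T.R i O - O) u) (Ψ (dt (T.R i O - O) u) q)) = F (u, q)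
    rw [← h5, neg_add_cancel, h6]
  filter_upwards [h1, h2, h3, h4] with ω g1 g2 g3 g4
  rcases lt_or_gt_of_ne g3 with h | h
  · exact g1 h
  · have g5 := g2 (by
      show T.ell i (T.refl i ω.1) < 0
      rw [T.ell_refl]; linarith)
    simp only [T.refl_refl, T.shift_refl] at g5
    rw [g4] at g5
    exact g5.symm

end ConvexPolygon

end Vale.Agent.P099C
end
end

section

section

open MeasureTheory Set Filter Topology

namespace Vale.Agent.P099C
open Vale.Agent.P099 (nu FlowErgodic FlowWeakMixing)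

namespace ConvexPolygon

variable {ns : ℕ} [NeZero ns] (T : ConvexPolygon ns)

/-- the rotation obtained by composing the reflections in the sides `i` and `i + 1` -/
noncomputable def rot (i : Fin ns) : ℂ :=
  T.d (i + 1) / (starRingEnd ℂ) (T.d (i + 1)) *
    ((starRingEnd ℂ) (T.d i) / T.d i)

lemma refl_refl_eq_rot (i : Fin ns) (u : ℂ) :
    T.refl (i + 1) (T.refl i u) = T.rot i * u := by
  rw [T.refl_eq, T.refl_eq, rot]
  simp only [map_mul, map_div₀, Complex.conj_conj]
  ring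

lemma norm_rot (i : Fin ns) : ‖T.rot i‖ = 1 := by
  have h1 : ‖T.d (i + 1)‖ ≠ 0 := norm_ne_zero_iff.2 (T.d_ne _)
  have h2 : ‖T.d i‖ ≠ 0 := norm_ne_zero_iff.2 (T.d_ne _)
  rw [rot, norm_mul, norm_div, norm_div, RCLike.norm_conj, RCLike.norm_conj, div_self h1,
    div_self h2, one_mul]

/-- the rotation is the rotation by twice the angle -/
lemma rot_eq_exp (i : Fin ns) : ∃ θ : ℝ,
    EuclideanGeometry.angle (T.P i) (T.P (i + 1)) (T.P (i + 1 + 1)) = |θ| ∧
    T.rot i = Complex.exp (2 * θ * Complex.I) := by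
  rw [EuclideanGeometry.angle_comm]
  have hd2 : T.d (i + 1) = T.P (i + 1 + 1) - T.P (i + 1) := rfl
  have hd1 : T.d i = -(T.P i - T.P (i + 1)) := by
    rw [d]
    ring
  set a := T.P (i + 1 + 1) - T.P (i + 1) with ha
  set b := T.P i - T.P (i + 1) with hb
  have ha0 : a ≠ 0 := hd2 ▸ T.d_ne (i + 1)
  have hb0 : b ≠ 0 := by
    intro h
    apply T.d_ne i
    rw [hd1, h, neg_zero]
  have hz0 : a / b ≠ 0 := div_ne_zero ha0 hb0
  have hang : EuclideanGeometry.angle (T.P (i + 1 + 1)) (T.P (i + 1)) (T.P i) = |(a / b).arg| := by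
    rw [EuclideanGeometry.angle, vsub_eq_sub, vsub_eq_sub]
    exact Complex.angle_eq_abs_arg ha0 hb0
  refine ⟨(a / b).arg, hang, ?_⟩
  set θ := (a / b).arg with hθ
  have h1 : T.rot i = (a / b) / (starRingEnd ℂ) (a / b) := by
    rw [rot, hd1, hd2]
    have hca : (starRingEnd ℂ) a ≠ 0 := by simpa only [ne_eq, map_eq_zero] using ha0
    have hcb : (starRingEnd ℂ) b ≠ 0 := by simpa using hb0
    simp only [map_neg, map_div₀]
    field_simp
  have h2 : a / b = ‖a / b‖ * Complex.exp (θ * Complex.I) :=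
    (Complex.norm_mul_exp_arg_mul_I (a / b)).symm
  have h3 : (starRingEnd ℂ) (a / b) = ‖a / b‖ * Complex.exp (-(θ * Complex.I)) := by
    conv_lhs => rw [h2]
    rw [map_mul, Complex.conj_ofReal, ← Complex.exp_conj]
    simp only [Complex.norm_div, Complex.ofReal_div, map_mul, Complex.conj_ofReal, Complex.conj_I, mul_neg]
  have h4 : ((‖a / b‖ : ℝ) : ℂ) ≠ 0 := by
    rw [Ne, Complex.ofReal_eq_zero, norm_eq_zero]
    exact hz0
  have h5 : (a / b) / (starRingEnd ℂ) (a / b) =
      (‖a / b‖ * Complex.exp (θ * Complex.I)) / (‖a / b‖ * Complex.exp (-(θ * Complex.I))) :=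
    congrArg₂ (· / ·) h2 h3
  rw [h1, h5, mul_div_mul_left _ _ h4, ← Complex.exp_sub]
  congr 1
  ring

lemma rot_pow_ne_one {i : Fin ns}
    (hi : Irrational (EuclideanGeometry.angle (T.P i) (T.P (i + 1)) (T.P (i + 1 + 1)) / Real.pi))
    {n : ℤ} (hn : n ≠ 0) : T.rot i ^ n ≠ 1 := by
  intro hcon
  apply hi
  obtain ⟨θ, hang, hrot⟩ := T.rot_eq_exp i
  rw [hrot, ← Complex.exp_int_mul, Complex.exp_eq_one_iff] at hcon
  obtain ⟨m, hm⟩ := hcon
  have hI : (n : ℂ) * θ = m * Real.pi := by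
    have h5 : (2 * Complex.I) * ((n : ℂ) * θ) = (2 * Complex.I) * (m * Real.pi) := by
      linear_combination hm
    exact mul_left_cancel₀ (mul_ne_zero two_ne_zero Complex.I_ne_zero) h5
  have hR : (n : ℝ) * θ = m * Real.pi := by exact_mod_cast hI
  have hn' : (n : ℝ) ≠ 0 := by exact_mod_cast hn
  have hfin : θ / Real.pi = ((m : ℚ) / n : ℚ) := by
    push_cast
    rw [div_eq_div_iff Real.pi_ne_zero hn']
    linarith only [hR]
  rw [hang]
  refine ⟨|(m : ℚ) / n|, ?_⟩
  have : |θ| / Real.pi = |θ / Real.pi| := by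
    rw [abs_div, abs_of_pos Real.pi_pos]
  rw [this, hfin]
  push_cast
  rfl

/-- at a rational angle the rotation has finite order -/
lemma rot_pow_eq_one {i : Fin ns}
    (hi : ¬ Irrational (EuclideanGeometry.angle (T.P i) (T.P (i + 1)) (T.P (i + 1 + 1)) / Real.pi)) :
    ∃ n : ℕ, 0 < n ∧ T.rot i ^ n = 1 := by
  obtain ⟨θ, hang, hrot⟩ := T.rot_eq_exp i
  rw [Irrational, not_not] at hi
  obtain ⟨q, hq⟩ := hi
  rw [hang] at hq
  have hpi := Real.pi_ne_zero
  have h1 : |θ| = q * Real.pi := by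
    rw [hq]
    field_simp
  have hden : (q.den : ℝ) ≠ 0 := by exact_mod_cast q.den_ne_zero
  have h2 : (q.den : ℝ) * |θ| = q.num * Real.pi := by
    rw [h1]
    have h3 : (q : ℝ) = q.num / q.den := by exact_mod_cast (Rat.num_div_den q).symm
    rw [h3]
    field_simp
  refine ⟨q.den, q.den_pos, ?_⟩
  rw [hrot, ← Complex.exp_nat_mul, Complex.exp_eq_one_iff]
  rcases abs_choice θ with h | h
  · refine ⟨q.num, ?_⟩
    rw [h] at h2
    have h3 : (q.den : ℂ) * θ = q.num * Real.pi := by exact_mod_cast h2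
    linear_combination (2 * Complex.I) * h3
  · refine ⟨-q.num, ?_⟩
    rw [h] at h2
    have h3 : (q.den : ℂ) * (-θ) = q.num * Real.pi := by exact_mod_cast h2
    push_cast
    linear_combination (-2 * Complex.I) * h3

/-- A bounded function of the direction invariant under the three reflections is constant. -/
lemma const_of_refl_invariant (hT : T.IsIrrational) {f : ℂ → ℝ} (hf : Measurable f) {C : ℝ}
    (hC : ∀ u, |f u| ≤ C) (h : ∀ i, ∀ᵐ u ∂nu, f (T.refl i u) = f u) :
    ∃ c : ℝ, ∀ᵐ u ∂nu, f u = c := by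
  obtain ⟨i, hi⟩ := hT
  set ω := T.rot i with hω
  have hω1 : ‖ω‖ = 1 := T.norm_rot i
  have hω0 : ω ≠ 0 := by
    intro h0
    rw [h0, norm_zero] at hω1
    exact zero_ne_one hω1
  have hinv : ∀ᵐ u ∂nu, f (ω * u) = f u := by
    have h1 := (T.measurePreserving_refl i).quasiMeasurePreserving.ae (h (i + 1))
    filter_upwards [h1, h i] with u hu1 hu2
    rw [hω, ← T.refl_refl_eq_rot, hu1, hu2]
  have hfi : Integrable f nu :=
    Integrable.of_bound hf.aestronglyMeasurable C (ae_of_all _ fun u => by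
      rw [Real.norm_eq_abs]; exact hC u)
  set c : ℝ := ∫ u, f u ∂nu with hc
  refine ⟨c, ?_⟩
  set F : ℂ → ℂ := fun u => ((f u - c : ℝ) : ℂ) with hF
  have hFm : Measurable F := Complex.measurable_ofReal.comp (hf.sub_const c)
  have hFb : ∀ u, ‖F u‖ ≤ C + |c| := by
    intro u
    simp only [hF, Complex.norm_real, Real.norm_eq_abs]
    calc |f u - c| ≤ |f u| + |c| := abs_sub _ _
      _ ≤ C + |c| := by linarith [hC u]
  have hFL : MemLp F 2 nu :=
    MemLp.of_bound hFm.aestronglyMeasurable (C + |c|) (ae_of_all _ hFb)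
  have hmode : ∀ k, mode k F = 0 := by
    intro k
    by_cases hk : k = 0
    · subst hk
      simp only [mode, neg_zero, zpow_zero, mul_one, hF]
      have h6 : ∫ u, ((f u - c : ℝ) : ℂ) ∂nu = ((∫ u, (f u - c) ∂nu : ℝ) : ℂ) := integral_ofReal
      rw [h6, integral_sub hfi (integrable_const _)]
      simp [hc]
    · have h1 : mode k F = ω ^ (-k) * mode k F := by
        have h2 : ∫ u, F (ω * u) * (ω * u) ^ (-k) ∂nu = ∫ u, F u * u ^ (-k) ∂nu :=
          (measurePreserving_mul hω1).integral_comp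
            (MeasurableEquiv.mulLeft₀ ω hω0).measurableEmbedding (fun u => F u * u ^ (-k))
        have h3 : ∫ u, F (ω * u) * (ω * u) ^ (-k) ∂nu = ∫ u, ω ^ (-k) * (F u * u ^ (-k)) ∂nu := by
          apply integral_congr_ae
          filter_upwards [hinv] with u hu
          simp only [hF]
          rw [hu, mul_zpow]
          ring
        calc mode k F = ∫ u, F u * u ^ (-k) ∂nu := rfl
          _ = ω ^ (-k) * ∫ u, F u * u ^ (-k) ∂nu := by
            rw [← integral_const_mul, ← h3, h2]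
          _ = ω ^ (-k) * mode k F := rfl
      have h4 : (1 - ω ^ (-k)) * mode k F = 0 := by
        linear_combination h1
      rcases mul_eq_zero.1 h4 with h5 | h5
      · exfalso
        exact T.rot_pow_ne_one hi (n := -k) (neg_ne_zero.2 hk) (by rw [← hω]; linear_combination -h5)
      · exact h5
  have := ae_zero_of_mode F hFL hmode
  filter_upwards [this] with u hu
  simp only [hF, Pi.zero_apply, Complex.ofReal_eq_zero] at hu
  linarith only [hu]

end ConvexPolygon

end Vale.Agent.P099C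
end
end

section

section

open MeasureTheory Set Filter Topology

namespace Vale.Agent.P099C
open Vale.Agent.P099 (nu FlowErgodic FlowWeakMixing)

variable {Ω : Type} [MeasurableSpace Ω]

namespace ConvexPolygon

variable {ns : ℕ} [NeZero ns] (T : ConvexPolygon ns)

/-- the composition of two reflections is a rotation of infinite order -/
lemma exists_rot (k : Fin ns)
    (hk : Irrational (EuclideanGeometry.angle (T.P k) (T.P (k + 1)) (T.P (k + 1 + 1)) / Real.pi)) :
    ∃ ζ : ℂ, ‖ζ‖ = 1 ∧ (∀ n : ℤ, n ≠ 0 → ζ ^ n ≠ 1) ∧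
      ∀ u, T.refl k (T.refl (k + 1) u) = ζ * u := by
  have hn := T.norm_rot k
  have h0 : T.rot k ≠ 0 := by
    intro h0
    rw [h0, norm_zero] at hn
    exact zero_ne_one hn
  refine ⟨(T.rot k)⁻¹, by rw [norm_inv, hn, inv_one], ?_, ?_⟩
  · intro n hn h1
    apply T.rot_pow_ne_one hk (neg_ne_zero.2 hn)
    rw [zpow_neg, ← inv_zpow]
    exact h1
  · intro u
    have h1 : T.refl (k + 1) (T.refl k (T.refl k (T.refl (k + 1) u))) = u := by
      rw [T.refl_refl, T.refl_refl]
    rw [T.refl_refl_eq_rot] at h1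
    rw [eq_inv_mul_iff_mul_eq₀ h0]
    exact h1

end ConvexPolygon

/-- modes of a function and of its rotation -/
lemma mode_rot {ζ : ℂ} (h1 : ‖ζ‖ = 1) (f : ℂ → ℂ) (k : ℤ)
    (hinv : ∀ᵐ u ∂nu, f (ζ * u) = f u) : mode k f = ζ ^ (-k) * mode k f := by
  have h0 : ζ ≠ 0 := by
    intro h0
    rw [h0, norm_zero] at h1
    exact zero_ne_one h1
  have h2 : ∫ u, f (ζ * u) * (ζ * u) ^ (-k) ∂nu = ∫ u, f u * u ^ (-k) ∂nu :=
    (measurePreserving_mul h1).integral_comp
      (MeasurableEquiv.mulLeft₀ ζ h0).measurableEmbedding (fun u => f u * u ^ (-k))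
  have h3 : ∫ u, f (ζ * u) * (ζ * u) ^ (-k) ∂nu = ∫ u, ζ ^ (-k) * (f u * u ^ (-k)) ∂nu := by
    apply integral_congr_ae
    filter_upwards [hinv] with u hu
    rw [hu, mul_zpow]
    ring
  calc mode k f = ∫ u, f u * u ^ (-k) ∂nu := rfl
    _ = ζ ^ (-k) * ∫ u, f u * u ^ (-k) ∂nu := by
      rw [← integral_const_mul, ← h3, h2]
    _ = ζ ^ (-k) * mode k f := rfl

/-- a function invariant under an irrational rotation is constant -/
lemma const_of_rot {ζ : ℂ} (h1 : ‖ζ‖ = 1) (h2 : ∀ n : ℤ, n ≠ 0 → ζ ^ n ≠ 1)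
    (f : ℂ → ℝ) (hf : Measurable f) (hb : ∃ C, ∀ u, |f u| ≤ C)
    (hinv : ∀ᵐ u ∂nu, f (ζ * u) = f u) : ∀ᵐ u ∂nu, f u = ∫ v, f v ∂nu := by
  obtain ⟨C, hC⟩ := hb
  have hfi : Integrable f nu :=
    Integrable.of_bound hf.aestronglyMeasurable C (ae_of_all _ fun u => by
      rw [Real.norm_eq_abs]; exact hC u)
  set c : ℝ := ∫ u, f u ∂nu with hc
  set F : ℂ → ℂ := fun u => ((f u - c : ℝ) : ℂ) with hF
  have hFm : Measurable F := Complex.measurable_ofReal.comp (hf.sub_const c)
  have hFb : ∀ u, ‖F u‖ ≤ C + |c| := by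
    intro u
    simp only [hF, Complex.norm_real, Real.norm_eq_abs]
    calc |f u - c| ≤ |f u| + |c| := abs_sub _ _
      _ ≤ C + |c| := by linarith only [hC u]
  have hFL : MemLp F 2 nu :=
    MemLp.of_bound hFm.aestronglyMeasurable (C + |c|) (ae_of_all _ hFb)
  have hmode : ∀ k, mode k F = 0 := by
    intro k
    by_cases hk : k = 0
    · subst hk
      simp only [mode, neg_zero, zpow_zero, mul_one, hF]
      have h6 : ∫ u, ((f u - c : ℝ) : ℂ) ∂nu = ((∫ u, (f u - c) ∂nu : ℝ) : ℂ) := integral_ofReal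
      rw [h6, integral_sub hfi (integrable_const _)]
      simp [hc]
    · have h3 : mode k F = ζ ^ (-k) * mode k F := by
        apply mode_rot h1
        filter_upwards [hinv] with u hu
        simp only [hF]
        rw [hu]
      have h4 : (1 - ζ ^ (-k)) * mode k F = 0 := by
        linear_combination h3
      rcases mul_eq_zero.1 h4 with h5 | h5
      · exfalso
        exact h2 (-k) (neg_ne_zero.2 hk) (by linear_combination -h5)
      · exact h5
  have := ae_zero_of_mode F hFL hmode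
  filter_upwards [this] with u hu
  simp only [hF, Pi.zero_apply, Complex.ofReal_eq_zero] at hu
  linarith only [hu]

/-- with a parameter -/
lemma const_of_rot' {m : Measure Ω} [IsProbabilityMeasure m] {ζ : ℂ} (h1 : ‖ζ‖ = 1)
    (h2 : ∀ n : ℤ, n ≠ 0 → ζ ^ n ≠ 1)
    (F : ℂ × Ω → ℝ) (hF : Measurable F) (hb : ∃ C, ∀ ω, |F ω| ≤ C)
    (hinv : ∀ᵐ ω ∂(nu.prod m), F (ζ * ω.1, ω.2) = F ω) :
    ∃ f : Ω → ℝ, Measurable f ∧ (∃ C, ∀ q, |f q| ≤ C) ∧ ∀ᵐ ω ∂(nu.prod m), F ω = f ω.2 := by
  obtain ⟨C, hC⟩ := hb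
  set f : Ω → ℝ := fun q => ∫ u, F (u, q) ∂nu with hf
  have hfm : Measurable f :=
    (StronglyMeasurable.integral_prod_left (μ := nu) (f := fun u q => F (u, q))
      hF.stronglyMeasurable).measurable
  refine ⟨f, hfm, ⟨C, fun q => ?_⟩, ?_⟩
  · have := norm_integral_le_of_norm_le_const (μ := nu) (f := fun u => F (u, q)) (C := C)
      (ae_of_all _ fun u => by rw [Real.norm_eq_abs]; exact hC _)
    simpa only [ge_iff_le, Real.norm_eq_abs, probReal_univ, mul_one] using this
  · have hms : MeasurableSet {ω : ℂ × Ω | F ω = f ω.2} :=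
      measurableSet_eq_fun hF (hfm.comp measurable_snd)
    have hms2 : MeasurableSet {ω : ℂ × Ω | F (ζ * ω.1, ω.2) = F ω} :=
      measurableSet_eq_fun (hF.comp ((measurable_fst.const_mul ζ).prodMk measurable_snd)) hF
    rw [Measure.ae_prod_iff_ae_ae hms]
    rw [Measure.ae_prod_iff_ae_ae hms2] at hinv
    rw [Measure.ae_ae_comm (p := fun u q => F (ζ * u, q) = F (u, q)) hms2] at hinv
    rw [Measure.ae_ae_comm (p := fun u q => F (u, q) = f q) hms]
    filter_upwards [hinv] with q hq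
    exact const_of_rot h1 h2 (fun u => F (u, q)) (hF.comp measurable_prodMk_right)
      ⟨C, fun u => hC _⟩ hq

/-- a subgroup of the times -/
lemma inv_all {m : Measure Ω} [IsProbabilityMeasure m] {Ψ : ℝ → Ω → Ω} (hΨ : PFlow m Ψ)
    {f : Ω → ℝ} (hf : Measurable f) {v : ℂ} (hv : v ≠ 0)
    (h : ∀ᵐ ω ∂(nu.prod m), f (Ψ (dt v ω.1) ω.2) = f ω.2) (s : ℝ) :
    ∀ᵐ q ∂m, f (Ψ s q) = f q := by
  set G : Set ℝ := {s | ∀ᵐ q ∂m, f (Ψ s q) = f q} with hG
  have h0 : (0:ℝ) ∈ G := by
    filter_upwards [hΨ.zero] with q hq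
    rw [hq]
  have hadd : ∀ a ∈ G, ∀ b ∈ G, a + b ∈ G := by
    intro a ha b hb
    have ha' := (hΨ.mp b).quasiMeasurePreserving.ae ha
    filter_upwards [ha', hb, hΨ.add a b] with q h1 h2 h3
    rw [h3, h1, h2]
  have hneg : ∀ a ∈ G, -a ∈ G := by
    intro a ha
    have ha' := (hΨ.mp (-a)).quasiMeasurePreserving.ae ha
    filter_upwards [ha', hΨ.add a (-a), hΨ.zero] with q h1 h2 h3
    rw [add_neg_cancel, h3] at h2
    rw [← h2] at h1
    exact h1.symm
  set g : ℝ → ℝ := fun θ => dt v (Complex.exp (θ * Complex.I)) with hg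
  have hgform : ∀ θ, g θ = v.re * Real.cos θ + v.im * Real.sin θ := by
    intro θ
    simp only [hg, dt, Complex.exp_ofReal_mul_I_re, Complex.exp_ofReal_mul_I_im]
  have hgdiff : Differentiable ℝ g := by
    have : g = fun θ => v.re * Real.cos θ + v.im * Real.sin θ := funext hgform
    rw [this]
    fun_prop
  -- bad angles
  set Bad : Set ℝ := {θ | θ ∈ Ioc (-Real.pi) Real.pi ∧ g θ ∉ G} with hBad
  have hBad0 : volume Bad = 0 := by
    have h1 : ∀ᵐ u ∂nu, dt v u ∈ G := (Measure.ae_ae_of_ae_prod h :)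
    have h2 : ∀ᵐ θ ∂(ProbabilityTheory.cond volume (Ioc (-Real.pi) Real.pi)), g θ ∈ G := by
      rw [nu] at h1
      have hm : AEMeasurable (fun θ : ℝ => Complex.exp (θ * Complex.I))
          (ProbabilityTheory.cond volume (Ioc (-Real.pi) Real.pi)) :=
        (Continuous.measurable (by fun_prop)).aemeasurable
      exact ae_of_ae_map hm h1
    have h3 : ∀ᵐ θ ∂(volume.restrict (Ioc (-Real.pi) Real.pi)), g θ ∈ G := by
      rw [ProbabilityTheory.cond] at h2
      have hne : (volume (Ioc (-Real.pi) Real.pi))⁻¹ ≠ 0 := by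
        rw [Real.volume_Ioc]
        exact ENNReal.inv_ne_zero.2 ENNReal.ofReal_ne_top
      rwa [Measure.ae_ennreal_smul_measure_eq hne] at h2
    rw [ae_restrict_iff' measurableSet_Ioc, ae_iff] at h3
    convert h3 using 2
    ext θ
    simp only [hBad, mem_Ioc, and_assoc, mem_ofPred_eq, and_imp, Classical.not_imp]
  -- a neighbourhood of zero
  have hr : ∃ r : ℝ, 0 < r ∧ ∀ t, |t| ≤ r → ∃ θ ∈ Ioc (-Real.pi) Real.pi, g θ = t := by
    have hcont : Continuous g := hgdiff.continuous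
    by_cases hre : v.re = 0
    · have him : v.im ≠ 0 := by
        intro him
        exact hv (Complex.ext hre him)
      refine ⟨|v.im|, abs_pos.2 him, fun t ht => ?_⟩
      have hsub : Icc (-|v.im|) |v.im| ⊆ g '' uIcc (-(Real.pi / 2)) (Real.pi / 2) := by
        have h1 := intermediate_value_uIcc (f := g) (a := -(Real.pi / 2)) (b := Real.pi / 2)
          hcont.continuousOn
        refine Subset.trans ?_ h1
        rw [hgform, hgform]
        simp only [Real.cos_neg, Real.cos_pi_div_two, Real.sin_neg, Real.sin_pi_div_two, mul_zero,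
          mul_one, zero_add, mul_neg]
        rcases le_total 0 v.im with h2 | h2
        · rw [abs_of_nonneg h2, uIcc_of_le (by linarith)]
        · rw [abs_of_nonpos h2, uIcc_of_ge (by linarith only [h2]), neg_neg]
      obtain ⟨θ, hθ, hθt⟩ := hsub (abs_le.1 ht)
      rw [uIcc_of_le (by linarith [Real.pi_pos])] at hθ
      exact ⟨θ, ⟨by linarith [hθ.1, Real.pi_pos], by linarith only [hθ.2, Real.pi_pos]⟩, hθt⟩
    · refine ⟨|v.re|, abs_pos.2 hre, fun t ht => ?_⟩
      have hsub : Icc (-|v.re|) |v.re| ⊆ g '' uIcc 0 Real.pi := by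
        have h1 := intermediate_value_uIcc (f := g) (a := 0) (b := Real.pi)
          hcont.continuousOn
        refine Subset.trans ?_ h1
        rw [hgform, hgform]
        simp only [Real.cos_zero, Real.sin_zero, Real.cos_pi, Real.sin_pi, mul_zero,
          mul_one, add_zero, mul_neg]
        rcases le_total 0 v.re with h2 | h2
        · rw [abs_of_nonneg h2, uIcc_of_ge (by linarith only [h2])]
        · rw [abs_of_nonpos h2, uIcc_of_le (by linarith only [h2]), neg_neg]
      obtain ⟨θ, hθ, hθt⟩ := hsub (abs_le.1 ht)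
      rw [uIcc_of_le (by linarith only [Real.pi_pos])] at hθ
      exact ⟨θ, ⟨by linarith only [hθ.1, Real.pi_pos], by linarith only [hθ.2]⟩, hθt⟩
  obtain ⟨r, hr0, hr⟩ := hr
  set N : Set ℝ := {t | |t| ≤ r ∧ t ∉ G} with hN
  have hN0 : volume N = 0 := by
    have h1 : volume (g '' Bad) = 0 :=
      addHaar_image_eq_zero_of_differentiableOn_of_addHaar_eq_zero volume
        (hgdiff.differentiableOn) hBad0
    refine measure_mono_null ?_ h1
    rintro t ⟨ht1, ht2⟩
    obtain ⟨θ, hθ1, hθ2⟩ := hr t ht1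
    exact ⟨θ, ⟨hθ1, by rw [hθ2]; exact ht2⟩, hθ2⟩
  have hsmall : ∀ x, |x| ≤ r / 2 → x ∈ G := by
    intro x hx
    have h2 : volume ((fun a => a + x) ⁻¹' N) = 0 :=
      (measurePreserving_add_right volume x).quasiMeasurePreserving.preimage_null hN0
    have h3 : volume (N ∪ (fun a => a + x) ⁻¹' N) = 0 := measure_union_null hN0 h2
    obtain ⟨a, ha1, ha2⟩ : ∃ a ∈ Ioo 0 (r / 2), a ∉ N ∪ (fun a => a + x) ⁻¹' N := by
      by_contra hcon
      push Not at hcon
      have h4 : volume (Ioo 0 (r / 2)) ≤ 0 := h3 ▸ measure_mono (fun a ha => hcon a ha)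
      rw [Real.volume_Ioo, nonpos_iff_eq_zero, ENNReal.ofReal_eq_zero] at h4
      linarith only [hr0, h4]
    rw [mem_union, not_or] at ha2
    have hx' := abs_le.1 hx
    have h5 : a ∈ G := by
      by_contra hcon
      exact ha2.1 ⟨abs_le.2 ⟨by linarith only [hr0, ha1.1], by linarith only [hr0, ha1.2]⟩, hcon⟩
    have h6 : a + x ∈ G := by
      by_contra hcon
      exact ha2.2 ⟨abs_le.2 ⟨by linarith only [hx', ha1.1], by linarith only [hx', ha1.2]⟩, hcon⟩
    have h7 := hadd _ h6 _ (hneg _ h5)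
    have : a + x + -a = x := by ring
    rwa [this] at h7
  have hnat : ∀ x ∈ G, ∀ n : ℕ, (n : ℝ) * x ∈ G := by
    intro x hx n
    induction n with
    | zero => simpa using h0
    | succ n ih =>
      have := hadd _ ih _ hx
      have e : (n : ℝ) * x + x = ((n + 1 : ℕ) : ℝ) * x := by push_cast; ring
      rwa [e] at this
  obtain ⟨n, hn⟩ := exists_nat_gt (|s| / (r / 2))
  have hn0 : (0:ℝ) < n := lt_of_le_of_lt (by (clear * - hr0; positivity)) hn
  have h8 : |s / n| ≤ r / 2 := by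
    rw [abs_div, abs_of_pos hn0, div_le_iff₀ hn0]
    rw [div_lt_iff₀ (by (clear * - hr0; positivity))] at hn
    linarith only [hn]
  have h9 := hnat _ (hsmall _ h8) n
  rw [mul_div_cancel₀ _ hn0.ne'] at h9
  exact h9

end Vale.Agent.P099C
end
end

section

section

open MeasureTheory Set Filter Topology

namespace Vale.Agent.P099C
open Vale.Agent.P099 (nu FlowErgodic FlowWeakMixing)

variable {Ω : Type} [MeasurableSpace Ω]

open WM4

namespace ConvexPolygon

variable {ns : ℕ} [NeZero ns] (T : ConvexPolygon ns)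

lemma R_sub_ne {i : Fin ns} {x : ℂ} (h0 : T.lam i x ≠ 0) : T.R i x - x ≠ 0 := by
  intro h
  have h1 : T.lam i (T.R i x) = T.lam i x := by rw [sub_eq_zero.1 h]
  rw [T.lam_R] at h1
  apply h0
  linarith only [h1]

/-- Invariant functions of the product of the billiard flow with any measure preserving flow depend
only on the second factor, up to a function invariant under the second flow. -/
theorem relative {m : Measure Ω} [IsProbabilityMeasure m] {Ψ : ℝ → Ω → Ω} (hΨ : PFlow m Ψ)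
    (hT : T.IsIrrational)
    {H : ℂ → ℂ × Ω → ℝ} (hH : Bdd H) (hF : T.FreeInv m Ψ H) (hB : T.BounceInv m Ψ H) :
    ∃ f : Ω → ℝ, Measurable f ∧ (∃ C, ∀ q, |f q| ≤ C) ∧ (∀ s, ∀ᵐ q ∂m, f (Ψ s q) = f q) ∧
      ∀ᵐ p ∂((volume.restrict T.table).prod (nu.prod m)), H p.1 p.2 = f p.2.2 := by
  obtain ⟨k, hk⟩ := hT
  set O : ℂ := T.P (k + 1) with hO
  have hO1 : T.lam k O = 0 := T.lam_P_next k
  have hO2 : T.lam (k + 1) O = 0 := T.lam_P_self (k + 1)
  have hO3 : T.lam (k + 1 + 1) O ≠ 0 :=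
    (T.lam_P_pos (T.add_one_ne (k + 1)).symm (T.add_two_ne (k + 1)).symm).ne'
  obtain ⟨F, hFm, hFb, hFH⟩ := T.exists_F hΨ hH hF
    (fun φ h1 h2 h3 => T.weakY hΨ hH hF hB φ h1 h2 h3) O
  have mdt : ∀ w : ℂ, Measurable fun u : ℂ => dt w u := fun w =>
    measurable_dt.comp (measurable_const.prodMk measurable_id)
  -- the two sides through the vertex
  have hside : ∀ i : Fin ns, T.lam i O = 0 →
      ∀ᵐ ω ∂(nu.prod m), F (T.refl i ω.1, ω.2) = F ω := by
    intro i hi
    have h1 := T.F_refl hΨ hH hB O hFm hFH i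
    rw [T.R_of_lam_eq_zero hi, sub_self] at h1
    have hz : ∀ u, dt 0 u = 0 := by intro u; simp [dt]
    simp only [hz] at h1
    have h2 : ∀ᵐ ω ∂(nu.prod m), F (T.refl i ω.1, Ψ 0 ω.2) = F (T.refl i ω.1, ω.2) := by
      have hm1 : Measurable fun ω : ℂ × Ω => F (T.refl i ω.1, Ψ 0 ω.2) :=
        hFm.comp (((T.continuous_refl i).measurable.comp measurable_fst).prodMk
          (hΨ.meas.comp (measurable_const.prodMk measurable_snd)))
      have hm2 : Measurable fun ω : ℂ × Ω => F (T.refl i ω.1, ω.2) :=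
        hFm.comp (((T.continuous_refl i).measurable.comp measurable_fst).prodMk measurable_snd)
      refine (Measure.ae_prod_mem_iff_ae_ae_mem (measurableSet_eq_fun hm1 hm2)).2 ?_
      refine ae_of_all _ fun u => ?_
      filter_upwards [hΨ.zero] with q hq
      show F (T.refl i u, Ψ 0 q) = F (T.refl i u, q)
      rw [hq]
    filter_upwards [h1, h2] with ω h3 h4
    rw [← h4, h3]
  obtain ⟨ζ, hζ1, hζ2, hζ3⟩ := T.exists_rot k hk
  have hrot : ∀ᵐ ω ∂(nu.prod m), F (ζ * ω.1, ω.2) = F ω := by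
    have h1 := hside k hO1
    have h2 := hside (k + 1) hO2
    have hmp : MeasurePreserving (fun ω : ℂ × Ω => (T.refl (k + 1) ω.1, ω.2))
        (nu.prod m) (nu.prod m) :=
      (T.measurePreserving_refl (k + 1)).prod (MeasurePreserving.id m)
    filter_upwards [hmp.quasiMeasurePreserving.ae h1, h2] with ω h3 h4
    rw [← hζ3, h3, h4]
  obtain ⟨f, hfm, hfb, hff⟩ := const_of_rot' hζ1 hζ2 F hFm hFb hrot
  -- a third side
  have hthird : ∀ᵐ ω ∂(nu.prod m), f (Ψ (dt (T.R (k + 1 + 1) O - O) ω.1) ω.2) = f ω.2 := by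
    have h1 := T.F_refl hΨ hH hB O hFm hFH (k + 1 + 1)
    have hJ : MeasurePreserving
        (fun ω : ℂ × Ω => (T.refl (k + 1 + 1) ω.1, Ψ (dt (T.R (k + 1 + 1) O - O) ω.1) ω.2))
        (nu.prod m) (nu.prod m) :=
      mp_shear hΨ (T.measurePreserving_refl (k + 1 + 1)) (mdt _)
    filter_upwards [h1, hJ.quasiMeasurePreserving.ae hff, hff] with ω h2 h3 h4
    rw [← h3, h2, h4]
  have hinv := inv_all hΨ hfm (T.R_sub_ne hO3) hthird
  refine ⟨f, hfm, hfb, hinv, ?_⟩
  -- straightening back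
  have hSh : MeasurePreserving (fun p : ℂ × (ℂ × Ω) =>
      (p.1, (p.2.1, Ψ (-dt (p.1 - O) p.2.1) p.2.2)))
      ((volume.restrict T.table).prod (nu.prod m)) ((volume.restrict T.table).prod (nu.prod m)) := by
    refine MeasurePreserving.skew_product
      (g := fun x (ω : ℂ × Ω) => (ω.1, Ψ (-dt (x - O) ω.1) ω.2)) (MeasurePreserving.id _) ?_ ?_
    · have h1 : Measurable fun p : ℂ × (ℂ × Ω) => dt (p.1 - O) p.2.1 :=
        measurable_dt.comp ((measurable_fst.sub_const _).prodMk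
          (measurable_fst.comp measurable_snd))
      exact (measurable_fst.comp measurable_snd).prodMk
        (hΨ.meas.comp (h1.neg.prodMk (measurable_snd.comp measurable_snd)))
    · exact ae_of_all _ fun x =>
        (mp_shear hΨ (MeasurePreserving.id nu) (mdt (x - O)).neg).map_eq
  have hff' : ∀ᵐ p ∂((volume.restrict T.table).prod (nu.prod m)), F p.2 = f p.2.2 :=
    Measure.quasiMeasurePreserving_snd.ae hff
  have h1 := hSh.quasiMeasurePreserving.ae (hFH.and hff')
  have hmd : Measurable fun p : ℂ × (ℂ × Ω) => dt (p.1 - O) p.2.1 :=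
    measurable_dt.comp ((measurable_fst.sub_const _).prodMk (measurable_fst.comp measurable_snd))
  have hmP : Measurable fun p : ℂ × (ℂ × Ω) => Ψ (-dt (p.1 - O) p.2.1) p.2.2 :=
    hΨ.meas.comp (hmd.neg.prodMk (measurable_snd.comp measurable_snd))
  have h2 : ∀ᵐ p ∂((volume.restrict T.table).prod (nu.prod m)),
      H p.1 (p.2.1, Ψ (dt (p.1 - O) p.2.1) (Ψ (-dt (p.1 - O) p.2.1) p.2.2)) =
        H p.1 p.2 := by
    have hm1 : Measurable fun p : ℂ × (ℂ × Ω) =>
        H p.1 (p.2.1, Ψ (dt (p.1 - O) p.2.1) (Ψ (-dt (p.1 - O) p.2.1) p.2.2)) :=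
      hH.1.comp (measurable_fst.prodMk ((measurable_fst.comp measurable_snd).prodMk
        (hΨ.meas.comp (hmd.prodMk hmP))))
    have hms := measurableSet_eq_fun hm1 hH.1
    refine (Measure.ae_prod_mem_iff_ae_ae_mem hms).2 (ae_of_all _ fun x => ?_)
    refine (Measure.ae_prod_mem_iff_ae_ae_mem (measurable_prodMk_left hms)).2
      (ae_of_all _ fun u => ?_)
    filter_upwards [hΨ.add (dt (x - O) u) (-dt (x - O) u), hΨ.zero] with q h3 h4
    show H x (u, Ψ (dt (x - O) u) (Ψ (-dt (x - O) u) q)) = H x (u, q)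
    rw [← h3, add_neg_cancel, h4]
  have h3 : ∀ᵐ p ∂((volume.restrict T.table).prod (nu.prod m)),
      f (Ψ (-dt (p.1 - O) p.2.1) p.2.2) = f p.2.2 := by
    have hms := measurableSet_eq_fun (hfm.comp hmP) (hfm.comp (measurable_snd.comp
      (measurable_snd (α := ℂ) (β := ℂ × Ω))))
    refine (Measure.ae_prod_mem_iff_ae_ae_mem hms).2 (ae_of_all _ fun x => ?_)
    refine (Measure.ae_prod_mem_iff_ae_ae_mem (measurable_prodMk_left hms)).2
      (ae_of_all _ fun u => ?_)
    exact hinv (-dt (x - O) u)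
  filter_upwards [h1, h2, h3] with p g1 g2 g3
  rw [← g2, g1.1, g1.2, g3]

end ConvexPolygon

end Vale.Agent.P099C
end
end

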