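import Vale.Agent.P099.MathlibUsed
import Vale.Agent.P099.H504.CPM
attribute [-instance] ProperSMul.toContinuousSMul IsTopologicalTorsor.toContinuousSMul IdemSemiring.toCanonicallyOrderedAdd IdemSemiring.toMulLeftMono IdemSemiring.toMulRightMono AddQuantale.instAddLeftMono AddQuantale.instAddRightMono Quantale.instMulLeftMono Quantale.instMulRightMono FiniteDimensional.rclike_to_real IsScalarTower.complexToReal FiniteDimensional.complexToReal

set_option linter.all false

section

section

open MeasureTheory Set Filter Topology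

namespace Vale.Agent.P099C
open Vale.Agent.P099 (nu FlowErgodic FlowWeakMixing)

namespace ConvexPolygon

variable {ns : ℕ} [NeZero ns] (T : ConvexPolygon ns)

lemma inv_vol_ne_zero : (volume T.table)⁻¹ ≠ 0 := ENNReal.inv_ne_zero.mpr T.volume_table_lt_top.ne

lemma mu_eq : T.mu = (volume T.table)⁻¹ • ((volume.restrict T.table).prod nu) := by
  unfold mu
  rw [ProbabilityTheory.cond, Measure.prod_smul_left]

lemma isProbabilityMeasure_mu : IsProbabilityMeasure T.mu := by
  have h : IsProbabilityMeasure (ProbabilityTheory.cond volume T.table) :=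
    ProbabilityTheory.cond_isProbabilityMeasure_of_finite T.volume_table_pos.ne'
      T.volume_table_lt_top.ne
  unfold mu
  infer_instance

lemma ae_mu_iff {P : ℂ × ℂ → Prop} :
    (∀ᵐ p ∂T.mu, P p) ↔ ∀ᵐ p ∂((volume.restrict T.table).prod nu), P p := by
  rw [mu_eq, Measure.ae_ennreal_smul_measure_iff T.inv_vol_ne_zero]

lemma ae_prod_mu_iff {Ω : Type} [MeasurableSpace Ω] {m : Measure Ω} [IsProbabilityMeasure m]
    {P : (ℂ × ℂ) × Ω → Prop} :
    (∀ᵐ z ∂(T.mu.prod m), P z) ↔
      ∀ᵐ p ∂((volume.restrict T.table).prod (nu.prod m)), P ((p.1, p.2.1), p.2.2) := by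
  have : IsFiniteMeasure (volume.restrict T.table) := ⟨by
    rw [Measure.restrict_apply_univ]; exact T.volume_table_lt_top⟩
  rw [mu_eq, Measure.prod_smul_left, Measure.ae_ennreal_smul_measure_iff T.inv_vol_ne_zero]
  have h1 := measurePreserving_prodAssoc (volume.restrict T.table) nu m
  constructor
  · intro h
    have h2 := (h1.symm _).quasiMeasurePreserving.ae h
    exact h2
  · intro h
    exact h1.quasiMeasurePreserving.ae h

/-- points of the phase space -/
lemma ae_mem_table : ∀ᵐ p ∂T.mu, p.1 ∈ T.table := by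
  rw [ae_mu_iff]
  exact Measure.quasiMeasurePreserving_fst.ae (ae_restrict_mem T.isOpen_table.measurableSet)

/-- Invariant functions. -/
theorem ergodic_fun (hT : T.IsIrrational) {Φ : ℝ → ℂ × ℂ → ℂ × ℂ}
    (hb : T.IsBilliardFlow Φ) {f : ℂ × ℂ → ℝ} (hf : Measurable f) (hfb : ∃ C, ∀ p, |f p| ≤ C)
    (hinv : ∀ s, ∀ᵐ p ∂T.mu, f (Φ s p) = f p) : ∃ c, ∀ᵐ p ∂T.mu, f p = c := by
  set m : Measure Unit := Measure.dirac () with hm
  have hΨ : PFlow m (fun (_ : ℝ) (q : Unit) => q) :=
    ⟨by fun_prop, fun t => MeasurePreserving.id _, fun s t => Filter.Eventually.of_forall fun _ => rfl,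
      Filter.Eventually.of_forall fun _ => rfl⟩
  set H : ℂ → ℂ × Unit → ℝ := fun x ω => f (x, ω.1) with hHdef
  have hH : Bdd H := by
    constructor
    · exact hf.comp (by fun_prop)
    · obtain ⟨C, hC⟩ := hfb
      exact ⟨C, fun y ω => hC _⟩
  have hmem := T.ae_mem_table
  have tr : ∀ {P : ℂ × ℂ → Prop}, (∀ᵐ p ∂T.mu, P p) →
      ∀ᵐ p ∂((volume.restrict T.table).prod (nu.prod m)), P (p.1, p.2.1) := by
    intro P hP
    have h1 : ∀ᵐ z ∂(T.mu.prod m), P z.1 := by
      have : IsProbabilityMeasure T.mu := T.isProbabilityMeasure_mu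
      exact Measure.quasiMeasurePreserving_fst.ae hP
    exact T.ae_prod_mu_iff.mp h1
  have hF : T.FreeInv m (fun (_ : ℝ) (q : Unit) => q) H := by
    intro t ht
    have h1 : ∀ᵐ p ∂T.mu, p.1 + t • p.2 ∈ T.table → f (p.1 + t • p.2, p.2) = f p := by
      filter_upwards [hb, hmem, hinv t] with p hp hp' hi hin
      have h2 := hp.2.free T (γ := fun t => Φ t p) (by rw [hp.1]; exact hp') ht.le
        (by rw [hp.1]; exact hin)
      simp only [hp.1] at h2
      rw [← h2, hi]
    exact tr h1
  have hB : T.BounceInv m (fun (_ : ℝ) (q : Unit) => q) H := by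
    intro t ht i
    have h1 : ∀ᵐ p ∂T.mu, T.E i p → T.hitT i p < t → T.R i (p.1 + t • p.2) ∈ T.table →
        f (T.R i (p.1 + t • p.2), T.refl i p.2) = f p := by
      filter_upwards [hb, hmem, hinv t] with p hp hp' hi hE hlt hin
      have h2 := hp.2.bounce T (γ := fun t => Φ t p) (by rw [hp.1]; exact hp') (i := i) (t := t)
        (by rw [hp.1]; exact hE) (by rw [hp.1]; exact hlt) (by rw [hp.1]; exact hin)
      simp only [hp.1] at h2
      rw [← h2, hi]
    exact tr h1
  obtain ⟨g, _, _, _, hg⟩ := T.relative hΨ hT hH hF hB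
  refine ⟨g (), ?_⟩
  have h3 : ∀ᵐ z ∂(T.mu.prod m), f z.1 = g () := by
    rw [T.ae_prod_mu_iff]
    filter_upwards [hg] with p hp
    exact hp
  have : IsProbabilityMeasure T.mu := T.isProbabilityMeasure_mu
  have h4 := Measure.ae_ae_of_ae_prod h3
  filter_upwards [h4] with p hp
  simpa [hm] using hp

/-- a zero-one law -/
lemma zero_one_of_indicator {X : Type} [MeasurableSpace X] {μ : Measure X}
    [IsProbabilityMeasure μ] {A : Set X} (hA : MeasurableSet A) {c : ℝ}
    (h : ∀ᵐ p ∂μ, A.indicator (fun _ => (1 : ℝ)) p = c) : μ A = 0 ∨ μ A = 1 := by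
  by_cases hc : c = 1
  · right
    have h1 : ∀ᵐ p ∂μ, p ∈ A := by
      filter_upwards [h] with p hp
      by_contra hn
      rw [indicator_of_notMem hn, hc] at hp
      exact zero_ne_one hp
    exact (prob_compl_eq_zero_iff hA).mp (ae_iff.mp h1)
  · left
    have h1 : ∀ᵐ p ∂μ, p ∉ A := by
      filter_upwards [h] with p hp
      intro hn
      rw [indicator_of_mem hn] at hp
      exact hc hp.symm
    have := ae_iff.mp h1
    simpa only [not_not, ofPred_mem_eq] using this

lemma ae_iff_of_symmDiff {X : Type} [MeasurableSpace X] {μ : Measure X} {A B : Set X}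
    (h : μ (symmDiff B A) = 0) : ∀ᵐ p ∂μ, (p ∈ B ↔ p ∈ A) := by
  have h1 : ∀ᵐ p ∂μ, p ∉ symmDiff B A := by
    rw [ae_iff]
    simpa only [not_not, ofPred_mem_eq, measure_symmDiff_eq_zero_iff] using h
  filter_upwards [h1] with p hp
  rw [Set.mem_symmDiff] at hp
  (clear * - hp; tauto)

/-- Ergodicity. -/
theorem ergodic_flow (hT : T.IsIrrational) {Φ : ℝ → ℂ × ℂ → ℂ × ℂ}
    (hb : T.IsBilliardFlow Φ) : FlowErgodic T.mu Φ := by
  intro A hA hinv
  have : IsProbabilityMeasure T.mu := T.isProbabilityMeasure_mu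
  obtain ⟨c, hc⟩ := T.ergodic_fun hT hb (f := A.indicator (fun _ => (1 : ℝ)))
    (measurable_const.indicator hA) ⟨1, fun p => by
      by_cases hp : p ∈ A
      · simp [hp]
      · simp [hp]⟩ (by
      intro s
      filter_upwards [ae_iff_of_symmDiff (hinv s)] with p hp
      have hp' : Φ s p ∈ A ↔ p ∈ A := hp
      by_cases hA' : p ∈ A
      · rw [indicator_of_mem hA', indicator_of_mem (hp'.mpr hA')]
      · rw [indicator_of_notMem hA', indicator_of_notMem (fun h => hA' (hp'.mp h))])
  exact zero_one_of_indicator hA hc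

/-- Weak mixing. -/
theorem weakMixing_of_good (hT : T.IsIrrational) {Φ Ψ : ℝ → ℂ × ℂ → ℂ × ℂ}
    (hb : T.IsBilliardFlow Φ) (hΨ : PFlow T.mu Ψ) (hae : ∀ t, Φ t =ᵐ[T.mu] Ψ t) :
    FlowWeakMixing T.mu Φ := by
  intro A hA hinv
  have hprob : IsProbabilityMeasure T.mu := T.isProbabilityMeasure_mu
  set I : (ℂ × ℂ) × (ℂ × ℂ) → ℝ := A.indicator (fun _ => (1 : ℝ)) with hI
  have mI : Measurable I := measurable_const.indicator hA
  set H : ℂ → ℂ × (ℂ × ℂ) → ℝ := fun x ω => I ((x, ω.1), ω.2) with hHdef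
  have hH : Bdd H := by
    constructor
    · exact mI.comp (by fun_prop)
    · refine ⟨1, fun y ω => ?_⟩
      simp only [hHdef, hI]
      by_cases hp : ((y, ω.1), ω.2) ∈ A
      · simp [hp]
      · simp only [hp, not_false_eq_true, indicator_of_notMem, abs_zero, zero_le_one]
  -- invariance of the indicator
  have hinvI : ∀ t, ∀ᵐ z ∂(T.mu.prod T.mu), I (Φ t z.1, Ψ t z.2) = I z := by
    intro t
    have h1 := ae_iff_of_symmDiff (hinv t)
    have h2 : ∀ᵐ z ∂(T.mu.prod T.mu), Φ t z.2 = Ψ t z.2 :=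
      Measure.quasiMeasurePreserving_snd.ae (hae t)
    filter_upwards [h1, h2] with z hz hz2
    have hz' : (Φ t z.1, Φ t z.2) ∈ A ↔ z ∈ A := hz
    rw [hz2] at hz'
    simp only [hI]
    by_cases hA' : z ∈ A
    · rw [indicator_of_mem hA', indicator_of_mem (hz'.mpr hA')]
    · rw [indicator_of_notMem hA', indicator_of_notMem (fun h => hA' (hz'.mp h))]
  have hmem := T.ae_mem_table
  have hb' : ∀ᵐ z ∂(T.mu.prod T.mu), Φ 0 z.1 = z.1 ∧ T.IsTrajectory (fun t => Φ t z.1) :=
    Measure.quasiMeasurePreserving_fst.ae hb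
  have hmem' : ∀ᵐ z ∂(T.mu.prod T.mu), z.1.1 ∈ T.table :=
    Measure.quasiMeasurePreserving_fst.ae hmem
  have hF : T.FreeInv T.mu Ψ H := by
    intro t ht
    have h1 : ∀ᵐ z ∂(T.mu.prod T.mu), z.1.1 + t • z.1.2 ∈ T.table →
        I ((z.1.1 + t • z.1.2, z.1.2), Ψ t z.2) = I z := by
      filter_upwards [hb', hmem', hinvI t] with z hp hp' hi hin
      have h2 := hp.2.free T (γ := fun t => Φ t z.1) (by rw [hp.1]; exact hp') ht.le
        (by rw [hp.1]; exact hin)
      simp only [hp.1] at h2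
      rw [← h2, hi]
    exact T.ae_prod_mu_iff.mp h1
  have hB : T.BounceInv T.mu Ψ H := by
    intro t ht i
    have h1 : ∀ᵐ z ∂(T.mu.prod T.mu), T.E i z.1 → T.hitT i z.1 < t →
        T.R i (z.1.1 + t • z.1.2) ∈ T.table →
        I ((T.R i (z.1.1 + t • z.1.2), T.refl i z.1.2), Ψ t z.2) = I z := by
      filter_upwards [hb', hmem', hinvI t] with z hp hp' hi hE hlt hin
      have h2 := hp.2.bounce T (γ := fun t => Φ t z.1) (by rw [hp.1]; exact hp') (i := i) (t := t)
        (by rw [hp.1]; exact hE) (by rw [hp.1]; exact hlt) (by rw [hp.1]; exact hin)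
      simp only [hp.1] at h2
      rw [← h2, hi]
    exact T.ae_prod_mu_iff.mp h1
  obtain ⟨g, mg, bg, ig, hg⟩ := T.relative hΨ hT hH hF hB
  have ig' : ∀ s, ∀ᵐ p ∂T.mu, g (Φ s p) = g p := by
    intro s
    filter_upwards [ig s, hae s] with p hp hp'
    rw [hp', hp]
  obtain ⟨c, hc⟩ := T.ergodic_fun hT hb mg bg ig'
  have h3 : ∀ᵐ z ∂(T.mu.prod T.mu), I z = c := by
    have h4 : ∀ᵐ z ∂(T.mu.prod T.mu), I z = g z.2 := by
      rw [T.ae_prod_mu_iff]
      exact hg
    have h5 : ∀ᵐ z ∂(T.mu.prod T.mu), g z.2 = c := Measure.quasiMeasurePreserving_snd.ae hc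
    filter_upwards [h4, h5] with z h6 h7
    rw [h6, h7]
  exact zero_one_of_indicator hA h3

end ConvexPolygon

end Vale.Agent.P099C
end
end

section

section

open MeasureTheory Set Filter Topology

namespace Vale.Agent.P099C
open Vale.Agent.P099 (nu FlowErgodic FlowWeakMixing)

/-- a map which is injective on `S` and coincides piecewise with injective measure preserving
maps does not increase the measure -/
lemma measure_inter_preimage_le {X : Type*} [MeasurableSpace X] {μ : Measure X} {f : X → X}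
    (hf : Measurable f) {S K : Set X} (hS : MeasurableSet S) (hinj : InjOn f S)
    (hK : ∀ x ∈ S, f x ∈ K) {ι : Type*} [Countable ι] (N : ι → X → X)
    (hN : ∀ i, MeasurableEmbedding (N i)) (hNm : ∀ i, MeasurePreserving (N i) μ μ)
    (hcov : ∀ x ∈ S, ∃ i, f x = N i x) (hEq : ∀ i, MeasurableSet {x | f x = N i x})
    {B : Set X} (hB : MeasurableSet B) : μ (S ∩ f ⁻¹' B) ≤ μ (K ∩ B) := by
  classical
  rcases isEmpty_or_nonempty ι with hι | hι
  · have : S = ∅ := by
      ext x
      simp only [mem_empty_iff_false, iff_false]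
      intro hx
      obtain ⟨i, -⟩ := hcov x hx
      exact hι.elim i
    rw [this]
    simp
  obtain ⟨e, he⟩ := exists_surjective_nat ι
  set C : ℕ → Set X := fun n => S ∩ f ⁻¹' B ∩ {x | f x = N (e n) x} with hC
  have hCm : ∀ n, MeasurableSet (C n) := fun n => (hS.inter (hf hB)).inter (hEq _)
  have hCU : S ∩ f ⁻¹' B = ⋃ n, disjointed C n := by
    rw [iUnion_disjointed]
    ext x
    simp only [hC, mem_iUnion, mem_inter_iff, mem_ofPred_eq]
    constructor
    · intro hx
      obtain ⟨i, hi⟩ := hcov x hx.1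
      obtain ⟨n, rfl⟩ := he i
      exact ⟨n, hx, hi⟩
    · rintro ⟨n, hx, -⟩
      exact hx
  have hDm : ∀ n, MeasurableSet (disjointed C n) := fun n => MeasurableSet.disjointed hCm n
  have hsub : ∀ n, disjointed C n ⊆ C n := fun n => disjointed_subset C n
  have himg : ∀ n, f '' (disjointed C n) = N (e n) '' (disjointed C n) := by
    intro n
    apply image_congr
    intro x hx
    exact (hsub n hx).2
  have himgm : ∀ n, MeasurableSet (f '' (disjointed C n)) := by
    intro n
    rw [himg]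
    exact (hN (e n)).measurableSet_image.2 (hDm n)
  have hmeas : ∀ n, μ (disjointed C n) = μ (f '' (disjointed C n)) := by
    intro n
    have h1 := (hNm (e n)).measure_preimage (himgm n).nullMeasurableSet
    rw [← h1, himg, preimage_image_eq _ (hN (e n)).injective]
  rw [hCU, measure_iUnion (disjoint_disjointed C) hDm]
  calc ∑' n, μ (disjointed C n) = ∑' n, μ (f '' (disjointed C n)) := by
        congr 1; funext n; exact hmeas n
    _ = μ (⋃ n, f '' (disjointed C n)) := by
        rw [measure_iUnion _ himgm]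
        intro m n hmn
        refine disjoint_left.2 ?_
        rintro _ ⟨x, hx, rfl⟩ ⟨y, hy, hxy⟩
        have hxS : x ∈ S := (hsub m hx).1.1
        have hyS : y ∈ S := (hsub n hy).1.1
        have := hinj hyS hxS hxy
        subst this
        exact disjoint_left.1 (disjoint_disjointed C hmn) hx hy
    _ ≤ μ (K ∩ B) := by
        apply measure_mono
        intro y hy
        simp only [mem_iUnion] at hy
        obtain ⟨n, x, hx, rfl⟩ := hy
        exact ⟨hK x (hsub n hx).1.1, (hsub n hx).1.2⟩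

namespace ConvexPolygon

variable {ns : ℕ} [NeZero ns] {T : ConvexPolygon ns}

/-! ### uniqueness of trajectories -/

lemma ray_eq {x y u v : ℂ} {r : ℝ} (h : (x + r • u, u) = (y + r • v, v)) : x = y ∧ u = v := by
  rw [Prod.mk.injEq] at h
  obtain ⟨h1, h2⟩ := h
  subst h2
  exact ⟨add_right_cancel h1, rfl⟩

/-- comparison of two trajectories at a time -/
lemma IsTrajectory.cmp {γ δ : ℝ → ℂ × ℂ} (hγ : T.IsTrajectory γ) (hδ : T.IsTrajectory δ) (t : ℝ) :
    ((∀ᶠ s in 𝓝[>] t, γ s = δ s) ∧ (∀ᶠ s in 𝓝[<] t, γ s = δ s) ∧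
      ((γ t).1 ∈ T.table → γ t = δ t)) ∨
    ((∀ᶠ s in 𝓝[>] t, γ s ≠ δ s) ∧ (∀ᶠ s in 𝓝[<] t, γ s ≠ δ s)) := by
  rcases hγ t with ⟨hT, hE⟩ | ⟨i, u, hS, hL, hR⟩
  · rcases hδ t with ⟨hT', hE'⟩ | ⟨j, v, hS', hL', hR'⟩
    · by_cases hc : (γ t).1 = (δ t).1 ∧ (γ t).2 = (δ t).2
      · left
        have h : ∀ᶠ s in 𝓝 t, γ s = δ s := by
          filter_upwards [hE, hE'] with s h1 h2
          rw [h1, h2, hc.1, hc.2]
        exact ⟨h.filter_mono nhdsWithin_le_nhds, h.filter_mono nhdsWithin_le_nhds,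
          fun _ => Prod.ext hc.1 hc.2⟩
      · right
        have h : ∀ᶠ s in 𝓝 t, γ s ≠ δ s := by
          filter_upwards [hE, hE'] with s h1 h2 h3
          rw [h1, h2] at h3
          exact hc (ray_eq h3)
        exact ⟨h.filter_mono nhdsWithin_le_nhds, h.filter_mono nhdsWithin_le_nhds⟩
    · right
      have hne : (γ t).1 ≠ (δ t).1 := fun h =>
        T.not_mem_side_of_mem_table hT j (h ▸ hS')
      constructor
      · filter_upwards [hE.filter_mono nhdsWithin_le_nhds, hR'] with s h1 h2 h3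
        rw [h1, h2] at h3
        exact hne (ray_eq h3).1
      · filter_upwards [hE.filter_mono nhdsWithin_le_nhds, hL'] with s h1 h2 h3
        rw [h1, h2] at h3
        exact hne (ray_eq h3).1
  · rcases hδ t with ⟨hT', hE'⟩ | ⟨j, v, hS', hL', hR'⟩
    · right
      have hne : (γ t).1 ≠ (δ t).1 := fun h =>
        T.not_mem_side_of_mem_table hT' i (h ▸ hS)
      constructor
      · filter_upwards [hR, hE'.filter_mono nhdsWithin_le_nhds] with s h1 h2 h3
        rw [h1, h2] at h3
        exact hne (ray_eq h3).1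
      · filter_upwards [hL, hE'.filter_mono nhdsWithin_le_nhds] with s h1 h2 h3
        rw [h1, h2] at h3
        exact hne (ray_eq h3).1
    · by_cases hc : (γ t).1 = (δ t).1 ∧ u = v
      · left
        obtain ⟨hc1, rfl⟩ := hc
        have hij : i = j := T.side_unique hS (hc1 ▸ hS')
        subst hij
        refine ⟨?_, ?_, fun h => absurd hS (T.not_mem_side_of_mem_table h i)⟩
        · filter_upwards [hR, hR'] with s h1 h2
          rw [h1, h2, hc1]
        · filter_upwards [hL, hL'] with s h1 h2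
          rw [h1, h2, hc1]
      · right
        constructor
        · filter_upwards [hR, hR'] with s h1 h2 h3
          rw [h1, h2] at h3
          obtain ⟨h4, h5⟩ := ray_eq h3
          have hij : i = j := T.side_unique hS (h4 ▸ hS')
          subst hij
          apply hc ⟨h4, ?_⟩
          rw [← T.refl_refl i u, h5, T.refl_refl]
        · filter_upwards [hL, hL'] with s h1 h2 h3
          rw [h1, h2] at h3
          exact hc (ray_eq h3)

/-- the set of times at which two trajectories have the same germ is everything or empty -/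
lemma IsTrajectory.same {γ δ : ℝ → ℂ × ℂ} (hγ : T.IsTrajectory γ) (hδ : T.IsTrajectory δ) {a : ℝ}
    (ha : (γ a).1 ∈ T.table) (hae : γ a = δ a) {t : ℝ} (ht : (γ t).1 ∈ T.table) : γ t = δ t := by
  -- the good times
  set A : Set ℝ := {t | ∀ᶠ s in 𝓝[>] t, γ s = δ s} with hA
  have key1 : ∀ t ∈ A, (∀ᶠ s in 𝓝[<] t, γ s = δ s) ∧ ((γ t).1 ∈ T.table → γ t = δ t) := by
    intro t ht
    rcases IsTrajectory.cmp hγ hδ t with h | h
    · exact h.2
    · exfalso
      obtain ⟨s, h1, h2⟩ := (h.1.and ht).exists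
      exact h1 h2
  have key2 : ∀ t ∉ A, (∀ᶠ s in 𝓝[>] t, γ s ≠ δ s) ∧ (∀ᶠ s in 𝓝[<] t, γ s ≠ δ s) := by
    intro t ht
    rcases IsTrajectory.cmp hγ hδ t with h | h
    · exact absurd h.1 ht
    · exact h
  have hclopen : IsClopen A := by
    constructor
    · rw [← isOpen_compl_iff, isOpen_iff_mem_nhds]
      intro t ht
      obtain ⟨h1, h2⟩ := key2 t ht
      obtain ⟨b, hb, hb'⟩ := mem_nhdsGT_iff_exists_Ioo_subset.1 h1
      obtain ⟨c, hc, hc'⟩ := mem_nhdsLT_iff_exists_Ioo_subset.1 h2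
      rw [mem_Ioi] at hb
      rw [mem_Iio] at hc
      filter_upwards [Ioo_mem_nhds hc hb] with s hs
      rcases lt_trichotomy s t with h | h | h
      · intro hsA
        have h3 : ∀ᶠ r in 𝓝[>] s, r ∈ Ioo c t := nhdsWithin_le_nhds (Ioo_mem_nhds hs.1 h)
        obtain ⟨r, h4, h5⟩ := (Eventually.and (show ∀ᶠ r in 𝓝[>] s, γ r = δ r from hsA) h3).exists
        exact hc' h5 h4
      · rw [h]; exact ht
      · intro hsA
        have h3 : ∀ᶠ r in 𝓝[>] s, r ∈ Ioo t b := nhdsWithin_le_nhds (Ioo_mem_nhds h hs.2)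
        obtain ⟨r, h4, h5⟩ := (Eventually.and (show ∀ᶠ r in 𝓝[>] s, γ r = δ r from hsA) h3).exists
        exact hb' h5 h4
    · rw [isOpen_iff_mem_nhds]
      intro t ht
      obtain ⟨h2, -⟩ := key1 t ht
      obtain ⟨b, hb, hb'⟩ := mem_nhdsGT_iff_exists_Ioo_subset.1 ht
      obtain ⟨c, hc, hc'⟩ := mem_nhdsLT_iff_exists_Ioo_subset.1 h2
      rw [mem_Ioi] at hb
      rw [mem_Iio] at hc
      filter_upwards [Ioo_mem_nhds hc hb] with s hs
      rcases lt_trichotomy s t with h | h | h
      · have h3 : ∀ᶠ r in 𝓝[>] s, r ∈ Ioo c t := nhdsWithin_le_nhds (Ioo_mem_nhds hs.1 h)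
        filter_upwards [h3] with r hr
        exact hc' hr
      · rw [h]; exact ht
      · have h3 : ∀ᶠ r in 𝓝[>] s, r ∈ Ioo t b := nhdsWithin_le_nhds (Ioo_mem_nhds h hs.2)
        filter_upwards [h3] with r hr
        exact hb' hr
  have haA : a ∈ A := by
    by_contra hne
    rcases IsTrajectory.cmp hγ hδ a with h | h
    · exact hne h.1
    · rcases hγ a with ⟨_, hE⟩ | ⟨i, u, hS, _⟩
      · rcases hδ a with ⟨_, hE'⟩ | ⟨i, u, hS, _⟩
        · have h3 : ∀ᶠ s in 𝓝[>] a, γ s = δ s := by
            filter_upwards [hE.filter_mono nhdsWithin_le_nhds,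
              hE'.filter_mono nhdsWithin_le_nhds] with s h1 h2
            rw [h1, h2, hae]
          exact hne h3
        · rw [← hae] at hS
          exact T.not_mem_side_of_mem_table ha i hS
      · exact T.not_mem_side_of_mem_table ha i hS
  have hAu : A = univ := by
    rcases isClopen_iff.1 hclopen with h | h
    · rw [h] at haA; exact absurd haA (notMem_empty _)
    · exact h
  have htA : t ∈ A := by rw [hAu]; trivial
  exact (key1 t htA).2 ht

/-! ### the flow in terms of the unfoldings -/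

lemma GX_append (w : List (Fin ns)) (i : Fin ns) (x : ℂ) :
    T.GX (w ++ [i]) x = T.R i (T.GX w x) := by
  induction w generalizing x with
  | nil => rfl
  | cons j w ih => exact ih _

lemma GU_append (w : List (Fin ns)) (i : Fin ns) (u : ℂ) :
    T.GU (w ++ [i]) u = T.refl i (T.GU w u) := by
  induction w generalizing u with
  | nil => rfl
  | cons j w ih => exact ih _

lemma GU_neg (w : List (Fin ns)) (u : ℂ) : T.GU w (-u) = - T.GU w u := by
  induction w generalizing u with
  | nil => rfl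
  | cons j w ih =>
    change T.GU w (T.refl j (-u)) = - T.GU w (T.refl j u)
    rw [T.refl_neg, ih]

lemma GX_injective (w : List (Fin ns)) : Function.Injective (T.GX w) := by
  induction w with
  | nil => exact Function.injective_id
  | cons j w ih => exact ih.comp (Function.LeftInverse.injective (T.R_R j))

lemma GU_injective (w : List (Fin ns)) : Function.Injective (T.GU w) := by
  induction w with
  | nil => exact Function.injective_id
  | cons j w ih => exact ih.comp (Function.LeftInverse.injective (T.refl_refl j))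

lemma measurePreserving_GU (w : List (Fin ns)) : MeasurePreserving (T.GU w) nu nu := by
  induction w with
  | nil => exact MeasurePreserving.id _
  | cons i w ih => exact ih.comp (T.measurePreserving_refl i)

/-- the unfolded motion -/
noncomputable def NW {ns : ℕ} [NeZero ns] (T : ConvexPolygon ns) (t : ℝ) (w : List (Fin ns)) (p : ℂ × ℂ) : ℂ × ℂ :=
  (T.GX w (p.1 + t • p.2), T.GU w p.2)

lemma continuous_NW (t : ℝ) (w : List (Fin ns)) : Continuous (T.NW t w) := by
  have h1 := T.continuous_GX w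
  have h2 := T.continuous_GU w
  unfold NW
  fun_prop

lemma NW_injective (t : ℝ) (w : List (Fin ns)) : Function.Injective (T.NW t w) := by
  intro p q h
  rw [NW, NW, Prod.mk.injEq] at h
  have h1 := GU_injective w h.2
  have h2 := GX_injective w h.1
  rw [h1] at h2
  exact Prod.ext (add_right_cancel h2) h1

lemma measurePreserving_shift (t : ℝ) : MeasurePreserving (fun p : ℂ × ℂ => (p.1 + t • p.2, p.2))
    ((volume : Measure ℂ).prod nu) ((volume : Measure ℂ).prod nu) := by
  have h1 : MeasurePreserving (fun p : ℂ × ℂ => (p.1, p.2 + t • p.1))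
      (nu.prod (volume : Measure ℂ)) (nu.prod (volume : Measure ℂ)) := by
    refine (MeasurePreserving.id nu).skew_product (g := fun u x => x + t • u) (by fun_prop) ?_
    refine ae_of_all _ fun u => ?_
    exact (measurePreserving_add_right volume (t • u)).map_eq
  have h2 := (Measure.measurePreserving_swap (μ := nu) (ν := (volume : Measure ℂ))).comp
    (h1.comp (Measure.measurePreserving_swap (μ := (volume : Measure ℂ)) (ν := nu)))
  exact h2

lemma measurePreserving_NW (t : ℝ) (w : List (Fin ns)) : MeasurePreserving (T.NW t w)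
    ((volume : Measure ℂ).prod nu) ((volume : Measure ℂ).prod nu) :=
  ((T.measurePreserving_GX w).prod (measurePreserving_GU w)).comp (measurePreserving_shift t)

lemma exists_word {s : ℂ × ℂ} (h : T.Good s) (n : ℕ) : ∃ w, (T.sq s n).2 = T.GU w s.2 ∧
    (T.sq s n).1 = T.GX w (s.1 + T.tt s n • s.2) := by
  induction n with
  | zero => exact ⟨[], rfl, by rw [tt_zero, zero_smul, add_zero]; rfl⟩
  | succ n ih =>
    obtain ⟨w, h1, h2⟩ := ih
    refine ⟨w ++ [T.ex (T.sq s n)], ?_, ?_⟩
    · rw [sq_succ_snd, GU_append, h1]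
    · have h3 : T.lam (T.ex (T.sq s n)) (T.sq s (n + 1)).1 = 0 := T.lam_hit _ (h.sq n).E
      rw [← T.R_of_lam_eq_zero h3, sq_succ_fst, GX_append, tt_succ, h1, h2, add_smul,
        ← add_assoc, GX_add T w (s.1 + T.tt s n • s.2)]

lemma exists_word_fw {s : ℂ × ℂ} (h : T.Good s) {t : ℝ} (ht : 0 ≤ t) :
    ∃ w, T.fw s t = T.NW t w s := by
  obtain ⟨n, h1, h2⟩ := h.exists_Ico ht
  obtain ⟨w, h3, h4⟩ := exists_word h n
  refine ⟨w, ?_⟩
  rw [h.fw_eq h1 h2, NW, h3, h4, ← GX_add, add_assoc, ← add_smul]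
  congr 4
  ring

lemma exists_word_traj {p : ℂ × ℂ} (h1 : T.Good p) (h2 : T.Good (flip p)) (t : ℝ) :
    ∃ w, T.traj t p = T.NW t w p := by
  rcases le_or_gt 0 t with ht | ht
  · rw [traj, if_pos ht]
    exact exists_word_fw h1 ht
  · rw [traj, if_neg (not_le.2 ht)]
    obtain ⟨w, hw⟩ := exists_word_fw h2 (neg_nonneg.2 ht.le)
    refine ⟨w, ?_⟩
    rw [hw]
    simp only [NW, flip, GU_neg, neg_neg, smul_neg, neg_smul]

end ConvexPolygon

end Vale.Agent.P099C
end
end

section

section

open MeasureTheory Set Filter Topology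

namespace Vale.Agent.P099C
open Vale.Agent.P099 (nu FlowErgodic FlowWeakMixing)

namespace ConvexPolygon

variable {ns : ℕ} [NeZero ns] {T : ConvexPolygon ns}

/-! ### measurable version of the flow -/

lemma measurable_lam (i : Fin ns) : Measurable (T.lam i) := (continuous_lamE i).measurable

lemma measurable_ell (i : Fin ns) : Measurable (T.ell i) := by
  have : Continuous (T.ell i) := by
    unfold ell cr
    fun_prop
  exact this.measurable

lemma measurable_hitT (i : Fin ns) : Measurable (T.hitT i) := by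
  have h1 : Measurable (fun s : ℂ × ℂ => T.lam i s.1) := (measurable_lam i).comp measurable_fst
  have h2 : Measurable (fun s : ℂ × ℂ => T.ell i s.2) := (measurable_ell i).comp measurable_snd
  exact h1.neg.div h2

lemma measurable_hit (i : Fin ns) : Measurable (T.hit i) := by
  have h1 := measurable_hitT (T := T) i
  have h2 : Measurable (fun s : ℂ × ℂ => T.refl i s.2) :=
    (T.continuous_refl i).measurable.comp measurable_snd
  exact (measurable_fst.add (h1.smul measurable_snd)).prodMk h2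

lemma measurableSet_E (i : Fin ns) : MeasurableSet {s : ℂ × ℂ | T.E i s} := by
  have h1 := measurable_hitT (T := T) i
  have h2 : Measurable (fun s : ℂ × ℂ => T.ell i s.2) := (measurable_ell i).comp measurable_snd
  have h3 : Measurable (fun s : ℂ × ℂ => s.1 + T.hitT i s • s.2) :=
    measurable_fst.add (h1.smul measurable_snd)
  have h4 : MeasurableSet {s : ℂ × ℂ | T.ell i s.2 < 0} := measurableSet_lt h2 measurable_const
  have h5 : MeasurableSet {s : ℂ × ℂ | ∀ j, j ≠ i → 0 < T.lam j (s.1 + T.hitT i s • s.2)} := by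
    have : {s : ℂ × ℂ | ∀ j, j ≠ i → 0 < T.lam j (s.1 + T.hitT i s • s.2)} =
        ⋂ j, ⋂ (_ : j ≠ i), {s : ℂ × ℂ | 0 < T.lam j (s.1 + T.hitT i s • s.2)} := by
      ext s
      simp only [ne_eq, Complex.real_smul, mem_ofPred_eq, mem_iInter]
    rw [this]
    refine MeasurableSet.iInter fun j => MeasurableSet.iInter fun _ => ?_
    exact measurableSet_lt measurable_const ((measurable_lam j).comp h3)
  exact h4.inter h5

open Classical in
/-- measurable version of the collision map -/
noncomputable def hm {ns : ℕ} [NeZero ns] (T : ConvexPolygon ns) (s : ℂ × ℂ) : ℂ × ℂ :=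
  ∑ i, if T.E i s then T.hit i s else 0

open Classical in
/-- measurable version of the flight time -/
noncomputable def hT {ns : ℕ} [NeZero ns] (T : ConvexPolygon ns) (s : ℂ × ℂ) : ℝ :=
  ∑ i, if T.E i s then T.hitT i s else 0

lemma measurable_hm : Measurable T.hm := by
  classical
  unfold ConvexPolygon.hm
  refine Finset.measurable_fun_sum _ fun i _ => ?_
  exact Measurable.ite (measurableSet_E i) (measurable_hit i) measurable_const

lemma measurable_hT : Measurable T.hT := by
  classical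
  unfold ConvexPolygon.hT
  refine Finset.measurable_fun_sum _ fun i _ => ?_
  exact Measurable.ite (measurableSet_E i) (measurable_hitT i) measurable_const

lemma Good.hm_eq {s : ℂ × ℂ} (h : T.Good s) : T.hm s = T.hit (T.ex s) s := by
  classical
  have h1 := h.E
  unfold ConvexPolygon.hm
  rw [Finset.sum_eq_single (T.ex s)]
  · rw [if_pos h1]
  · intro j _ hj
    rw [if_neg]
    intro h2
    exact hj (ConvexPolygon.E.unique T h.adm h2 h1)
  · intro h2
    exact absurd (Finset.mem_univ _) h2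

lemma Good.hT_eq {s : ℂ × ℂ} (h : T.Good s) : T.hT s = T.hitT (T.ex s) s := by
  classical
  have h1 := h.E
  unfold ConvexPolygon.hT
  rw [Finset.sum_eq_single (T.ex s)]
  · rw [if_pos h1]
  · intro j _ hj
    rw [if_neg]
    intro h2
    exact hj (ConvexPolygon.E.unique T h.adm h2 h1)
  · intro h2
    exact absurd (Finset.mem_univ _) h2

lemma Good.sq_eq_iterate {s : ℂ × ℂ} (h : T.Good s) (n : ℕ) : T.hm^[n] s = T.sq s n := by
  induction n with
  | zero => rfl
  | succ n ih => rw [Function.iterate_succ_apply', ih, (h.sq n).hm_eq]; rfl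

/-- measurable version of the collision times -/
noncomputable def tm' {ns : ℕ} [NeZero ns] (T : ConvexPolygon ns) (n : ℕ) (s : ℂ × ℂ) : ℝ :=
  ∑ m ∈ Finset.range n, T.hT (T.hm^[m] s)

lemma measurable_tm' (n : ℕ) : Measurable (T.tm' n) := by
  refine Finset.measurable_fun_sum _ fun m _ => ?_
  exact measurable_hT.comp (measurable_hm.iterate m)

lemma Good.tm'_eq {s : ℂ × ℂ} (h : T.Good s) (n : ℕ) : T.tm' n s = T.tt s n := by
  refine Finset.sum_congr rfl fun m _ => ?_
  rw [h.sq_eq_iterate, (h.sq m).hT_eq]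
  rfl

lemma exists_measurable_fw {ns : ℕ} [NeZero ns] (T : ConvexPolygon ns) : ∃ F : ℝ × (ℂ × ℂ) → ℂ × ℂ, Measurable F ∧
    ∀ s t, T.Good s → 0 ≤ t → F (t, s) = T.fw s t := by
  classical
  let p : ℕ → ℝ × (ℂ × ℂ) → Prop := fun n z =>
    z.1 < T.tm' (n + 1) z.2 ∨ ∀ m, T.tm' (m + 1) z.2 ≤ z.1
  let f : ℕ → ℝ × (ℂ × ℂ) → ℂ × ℂ := fun n z =>
    ((T.hm^[n] z.2).1 + (z.1 - T.tm' n z.2) • (T.hm^[n] z.2).2, (T.hm^[n] z.2).2)
  have hp : ∀ n, MeasurableSet {z | p n z} := by
    intro n
    have h1 : MeasurableSet {z : ℝ × (ℂ × ℂ) | z.1 < T.tm' (n + 1) z.2} :=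
      measurableSet_lt measurable_fst ((measurable_tm' _).comp measurable_snd)
    have h2 : MeasurableSet {z : ℝ × (ℂ × ℂ) | ∀ m, T.tm' (m + 1) z.2 ≤ z.1} := by
      have : {z : ℝ × (ℂ × ℂ) | ∀ m, T.tm' (m + 1) z.2 ≤ z.1} =
          ⋂ m, {z : ℝ × (ℂ × ℂ) | T.tm' (m + 1) z.2 ≤ z.1} := by
        ext z; simp only [mem_ofPred_eq, mem_iInter]
      rw [this]
      exact MeasurableSet.iInter fun m =>
        measurableSet_le ((measurable_tm' _).comp measurable_snd) measurable_fst
    exact h1.union h2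
  have hf : ∀ n, Measurable (f n) := by
    intro n
    have h1 : Measurable (fun z : ℝ × (ℂ × ℂ) => T.hm^[n] z.2) :=
      (measurable_hm.iterate n).comp measurable_snd
    have h2 : Measurable (fun z : ℝ × (ℂ × ℂ) => T.tm' n z.2) :=
      (measurable_tm' n).comp measurable_snd
    exact (h1.fst.add ((measurable_fst.sub h2).smul h1.snd)).prodMk h1.snd
  have hex : ∀ z, ∃ n, p n z := by
    intro z
    by_cases h : ∃ m, z.1 < T.tm' (m + 1) z.2
    · obtain ⟨m, hm⟩ := h
      exact ⟨m, Or.inl hm⟩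
    · refine ⟨0, Or.inr ?_⟩
      intro m
      by_contra hm
      exact h ⟨m, not_le.1 hm⟩
  refine ⟨_, Measurable.find hf hp hex, ?_⟩
  intro s t hs ht
  obtain ⟨n, h1, h2⟩ := hs.exists_Ico ht
  have hfind : Nat.find (hex (t, s)) = n := by
    rw [Nat.find_eq_iff]
    constructor
    · left
      change t < T.tm' (n + 1) s
      rw [hs.tm'_eq]
      exact h2
    · intro m hm hpm
      rcases hpm with h3 | h3
      · change t < T.tm' (m + 1) s at h3
        rw [hs.tm'_eq] at h3
        have h4 : T.tt s (m + 1) ≤ T.tt s n := hs.tt_strictMono.monotone (by omega)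
        linarith only [h1, h3, h4]
      · have h4 : T.tm' (n + 1) s ≤ t := h3 n
        rw [hs.tm'_eq] at h4
        linarith only [h2, h4]
  change f (Nat.find (hex (t, s))) (t, s) = _
  rw [hfind, hs.fw_eq h1 h2]
  change ((T.hm^[n] s).1 + (t - T.tm' n s) • (T.hm^[n] s).2, (T.hm^[n] s).2) = _
  rw [hs.sq_eq_iterate, hs.tm'_eq]

lemma measurable_flip : Measurable (flip : ℂ × ℂ → ℂ × ℂ) :=
  measurable_fst.prodMk measurable_snd.neg

/-- There is a measurable flow which agrees with `traj` on a measurable conull set of good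
states. -/
lemma exists_measurable_flow {ns : ℕ} [NeZero ns] (T : ConvexPolygon ns) : ∃ (G : Set (ℂ × ℂ)) (Ψ : ℝ → ℂ × ℂ → ℂ × ℂ),
    MeasurableSet G ∧ (∀ᵐ p ∂((volume.restrict T.table).prod nu), p ∈ G) ∧
    (∀ p ∈ G, p.1 ∈ T.table ∧ T.Good p ∧ T.Good (flip p)) ∧
    Measurable (fun z : ℝ × (ℂ × ℂ) => Ψ z.1 z.2) ∧ (∀ p ∈ G, ∀ t, Ψ t p = T.traj t p) := by
  classical
  obtain ⟨G, hG, hGm, hGp⟩ := (T.ae_good).exists_measurable_mem
  obtain ⟨F, hF, hFe⟩ := exists_measurable_fw T
  refine ⟨G, fun t p => if p ∈ G then (if 0 ≤ t then F (t, p) else flip (F (-t, flip p))) else p,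
    hGm, hG, hGp, ?_, ?_⟩
  · refine Measurable.ite (hGm.preimage measurable_snd) ?_ measurable_snd
    refine Measurable.ite (measurableSet_le measurable_const measurable_fst) ?_ ?_
    · exact hF
    · exact measurable_flip.comp (hF.comp (measurable_fst.neg.prodMk
        (measurable_flip.comp measurable_snd)))
  · intro p hp t
    obtain ⟨h1, h2, h3⟩ := hGp p hp
    simp only [if_pos hp, traj]
    split_ifs with ht
    · exact hFe p t h2 ht
    · rw [hFe (flip p) (-t) h3 (by linarith only [ht])]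

lemma volume_lam_eq_zeroF (i : Fin ns) : volume {y : ℂ | T.lam i y = 0} = 0 := by
  have h1 := volume_line (T.P i) (T.d i) (T.d_ne i)
  convert h1 using 2
  ext y
  simp only [mem_ofPred_eq, lam, div_eq_zero_iff, T.Del_ne, or_false]
  simp only [cr, Complex.sub_re, Complex.sub_im]
  constructor <;> intro h <;> linarith

lemma ae_lam_neF (t : ℝ) (w : List (Fin ns)) (i : Fin ns) :
    ∀ᵐ p ∂((volume : Measure ℂ).prod nu), T.lam i (T.NW t w p).1 ≠ 0 := by
  have h1 : ∀ᵐ p ∂((volume : Measure ℂ).prod nu), T.lam i p.1 ≠ 0 := by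
    have h2 : ∀ᵐ y ∂(volume : Measure ℂ), T.lam i y ≠ 0 := by
      rw [ae_iff]
      simp only [not_not]
      exact volume_lam_eq_zeroF i
    exact Measure.quasiMeasurePreserving_fst.ae h2
  exact (measurePreserving_NW t w).quasiMeasurePreserving.ae h1

/-- A measurable measure preserving version of the billiard flow. -/
theorem exists_good_flow' {ns : ℕ} [NeZero ns] (T : ConvexPolygon ns) : ∃ Ψ : ℝ → ℂ × ℂ → ℂ × ℂ, PFlow T.mu Ψ ∧
    T.IsBilliardFlow Ψ ∧
    (∀ Φ : ℝ → ℂ × ℂ → ℂ × ℂ, T.IsBilliardFlow Φ → ∀ t, Φ t =ᵐ[T.mu] Ψ t) ∧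
    ∀ t, ∀ᵐ p ∂T.mu, ∃ w, Ψ t p = T.NW t w p := by
  obtain ⟨G, Ψ, hGm, hG, hGp, hΨm, hΨ⟩ := exists_measurable_flow T
  set L : Measure (ℂ × ℂ) := (volume : Measure ℂ).prod nu with hL
  set M : Measure (ℂ × ℂ) := (volume.restrict T.table).prod nu with hM
  have hML : M = L.restrict (T.table ×ˢ univ) := by
    rw [hM, hL, ← Measure.prod_restrict, Measure.restrict_univ]
  have hmu : T.mu = (volume T.table)⁻¹ • M := by
    rw [mu, ProbabilityTheory.cond, Measure.prod_smul_left]
  have hKm : MeasurableSet (T.table ×ˢ (univ : Set ℂ)) :=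
    T.isOpen_table.measurableSet.prod MeasurableSet.univ
  have hMfin : IsFiniteMeasure M := by
    have : IsFiniteMeasure (volume.restrict T.table) :=
      ⟨by rw [Measure.restrict_apply_univ]; exact T.volume_table_lt_top⟩
    rw [hM]
    infer_instance
  have hΨtm : ∀ t, Measurable (Ψ t) := fun t =>
    hΨm.comp (measurable_const.prodMk measurable_id)
  -- the trajectories
  have htraj : ∀ p ∈ G, T.IsTrajectory (fun t => Ψ t p) := by
    intro p hp
    obtain ⟨h1, h2, h3⟩ := hGp p hp
    have h4 : (fun t => Ψ t p) = fun t => T.traj t p := by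
      funext t; exact hΨ p hp t
    rw [h4]
    exact isTrajectory_traj h1 h2 h3
  have hzero : ∀ p ∈ G, Ψ 0 p = p := by
    intro p hp
    obtain ⟨h1, h2, h3⟩ := hGp p hp
    rw [hΨ p hp, traj, if_pos le_rfl, h2.fw_small le_rfl (h2.tau_pos 0)]
    simp
  have hword : ∀ p ∈ G, ∀ t, ∃ w, Ψ t p = T.NW t w p := by
    intro p hp t
    obtain ⟨h1, h2, h3⟩ := hGp p hp
    rw [hΨ p hp]
    exact exists_word_traj h2 h3 t
  -- at a given time almost all points are in the table
  have htab : ∀ t, ∀ᵐ p ∂M, (Ψ t p).1 ∈ T.table := by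
    intro t
    have h1 : ∀ᵐ p ∂M, ∀ w : List (Fin ns), ∀ i : Fin ns, T.lam i (T.NW t w p).1 ≠ 0 := by
      rw [ae_all_iff]
      intro w
      rw [ae_all_iff]
      intro i
      rw [hML]
      exact ae_restrict_of_ae (ae_lam_neF t w i)
    filter_upwards [hG, h1] with p hp h2
    rcases htraj p hp t with ⟨h3, _⟩ | ⟨i, u, h3, _⟩
    · exact h3
    · exfalso
      obtain ⟨w, hw⟩ := hword p hp t
      apply h2 w i
      rw [← hw]
      exact ((T.mem_side_iff i _).1 h3).1
  -- measure preservation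
  have hmp : ∀ t, MeasurePreserving (Ψ t) M M := by
    intro t
    refine ⟨hΨtm t, ?_⟩
    have hle : M.map (Ψ t) ≤ M := by
      refine Measure.le_iff.2 fun B hB => ?_
      rw [Measure.map_apply (hΨtm t) hB]
      set S : Set (ℂ × ℂ) := G ∩ (Ψ t) ⁻¹' (T.table ×ˢ univ) with hS
      have hSm : MeasurableSet S := hGm.inter ((hΨtm t) hKm)
      have h1 : M (Ψ t ⁻¹' B) = M (S ∩ Ψ t ⁻¹' B) := by
        apply measure_congr
        filter_upwards [hG, htab t] with p h2 h3
        have h4 : p ∈ S := ⟨h2, h3, trivial⟩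
        apply propext
        exact ⟨fun h => ⟨h4, h⟩, fun h => h.2⟩
      have h2 : M (S ∩ Ψ t ⁻¹' B) ≤ L (S ∩ Ψ t ⁻¹' B) := by
        rw [hML]
        exact Measure.restrict_apply_le _ _
      have h3 : M B = L ((T.table ×ˢ univ) ∩ B) := by
        rw [hML, Measure.restrict_apply hB, inter_comm]
      rw [h1, h3]
      refine h2.trans ?_
      refine measure_inter_preimage_le (hΨtm t) hSm ?_ (fun x hx => hx.2) (T.NW t)
        (fun w => (continuous_NW t w).measurableEmbedding (NW_injective t w))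
        (fun w => measurePreserving_NW t w) (fun x hx => hword x hx.1 t) ?_ hB
      · intro p hp q hq hpq
        have h4 := (htraj p hp.1).shift T t
        have h5 := (htraj q hq.1).shift T t
        have h6 : (Ψ (0 + t) p).1 ∈ T.table := by rw [zero_add]; exact hp.2.1
        have h7 : Ψ (0 + t) p = Ψ (0 + t) q := by rw [zero_add]; exact hpq
        have h8 : (Ψ (-t + t) p).1 ∈ T.table := by
          rw [neg_add_cancel, hzero p hp.1]; exact (hGp p hp.1).1
        have h9 : Ψ (-t + t) p = Ψ (-t + t) q :=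
          IsTrajectory.same h4 h5 (a := 0) h6 h7 (t := -t) h8
        rw [neg_add_cancel, hzero p hp.1, hzero q hq.1] at h9
        exact h9
      · intro w
        exact measurableSet_eq_fun (hΨtm t) (continuous_NW t w).measurable
    have huniv : M.map (Ψ t) univ = M univ := by
      rw [Measure.map_apply (hΨtm t) MeasurableSet.univ, preimage_univ]
    have : IsFiniteMeasure (M.map (Ψ t)) := Measure.isFiniteMeasure_map M (Ψ t)
    exact Measure.eq_of_le_of_measure_univ_eq hle huniv
  have haemu : ∀ {P : ℂ × ℂ → Prop}, (∀ᵐ p ∂M, P p) → ∀ᵐ p ∂T.mu, P p := by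
    intro P hP
    rw [hmu]
    exact Measure.ae_smul_measure hP _
  refine ⟨Ψ, ⟨hΨm, ?_, ?_, ?_⟩, ?_, ?_, ?_⟩
  · intro t
    rw [hmu]
    exact (hmp t).smul_measure _
  · intro s t
    apply haemu
    have h1 : ∀ᵐ p ∂M, Ψ t p ∈ G := (hmp t).quasiMeasurePreserving.ae hG
    have h2 : ∀ᵐ p ∂M, (Ψ s (Ψ t p)).1 ∈ T.table :=
      (hmp t).quasiMeasurePreserving.ae (htab s)
    filter_upwards [hG, h1, h2] with p hp hq h3
    have h4 := (htraj p hp).shift T t
    have h5 := htraj _ hq
    have h6 : (Ψ 0 (Ψ t p)).1 ∈ T.table := by rw [hzero _ hq]; exact (hGp _ hq).1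
    have h7 : Ψ 0 (Ψ t p) = Ψ (0 + t) p := by rw [hzero _ hq, zero_add]
    exact (IsTrajectory.same h5 h4 (a := 0) h6 h7 (t := s) h3).symm
  · apply haemu
    filter_upwards [hG] with p hp
    exact hzero p hp
  · apply haemu
    filter_upwards [hG] with p hp
    exact ⟨hzero p hp, htraj p hp⟩
  · intro Φ hΦ t
    filter_upwards [hΦ, haemu hG, haemu (htab t)] with p h1 hp h3
    have h6 : (Ψ 0 p).1 ∈ T.table := by rw [hzero _ hp]; exact (hGp _ hp).1
    have h7 : Ψ 0 p = Φ 0 p := by rw [hzero _ hp, h1.1]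
    exact (IsTrajectory.same (htraj p hp) h1.2 (a := 0) h6 h7 (t := t) h3).symm
  · intro t
    filter_upwards [haemu hG] with p hp
    exact hword p hp t

/-- A measurable measure preserving version of the billiard flow. -/
theorem exists_good_flow {ns : ℕ} [NeZero ns] (T : ConvexPolygon ns) : ∃ Ψ : ℝ → ℂ × ℂ → ℂ × ℂ, PFlow T.mu Ψ ∧
    T.IsBilliardFlow Ψ ∧
    ∀ Φ : ℝ → ℂ × ℂ → ℂ × ℂ, T.IsBilliardFlow Φ → ∀ t, Φ t =ᵐ[T.mu] Ψ t := by
  obtain ⟨Ψ, h1, h2, h3, _⟩ := T.exists_good_flow'
  exact ⟨Ψ, h1, h2, h3⟩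

end ConvexPolygon

end Vale.Agent.P099C
end
end

section

section

open MeasureTheory Set Filter Topology

namespace Vale.Agent.P099C
open Vale.Agent.P099 (nu FlowErgodic FlowWeakMixing)

namespace ConvexPolygon

variable {ns : ℕ} [NeZero ns] (T : ConvexPolygon ns)

/-- null sets of `mu` -/
lemma ae_mu : ae T.mu = ae ((volume.restrict T.table).prod nu) := by
  have hne : (volume T.table)⁻¹ ≠ 0 := ENNReal.inv_ne_zero.2 T.volume_table_lt_top.ne
  have h : T.mu = (volume T.table)⁻¹ • ((volume.restrict T.table).prod nu) := by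
    rw [mu, ProbabilityTheory.cond, Measure.prod_smul_left]
  rw [h, Measure.ae_ennreal_smul_measure_eq hne]

instance : IsProbabilityMeasure T.mu := by
  have : IsProbabilityMeasure (ProbabilityTheory.cond (volume : Measure ℂ) T.table) :=
    ProbabilityTheory.cond_isProbabilityMeasure_of_finite T.volume_table_pos.ne'
      T.volume_table_lt_top.ne
  rw [mu]
  infer_instance

/-- forget a probability parameter -/
lemma ae_forget {Ω : Type} [MeasurableSpace Ω] (m : Measure Ω) [IsProbabilityMeasure m]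
    {P : ℂ × ℂ → Prop} (h : ∀ᵐ p ∂((volume.restrict T.table).prod nu), P p) :
    ∀ᵐ p ∂((volume.restrict T.table).prod (nu.prod m)), P (p.1, p.2.1) := by
  have h1 : Measure.QuasiMeasurePreserving (Prod.map id Prod.fst : ℂ × (ℂ × Ω) → ℂ × ℂ)
      ((volume.restrict T.table).prod (nu.prod m)) ((volume.restrict T.table).prod nu) :=
    ((MeasurePreserving.id (volume.restrict T.table)).prod
      (measurePreserving_fst (μ := nu) (ν := m))).quasiMeasurePreserving
  exact h1.ae h

/-- a set invariant under the flow is invariant under free flights and single collisions -/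
lemma inv_free {Φ : ℝ → ℂ × ℂ → ℂ × ℂ} (hΦ : T.IsBilliardFlow Φ) {A : Set (ℂ × ℂ)}
    {t : ℝ} (ht : 0 < t) (hA : T.mu (symmDiff (Φ t ⁻¹' A) A) = 0) :
    ∀ᵐ p ∂((volume.restrict T.table).prod nu), p.1 + t • p.2 ∈ T.table →
      ((p.1 + t • p.2, p.2) ∈ A ↔ p ∈ A) := by
  have h1 : ∀ᵐ p ∂T.mu, p ∉ symmDiff (Φ t ⁻¹' A) A := measure_eq_zero_iff_ae_notMem.1 hA
  have h2 : ∀ᵐ p ∂T.mu, Φ 0 p = p ∧ T.IsTrajectory (fun t => Φ t p) := hΦ
  rw [T.ae_mu] at h1 h2
  have h3 : ∀ᵐ p ∂((volume.restrict T.table).prod nu), p.1 ∈ T.table := by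
    have := Measure.quasiMeasurePreserving_fst (μ := volume.restrict T.table) (ν := nu)
    exact this.ae (ae_restrict_mem T.isOpen_table.measurableSet)
  filter_upwards [h1, h2, h3] with p hp1 hp2 hp3 hp4
  have h0 : Φ 0 p = p := hp2.1
  have h5 := IsTrajectory.free T hp2.2 (by rw [h0]; exact hp3) ht.le (by rw [h0]; exact hp4)
  rw [h0] at h5
  have h6 : Φ t p = (p.1 + t • p.2, p.2) := h5
  rw [mem_symmDiff, not_or] at hp1
  rw [← h6]
  constructor
  · intro h7
    by_contra h8
    exact hp1.1 ⟨h7, h8⟩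
  · intro h7
    by_contra h8
    exact hp1.2 ⟨h7, h8⟩

lemma inv_bounce {Φ : ℝ → ℂ × ℂ → ℂ × ℂ} (hΦ : T.IsBilliardFlow Φ) {A : Set (ℂ × ℂ)}
    {t : ℝ} (hA : T.mu (symmDiff (Φ t ⁻¹' A) A) = 0) (i : Fin ns) :
    ∀ᵐ p ∂((volume.restrict T.table).prod nu), T.E i p → T.hitT i p < t →
      T.R i (p.1 + t • p.2) ∈ T.table →
      ((T.R i (p.1 + t • p.2), T.refl i p.2) ∈ A ↔ p ∈ A) := by
  have h1 : ∀ᵐ p ∂T.mu, p ∉ symmDiff (Φ t ⁻¹' A) A := measure_eq_zero_iff_ae_notMem.1 hA
  have h2 : ∀ᵐ p ∂T.mu, Φ 0 p = p ∧ T.IsTrajectory (fun t => Φ t p) := hΦ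
  rw [T.ae_mu] at h1 h2
  have h3 : ∀ᵐ p ∂((volume.restrict T.table).prod nu), p.1 ∈ T.table := by
    have := Measure.quasiMeasurePreserving_fst (μ := volume.restrict T.table) (ν := nu)
    exact this.ae (ae_restrict_mem T.isOpen_table.measurableSet)
  filter_upwards [h1, h2, h3] with p hp1 hp2 hp3 hpE hpt hpR
  have h0 : Φ 0 p = p := hp2.1
  have h5 := IsTrajectory.bounce T hp2.2 (t := t) (i := i) (by rw [h0]; exact hp3)
    (by rw [h0]; exact hpE) (by rw [h0]; exact hpt) (by rw [h0]; exact hpR)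
  rw [h0] at h5
  have h6 : Φ t p = (T.R i (p.1 + t • p.2), T.refl i p.2) := h5
  rw [mem_symmDiff, not_or] at hp1
  rw [← h6]
  constructor
  · intro h7
    by_contra h8
    exact hp1.1 ⟨h7, h8⟩
  · intro h7
    by_contra h8
    exact hp1.2 ⟨h7, h8⟩

/-- the trivial flow on the one point space -/
lemma pflow_unit : PFlow (Measure.dirac ()) (fun (_ : ℝ) (q : Unit) => q) where
  meas := measurable_snd
  mp := fun _ => MeasurePreserving.id _
  add := fun _ _ => ae_of_all _ fun _ => rfl
  zero := ae_of_all _ fun _ => rfl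

/-- Ergodicity. -/
theorem ergodic (hT : T.IsIrrational) (Φ : ℝ → ℂ × ℂ → ℂ × ℂ) (hΦ : T.IsBilliardFlow Φ) :
    FlowErgodic T.mu Φ := by
  intro A hAm hA
  set H : ℂ → ℂ × Unit → ℝ := fun x ω => A.indicator 1 (x, ω.1) with hH
  have hHb : Bdd H := by
    refine ⟨?_, 1, ?_⟩
    · have : Measurable (A.indicator (1 : ℂ × ℂ → ℝ)) := measurable_one.indicator hAm
      exact this.comp (measurable_fst.prodMk (measurable_fst.comp measurable_snd))
    · intro y ω
      by_cases h : (y, ω.1) ∈ A
      · simp only [hH, h, indicator_of_mem, Pi.one_apply, abs_one, Std.le_refl]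
      · simp only [hH, h, not_false_eq_true, indicator_of_notMem, abs_zero, zero_le_one]
  have hind : ∀ p q : ℂ × ℂ, (p ∈ A ↔ q ∈ A) →
      A.indicator (1 : ℂ × ℂ → ℝ) p = A.indicator (1 : ℂ × ℂ → ℝ) q := by
    intro p q h
    by_cases hp : p ∈ A
    · rw [indicator_of_mem hp, indicator_of_mem (h.1 hp)]
      rfl
    · rw [indicator_of_notMem hp, indicator_of_notMem (fun hq => hp (h.2 hq))]
  have hF : T.FreeInv (Measure.dirac ()) (fun (_ : ℝ) (q : Unit) => q) H := by
    intro t ht
    have h1 := T.ae_forget (Measure.dirac ()) (T.inv_free hΦ ht (hA t))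
    filter_upwards [h1] with p hp h2
    exact hind _ _ (hp h2)
  have hB : T.BounceInv (Measure.dirac ()) (fun (_ : ℝ) (q : Unit) => q) H := by
    intro t ht i
    have h1 := T.ae_forget (Measure.dirac ()) (T.inv_bounce hΦ (hA t) i)
    filter_upwards [h1] with p hp h2 h3 h4
    exact hind _ _ (hp h2 h3 h4)
  obtain ⟨f, _, _, _, hf⟩ := T.relative pflow_unit hT hHb hF hB
  have h1 : ∀ᵐ p ∂T.mu, A.indicator (1 : ℂ × ℂ → ℝ) p = f () := by
    rw [T.ae_mu]
    have h2 : MeasurePreserving (fun p : ℂ × ℂ => (p.1, (p.2, ())))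
        ((volume.restrict T.table).prod nu)
        ((volume.restrict T.table).prod (nu.prod (Measure.dirac ()))) := by
      have h3 : MeasurePreserving (fun u : ℂ => (u, ())) nu (nu.prod (Measure.dirac ())) := by
        refine ⟨by fun_prop, ?_⟩
        rw [Measure.prod_dirac]
      exact (MeasurePreserving.id (volume.restrict T.table)).prod h3
    exact h2.quasiMeasurePreserving.ae hf
  by_cases hc : f () = 0
  · left
    rw [measure_eq_zero_iff_ae_notMem]
    filter_upwards [h1] with p hp hpA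
    rw [indicator_of_mem hpA, hc] at hp
    exact one_ne_zero hp
  · right
    have h4 : T.mu Aᶜ = 0 := by
      rw [measure_eq_zero_iff_ae_notMem]
      filter_upwards [h1] with p hp hpA
      rw [indicator_of_notMem hpA] at hp
      exact hc hp.symm
    rwa [prob_compl_eq_zero_iff hAm] at h4

end ConvexPolygon

end Vale.Agent.P099C
end
end

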