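import Vale.Agent.P099.MathlibUsed
import Vale.Agent.P099.H504.CPN
attribute [-instance] ProperSMul.toContinuousSMul IsTopologicalTorsor.toContinuousSMul IdemSemiring.toCanonicallyOrderedAdd IdemSemiring.toMulLeftMono IdemSemiring.toMulRightMono AddQuantale.instAddLeftMono AddQuantale.instAddRightMono Quantale.instMulLeftMono Quantale.instMulRightMono FiniteDimensional.rclike_to_real IsScalarTower.complexToReal FiniteDimensional.complexToReal

set_option linter.all false

section

section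

open MeasureTheory Set Filter Topology

namespace Vale.Agent.P099C
open Vale.Agent.P099 (nu FlowErgodic FlowWeakMixing)

namespace ConvexPolygon

variable {ns : ℕ} [NeZero ns] (T : ConvexPolygon ns)

/-- the number of the reflection in the side `i`: `refl i u = cdir i * conj u` -/
noncomputable def cdir (i : Fin ns) : ℂ := T.d i / (starRingEnd ℂ) (T.d i)

lemma norm_cdir (i : Fin ns) : ‖T.cdir i‖ = 1 := by
  have h1 : ‖T.d i‖ ≠ 0 := norm_ne_zero_iff.2 (T.d_ne _)
  rw [cdir, norm_div, RCLike.norm_conj, div_self h1]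

lemma cdir_ne (i : Fin ns) : T.cdir i ≠ 0 := by
  rw [← norm_ne_zero_iff, T.norm_cdir]
  exact one_ne_zero

lemma cdir_succ (i : Fin ns) : T.cdir (i + 1) = T.rot i * T.cdir i := by
  have hc : (starRingEnd ℂ) (T.d i) ≠ 0 := by simpa using T.d_ne i
  have hd := T.d_ne i
  unfold cdir rot
  field_simp

/-- all angles rational: a common order -/
lemma exists_common (hT : ¬ T.IsIrrational) : ∃ n : ℕ, 0 < n ∧ ∀ i, T.cdir i ^ n = T.cdir 0 ^ n := by
  classical
  unfold IsIrrational at hT
  push Not at hT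
  choose n hn0 hn using fun i => T.rot_pow_eq_one (hT i)
  refine ⟨∏ i, n i, Finset.prod_pos fun i _ => hn0 i, ?_⟩
  have hrot : ∀ i, T.rot i ^ (∏ i, n i) = 1 := by
    intro i
    obtain ⟨k, hk⟩ := Finset.dvd_prod_of_mem n (Finset.mem_univ i)
    rw [hk, pow_mul, hn, one_pow]
  have hstep : ∀ i, T.cdir (i + 1) ^ (∏ i, n i) = T.cdir i ^ (∏ i, n i) := by
    intro i
    rw [T.cdir_succ, mul_pow, hrot, one_mul]
  have hnat : ∀ (k : ℕ) (h : k < ns), T.cdir ⟨k, h⟩ ^ (∏ i, n i) = T.cdir 0 ^ (∏ i, n i) := by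
    intro k
    induction k with
    | zero =>
      intro h
      have h0 : (⟨0, h⟩ : Fin ns) = 0 := by
        apply Fin.ext
        simp
      rw [h0]
    | succ k ih =>
      intro h
      have h1 : (⟨k + 1, h⟩ : Fin ns) = ⟨k, by omega⟩ + 1 := by
        apply Fin.ext
        rw [Fin.val_add, Fin.val_one']
        simp only [Nat.add_mod_mod]
        rw [Nat.mod_eq_of_lt h]
      rw [h1, hstep, ih]
  intro i
  exact hnat i.val i.isLt

/-- In a polygon with rational angles no billiard flow is ergodic. -/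
theorem not_ergodic (hT : ¬ T.IsIrrational) {Φ : ℝ → ℂ × ℂ → ℂ × ℂ}
    (hb : T.IsBilliardFlow Φ) : ¬ FlowErgodic T.mu Φ := by
  intro herg
  have hprob : IsProbabilityMeasure T.mu := T.isProbabilityMeasure_mu
  obtain ⟨n, hn, hcom⟩ := T.exists_common hT
  set c : ℂ := T.cdir 0 with hc
  have hcn : ‖c‖ = 1 := T.norm_cdir 0
  set g : ℂ → ℂ := fun u => u ^ (2 * n) / c ^ n with hg
  have hgm : Measurable g := by
    rw [hg]
    fun_prop
  have hginv : ∀ i u, (g (T.refl i u)).re = (g u).re := by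
    intro i u
    have h1 : g (T.refl i u) = (starRingEnd ℂ) (g u) := by
      have h2 : T.refl i u = T.cdir i * (starRingEnd ℂ) u := T.refl_eq i u
      have h3 : (starRingEnd ℂ) c * c = 1 := by
        rw [mul_comm, Complex.mul_conj, Complex.normSq_eq_norm_sq, hcn]; simp
      have h4 : c ≠ 0 := T.cdir_ne 0
      have h5 : (starRingEnd ℂ) c = c⁻¹ := eq_inv_of_mul_eq_one_left h3
      simp only [hg]
      rw [h2, map_div₀, map_pow, map_pow, h5, mul_pow, mul_comm 2 n, pow_mul, hcom i, ← pow_mul]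
      rw [inv_pow, div_inv_eq_mul]
      field_simp
      ring
    rw [h1, Complex.conj_re]
  have hgw : ∀ (w : List (Fin ns)) u, (g (T.GU w u)).re = (g u).re := by
    intro w
    induction w with
    | nil => intro u; rfl
    | cons j w ih =>
      intro u
      change (g (T.GU w (T.refl j u))).re = (g u).re
      rw [ih, hginv]
  set A : Set (ℂ × ℂ) := {p | 0 < (g p.2).re} with hA
  have hAm : MeasurableSet A := measurableSet_lt measurable_const
    (Complex.measurable_re.comp (hgm.comp measurable_snd))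
  obtain ⟨Ψ, hΨ, hbΨ, hu, hw⟩ := T.exists_good_flow'
  have hinv : ∀ t, T.mu (symmDiff (Φ t ⁻¹' A) A) = 0 := by
    intro t
    rw [measure_eq_zero_iff_ae_notMem]
    filter_upwards [hu Φ hb t, hw t] with p h1 h2
    obtain ⟨w, hw⟩ := h2
    have h3 : p ∈ Φ t ⁻¹' A ↔ p ∈ A := by
      rw [mem_preimage, h1, hw]
      simp only [hA, mem_setOf_eq, NW]
      rw [hgw]
    rw [mem_symmDiff]
    tauto
  have hmu : T.mu A = nu {u | 0 < (g u).re} := by
    have h1 : A = (univ : Set ℂ) ×ˢ {u | 0 < (g u).re} := by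
      ext p
      simp [hA]
    have h2 : IsProbabilityMeasure (ProbabilityTheory.cond volume T.table) :=
      ProbabilityTheory.cond_isProbabilityMeasure_of_finite T.volume_table_pos.ne'
        T.volume_table_lt_top.ne
    rw [h1, mu, Measure.prod_prod, measure_univ, one_mul]
  -- rotations
  have hrot : ∀ ζ : ℂ, ‖ζ‖ = 1 → ∀ {P : ℂ → Prop}, (∀ᵐ u ∂nu, P (g u)) →
      ∀ᵐ u ∂nu, P (ζ ^ (2 * n) * g u) := by
    intro ζ hζ P hP
    have h1 := (measurePreserving_mul hζ).quasiMeasurePreserving.ae hP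
    filter_upwards [h1] with u hu
    have h2 : g (ζ * u) = ζ ^ (2 * n) * g u := by
      simp only [hg]
      rw [mul_pow, mul_div_assoc]
    rwa [h2] at hu
  have hroot : ∀ z : ℂ, ‖z‖ = 1 → ∃ ζ : ℂ, ‖ζ‖ = 1 ∧ ζ ^ (2 * n) = z := by
    intro z hz
    have h2n : (2 * n) ≠ 0 := by omega
    refine ⟨z ^ ((((2 * n : ℕ) : ℂ))⁻¹), ?_, Complex.cpow_nat_inv_pow z h2n⟩
    have h3 : ‖z ^ ((((2 * n : ℕ) : ℂ))⁻¹)‖ ^ (2 * n) = 1 := by
      rw [← norm_pow, Complex.cpow_nat_inv_pow z h2n, hz]
    exact (pow_eq_one_iff_of_nonneg (norm_nonneg _) h2n).1 h3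
  obtain ⟨ζ1, hζ1, hζ1'⟩ := hroot (-1) (by simp)
  obtain ⟨ζ2, hζ2, hζ2'⟩ := hroot Complex.I (by simp)
  have hnorm : ∀ᵐ u ∂nu, ‖g u‖ = 1 := by
    filter_upwards [ae_norm] with u hu
    simp only [hg]
    rw [norm_div, norm_pow, norm_pow, hu, hcn, one_pow, one_pow, div_one]
  rcases herg A hAm hinv with h0 | h1
  · rw [hmu, measure_eq_zero_iff_ae_notMem] at h0
    have h0' : ∀ᵐ u ∂nu, (g u).re ≤ 0 := by
      filter_upwards [h0] with u hu
      exact not_lt.1 hu
    have h2 := hrot ζ1 hζ1 (P := fun z => z.re ≤ 0) h0'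
    rw [hζ1'] at h2
    have h3 : ∀ᵐ u ∂nu, (g u).re = 0 := by
      filter_upwards [h0', h2] with u hu1 hu2
      simp only [neg_mul, one_mul, Complex.neg_re] at hu2
      linarith
    have h4 := hrot ζ2 hζ2 (P := fun z => z.re = 0) h3
    rw [hζ2'] at h4
    obtain ⟨u, hu1, hu2, hu3⟩ := (h3.and (h4.and hnorm)).exists
    have hu4 : g u = 0 := by
      apply Complex.ext
      · exact hu1
      · have := hu2
        simp only [Complex.mul_re, Complex.I_re, zero_mul, Complex.I_im, one_mul] at this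
        simpa using this
    rw [hu4, norm_zero] at hu3
    exact zero_ne_one hu3
  · have h1' : nu {u | 0 < (g u).re}ᶜ = 0 := by
      rw [hmu] at h1
      exact (prob_compl_eq_zero_iff (measurableSet_lt measurable_const
        (Complex.measurable_re.comp hgm))).2 h1
    rw [measure_eq_zero_iff_ae_notMem] at h1'
    have h0' : ∀ᵐ u ∂nu, 0 < (g u).re := by
      filter_upwards [h1'] with u hu
      by_contra hcon
      exact hu hcon
    have h2 := hrot ζ1 hζ1 (P := fun z => 0 < z.re) h0'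
    rw [hζ1'] at h2
    obtain ⟨u, hu1, hu2⟩ := (h0'.and h2).exists
    simp only [neg_mul, one_mul, Complex.neg_re] at hu2
    linarith

/-- weak mixing implies ergodicity -/
lemma _root_.Vale.Agent.P099C.ergodic_of_weakMixing {X : Type} [MeasurableSpace X] {m : Measure X}
    [IsProbabilityMeasure m] {Φ : ℝ → X → X} (h : FlowWeakMixing m Φ) : FlowErgodic m Φ := by
  intro A hA hinv
  have h1 := h (A ×ˢ univ) (hA.prod MeasurableSet.univ) (by
    intro t
    have h2 : ∀ᵐ p ∂m, p ∉ symmDiff (Φ t ⁻¹' A) A := measure_eq_zero_iff_ae_notMem.1 (hinv t)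
    have h3 : ∀ᵐ z ∂(m.prod m), z.1 ∉ symmDiff (Φ t ⁻¹' A) A :=
      Measure.quasiMeasurePreserving_fst.ae h2
    rw [measure_eq_zero_iff_ae_notMem]
    filter_upwards [h3] with z hz
    simpa [mem_symmDiff] using hz)
  rw [Measure.prod_prod, measure_univ, mul_one] at h1
  exact h1

end ConvexPolygon

end Vale.Agent.P099C
end
end

section

section

open MeasureTheory Set Filter Topology

namespace Vale.Agent.P099C
open Vale.Agent.P099 (nu FlowErgodic FlowWeakMixing)

namespace ConvexPolygon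

variable {ns : ℕ} [NeZero ns] (T : ConvexPolygon ns)

/-- Relative ergodicity: the sets invariant under the product of the billiard flow with a measure
preserving flow come from the second factor. -/
theorem relative_sets (hT : T.IsIrrational) {Φ : ℝ → ℂ × ℂ → ℂ × ℂ} (hb : T.IsBilliardFlow Φ)
    {Ω : Type} [MeasurableSpace Ω] {m : Measure Ω} [IsProbabilityMeasure m] {Ψ : ℝ → Ω → Ω}
    (hΨ : PFlow m Ψ) {A : Set ((ℂ × ℂ) × Ω)} (hA : MeasurableSet A)
    (hinv : ∀ t, (T.mu.prod m) (symmDiff ((fun z => (Φ t z.1, Ψ t z.2)) ⁻¹' A) A) = 0) :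
    ∃ B : Set Ω, MeasurableSet B ∧ (∀ t, m (symmDiff (Ψ t ⁻¹' B) B) = 0) ∧
      (T.mu.prod m) (symmDiff A (univ ×ˢ B)) = 0 := by
  have hprob : IsProbabilityMeasure T.mu := T.isProbabilityMeasure_mu
  set I : (ℂ × ℂ) × Ω → ℝ := A.indicator (fun _ => (1 : ℝ)) with hI
  have mI : Measurable I := measurable_const.indicator hA
  set H : ℂ → ℂ × Ω → ℝ := fun x ω => I ((x, ω.1), ω.2) with hHdef
  have hH : Bdd H := by
    constructor
    · exact mI.comp (by fun_prop)
    · refine ⟨1, fun y ω => ?_⟩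
      simp only [hHdef, hI]
      by_cases hp : ((y, ω.1), ω.2) ∈ A
      · simp [hp]
      · simp only [hp, not_false_eq_true, indicator_of_notMem, abs_zero, zero_le_one]
  -- invariance of the indicator
  have hinvI : ∀ t, ∀ᵐ z ∂(T.mu.prod m), I (Φ t z.1, Ψ t z.2) = I z := by
    intro t
    filter_upwards [ae_iff_of_symmDiff (hinv t)] with z hz
    have hz' : (Φ t z.1, Ψ t z.2) ∈ A ↔ z ∈ A := hz
    simp only [hI]
    by_cases hA' : z ∈ A
    · rw [indicator_of_mem hA', indicator_of_mem (hz'.mpr hA')]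
    · rw [indicator_of_notMem hA', indicator_of_notMem (fun h => hA' (hz'.mp h))]
  have hmem := T.ae_mem_table
  have hb' : ∀ᵐ z ∂(T.mu.prod m), Φ 0 z.1 = z.1 ∧ T.IsTrajectory (fun t => Φ t z.1) :=
    Measure.quasiMeasurePreserving_fst.ae hb
  have hmem' : ∀ᵐ z ∂(T.mu.prod m), z.1.1 ∈ T.table :=
    Measure.quasiMeasurePreserving_fst.ae hmem
  have hF : T.FreeInv m Ψ H := by
    intro t ht
    have h1 : ∀ᵐ z ∂(T.mu.prod m), z.1.1 + t • z.1.2 ∈ T.table →
        I ((z.1.1 + t • z.1.2, z.1.2), Ψ t z.2) = I z := by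
      filter_upwards [hb', hmem', hinvI t] with z hp hp' hi hin
      have h2 := hp.2.free T (γ := fun t => Φ t z.1) (by rw [hp.1]; exact hp') ht.le
        (by rw [hp.1]; exact hin)
      simp only [hp.1] at h2
      rw [← h2, hi]
    exact T.ae_prod_mu_iff.mp h1
  have hB : T.BounceInv m Ψ H := by
    intro t ht i
    have h1 : ∀ᵐ z ∂(T.mu.prod m), T.E i z.1 → T.hitT i z.1 < t →
        T.R i (z.1.1 + t • z.1.2) ∈ T.table →
        I ((T.R i (z.1.1 + t • z.1.2), T.refl i z.1.2), Ψ t z.2) = I z := by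
      filter_upwards [hb', hmem', hinvI t] with z hp hp' hi hE hlt hin
      have h2 := hp.2.bounce T (γ := fun t => Φ t z.1) (by rw [hp.1]; exact hp') (i := i) (t := t)
        (by rw [hp.1]; exact hE) (by rw [hp.1]; exact hlt) (by rw [hp.1]; exact hin)
      simp only [hp.1] at h2
      rw [← h2, hi]
    exact T.ae_prod_mu_iff.mp h1
  obtain ⟨g, mg, bg, ig, hg⟩ := T.relative hΨ hT hH hF hB
  have h4 : ∀ᵐ z ∂(T.mu.prod m), I z = g z.2 := by
    rw [T.ae_prod_mu_iff]
    exact hg
  refine ⟨g ⁻¹' {1}, mg (measurableSet_singleton 1), fun t => ?_, ?_⟩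
  · rw [measure_eq_zero_iff_ae_notMem]
    filter_upwards [ig t] with q hq
    rw [mem_symmDiff, mem_preimage, mem_preimage, mem_preimage, hq]
    tauto
  · rw [measure_eq_zero_iff_ae_notMem]
    filter_upwards [h4] with z hz
    have h5 : z ∈ A ↔ z ∈ (univ : Set (ℂ × ℂ)) ×ˢ (g ⁻¹' {1}) := by
      rw [mem_prod, mem_preimage, mem_singleton_iff, ← hz]
      by_cases hA' : z ∈ A
      · simp only [hI, indicator_of_mem hA']
        simp [hA']
      · simp only [hI, indicator_of_notMem hA']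
        simp [hA']
    rw [mem_symmDiff]
    tauto

end ConvexPolygon

end Vale.Agent.P099C
end
end

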