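import Vale.Agent.P099.H504.CPO

set_option linter.all false

open MeasureTheory Set Filter Topology

namespace Vale.Agent.P099C

open Vale.Agent.P099 (nu FlowErgodic FlowWeakMixing)

/-- Existence and uniqueness of the billiard flow, and the classification of the convex polygons. -/
theorem convex_main (N : ℕ) [NeZero N] (T : ConvexPolygon N) :
    (∃ Ψ : ℝ → ℂ × ℂ → ℂ × ℂ, T.IsBilliardFlow Ψ ∧ (∀ t, MeasurePreserving (Ψ t) T.mu T.mu) ∧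
      ∀ Φ : ℝ → ℂ × ℂ → ℂ × ℂ, T.IsBilliardFlow Φ → ∀ t, ∀ᵐ p ∂T.mu, Φ t p = Ψ t p) ∧
    ∀ Φ : ℝ → ℂ × ℂ → ℂ × ℂ, T.IsBilliardFlow Φ →
      (FlowErgodic T.mu Φ ↔ T.IsIrrational) ∧ (FlowWeakMixing T.mu Φ ↔ T.IsIrrational) := by
  obtain ⟨Ψ, hΨ, hb, hu⟩ := ConvexPolygon.exists_good_flow T
  have hprob : IsProbabilityMeasure T.mu := T.isProbabilityMeasure_mu
  refine ⟨⟨Ψ, hb, hΨ.mp, hu⟩, fun Φ hΦ => ⟨⟨fun h => ?_, fun h => T.ergodic_flow h hΦ⟩,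
    ⟨fun h => ?_, fun h => T.weakMixing_of_good h hΦ hΨ (hu Φ hΦ)⟩⟩⟩
  · by_contra hT
    exact T.not_ergodic hT hΦ h
  · by_contra hT
    exact T.not_ergodic hT hΦ (ergodic_of_weakMixing h)

/-- The sets invariant under the product of the billiard flow of an irrational convex polygon with
any measure preserving flow. -/
theorem convex_relative (N : ℕ) [NeZero N] (T : ConvexPolygon N) (hT : T.IsIrrational)
    (Φ : ℝ → ℂ × ℂ → ℂ × ℂ) (hΦ : T.IsBilliardFlow Φ)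
    (Ω : Type) [MeasurableSpace Ω] (m : Measure Ω) [IsProbabilityMeasure m] (Ψ : ℝ → Ω → Ω)
    (h1 : Measurable fun z : ℝ × Ω => Ψ z.1 z.2) (h2 : ∀ t, MeasurePreserving (Ψ t) m m)
    (h3 : ∀ s t, ∀ᵐ q ∂m, Ψ (s + t) q = Ψ s (Ψ t q)) (h4 : ∀ᵐ q ∂m, Ψ 0 q = q)
    (A : Set ((ℂ × ℂ) × Ω)) (hA : MeasurableSet A)
    (hinv : ∀ t, (T.mu.prod m) (symmDiff ((fun z => (Φ t z.1, Ψ t z.2)) ⁻¹' A) A) = 0) :
    ∃ B : Set Ω, MeasurableSet B ∧ (∀ t, m (symmDiff (Ψ t ⁻¹' B) B) = 0) ∧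
      (T.mu.prod m) (symmDiff A (univ ×ˢ B)) = 0 :=
  T.relative_sets hT hΦ ⟨h1, h2, h3, h4⟩ hA hinv

end Vale.Agent.P099C
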